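import Crest.Agent.R185.Hot3

/-!
# R185 / HOTEL (4): the core data and the passage to the hotel
-/

set_option autoImplicit false

namespace Crest.Agent.R185.Hot

open Crest.Agent.R185.Wu

/-- the point `y` of the block copy -/
abbrev ptb (G : Type) {Y : Type} (y : Y) : ZZ G Y := Sum.inl (Sum.inr (0, y))

/-- the spare points -/
abbrev pts (G Y : Type) (n : ℕ) : ZZ G Y := Sum.inr (Sum.inl n)

/-- the points of the regular `G`-orbit -/
abbrev ptg {G : Type} (Y : Type) (g : G) : ZZ G Y := Sum.inr (Sum.inr g)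

open Classical in
/-- **The core** (helper660 6852): a finitely presented group `E`, a group `H` acting faithfully on
a set `Y`, `pr : E →* H`, and a compatible embedding `(κ, θ₁)` of `(K, X)` into `(E, Y)`, where
`K` is a group of permutations of `Z(Y)` containing the block copy of `H`, the rook letters, the
shift, the left multiplications of `G` and the transpositions (spare point, block point), and `X`
is any subset of `Z(Y)` containing the spare points, the block points and `G`. -/
structure Core (G : Type) [Group G] where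
  Y : Type
  H : Type
  [gH : Group H]
  [aH : MulAction H Y]
  faithful : ∀ h h' : H, (∀ y : Y, h • y = h' • y) → h = h'
  E : Type
  [gE : Group E]
  fpE : Group.IsFinitelyPresented E
  pr : E →* H
  K : Subgroup (Equiv.Perm (ZZ G Y))
  mem_b : ∀ h : H, zb G h ∈ K
  mem_v : ∀ (i : Fin 3) (j : Fin 4) (h : H), zv G i j h ∈ K
  mem_s : zs G Y ∈ K
  mem_g : ∀ g : G, zg Y g ∈ K
  mem_swap : ∀ (n : ℕ) (y : Y), Equiv.swap (pts G Y n) (ptb G y) ∈ K
  κ : K →* E
  X₀ : Set (ZZ G Y)
  mem_sp : ∀ n : ℕ, pts G Y n ∈ X₀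
  mem_yb : ∀ y : Y, ptb G y ∈ X₀
  mem_gp : ∀ g : G, ptg Y g ∈ X₀
  θ₁ : ZZ G Y → Y
  θ₁_inj : Set.InjOn θ₁ X₀
  θ₁_smul : ∀ (k : K), ∀ z ∈ X₀, θ₁ (k.1 z) = pr (κ k) • θ₁ z

attribute [instance] Core.gH Core.aH Core.gE

/-- the finitary permutation exchanging two tuples -/
theorem exists_exch {Z : Type} (K : Subgroup (Equiv.Perm Z)) :
    ∀ (n : ℕ) (a b : Fin n → Z), Function.Injective a → Function.Injective b →
      (∀ i j, a i ≠ b j) →
      (∀ i, (∃ e : Equiv.Perm Z, e ∈ K ∧ e (a i) = b i ∧ e (b i) = a i ∧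
        ∀ x, x ≠ a i → x ≠ b i → e x = x)) →
      ∃ e : Equiv.Perm Z, e ∈ K ∧ (∀ i, e (a i) = b i) ∧ (∀ i, e (b i) = a i) ∧
        ∀ x, (∀ i, x ≠ a i) → (∀ i, x ≠ b i) → e x = x := by
  intro n
  induction n with
  | zero =>
    intro a b _ _ _ _
    exact ⟨1, K.one_mem, fun i => i.elim0, fun i => i.elim0, fun x _ _ => rfl⟩
  | succ n ih =>
    intro a b ha hb hab hK
    obtain ⟨e, he, h1, h2, h3⟩ := ih (fun i => a i.castSucc) (fun i => b i.castSucc)
      (fun i j h => Fin.castSucc_injective n (ha h)) (fun i j h => Fin.castSucc_injective n (hb h))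
      (fun i j => hab _ _) (fun i => hK _)
    obtain ⟨f, hf, g1, g2, g3⟩ := hK (Fin.last n)
    have hal : ∀ i : Fin n, a (Fin.last n) ≠ a i.castSucc := by
      intro i h
      exact (Fin.castSucc_lt_last i).ne (ha h).symm
    have hbl : ∀ i : Fin n, b (Fin.last n) ≠ b i.castSucc := by
      intro i h
      exact (Fin.castSucc_lt_last i).ne (hb h).symm
    refine ⟨e * f, K.mul_mem he hf, ?_, ?_, ?_⟩
    · intro i
      rw [Equiv.Perm.mul_apply]
      refine Fin.lastCases ?_ (fun i => ?_) i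
      · rw [g1]
        exact h3 _ (fun i => (hab _ _).symm) hbl
      · rw [g3 _ (hal i).symm (hab _ _)]
        exact h1 i
    · intro i
      rw [Equiv.Perm.mul_apply]
      refine Fin.lastCases ?_ (fun i => ?_) i
      · rw [g2]
        exact h3 _ hal (fun i => hab _ _)
      · rw [g3 _ (hab _ _).symm (hbl i).symm]
        exact h2 i
    · intro x hx1 hx2
      rw [Equiv.Perm.mul_apply, g3 x (hx1 _) (hx2 _)]
      exact h3 x (fun i => hx1 _) (fun i => hx2 _)

namespace Core

variable {G : Type} [Group G] (C : Core G)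

/-- block copy into `K` -/
def kb : C.H →* C.K := (zb G).codRestrict C.K C.mem_b

/-- the core endomorphism, first half -/
def i₁ : C.H →* C.E := C.κ.comp C.kb

/-- the core endomorphism -/
def φ : C.H →* C.H := C.pr.comp C.i₁

/-- the point `y` of the block copy -/
abbrev yb (y : C.Y) : ZZ G C.Y := ptb G y

/-- the spare points -/
abbrev sp (n : ℕ) : ZZ G C.Y := pts G C.Y n

/-- the injection `Y → Y` -/
def θ (y : C.Y) : C.Y := C.θ₁ (C.yb y)

theorem yb_inj {y y' : C.Y} (h : C.yb y = C.yb y') : y = y' := by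
  have := Sum.inr.inj (Sum.inl.inj h)
  exact (Prod.mk.inj this).2

theorem sp_inj {n m : ℕ} (h : C.sp n = C.sp m) : n = m := Sum.inl.inj (Sum.inr.inj h)

theorem φ_apply (h : C.H) : C.φ h = C.pr (C.κ (C.kb h)) := rfl

/-- the hotel of a core -/
noncomputable def hotel : Hotel C.H C.Y where
  φ := C.φ
  θ := C.θ
  θ_inj := fun y y' h => C.yb_inj (C.θ₁_inj (C.mem_yb y) (C.mem_yb y') h)
  θ_smul h y := by
    have := C.θ₁_smul (C.kb h) (C.yb y) (C.mem_yb y)
    rw [C.φ_apply]
    exact this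
  e n := C.θ₁ (C.sp n)
  e_inj := fun n m h => C.sp_inj (C.θ₁_inj (C.mem_sp n) (C.mem_sp m) h)
  e_ne n y h := by
    have := C.θ₁_inj (C.mem_sp n) (C.mem_yb y) h
    exact absurd this (by simp)
  fix h n := by
    have := C.θ₁_smul (C.kb h) (C.sp n) (C.mem_sp n)
    rw [C.φ_apply]
    exact this.symm
  move n y hy := by
    classical
    obtain ⟨e, he, h1, h2, h3⟩ := exists_exch C.K n
      (fun i => C.sp i) (fun i => C.yb (y i)) (fun i j h => Fin.ext (C.sp_inj h))
      (fun i j h => hy (C.yb_inj h)) (fun i j => by simp)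
      (fun i => ⟨Equiv.swap (C.sp i) (C.yb (y i)), by
        convert C.mem_swap i (y i), Equiv.swap_apply_left _ _, Equiv.swap_apply_right _ _,
        fun x hx hx' => Equiv.swap_apply_of_ne_of_ne hx hx'⟩)
    refine ⟨C.pr (C.κ ⟨e, he⟩), ?_, ?_⟩
    · intro i
      rw [← C.θ₁_smul _ _ (C.mem_sp _)]
      change C.θ₁ (e _) = _
      rw [h1]
      rfl
    · intro h hh
      have hc : Commute (⟨e, he⟩ : C.K) (C.kb h) := by
        apply Subtype.ext
        apply Equiv.ext
        intro x
        change e (zb G h x) = zb G h (e x)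
        by_cases hx1 : ∃ i, x = C.sp (i : Fin n)
        · obtain ⟨i, rfl⟩ := hx1
          rw [zb_inr, h1, zb_zero, hh i]
        by_cases hx2 : ∃ i, x = C.yb (y i)
        · obtain ⟨i, rfl⟩ := hx2
          rw [zb_zero, hh i, h2, zb_inr]
        push Not at hx1 hx2
        rw [h3 x hx1 hx2]
        apply h3
        · intro i hi
          apply hx1 i
          apply (zb G h).injective
          rw [hi, zb_inr]
        · intro i hi
          apply hx2 i
          apply (zb G h).injective
          rw [hi, zb_zero, hh i]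
      exact (hc.map C.κ).map C.pr
  faithful := C.faithful

/-- the torus of a core -/
abbrev Γ : Type := C.hotel.Γ

/-- the colimit set of a core -/
abbrev X : Type := C.hotel.X

theorem isHT : IsHT C.Γ C.X := C.hotel.isHT

theorem fp : Group.IsFinitelyPresented C.Γ := gt_fp C.fpE C.i₁ C.pr (fun _ => rfl)

/-- the rook certificate for `φ` -/
noncomputable def rook : Rook C.H C.H where
  v i j := (C.pr.comp C.κ).comp ((zv G i j).codRestrict C.K (C.mem_v i j))
  β := C.φ
  s := C.pr (C.κ ⟨zs G C.Y, C.mem_s⟩)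
  row i j l h a b := by
    have h1 : Commute ((zv G i j).codRestrict C.K (C.mem_v i j) a)
        ((zv G i l).codRestrict C.K (C.mem_v i l) b) :=
      Subtype.ext ((zRook G C.H C.Y).row i j l h a b)
    exact h1.map (C.pr.comp C.κ)
  col i k j h a b := by
    have h1 : Commute ((zv G i j).codRestrict C.K (C.mem_v i j) a)
        ((zv G k j).codRestrict C.K (C.mem_v k j) b) :=
      Subtype.ext ((zRook G C.H C.Y).col i k j h a b)
    exact h1.map (C.pr.comp C.κ)
  rβ i a b := by
    have h1 : Commute ((zv G i 0).codRestrict C.K (C.mem_v i 0) a *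
        (zv G i 1).codRestrict C.K (C.mem_v i 1) a *
        (zv G i 2).codRestrict C.K (C.mem_v i 2) a *
        (zv G i 3).codRestrict C.K (C.mem_v i 3) a) (C.kb b) :=
      Subtype.ext ((zRook G C.H C.Y).rβ i a b)
    have h2 := h1.map (C.pr.comp C.κ)
    simp only [map_mul] at h2
    exact h2
  cβ j a b := by
    have h1 : Commute ((zv G 0 j).codRestrict C.K (C.mem_v 0 j) a *
        (zv G 1 j).codRestrict C.K (C.mem_v 1 j) a *
        (zv G 2 j).codRestrict C.K (C.mem_v 2 j) a) (C.kb b) :=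
      Subtype.ext ((zRook G C.H C.Y).cβ j a b)
    have h2 := h1.map (C.pr.comp C.κ)
    simp only [map_mul] at h2
    exact h2
  sr i a := by
    have h1 : (⟨zs G C.Y, C.mem_s⟩ : C.K) * ((zv G i 0).codRestrict C.K (C.mem_v i 0) a *
        (zv G i 1).codRestrict C.K (C.mem_v i 1) a *
        (zv G i 2).codRestrict C.K (C.mem_v i 2) a *
        (zv G i 3).codRestrict C.K (C.mem_v i 3) a) * (⟨zs G C.Y, C.mem_s⟩ : C.K)⁻¹ =
        (zv G i 0).codRestrict C.K (C.mem_v i 0) a *
        (zv G i 1).codRestrict C.K (C.mem_v i 1) a *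
        (zv G i 2).codRestrict C.K (C.mem_v i 2) a *
        (zv G i 3).codRestrict C.K (C.mem_v i 3) a * C.kb a :=
      Subtype.ext ((zRook G C.H C.Y).sr i a)
    have h2 := congrArg (C.pr.comp C.κ) h1
    simp only [map_mul, map_inv] at h2
    exact h2
  sc j a := by
    have h1 : (⟨zs G C.Y, C.mem_s⟩ : C.K) * ((zv G 0 j).codRestrict C.K (C.mem_v 0 j) a *
        (zv G 1 j).codRestrict C.K (C.mem_v 1 j) a *
        (zv G 2 j).codRestrict C.K (C.mem_v 2 j) a) * (⟨zs G C.Y, C.mem_s⟩ : C.K)⁻¹ =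
        (zv G 0 j).codRestrict C.K (C.mem_v 0 j) a *
        (zv G 1 j).codRestrict C.K (C.mem_v 1 j) a *
        (zv G 2 j).codRestrict C.K (C.mem_v 2 j) a * C.kb a :=
      Subtype.ext ((zRook G C.H C.Y).sc j a)
    have h2 := congrArg (C.pr.comp C.κ) h1
    simp only [map_mul, map_inv] at h2
    exact h2

theorem rook_β : C.rook.β = C.φ := rfl

/-- `G` embeds in `H` -/
def gH' : G →* C.H := (C.pr.comp C.κ).comp ((zg C.Y).codRestrict C.K C.mem_g)

theorem gH'_inj : Function.Injective C.gH' := by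
  intro a b h
  have h0 : ∀ (g : G), C.θ₁ (ptg C.Y (g * 1)) = C.gH' g • C.θ₁ (ptg C.Y 1) := fun g =>
    C.θ₁_smul ((zg C.Y).codRestrict C.K C.mem_g g) (ptg C.Y 1) (C.mem_gp 1)
  have h1 : C.θ₁ (ptg C.Y (a * 1)) = C.θ₁ (ptg C.Y (b * 1)) := by rw [h0, h0, h]
  have h2 := C.θ₁_inj (C.mem_gp _) (C.mem_gp _) h1
  have h3 := Sum.inr.inj (Sum.inr.inj h2)
  simpa using h3

/-- `G` embeds in `Γ` -/
noncomputable def gΓ : G →* C.Γ := (gi C.hotel.φ).comp C.gH'

theorem gΓ_inj : Function.Injective C.gΓ := by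
  obtain ⟨ht, hT⟩ := exists_isTorus C.hotel.φ_inj
  exact hT.inj.comp C.gH'_inj

end Core

end Crest.Agent.R185.Hot
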