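import Crest.Agent.R185.Smp4
import Crest.Agent.R185.Hot4

/-!
# R185 / ASSEMBLY (1): from a homomorphism `ψ : FreeGroup (KLet UL B) →* E` to a core (helper958)

`E` is finitely presented, generated by the letters `ul a`, and acts transitively on `Y` with base
point `y₀`; `G` is generated by the `e c`.  `ψ` kills the words acting trivially on `Z(Y)`, and
`w pts₀ = pts₀ ↔ ψ w y₀ = y₀`.  Then `Core G` is inhabited.
-/

set_option autoImplicit false
set_option linter.unusedSectionVars false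

namespace Crest.Agent.R185.Asm

open Crest.Agent.R185.Wu Crest.Agent.R185.Hot Crest.Agent.R185.Smp

section core

variable {G B UL E Y : Type} [Group G] [Group E] [MulAction E Y]

/-- the letters of `E` as permutations of `Y` -/
def pE (ul : UL → E) (a : UL) : Equiv.Perm Y := MulAction.toPermHom E Y (ul a)

theorem pE_apply (ul : UL → E) (a : UL) (y : Y) : pE ul a y = ul a • y := rfl

/-- the words of `K` as permutations of `Z(Y)` -/
noncomputable def kf (e : B → G) (y₀ : Y) (ul : UL → E) :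
    FreeGroup (KLet UL B) →* Equiv.Perm (ZZ G Y) :=
  FreeGroup.lift (kact e y₀ (pE ul))

variable {e : B → G} {y₀ : Y} {ul : UL → E}

theorem kf_of (a : KLet UL B) : kf e y₀ ul (FreeGroup.of a) = kact e y₀ (pE ul) a := by
  simp [kf]

/-- the image of `E` in the permutations of `Y` -/
abbrev HE (E Y : Type) [Group E] [MulAction E Y] : Type := (MulAction.toPermHom E Y).range

theorem zb_HE (h : HE E Y) : (zb G h : Equiv.Perm (ZZ G Y)) = zb G (h.1 : Equiv.Perm Y) := by
  apply Equiv.ext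
  rintro ((x | ⟨n | n, y⟩) | x) <;> rfl

theorem zv_HE (i : Fin 3) (j : Fin 4) (h : HE E Y) :
    (zv G i j h : Equiv.Perm (ZZ G Y)) = zv G i j (h.1 : Equiv.Perm Y) := by
  apply Equiv.ext
  rintro ((x | ⟨n | n, y⟩) | x) <;> rfl

/-- letters of `K` -/
theorem mem_letter (a : KLet UL B) : kact e y₀ (pE ul) a ∈ (kf e y₀ ul).range :=
  ⟨FreeGroup.of a, kf_of a⟩

/-- a subgroup of `E`, pulled back along a homomorphism into permutations of `Z(Y)` -/
theorem mem_of_gen (hul : Subgroup.closure (Set.range ul) = ⊤)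
    (f : Equiv.Perm Y →* Equiv.Perm (ZZ G Y)) (hf : ∀ a, f (pE ul a) ∈ (kf e y₀ ul).range)
    (h : HE E Y) : f h.1 ∈ (kf e y₀ ul).range := by
  obtain ⟨_, u, rfl⟩ := h
  change f (MulAction.toPermHom E Y u) ∈ _
  have hu : u ∈ Subgroup.closure (Set.range ul) := by rw [hul]; trivial
  induction hu using Subgroup.closure_induction with
  | mem x hx => obtain ⟨a, rfl⟩ := hx; exact hf a
  | one => rw [map_one, map_one]; exact one_mem _
  | mul x y _ _ hx hy => rw [map_mul, map_mul]; exact mul_mem hx hy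
  | inv x _ hx => rw [map_inv, map_inv]; exact inv_mem hx

theorem mem_zb (hul : Subgroup.closure (Set.range ul) = ⊤) (h : HE E Y) :
    (zb G h : Equiv.Perm (ZZ G Y)) ∈ (kf e y₀ ul).range := by
  rw [zb_HE]
  exact mem_of_gen hul (zb G) (fun a => mem_letter (.b a)) h

theorem mem_zv (hul : Subgroup.closure (Set.range ul) = ⊤) (i : Fin 3) (j : Fin 4) (h : HE E Y) :
    (zv G i j h : Equiv.Perm (ZZ G Y)) ∈ (kf e y₀ ul).range := by
  rw [zv_HE]
  exact mem_of_gen hul (zv G i j) (fun a => mem_letter (.v i j a)) h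

theorem mem_zg (he : Subgroup.closure (Set.range e) = ⊤) (g : G) :
    (zg Y g : Equiv.Perm (ZZ G Y)) ∈ (kf e y₀ ul).range := by
  have hg : g ∈ Subgroup.closure (Set.range e) := by rw [he]; trivial
  induction hg using Subgroup.closure_induction with
  | mem x hx => obtain ⟨c, rfl⟩ := hx; exact mem_letter (.g c)
  | one => rw [map_one]; exact one_mem _
  | mul x y _ _ hx hy => rw [map_mul]; exact mul_mem hx hy
  | inv x _ hx => rw [map_inv]; exact inv_mem hx

/-- the shift of the spare points -/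
theorem zsp_pts (f : Equiv.Perm ℕ) (n : ℕ) : zsp G Y f (pts G Y n) = pts G Y (f n) := rfl

theorem zsp_ptb (f : Equiv.Perm ℕ) (y : Y) : zsp G Y f (ptb G y) = ptb G y := rfl

theorem zsp_pow (f : Equiv.Perm ℕ) (k : ℤ) : (zsp G Y f) ^ k = zsp G Y (f ^ k) := by
  let F : Equiv.Perm ℕ →* Equiv.Perm (ZZ G Y) :=
    { toFun := zsp G Y
      map_one' := by apply Equiv.ext; rintro (x | x | x) <;> rfl
      map_mul' := fun a b => by apply Equiv.ext; rintro (x | x | x) <;> rfl }
  exact (map_zpow F f k).symm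

theorem spP_pow (k : ℤ) (n : ℕ) :
    (spP ^ k) n = Equiv.intEquivNat (Equiv.intEquivNat.symm n + k) := by
  induction k using Int.induction_on generalizing n with
  | zero => simp
  | succ k ih =>
    rw [zpow_add_one, Equiv.Perm.mul_apply, ih, spP_apply, Equiv.symm_apply_apply]
    congr 1; ring
  | pred k ih =>
    rw [zpow_sub_one, Equiv.Perm.mul_apply, ih, spP_symm_apply, Equiv.symm_apply_apply]
    congr 1; ring

/-- all spare points are in one orbit -/
theorem exists_sp (n : ℕ) : ∃ k : ℤ, (spP ^ k) 0 = n := by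
  refine ⟨Equiv.intEquivNat.symm n - Equiv.intEquivNat.symm 0, ?_⟩
  rw [spP_pow]
  have : Equiv.intEquivNat.symm 0 + (Equiv.intEquivNat.symm n - Equiv.intEquivNat.symm 0) =
      Equiv.intEquivNat.symm n := by ring
  rw [this, Equiv.apply_symm_apply]

theorem mem_zsp (k : ℤ) : zsp G Y (spP ^ k) ∈ (kf e y₀ ul).range := by
  rw [← zsp_pow]
  exact Subgroup.zpow_mem _ (mem_letter .sp) k

open Classical in
theorem swap_conj {Z : Type} (k : Equiv.Perm Z) (a b : Z) :
    k * Equiv.swap a b * k⁻¹ = Equiv.swap (k a) (k b) := by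
  rw [Equiv.mul_swap_eq_swap_mul, mul_inv_cancel_right]

open Classical in
/-- all transpositions (spare point, block point) -/
theorem mem_swap (hul : Subgroup.closure (Set.range ul) = ⊤) (htr : ∀ y : Y, ∃ u : E, u • y₀ = y)
    (n : ℕ) (y : Y) : Equiv.swap (pts G Y n) (ptb G y) ∈ (kf e y₀ ul).range := by
  have h0 : Equiv.swap (pts G Y 0) (ptb G y₀) ∈ (kf e y₀ ul).range := by
    convert mem_letter (e := e) (y₀ := y₀) (ul := ul) .sw
    change _ = Equiv.swap _ _
    congr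
  obtain ⟨u, rfl⟩ := htr y
  obtain ⟨k, hk⟩ := exists_sp n
  have h1 : (zb G (⟨MulAction.toPermHom E Y u, u, rfl⟩ : HE E Y) : Equiv.Perm (ZZ G Y)) ∈
      (kf e y₀ ul).range := mem_zb hul _
  have h2 : zsp G Y (spP ^ k) ∈ (kf e y₀ ul).range := mem_zsp k
  set a := (zb G (⟨MulAction.toPermHom E Y u, u, rfl⟩ : HE E Y) : Equiv.Perm (ZZ G Y)) with ha
  have h3 := mul_mem (mul_mem (mul_mem h2 h1) h0) (inv_mem (mul_mem h2 h1))
  rw [swap_conj] at h3
  have e1 : (zsp G Y (spP ^ k) * a) (pts G Y 0) = pts G Y n := by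
    rw [Equiv.Perm.mul_apply, ha]
    change zsp G Y (spP ^ k) (pts G Y 0) = _
    rw [zsp_pts, hk]
  have e2 : (zsp G Y (spP ^ k) * a) (ptb G y₀) = ptb G (u • y₀) := by
    rw [Equiv.Perm.mul_apply, ha]
    rfl
  rwa [e1, e2] at h3

section kappa

variable (ψ : FreeGroup (KLet UL B) →* E) (h1 : ∀ w, kf e y₀ ul w = 1 → ψ w = 1)

/-- the homomorphism `κ` -/
noncomputable def kap : (kf e y₀ ul).range →* E :=
  MonoidHom.liftOfSurjective (kf e y₀ ul).rangeRestrict (MonoidHom.rangeRestrict_surjective _)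
    ⟨ψ, fun w hw => h1 w (by
      have := congrArg Subtype.val (MonoidHom.mem_ker.1 hw)
      exact this)⟩

theorem kap_apply (w : FreeGroup (KLet UL B)) :
    kap ψ h1 ⟨kf e y₀ ul w, w, rfl⟩ = ψ w :=
  MonoidHom.liftOfRightInverse_comp_apply (kf e y₀ ul).rangeRestrict _ _ _ w

end kappa

section theta

variable (ψ : FreeGroup (KLet UL B) →* E)
  (h2 : ∀ w, kf e y₀ ul w (pts G Y 0) = pts G Y 0 ↔ ψ w • y₀ = y₀)

/-- the `K`-orbit of `pts 0` -/
def X0 (e : B → G) (y₀ : Y) (ul : UL → E) : Set (ZZ G Y) :=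
  {z | ∃ w, kf e y₀ ul w (pts G Y 0) = z}

open Classical in
/-- the map `θ₁` -/
noncomputable def th (e : B → G) (ul : UL → E) (ψ : FreeGroup (KLet UL B) →* E) (y₀ : Y)
    (z : ZZ G Y) : Y :=
  if h : ∃ w, kf e y₀ ul w (pts G Y 0) = z then ψ h.choose • y₀ else y₀

include h2 in
theorem th_apply (w : FreeGroup (KLet UL B)) :
    th e ul ψ y₀ (kf e y₀ ul w (pts G Y 0)) = ψ w • y₀ := by
  have h : ∃ w', kf e y₀ ul w' (pts G Y 0) = kf e y₀ ul w (pts G Y 0) := ⟨w, rfl⟩
  unfold th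
  rw [dif_pos h]
  have h3 := h.choose_spec
  have h4 : kf e y₀ ul (w⁻¹ * h.choose) (pts G Y 0) = pts G Y 0 := by
    rw [map_mul, Equiv.Perm.mul_apply, h3, map_inv]
    exact Equiv.symm_apply_apply _ _
  rw [h2, map_mul, mul_smul, map_inv, inv_smul_eq_iff] at h4
  exact h4

include h2 in
theorem th_inj : Set.InjOn (th e ul ψ y₀) (X0 (G := G) e y₀ ul) := by
  rintro _ ⟨w, rfl⟩ _ ⟨w', rfl⟩ h
  rw [th_apply ψ h2, th_apply ψ h2] at h
  have h4 : ψ (w'⁻¹ * w) • y₀ = y₀ := by
    rw [map_mul, mul_smul, map_inv, inv_smul_eq_iff, h]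
  rw [← h2, map_mul, Equiv.Perm.mul_apply, map_inv, Equiv.Perm.inv_eq_iff_eq] at h4
  exact h4

end theta

/-- **from `ψ` to a core** -/
theorem core_of (hfp : Group.IsFinitelyPresented E) (hul : Subgroup.closure (Set.range ul) = ⊤)
    (he : Subgroup.closure (Set.range e) = ⊤) (htr : ∀ y : Y, ∃ u : E, u • y₀ = y)
    (ψ : FreeGroup (KLet UL B) →* E) (h1 : ∀ w, kf e y₀ ul w = 1 → ψ w = 1)
    (h2 : ∀ w, kf e y₀ ul w (pts G Y 0) = pts G Y 0 ↔ ψ w • y₀ = y₀) :
    Nonempty (Core G) := by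
  classical
  have hsp : ∀ n, pts G Y n ∈ X0 e y₀ ul := by
    intro n
    obtain ⟨k, hk⟩ := exists_sp n
    obtain ⟨w, hw⟩ := mem_zsp (G := G) (Y := Y) (e := e) (y₀ := y₀) (ul := ul) k
    exact ⟨w, by rw [hw, zsp_pts, hk]⟩
  have hyb : ∀ y, ptb G y ∈ X0 e y₀ ul := by
    intro y
    obtain ⟨w, hw⟩ := mem_swap (G := G) (e := e) hul htr 0 y
    exact ⟨w, by rw [hw, Equiv.swap_apply_left]⟩
  have hgp : ∀ g, ptg Y g ∈ X0 e y₀ ul := by
    intro g
    obtain ⟨w, hw⟩ := mem_zg (Y := Y) (y₀ := y₀) (ul := ul) he g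
    refine ⟨w * FreeGroup.of .sw', ?_⟩
    rw [map_mul, Equiv.Perm.mul_apply, kf_of]
    change kf e y₀ ul w (Equiv.swap (ptg Y 1) (pts G Y 0) (pts G Y 0)) = _
    rw [Equiv.swap_apply_right, hw]
    change Sum.inr (Sum.inr (g * 1)) = _
    rw [mul_one]
  refine ⟨{
    Y := Y
    H := HE E Y
    faithful := fun h h' hh => Subtype.ext (Equiv.ext hh)
    E := E
    fpE := hfp
    pr := (MulAction.toPermHom E Y).rangeRestrict
    K := (kf e y₀ ul).range
    mem_b := mem_zb hul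
    mem_v := mem_zv hul
    mem_s := mem_letter .s
    mem_g := mem_zg he
    mem_swap := fun n y => by convert mem_swap (G := G) (e := e) hul htr n y
    κ := kap ψ h1
    X₀ := X0 e y₀ ul
    mem_sp := hsp
    mem_yb := hyb
    mem_gp := hgp
    θ₁ := th e ul ψ y₀
    θ₁_inj := th_inj ψ h2
    θ₁_smul := ?_ }⟩
  rintro ⟨_, w, rfl⟩ _ ⟨w', rfl⟩
  rw [kap_apply ψ h1, th_apply ψ h2]
  change th e ul ψ y₀ (kf e y₀ ul w (kf e y₀ ul w' (pts G Y 0))) = ψ w • (ψ w' • y₀)
  rw [← Equiv.Perm.mul_apply, ← map_mul, th_apply ψ h2, map_mul, mul_smul]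

end core

end Crest.Agent.R185.Asm
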