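import Crest.Agent.R185.Smp5

/-!
# R185 / SMP (6): types of points of `ZZ G Y`: independence of far data, small witnesses in the
orbit of `pts 0`
-/

set_option autoImplicit false

namespace Crest.Agent.R185.Smp

open Crest.Agent.R185.Wu Crest.Agent.R185.Hot

/-! ### the regular `G`-orbit -/

section reg

variable {G B : Type} [Group G] (e : B → G)

/-- signed letters of `G` -/
def esg (a : B × Bool) : G := if a.2 then e a.1 else (e a.1)⁻¹

theorem sg_pmul (a : B × Bool) (g : G) : sg (pmul e) a g = esg e a * g := by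
  rcases a with ⟨a, _ | _⟩
  · rw [sg_false]; simp [pmul, esg]
  · rw [sg_true]; simp [pmul, esg]

theorem ev_pmul (w : List (B × Bool)) (g : G) : ev (sg (pmul e)) w g = wv (esg e) w * g := by
  have : sg (pmul e) = fun a x => esg e a * x := by
    funext a x
    exact sg_pmul e a x
  rw [this, ev_eq_wv]

/-- a height function certifying far elements -/
structure Height (ht : G → ℤ) (t : B) : Prop where
  lip : ∀ c g, |ht (e c * g) - ht g| ≤ 1
  up : ∀ g, ht (e t * g) = ht g + 1
  one : ht 1 = 0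

variable {e}

theorem exists_gtype {ht : G → ℤ} {t : B} (h : Height e ht t) (N : ℕ) (g : G) :
    ∃ w : List (B × Bool), w.length ≤ regF 1 N ∧
      TyEq (sg (pmul e)) (sg (pmul e)) N (fun i : Fin 2 => if i = 0 then 1 else g)
        (fun i : Fin 2 => if i = 0 then 1 else wv (esg e) w) := by
  obtain ⟨w, hw0, hwl, hw⟩ := exists_reg (esg e) (fun a => (a.1, !a.2))
    (by rintro ⟨a, _ | _⟩ <;> simp [esg]) ht
    (by
      rintro ⟨a, _ | _⟩ g
      · have := h.lip a ((e a)⁻¹ * g)
        rw [mul_inv_cancel_left] at this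
        simp only [esg]
        rw [abs_sub_comm]
        simpa using this
      · simpa [esg] using h.lip a g) (t, true) (by intro g; simpa [esg] using h.up g) h.one 1 N
    (fun i => if i = 0 then 1 else g) (by simp)
  refine ⟨w 1, hwl 1 le_rfl, ?_⟩
  intro i j u hu
  rw [ev_pmul, ev_pmul]
  have e1 : ∀ i : Fin 2, (if i = 0 then (1 : G) else wv (esg e) (w 1)) = wv (esg e) (w i.1) := by
    intro i
    fin_cases i
    · simp [hw0]
    · simp
  have e2 : ∀ i : Fin 2, (if i = 0 then (1 : G) else g) = if i.1 = 0 then 1 else g := by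
    intro i
    fin_cases i <;> simp
  beta_reduce
  rw [e1, e1, e2, e2]
  exact hw i.1 (by omega) j.1 (by omega) u hu

end reg

/-! ### reaching the standard points -/

section reach

variable {G Y A B : Type} [Group G] (e : B → G) (pa : A → Equiv.Perm Y) (y₀ : Y)

/-- `z` is reached from `pts 0` by a word of length at most `m` -/
def Rch (m : ℕ) (z : ZZ G Y) : Prop :=
  ∃ w : List (KLet A B × Bool), w.length ≤ m ∧ ev (sg (kact e y₀ pa)) w (pts G Y 0) = z

variable {e pa y₀}

theorem Rch.mono {m m' : ℕ} (h : m ≤ m') {z : ZZ G Y} (hz : Rch e pa y₀ m z) :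
    Rch e pa y₀ m' z := by
  obtain ⟨u, hu, rfl⟩ := hz
  exact ⟨u, hu.trans h, rfl⟩

theorem Rch.step {m : ℕ} {z : ZZ G Y} (hz : Rch e pa y₀ m z) (a : KLet A B × Bool) :
    Rch e pa y₀ (m + 1) (sg (kact e y₀ pa) a z) := by
  obtain ⟨u, hu, rfl⟩ := hz
  exact ⟨a :: u, by simpa using hu, rfl⟩

theorem Rch.pts0 : Rch e pa y₀ 0 (pts G Y 0) := ⟨[], by simp, rfl⟩

theorem Rch.ptb0 : Rch e pa y₀ 1 (ptb G y₀) := by
  classical
  have h := (Rch.pts0 (e := e) (pa := pa) (y₀ := y₀)).step (KLet.sw, true)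
  rw [sg_true] at h
  have : kact e y₀ pa KLet.sw (pts G Y 0) = ptb G y₀ := Equiv.swap_apply_left _ _
  rwa [this] at h

theorem Rch.ptg1 : Rch e pa y₀ 1 (ptg Y (1 : G)) := by
  classical
  have h := (Rch.pts0 (e := e) (pa := pa) (y₀ := y₀)).step (KLet.sw', true)
  rw [sg_true] at h
  have : kact e y₀ pa KLet.sw' (pts G Y 0) = ptg Y 1 := Equiv.swap_apply_right _ _
  rwa [this] at h

/-- moving the block point -/
theorem Rch.blk {m : ℕ} {y : Y} (h : Rch e pa y₀ m (ptb G y)) (u : List (A × Bool)) :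
    Rch e pa y₀ (m + u.length) (ptb G (ev (sg pa) u y)) := by
  induction u with
  | nil => exact h
  | cons a u ih =>
    have h2 := ih.step (KLet.b a.1, a.2)
    have : sg (kact e y₀ pa) (KLet.b a.1, a.2) (ptb G (ev (sg pa) u y)) =
        ptb G (ev (sg pa) (a :: u) y) := by
      rw [ev_cons]
      rcases a with ⟨a, _ | _⟩
      · rw [sg_false, sg_false]
        change (zb G (pa a))⁻¹ _ = _
        rw [← map_inv]
        rfl
      · rw [sg_true, sg_true]
        rfl
    rw [this] at h2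
    exact h2

theorem Rch.blk0 {b : ℕ} {y : Y} (hy : Ent pa y₀ b y) : Rch e pa y₀ (b + 1) (ptb G y) := by
  obtain ⟨u, hu, rfl⟩ := hy
  exact (Rch.ptb0.blk u).mono (by omega)

theorem Rch.blkn {b : ℕ} {y : Y} (hy : Ent pa y₀ b y) (n : ℕ) :
    Rch e pa y₀ (b + 1 + n) (Sum.inl (Sum.inr (n, y))) := by
  induction n with
  | zero => exact Rch.blk0 hy
  | succ n ih =>
    have h2 := ih.step (KLet.s, true)
    rw [sg_true] at h2
    exact h2

theorem Rch.cn (n : ℕ) :
    Rch e pa y₀ (n + 2) (Sum.inl (Sum.inl (n, cY y₀))) := by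
  induction n with
  | zero =>
    have h2 := (Rch.ptb0 (e := e) (pa := pa) (y₀ := y₀)).step (KLet.s, false)
    rw [sg_false] at h2
    exact h2
  | succ n ih =>
    have h2 := ih.step (KLet.s, false)
    rw [sg_false] at h2
    have : (kact e y₀ pa KLet.s)⁻¹ (Sum.inl (Sum.inl (n, cY y₀))) =
        (Sum.inl (Sum.inl (n + 1, cY y₀)) : ZZ G Y) := by
      change Sum.inl (shg (Sum.inl (n, cY y₀))) = _
      rw [shg_con]
    rw [this] at h2
    exact h2

omit [Group G] in
theorem zv_row (i : Fin 3) (j : Fin 4) (f : Equiv.Perm Y) (n : ℕ) (w : Fin 4 → Y) :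
    zv G i j f (Sum.inl (Sum.inl (n, rowM i w))) =
      Sum.inl (Sum.inl (n, rowM i (Function.update w j (f (w j))))) := by
  change Sum.inl (Sum.inl (n, act i j _ _)) = _
  rw [act_row]
  rfl

omit [Group G] in
theorem zv_col (i : Fin 3) (j : Fin 4) (f : Equiv.Perm Y) (n : ℕ) (z : Fin 3 → Y) :
    zv G i j f (Sum.inl (Sum.inl (n, colM j z))) =
      Sum.inl (Sum.inl (n, colM j (Function.update z i (f (z i))))) := by
  change Sum.inl (Sum.inl (n, act i j _ _)) = _
  rw [act_col three3 three4]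
  rfl

theorem Rch.row {m n : ℕ} {i : Fin 3} {w : Fin 4 → Y}
    (h : Rch e pa y₀ m (Sum.inl (Sum.inl (n, rowM i w)))) (j : Fin 4) (u : List (A × Bool)) :
    Rch e pa y₀ (m + u.length)
      (Sum.inl (Sum.inl (n, rowM i (Function.update w j (ev (sg pa) u (w j)))))) := by
  induction u with
  | nil =>
    rw [ev_nil, Function.update_eq_self]
    exact h
  | cons a u ih =>
    have h2 := ih.step (KLet.v i j a.1, a.2)
    have : ∀ x : Y, sg (kact e y₀ pa) (KLet.v i j a.1, a.2)
        (Sum.inl (Sum.inl (n, rowM i (Function.update w j x)))) =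
        (Sum.inl (Sum.inl (n, rowM i (Function.update w j (sg pa a x)))) : ZZ G Y) := by
      intro x
      rcases a with ⟨a, _ | _⟩
      · rw [sg_false, sg_false]
        change (zv G i j (pa a))⁻¹ _ = _
        rw [← map_inv, zv_row, Function.update_self, Function.update_idem]
      · rw [sg_true, sg_true]
        change zv G i j (pa a) _ = _
        rw [zv_row, Function.update_self, Function.update_idem]
    rw [this] at h2
    rw [ev_cons]
    exact h2.mono (by simp [add_assoc])

theorem Rch.col {m n : ℕ} {j : Fin 4} {z : Fin 3 → Y}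
    (h : Rch e pa y₀ m (Sum.inl (Sum.inl (n, colM j z)))) (i : Fin 3) (u : List (A × Bool)) :
    Rch e pa y₀ (m + u.length)
      (Sum.inl (Sum.inl (n, colM j (Function.update z i (ev (sg pa) u (z i)))))) := by
  induction u with
  | nil =>
    rw [ev_nil, Function.update_eq_self]
    exact h
  | cons a u ih =>
    have h2 := ih.step (KLet.v i j a.1, a.2)
    have : ∀ x : Y, sg (kact e y₀ pa) (KLet.v i j a.1, a.2)
        (Sum.inl (Sum.inl (n, colM j (Function.update z i x)))) =
        (Sum.inl (Sum.inl (n, colM j (Function.update z i (sg pa a x)))) : ZZ G Y) := by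
      intro x
      rcases a with ⟨a, _ | _⟩
      · rw [sg_false, sg_false]
        change (zv G i j (pa a))⁻¹ _ = _
        rw [← map_inv, zv_col, Function.update_self, Function.update_idem]
      · rw [sg_true, sg_true]
        change zv G i j (pa a) _ = _
        rw [zv_col, Function.update_self, Function.update_idem]
    rw [this] at h2
    rw [ev_cons]
    exact h2.mono (by simp [add_assoc])

theorem Rch.rown {b : ℕ} (n : ℕ) (i : Fin 3) (w : Fin 4 → Y) (hw : ∀ l, Ent pa y₀ b (w l)) :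
    Rch e pa y₀ (n + 2 + 4 * b) (Sum.inl (Sum.inl (n, rowM i w))) := by
  choose u hu hw using hw
  have h0 : Rch e pa y₀ (n + 2) (Sum.inl (Sum.inl (n, rowM i (fun _ => y₀)))) := by
    rw [rowM_const three4 0]
    exact Rch.cn n
  have h1 := h0.row 0 (u 0)
  have h2 := h1.row 1 (u 1)
  have h3 := h2.row 2 (u 2)
  have h4 := h3.row 3 (u 3)
  have : (Function.update (Function.update (Function.update (Function.update (fun _ : Fin 4 => y₀)
      0 (ev (sg pa) (u 0) y₀)) 1 (ev (sg pa) (u 1) y₀)) 2 (ev (sg pa) (u 2) y₀)) 3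
      (ev (sg pa) (u 3) y₀)) = w := by
    funext l
    fin_cases l <;> simp [Function.update, hw]
  have h5 := h4.mono (m' := n + 2 + 4 * b) (by
    have := hu 0
    have := hu 1
    have := hu 2
    have := hu 3
    omega)
  convert h5 using 5
  rw [← this]
  simp [Function.update]

theorem Rch.coln {b : ℕ} (n : ℕ) (j : Fin 4) (z : Fin 3 → Y) (hz : ∀ l, Ent pa y₀ b (z l)) :
    Rch e pa y₀ (n + 2 + 4 * b) (Sum.inl (Sum.inl (n, colM j z))) := by
  choose u hu hw using hz
  have h0 : Rch e pa y₀ (n + 2) (Sum.inl (Sum.inl (n, colM j (fun _ => y₀)))) := by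
    rw [colM_const three3 0]
    exact Rch.cn n
  have h1 := h0.col 0 (u 0)
  have h2 := h1.col 1 (u 1)
  have h3 := h2.col 2 (u 2)
  have : (Function.update (Function.update (Function.update (fun _ : Fin 3 => y₀)
      0 (ev (sg pa) (u 0) y₀)) 1 (ev (sg pa) (u 1) y₀)) 2 (ev (sg pa) (u 2) y₀)) = z := by
    funext l
    fin_cases l <;> simp [Function.update, hw]
  have h5 := h3.mono (m' := n + 2 + 4 * b) (by
    have := hu 0
    have := hu 1
    have := hu 2
    omega)
  convert h5 using 5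
  rw [← this]
  simp [Function.update]

theorem Rch.spare (c : ℤ) :
    Rch e pa y₀ c.natAbs (pts G Y (Equiv.intEquivNat c)) := by
  have key : ∀ (n : ℕ) (ε : Bool), Rch e pa y₀ n
      (pts G Y (Equiv.intEquivNat (if ε then (n : ℤ) else -(n : ℤ)))) := by
    intro n ε
    induction n with
    | zero =>
      have : (if ε then ((0 : ℕ) : ℤ) else -((0 : ℕ) : ℤ)) = 0 := by split_ifs <;> simp
      rw [this]
      exact Rch.pts0
    | succ n ih =>
      have h2 := ih.step (KLet.sp, ε)
      have : sg (kact e y₀ pa) (KLet.sp, ε)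
          (pts G Y (Equiv.intEquivNat (if ε then (n : ℤ) else -(n : ℤ)))) =
          pts G Y (Equiv.intEquivNat (if ε then ((n + 1 : ℕ) : ℤ) else -((n + 1 : ℕ) : ℤ))) := by
        rcases ε with _ | _
        · rw [sg_false]
          change pts G Y ((spP⁻¹ : Equiv.Perm ℕ) _) = _
          rw [spP_symm_apply, Equiv.symm_apply_apply]
          congr 2
          push_cast
          simp
          ring
        · rw [sg_true]
          change pts G Y (spP _) = _
          rw [spP_apply, Equiv.symm_apply_apply]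
          simp
      rw [this] at h2
      exact h2
  rcases le_total 0 c with h | h
  · have := key c.natAbs true
    simp only [if_true] at this
    rwa [Int.natAbs_of_nonneg h] at this
  · have := key c.natAbs false
    simp only [Bool.false_eq_true, if_false] at this
    rwa [show -((c.natAbs : ℕ) : ℤ) = c by omega] at this

theorem Rch.gp (w : List (B × Bool)) :
    Rch e pa y₀ (1 + w.length) (ptg Y (wv (esg e) w)) := by
  induction w with
  | nil => exact Rch.ptg1
  | cons a w ih =>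
    have h2 := ih.step (KLet.g a.1, a.2)
    have : sg (kact e y₀ pa) (KLet.g a.1, a.2) (ptg Y (wv (esg e) w)) =
        ptg Y (wv (esg e) (a :: w)) := by
      rcases a with ⟨a, _ | _⟩
      · rw [sg_false]
        change (zg Y (e a))⁻¹ _ = _
        rw [← map_inv, wv_cons]
        rfl
      · rw [sg_true, wv_cons]
        rfl
    rw [this] at h2
    exact h2

end reach

/-! ### types -/

section types

variable {G Y Y' A B : Type} [Group G] {e : B → G} {pa : A → Equiv.Perm Y} {y₀ : Y}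
  {pa' : A → Equiv.Perm Y'} {y₀' : Y'} {N : ℕ}

theorem gap_one (L n : ℕ) : ∃ n' : ℕ, n' ≤ L + 1 ∧ Gap L (fun _ : Fin 1 => n) (fun _ => n') := by
  obtain ⟨n', h1, h2⟩ := exists_gap L (fun _ : Fin 1 => n)
  refine ⟨n' 0, by simpa using h2 0, ?_⟩
  have : n' = fun _ => n' 0 := by
    funext i
    rw [Subsingleton.elim i 0]
  rwa [this] at h1

theorem gapZ_one (L : ℕ) (n : ℤ) :
    ∃ n' : ℤ, n'.natAbs ≤ L + 1 ∧ GapZ L (fun _ : Fin 1 => n) (fun _ => n') := by
  obtain ⟨n', h1, h2⟩ := exists_gapZ L (fun _ : Fin 1 => n)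
  refine ⟨n' 0, by simpa using h2 0, ?_⟩
  have : n' = fun _ => n' 0 := by
    funext i
    rw [Subsingleton.elim i 0]
  rwa [this] at h1

/-- length of the witnesses -/
def zbd (b N : ℕ) : ℕ := 4 * b + (2 * N + 1) + 3 + regF 1 (2 * N)

/-- the input of the `ZZ` layer -/
def T5 (pa : A → Equiv.Perm Y) (y₀ : Y) (n ρ b : ℕ) : Prop :=
  ∀ w : Fin 4 → Y, (∀ l, Ent pa y₀ ρ (w l)) → ∃ w' : Fin 4 → Y, (∀ l, Ent pa y₀ b (w' l)) ∧
    TyEq (sg pa) (sg pa) n (Fin.cons y₀ w : Fin 5 → Y) (Fin.cons y₀ w')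

/-- **(ZH1)** the type of `pts 0` only depends on the type of `y₀` -/
theorem zz_type_base (hy : TyEq (sg pa) (sg pa') (2 * N) (fun _ : Fin 1 => y₀) (fun _ => y₀')) :
    TyEq (sg (kact e y₀ pa)) (sg (kact e y₀' pa')) (2 * N) (fun _ : Fin 1 => pts G Y 0)
      (fun _ => pts G Y' 0) := by
  have hb := base_can (e := e) (Gap.refl (2 * N) (fun _ : Fin 1 => 0))
    (s := fun _ : Fin 1 => (0 : ℤ)) (s' := fun _ => 0)
    ⟨fun _ _ _ _ => Iff.rfl, fun _ _ _ => Iff.rfl, fun _ => Iff.rfl⟩
    (g := fun _ : Fin 1 => (1 : G)) (g' := fun _ => 1) (fun _ _ _ _ => Iff.rfl) 0 rfl rfl hy 0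
  exact TyEq.of_gpi hb.gpi hb.stp (sg_inv _) (sg_inv _) (fun _ => hb.pts0 le_rfl)

/-- **(ZH2)** small witnesses -/
theorem zz_type {ht : G → ℤ} {t : B} (hh : Height e ht t) {ρ b : ℕ}
    (hT : T5 pa y₀ (2 * N) ρ b) {z : ZZ G Y} (hz : Shape G pa y₀ ρ z) :
    ∃ z', Rch e pa y₀ (zbd b N) z' ∧
      TyEq (sg (kact e y₀ pa)) (sg (kact e y₀ pa)) (2 * N) (fun _ : Fin 1 => z) (fun _ => z') := by
  -- choose the data
  have main : ∀ {w w' : Fin 4 → Y} {n n' : ℕ} {s s' : ℤ} {g g' : G},
      TyEq (sg pa) (sg pa) (2 * N) (Fin.cons y₀ w : Fin 5 → Y) (Fin.cons y₀ w') →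
      Gap (2 * N) (fun _ : Fin 1 => n) (fun _ => n') →
      GapZ (2 * N) (fun _ : Fin 1 => s) (fun _ => s') →
      TyEq (sg (pmul e)) (sg (pmul e)) (2 * N) (fun i : Fin 2 => if i = 0 then 1 else g)
        (fun i : Fin 2 => if i = 0 then 1 else g') →
      ∀ z', (∀ {m}, m = N → ZR (natR N (fun _ : Fin 1 => n) (fun _ => n'))
        (spR N (fun _ : Fin 1 => s) (fun _ => s'))
        (canR (sg (pmul e)) (sg (pmul e)) N (fun i : Fin 2 => if i = 0 then 1 else g)
          (fun i : Fin 2 => if i = 0 then 1 else g'))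
        (canR (sg pa) (sg pa) N (Fin.cons y₀ w : Fin 5 → Y) (Fin.cons y₀ w')) m z z') →
      TyEq (sg (kact e y₀ pa)) (sg (kact e y₀ pa)) (2 * N) (fun _ : Fin 1 => z)
        (fun _ => z') := by
    intro w w' n n' s s' g g' hw hn hs hg z' hz'
    have hb := base_can (e := e) hn hs hg 0 (by simp) (by simp) hw 0
    exact TyEq.of_gpi hb.gpi hb.stp (sg_inv _) (sg_inv _) (fun _ => hz' rfl)
  have hn0 : Gap (2 * N) (fun _ : Fin 1 => 0) (fun _ => 0) := Gap.refl _ _
  have hs0 : GapZ (2 * N) (fun _ : Fin 1 => (0 : ℤ)) (fun _ => 0) :=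
    ⟨fun _ _ _ _ => Iff.rfl, fun _ _ _ => Iff.rfl, fun _ => Iff.rfl⟩
  have hg0 : TyEq (sg (pmul e)) (sg (pmul e)) (2 * N) (fun i : Fin 2 => if i = 0 then (1 : G) else 1)
    (fun i : Fin 2 => if i = 0 then 1 else 1) := fun _ _ _ _ => Iff.rfl
  have hw0 : TyEq (sg pa) (sg pa) (2 * N) (Fin.cons y₀ (fun _ => y₀) : Fin 5 → Y)
    (Fin.cons y₀ (fun _ => y₀)) := fun _ _ _ _ => Iff.rfl
  cases hz with
  | @mat n M hM hE =>
    obtain ⟨n', hn', hn⟩ := gap_one (2 * N) n
    rcases hM with ⟨i, w, rfl⟩ | ⟨j, c, rfl⟩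
    · obtain ⟨w', hw', hw⟩ := hT w (fun l => hE i l _ (rowM_self i w l))
      have hb := base_can (e := e) hn hs0 hg0 0 (by simp) (by simp) hw 0
      refine ⟨Sum.inl (Sum.inl (n', rowM i w')),
        (Rch.rown n' i w' hw').mono (by unfold zbd; omega), ?_⟩
      refine main hw hn hs0 hg0 _ (fun {m} hm => ?_)
      subst hm
      refine .inl (.mat (natR_self (0 : Fin 1) le_rfl) ?_)
      apply rowM_rel three4 (hb.hR.inj _)
      intro l
      exact canR_self (y := (Fin.cons y₀ w : Fin 5 → Y)) (y' := (Fin.cons y₀ w' : Fin 5 → Y))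
        l.succ le_rfl
    · have hc : ∀ l, Ent pa y₀ ρ ((Fin.snoc c y₀ : Fin 4 → Y) l) := by
        intro l
        refine Fin.lastCases ?_ (fun l => ?_) l
        · rw [Fin.snoc_last]; exact Ent.base _ _
        · rw [Fin.snoc_castSucc]; exact hE l j _ (colM_self j c l)
      obtain ⟨w', hw', hw⟩ := hT _ hc
      have hb := base_can (e := e) hn hs0 hg0 0 (by simp) (by simp) hw 0
      refine ⟨Sum.inl (Sum.inl (n', colM j (fun l => w' l.castSucc))),
        (Rch.coln n' j _ (fun l => hw' _)).mono (by unfold zbd; omega), ?_⟩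
      refine main hw hn hs0 hg0 _ (fun {m} hm => ?_)
      subst hm
      refine .inl (.mat (natR_self (0 : Fin 1) le_rfl) ?_)
      apply colM_rel three3 (hb.hR.inj _)
      intro l
      have := canR_self (act := sg pa) (act' := sg pa)
        (y := (Fin.cons y₀ (Fin.snoc c y₀ : Fin 4 → Y) : Fin 5 → Y))
        (y' := (Fin.cons y₀ w' : Fin 5 → Y)) l.castSucc.succ (le_refl m)
      rwa [Fin.cons_succ, Fin.cons_succ, Fin.snoc_castSucc] at this
  | @pt n y hy =>
    obtain ⟨n', hn', hn⟩ := gap_one (2 * N) n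
    obtain ⟨w', hw', hw⟩ := hT (fun _ => y) (fun _ => hy)
    refine ⟨Sum.inl (Sum.inr (n', w' 0)), (Rch.blkn (hw' 0) n').mono (by unfold zbd; omega), ?_⟩
    refine main hw hn hs0 hg0 _ (fun {m} hm => ?_)
    subst hm
    exact .inl (.pt (natR_self (0 : Fin 1) le_rfl)
      (canR_self (y := (Fin.cons y₀ (fun _ => y) : Fin 5 → Y))
        (y' := (Fin.cons y₀ w' : Fin 5 → Y)) 1 le_rfl))
  | @sp n =>
    obtain ⟨s', hs', hs⟩ := gapZ_one (2 * N) (Equiv.intEquivNat.symm n)
    refine ⟨pts G Y (Equiv.intEquivNat s'), (Rch.spare s').mono (by unfold zbd; omega), ?_⟩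
    refine main hw0 hn0 hs hg0 _ (fun {m} hm => ?_)
    subst hm
    refine .inr (.inl ?_)
    unfold spR
    rw [Equiv.symm_apply_apply]
    exact intR_self (0 : Fin 1) le_rfl
  | @g g =>
    obtain ⟨u, hu, hg⟩ := exists_gtype hh (2 * N) g
    refine ⟨ptg Y (wv (esg e) u), (Rch.gp u).mono (by unfold zbd; omega), ?_⟩
    refine main hw0 hn0 hs0 hg _ (fun {m} hm => ?_)
    subst hm
    refine .inr (.inr ?_)
    have := canR_self (act := sg (pmul e)) (act' := sg (pmul e))
      (y := (fun i : Fin 2 => if i = 0 then 1 else g))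
      (y' := (fun i : Fin 2 => if i = 0 then 1 else wv (esg e) u)) 1 (le_refl m)
    simpa using this

end types

end Crest.Agent.R185.Smp
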