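import Crest.Agent.R185.Asm1
import Crest.Agent.R185.Smp6

/-!
# R185 / ASSEMBLY (2): passage to the orbit of the base point, and the guard words (helper958)
-/

set_option autoImplicit false
set_option linter.unusedSectionVars false

namespace Crest.Agent.R185.Asm

open Crest.Agent.R185.Wu Crest.Agent.R185.Hot Crest.Agent.R185.Smp

section orbit

variable {G B UL E Y : Type} [Group G] [Group E] [MulAction E Y]
variable {e : B → G} {ul : UL → E}

/-- words in the letters of `K` -/
noncomputable abbrev kw0 (e : B → G) (y₀ : Y) (pa : UL → Equiv.Perm Y) :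
    FreeGroup (KLet UL B) →* Equiv.Perm (ZZ G Y) :=
  FreeGroup.lift (kact e y₀ pa)

theorem kf_eq (y₀ : Y) : kf e y₀ ul = kw0 e y₀ (pE (Y := Y) ul) := rfl

/-- the stabiliser of `pts 0` only depends on the stabiliser of `y₀` -/
theorem kw0_transfer {Y' : Type} {y₀ : Y} {y₀' : Y'} {pa : UL → Equiv.Perm Y}
    {pa' : UL → Equiv.Perm Y'}
    (h : ∀ u : FreeGroup UL, FreeGroup.lift pa u y₀ = y₀ ↔ FreeGroup.lift pa' u y₀' = y₀')
    (w : FreeGroup (KLet UL B)) :
    kw0 e y₀ pa w (pts G Y 0) = pts G Y 0 ↔ kw0 e y₀' pa' w (pts G Y' 0) = pts G Y' 0 := by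
  classical
  have h1 : TyEq (sg pa) (sg pa') (2 * w.toWord.length) (fun _ : Fin 1 => y₀) (fun _ => y₀') := by
    intro i j u _
    rw [ev_sg, ev_sg]
    exact h _
  have h2 := zz_type_base (G := G) (e := e) h1 0 0 w.toWord (by omega)
  rw [ev_sg, ev_sg, FreeGroup.mk_toWord] at h2
  exact h2

theorem lift_orbit (y₀ : Y) (u : FreeGroup UL) (y : MulAction.orbit E y₀) :
    ((FreeGroup.lift (pE (Y := MulAction.orbit E y₀) ul) u y : MulAction.orbit E y₀) : Y) =
      FreeGroup.lift (pE (Y := Y) ul) u y := by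
  have h1 : ∀ (Z : Type) [MulAction E Z] (z : Z), FreeGroup.lift (pE (Y := Z) ul) u z =
      (FreeGroup.lift ul u) • z := by
    intro Z _ z
    have : FreeGroup.lift (pE (Y := Z) ul) = (MulAction.toPermHom E Z).comp (FreeGroup.lift ul) := by
      ext1 a
      simp only [FreeGroup.lift_apply_of, MonoidHom.comp_apply]
      rfl
    rw [this]; rfl
  rw [h1, h1]
  rfl

/-- **reduction to an arbitrary (not transitive) `E`-set** -/
theorem core_of_big (hfp : Group.IsFinitelyPresented E) (hul : Subgroup.closure (Set.range ul) = ⊤)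
    (he : Subgroup.closure (Set.range e) = ⊤) (y₀ : Y) (ψ : FreeGroup (KLet UL B) →* E)
    (h1 : ∀ w, (∀ v, kf e y₀ ul (v⁻¹ * w * v) (pts G Y 0) = pts G Y 0) → ψ w = 1)
    (h2 : ∀ w, kf e y₀ ul w (pts G Y 0) = pts G Y 0 ↔ ψ w • y₀ = y₀) :
    Nonempty (Core G) := by
  let Y₁ : Type := MulAction.orbit E y₀
  let y₁ : Y₁ := ⟨y₀, MulAction.mem_orbit_self y₀⟩
  have ht : ∀ w, kf e y₁ ul w (pts G Y₁ 0) = pts G Y₁ 0 ↔ kf e y₀ ul w (pts G Y 0) = pts G Y 0 := by
    intro w
    apply kw0_transfer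
    intro u
    have h := lift_orbit (ul := ul) y₀ u y₁
    constructor
    · intro h3
      rw [h3] at h
      exact h.symm
    · intro h3
      apply Subtype.ext
      exact h.trans h3
  refine core_of (e := e) (y₀ := y₁) hfp hul he ?_ ψ ?_ ?_
  · rintro ⟨y, u, rfl⟩
    exact ⟨u, rfl⟩
  · intro w hw
    apply h1
    intro v
    rw [← ht, map_mul, map_mul, hw, mul_one, ← map_mul, inv_mul_cancel, map_one]
    rfl
  · intro w
    rw [ht, h2]
    constructor
    · intro h; exact Subtype.ext h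
    · intro h; exact congrArg Subtype.val h

end orbit

section guard

variable {G B UL E Y A : Type} [Group G] [Group E] [MulAction E Y]
variable {e : B → G} {ul : UL → E}

/-- **assembly from a fixed point `S`, guard words `kw` and `α`** -/
theorem core_of_guard (hfp : Group.IsFinitelyPresented E)
    (hul : Subgroup.closure (Set.range ul) = ⊤) (he : Subgroup.closure (Set.range e) = ⊤) (y₀ : Y)
    (S : Subgroup (FreeGroup A)) (kw : FreeGroup (KLet UL B) →* FreeGroup A)
    (α : FreeGroup A →* E)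
    (c1 : ∀ w, kf e y₀ ul w (pts G Y 0) = pts G Y 0 ↔ kw w ∈ S)
    (c2 : ∀ w, (∀ v, kf e y₀ ul (v⁻¹ * w * v) (pts G Y 0) = pts G Y 0) →
      ∀ v : FreeGroup A, v⁻¹ * kw w * v ∈ S)
    (c3 : ∀ w : FreeGroup A, (∀ v : FreeGroup A, v⁻¹ * w * v ∈ S) → α w = 1)
    (c4 : ∀ w, α w • y₀ = y₀ ↔ w ∈ S) : Nonempty (Core G) := by
  refine core_of_big hfp hul he y₀ (α.comp kw) (fun w hw => c3 _ (c2 w hw)) (fun w => ?_)
  rw [c1]
  exact (c4 _).symm

end guard

end Crest.Agent.R185.Asm
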