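import Crest.Agent.R185.Md191D

/-!
# R185 / MOD (E): the action of the letters on `Y(X)`

`YY hW hκ X = YQ (SG L ε) (starQ (chiS X hW hκ))` over `Q = D × P(X)`;
`actY : F(UL ι A) →* Perm (YY X)`; evaluation of words; the relations; the honest case;
functoriality in `X`; the base points `th x = inr (0, (1, (1, 0, x)))`.
-/

set_option autoImplicit false
set_option linter.unusedSectionVars false

namespace Crest.Agent.R185.Md191E

open Equiv Crest.Agent.R185.Md191A Crest.Agent.R185.Md191B Crest.Agent.R185.Md191C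
  Crest.Agent.R185.Md191D

/-! ### the regular coordinate -/

section regular

variable (D Pp : Type) [Group D]

/-- `D` acts on the first coordinate -/
def dQ : D →* Perm (D × Pp) where
  toFun d :=
    { toFun := fun q => (d * q.1, q.2)
      invFun := fun q => (d⁻¹ * q.1, q.2)
      left_inv := by rintro ⟨z, p⟩; simp
      right_inv := by rintro ⟨z, p⟩; simp }
  map_one' := by apply Equiv.ext; rintro ⟨z, p⟩; simp
  map_mul' a b := by apply Equiv.ext; rintro ⟨z, p⟩; simp [mul_assoc]

@[simp] theorem dQ_apply (d z : D) (p : Pp) : dQ D Pp d (z, p) = (d * z, p) := rfl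

variable {Pp}

/-- permutations of the second coordinate -/
def jQ : Perm Pp →* Perm (D × Pp) where
  toFun j :=
    { toFun := fun q => (q.1, j q.2)
      invFun := fun q => (q.1, j⁻¹ q.2)
      left_inv := by rintro ⟨z, p⟩; simp
      right_inv := by rintro ⟨z, p⟩; simp }
  map_one' := by apply Equiv.ext; rintro ⟨z, p⟩; simp
  map_mul' a b := by apply Equiv.ext; rintro ⟨z, p⟩; simp

@[simp] theorem jQ_apply (j : Perm Pp) (z : D) (p : Pp) : jQ D j (z, p) = (z, j p) := rfl

theorem comm_dQ_jQ (d : D) (j : Perm Pp) : Commute (dQ D Pp d) (jQ D j) := by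
  apply Equiv.ext; rintro ⟨z, p⟩; rfl

variable {D} {S : Subgroup D}

/-- `star e (z, p) = (e z, χ e p)` -/
def starQ (χ : S →* Perm Pp) : S →* Perm (D × Pp) where
  toFun e := dQ D Pp e * jQ D (χ e)
  map_one' := by simp
  map_mul' a b := by
    rw [Subgroup.coe_mul, map_mul, map_mul, map_mul, mul_assoc, mul_assoc,
      ← mul_assoc (dQ D Pp b), ← mul_assoc (jQ D (χ a)), (comm_dQ_jQ D (b : D) (χ a)).eq]

@[simp] theorem starQ_apply (χ : S →* Perm Pp) (e : S) (z : D) (p : Pp) :
    starQ χ e (z, p) = ((e : D) * z, χ e p) := rfl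

theorem starQ_twist (χ : S →* Perm Pp) (e : S) :
    (dQ D Pp e)⁻¹ * starQ χ e = jQ D (χ e) := by
  change (dQ D Pp e)⁻¹ * (dQ D Pp e * jQ D (χ e)) = jQ D (χ e)
  rw [inv_mul_cancel_left]

end regular

/-! ### the set `Y(X)` and the letters -/

section act

variable {A H ι : Type} [Group H] {L : Subgroup H} {ε : FreeGroup (Option A) →* H}
  {Acc : Set (FreeGroup A)} {κ : FreeGroup A → FreeGroup A}
  (hW : WitOK L ε Acc) (hκ : ∀ w ∈ Acc, κ w = 1) (gen : FreeGroup ι →* H)
  (X : Type) [MulAction (FreeGroup A) X]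

/-- the action of `S` on `Q = D × P(X)` -/
noncomputable abbrev sQ : SG L ε →* Perm (DG L × P A X) := starQ (chiS X hW hκ)

/-- **`Y(X)`** -/
abbrev YY : Type := YQ (SG L ε) (sQ hW hκ X)

/-- the action of `D` on `Y(X)` -/
noncomputable abbrev dYY : DG L →* Perm (YY hW hκ X) :=
  dY (SG L ε) (dQ (DG L) (P A X)) (sQ hW hκ X)

/-- payload permutations on the sheet `inr 0` of `Y(X)` -/
noncomputable abbrev jYY : Perm (P A X) →* Perm (YY hW hκ X) :=
  (jY (SG L ε) (sQ hW hκ X)).comp (jQ (DG L))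

/-- the shift of `Y(X)` -/
noncomputable abbrev sYY : Perm (YY hW hκ X) := sh (SG L ε) (sQ hW hκ X)

theorem comm_dj (d : DG L) (j : Perm (P A X)) :
    Commute (dYY hW hκ X d) (jYY hW hκ X j) :=
  jY_comm _ _ _ _ _ (comm_dQ_jQ _ _ _)

theorem s_conj (e : SG L ε) :
    sYY hW hκ X * dYY hW hκ X e * (sYY hW hκ X)⁻¹ = dYY hW hκ X e * jYY hW hκ X (chiS X hW hκ e) := by
  have := sh_conj (SG L ε) (dQ (DG L) (P A X)) (sQ hW hκ X) e
  rw [starQ_twist] at this
  exact this

/-- the letters -/
noncomputable def lY : UL ι A → Perm (YY hW hκ X)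
  | UL.h i => dYY hW hκ X (hD L (gen (FreeGroup.of i)))
  | UL.k => dYY hW hκ X (kD L)
  | UL.s => sYY hW hκ X
  | UL.b a => jYY hW hκ X (bp A X (FreeGroup.of a))
  | UL.g a => jYY hW hκ X (ga A X (FreeGroup.of a))
  | UL.d => jYY hW hκ X (dd A X)

/-- **the action of `F(UL ι A)` on `Y(X)`** -/
noncomputable def actY : FreeGroup (UL ι A) →* Perm (YY hW hκ X) := FreeGroup.lift (lY hW hκ gen X)

@[simp] theorem actY_of (x : UL ι A) :
    actY hW hκ gen X (FreeGroup.of x) = lY hW hκ gen X x := by simp [actY]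

theorem actY_k : actY hW hκ gen X (FreeGroup.of UL.k) = dYY hW hκ X (kD L) := by simp [lY]

theorem actY_s : actY hW hκ gen X (FreeGroup.of UL.s) = sYY hW hκ X := by simp [lY]

theorem actY_d : actY hW hκ gen X (FreeGroup.of UL.d) = jYY hW hκ X (dd A X) := by simp [lY]

theorem actY_hw (w : FreeGroup ι) : actY hW hκ gen X (hw w) = dYY hW hκ X (hD L (gen w)) := by
  have : (actY hW hκ gen X).comp hw = ((dYY hW hκ X).comp (hD L)).comp gen := by
    ext1 i
    rw [MonoidHom.comp_apply, hw_of, actY_of]; rfl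
  exact congrArg (fun f : FreeGroup ι →* _ => f w) this

theorem actY_bw (w : FreeGroup A) : actY hW hκ gen X (bw w) = jYY hW hκ X (bp A X w) := by
  have : (actY hW hκ gen X).comp bw = (jYY hW hκ X).comp (bp A X) := by
    ext1 i
    rw [MonoidHom.comp_apply, bw_of, actY_of]; rfl
  exact congrArg (fun f : FreeGroup A →* _ => f w) this

theorem actY_gw (w : FreeGroup A) : actY hW hκ gen X (gw w) = jYY hW hκ X (ga A X w) := by
  have : (actY hW hκ gen X).comp gw = (jYY hW hκ X).comp (ga A X) := by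
    ext1 i
    rw [MonoidHom.comp_apply, gw_of, actY_of]; rfl
  exact congrArg (fun f : FreeGroup A →* _ => f w) this

theorem actY_aw (w : FreeGroup A) : actY hW hκ gen X (aw w) = jYY hW hκ X (al A X w) := by
  have : (actY hW hκ gen X).comp aw = (jYY hW hκ X).comp (al A X) := by
    ext1 i
    rw [MonoidHom.comp_apply, aw_of, map_mul, map_mul, map_mul, map_inv, map_inv, actY_gw,
      actY_d, ← map_inv, ← map_inv, ← map_mul, ← map_mul, ← map_mul, dd_ga, mul_inv_cancel_right]
    rfl
  exact congrArg (fun f : FreeGroup A →* _ => f w) this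

/-! ### the relations -/

variable {X} in
/-- the relations of `J` and the commutation of `D` with `J` hold for every `X` -/
theorem actY_dj (x : Option ι) (y : Option (A ⊕ A)) :
    Commute (actY hW hκ gen X (dl x)) (actY hW hκ gen X (jl y)) := by
  rcases x with _ | i
  · rcases y with _ | a | a
    · rw [dl, jl, actY_of, actY_of]; exact comm_dj hW hκ X _ _
    · rw [dl, jl, actY_of, actY_of]; exact comm_dj hW hκ X _ _
    · rw [dl, jl, actY_of, actY_of]; exact comm_dj hW hκ X _ _
  · rcases y with _ | a | a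
    · rw [dl, jl, actY_of, actY_of]; exact comm_dj hW hκ X _ _
    · rw [dl, jl, actY_of, actY_of]; exact comm_dj hW hκ X _ _
    · rw [dl, jl, actY_of, actY_of]; exact comm_dj hW hκ X _ _

theorem actY_s_e (e : FreeGroup (Option A)) (w : FreeGroup ι) (hw' : gen w = ε e) :
    actY hW hκ gen X sw * actY hW hκ gen X (hw w) * (actY hW hκ gen X sw)⁻¹ =
      actY hW hκ gen X (hw w) * jYY hW hκ X (chiK A X κ e) := by
  rw [actY_s, actY_hw, hw']
  have := s_conj hW hκ X (eS L ε e)
  rw [chiS_e] at this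
  exact this

theorem actY_s_e' (e : FreeGroup (Option A)) (w : FreeGroup ι) (hw' : gen w = ε e) :
    actY hW hκ gen X sw * (actY hW hκ gen X kw * actY hW hκ gen X (hw w) *
      (actY hW hκ gen X kw)⁻¹) * (actY hW hκ gen X sw)⁻¹ =
      (actY hW hκ gen X kw * actY hW hκ gen X (hw w) * (actY hW hκ gen X kw)⁻¹) *
        jYY hW hκ X (chi' A X e) := by
  rw [actY_s, actY_hw, hw', actY_k, ← map_inv, ← map_mul, ← map_mul]
  have := s_conj hW hκ X (eS' L ε e)
  rw [chiS_e'] at this
  exact this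

/-- **the honest case** -/
theorem relOK_actY (W : WitFP L ε Acc ι) (hX : ∀ (g : FreeGroup A) (x : X), κ g • x = g • x) :
    RelOK W (actY hW hκ W.gen X) where
  rel r hr := by
    rw [actY_hw, W.rels_true r hr, map_one, map_one]
  kL w hw' := by
    rw [actY_k, actY_hw]
    exact (comm_kD L (W.Lw_mem w hw')).map (dYY hW hκ X)
  dj x y := actY_dj hW hκ W.gen x y
  bg a a' := by
    rw [actY_bw, actY_gw]
    exact (comm_bp_ga A X _ _).map (jYY hW hκ X)
  ag a a' := by
    rw [actY_aw, actY_gw]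
    exact (comm_al_ga A X _ _).map (jYY hW hκ X)
  s1 a := by
    rw [actY_s_e hW hκ W.gen X (FreeGroup.of (some a)) _ (W.hθ _), chiK_eq_chi A X hX,
      actY_bw, actY_gw, ← map_mul]
    have := chi_pi A X (FreeGroup.of a)
    rw [piw, FreeGroup.map.of] at this
    rw [this]
  s2 a := by
    rw [actY_s_e' hW hκ W.gen X (FreeGroup.of (some a)) _ (W.hθ _), actY_bw]
    have := chi'_pi A X (FreeGroup.of a)
    rw [piw, FreeGroup.map.of] at this
    rw [this]
  s3 := by
    rw [actY_s_e hW hκ W.gen X tt _ (W.hθ _), chiK_eq_chi A X hX, chi_t, actY_d]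
  s4 := by
    rw [actY_s_e' hW hκ W.gen X tt _ (W.hθ _), chi'_t, actY_d]

/-! ### the base points -/

/-- the base point over `x` -/
def th (x : X) : YY hW hκ X := Sum.inr (0, (1, (1, 0, x)))

theorem th_inj : Function.Injective (th hW hκ X) := by
  intro x y h
  have h1 := Sum.inr.inj h
  simpa using h1

theorem actY_aw_th (w : FreeGroup A) (x : X) :
    actY hW hκ gen X (aw w) (th hW hκ X x) = th hW hκ X (w • x) := by
  rw [actY_aw]
  change jY (SG L ε) (sQ hW hκ X) (jQ (DG L) (al A X w)) (Sum.inr (0, (1, (1, 0, x)))) =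
    Sum.inr (0, (1, (1, 0, w • x)))
  rw [jY_zero, jQ_apply, al_apply_one]

end act

/-! ### functoriality -/

section functor

variable {A H ι : Type} [Group H] {L : Subgroup H} {ε : FreeGroup (Option A) →* H}
  {Acc : Set (FreeGroup A)} {κ : FreeGroup A → FreeGroup A}
  (hW : WitOK L ε Acc) (hκ : ∀ w ∈ Acc, κ w = 1) (gen : FreeGroup ι →* H)
  {X X' : Type} [MulAction (FreeGroup A) X] [MulAction (FreeGroup A) X']
  {f : X → X'} (hf : ∀ (w : FreeGroup A) x, f (w • x) = w • f x)

/-- the induced map on `Q` -/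
def mapQ (D A : Type) {X X' : Type} (f : X → X') : D × P A X → D × P A X' :=
  Prod.map id (mapP A f)

theorem mapQ_inj (D A : Type) {X X' : Type} {f : X → X'} (hf : Function.Injective f) :
    Function.Injective (mapQ D A f) := Function.Injective.prodMap Function.injective_id (mapP_inj hf)

include hf in
theorem mapQ_star (e : SG L ε) (q : DG L × P A X) :
    mapQ (DG L) A f (sQ hW hκ X e q) = sQ hW hκ X' e (mapQ (DG L) A f q) := by
  obtain ⟨z, p⟩ := q
  change ((e : DG L) * z, mapP A f (chiS X hW hκ e p)) = ((e : DG L) * z, chiS X' hW hκ e (mapP A f p))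
  rw [mapP_chiS hW hκ hf]

/-- the induced map on `Y(X)` -/
noncomputable def mapYY : YY hW hκ X → YY hW hκ X' := mapY (mapQ (DG L) A f) (mapQ_star hW hκ hf)

theorem mapYY_inj (hi : Function.Injective f) : Function.Injective (mapYY hW hκ hf) :=
  mapY_inj _ (mapQ_inj _ _ hi)

theorem mapYY_d (d : DG L) (y : YY hW hκ X) :
    mapYY hW hκ hf (dYY hW hκ X d y) = dYY hW hκ X' d (mapYY hW hκ hf y) :=
  mapY_d _ (fun _ _ => rfl) d y

theorem mapYY_j (j : Perm (P A X)) (j' : Perm (P A X')) (h : ∀ p, mapP A f (j p) = j' (mapP A f p))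
    (y : YY hW hκ X) :
    mapYY hW hκ hf (jYY hW hκ X j y) = jYY hW hκ X' j' (mapYY hW hκ hf y) := by
  refine mapY_j _ _ _ ?_ y
  rintro ⟨z, p⟩
  change (z, mapP A f (j p)) = (z, j' (mapP A f p))
  rw [h]

theorem mapYY_s (y : YY hW hκ X) :
    mapYY hW hκ hf (sYY hW hκ X y) = sYY hW hκ X' (mapYY hW hκ hf y) := mapY_sh _ y

/-- **functoriality** -/
theorem mapYY_actY (w : FreeGroup (UL ι A)) (y : YY hW hκ X) :
    mapYY hW hκ hf (actY hW hκ gen X w y) = actY hW hκ gen X' w (mapYY hW hκ hf y) := by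
  refine free_intertwine ?_ w y
  rintro (i | _ | _ | a | a | _) y
  · rw [actY_of, actY_of]; exact mapYY_d hW hκ hf _ y
  · rw [actY_of, actY_of]; exact mapYY_d hW hκ hf _ y
  · rw [actY_of, actY_of]; exact mapYY_s hW hκ hf y
  · rw [actY_of, actY_of]; exact mapYY_j hW hκ hf _ _ (mapP_bp f _) y
  · rw [actY_of, actY_of]; exact mapYY_j hW hκ hf _ _ (mapP_ga hf _) y
  · rw [actY_of, actY_of]; exact mapYY_j hW hκ hf _ _ (mapP_dd f) y

theorem mapYY_th (x : X) : mapYY hW hκ hf (th hW hκ X x) = th hW hκ X' (f x) := rfl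

end functor

end Crest.Agent.R185.Md191E
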