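import Crest.Agent.R185.Asm2
import Crest.Agent.R185.Md191E

/-!
# R185 / ASSEMBLY (3): from the model `YY` over `X = FreeGroup A ⧸ S` to a core (helper958)

The machine alphabet is `A' = Option (A × Bool)`; `strip : FreeGroup A' →* FreeGroup A`.
-/

set_option autoImplicit false
set_option linter.unusedSectionVars false
set_option linter.style.haveILetI false

namespace Crest.Agent.R185.Asm

open Crest.Agent.R185.Wu Crest.Agent.R185.Hot Crest.Agent.R185.Smp
open Crest.Agent.R185.Md191A Crest.Agent.R185.Md191B Crest.Agent.R185.Md191C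
  Crest.Agent.R185.Md191D Crest.Agent.R185.Md191E

/-! ### the alphabets -/

/-- `none ↦ 1`, `some (a, true) ↦ a`, `some (a, false) ↦ a⁻¹` -/
def strip (A : Type) : FreeGroup (Option (A × Bool)) →* FreeGroup A :=
  FreeGroup.lift fun o => o.elim 1 (fun p => FreeGroup.mk [p])

@[simp] theorem strip_none (A : Type) : strip A (FreeGroup.of none) = 1 := by simp [strip]

@[simp] theorem strip_some {A : Type} (p : A × Bool) :
    strip A (FreeGroup.of (some p)) = FreeGroup.mk [p] := by simp [strip]

/-- the positive lift -/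
def posl (A : Type) : FreeGroup A →* FreeGroup (Option (A × Bool)) :=
  FreeGroup.map fun a => some (a, true)

@[simp] theorem posl_of {A : Type} (a : A) :
    posl A (FreeGroup.of a) = FreeGroup.of (some (a, true)) := by simp [posl]

@[simp] theorem strip_posl {A : Type} (w : FreeGroup A) : strip A (posl A w) = w := by
  have : (strip A).comp (posl A) = MonoidHom.id _ := by
    ext1 a
    rw [MonoidHom.comp_apply, posl_of, strip_some]; rfl
  exact congrArg (fun f : FreeGroup A →* _ => f w) this

/-- stripping a positive word -/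
theorem strip_mk {A : Type} (w : List (Option (A × Bool))) :
    strip A (FreeGroup.mk (w.map fun a => (a, true))) = FreeGroup.mk (w.filterMap id) := by
  induction w with
  | nil => simp [← FreeGroup.one_eq_mk]
  | cons o w ih =>
    have h1 : (FreeGroup.mk ((o :: w).map fun a => (a, true)) : FreeGroup (Option (A × Bool))) =
        FreeGroup.of o * FreeGroup.mk (w.map fun a => (a, true)) := by
      rw [FreeGroup.of, FreeGroup.mul_mk]; rfl
    rw [h1, map_mul, ih]
    rcases o with _ | p
    · simp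
    · rw [strip_some, FreeGroup.mul_mk]
      simp

section model

variable {A ι H : Type} [Group H] {L : Subgroup H}
  {ε : FreeGroup (Option (Option (A × Bool))) →* H}
  {Acc' : Set (FreeGroup (Option (A × Bool)))}
  {κ : FreeGroup (Option (A × Bool)) → FreeGroup (Option (A × Bool))}

/-- the machine alphabet acts on an `F(A)`-set -/
abbrev actS (A X : Type) [MulAction (FreeGroup A) X] :
    MulAction (FreeGroup (Option (A × Bool))) X := MulAction.compHom X (strip A)

/-! ### the finitely presented group with the additional relators -/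

/-- the additional relators -/
def RX (W : WitFP L ε Acc' ι) : Set (EP W) :=
  {alE W (FreeGroup.of none)} ∪
    Set.range (fun a : A => alE W (FreeGroup.of (some (a, true))) *
      alE W (FreeGroup.of (some (a, false))))

/-- the finitely presented group -/
abbrev EX (W : WitFP L ε Acc' ι) : Type := EP W ⧸ Subgroup.normalClosure (RX W)

theorem RX_finite [Finite A] (W : WitFP L ε Acc' ι) : (RX W).Finite :=
  (Set.finite_singleton _).union (Set.finite_range _)

theorem EX_fp [Finite ι] [Finite A] (W : WitFP L ε Acc' ι) :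
    Group.IsFinitelyPresented (EX W) := by
  have := EP_fp W
  exact Group.IsFinitelyPresented.quotient (Subgroup.normalClosure (RX W))
    ⟨RX W, RX_finite W, rfl⟩

/-- the projection -/
def prX (W : WitFP L ε Acc' ι) : FreeGroup (UL ι (Option (A × Bool))) →* EX W :=
  (QuotientGroup.mk' _).comp (prE W)

theorem prX_surj (W : WitFP L ε Acc' ι) : Function.Surjective (prX W) := by
  intro x
  obtain ⟨y, rfl⟩ := QuotientGroup.mk_surjective x
  obtain ⟨z, rfl⟩ := PresentedGroup.mk_surjective _ y
  exact ⟨z, rfl⟩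

/-- the letters of `EX` -/
def ulX (W : WitFP L ε Acc' ι) (a : UL ι (Option (A × Bool))) : EX W := prX W (FreeGroup.of a)

theorem closure_ulX (W : WitFP L ε Acc' ι) : Subgroup.closure (Set.range (ulX W)) = ⊤ := by
  rw [eq_top_iff]
  intro x hx
  clear hx
  obtain ⟨y, rfl⟩ := prX_surj W x
  induction y using FreeGroup.induction_on with
  | C1 => rw [map_one]; exact one_mem _
  | of a => exact Subgroup.subset_closure ⟨a, rfl⟩
  | inv_of a ih => rw [map_inv]; exact inv_mem ih
  | mul u v hu hv => rw [map_mul]; exact mul_mem hu hv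

/-- `α` on the machine alphabet -/
def alX' (W : WitFP L ε Acc' ι) : FreeGroup (Option (A × Bool)) →* EX W :=
  (QuotientGroup.mk' _).comp (alE W)

/-- `α` -/
def alX (W : WitFP L ε Acc' ι) : FreeGroup A →* EX W := (alX' W).comp (posl A)

theorem alX_strip (W : WitFP L ε Acc' ι) (w : FreeGroup (Option (A × Bool))) :
    alX W (strip A w) = alX' W w := by
  have : (alX W).comp (strip A) = alX' W := by
    ext1 o
    rw [MonoidHom.comp_apply]
    rcases o with _ | ⟨a, _ | _⟩
    · rw [strip_none, map_one]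
      symm
      change ((alE W (FreeGroup.of none) : EP W) : EX W) = 1
      rw [QuotientGroup.eq_one_iff]
      exact Subgroup.subset_normalClosure (Or.inl rfl)
    · rw [strip_some]
      have h1 : (FreeGroup.mk [(a, false)] : FreeGroup A) = (FreeGroup.of a)⁻¹ := rfl
      rw [h1, map_inv]
      change (((alE W (posl A (FreeGroup.of a)) : EP W) : EX W))⁻¹ = _
      rw [posl_of, inv_eq_iff_mul_eq_one]
      change ((alE W (FreeGroup.of (some (a, true))) : EP W) : EX W) *
        ((alE W (FreeGroup.of (some (a, false))) : EP W) : EX W) = 1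
      rw [← QuotientGroup.mk_mul, QuotientGroup.eq_one_iff]
      exact Subgroup.subset_normalClosure (Or.inr ⟨a, rfl⟩)
    · rw [strip_some]
      change ((alE W (posl A (FreeGroup.of a)) : EP W) : EX W) = _
      rw [posl_of]; rfl
  exact congrArg (fun f : FreeGroup (Option (A × Bool)) →* _ => f w) this

theorem alX_one (W : WitFP L ε Acc' ι) {w : FreeGroup (Option (A × Bool))} (hw : w ∈ Acc') :
    alX W (strip A w) = 1 := by
  rw [alX_strip]
  change ((alE W w : EP W) : EX W) = 1
  rw [alE_one W hw]; rfl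

/-! ### the action on the model -/

section act

variable (W : WitFP L ε Acc' ι) (hW : WitOK L ε Acc') (hκ : ∀ w ∈ Acc', κ w = 1)
  (S : Subgroup (FreeGroup A))

/-- the set `X = F(A) ⧸ S` with the action of the machine alphabet -/
abbrev XS (S : Subgroup (FreeGroup A)) : Type := FreeGroup A ⧸ S

/-- the base point of `XS` -/
abbrev xS (S : Subgroup (FreeGroup A)) : XS S := ((1 : FreeGroup A) : FreeGroup A ⧸ S)

theorem smul_xS {w : FreeGroup A} : w • xS S = xS S ↔ w ∈ S := by
  change ((w * 1 : FreeGroup A) : FreeGroup A ⧸ S) = ((1 : FreeGroup A) : FreeGroup A ⧸ S) ↔ _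
  rw [mul_one, eq_comm, QuotientGroup.eq]
  simp

/-- the set `Y(X)` -/
abbrev YS : Type := @YY (Option (A × Bool)) H _ L ε Acc' κ hW hκ (XS S) (actS A (XS S))

/-- the letters on `Y(X)` -/
noncomputable def lYS : UL ι (Option (A × Bool)) → Equiv.Perm (YS hW hκ S) :=
  letI := actS A (XS S)
  lY hW hκ W.gen (XS S)

/-- the action on `Y(X)` -/
noncomputable def aYS : FreeGroup (UL ι (Option (A × Bool))) →* Equiv.Perm (YS hW hκ S) :=
  letI := actS A (XS S)
  actY hW hκ W.gen (XS S)

theorem aYS_eq : aYS W hW hκ S = FreeGroup.lift (lYS W hW hκ S) := rfl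

/-- the base point of `Y(X)` -/
def yS : YS hW hκ S :=
  letI := actS A (XS S)
  Md191E.th hW hκ (XS S) (xS S)

theorem aYS_aw (w : FreeGroup (Option (A × Bool))) :
    aYS W hW hκ S (aw w) (yS hW hκ S) = yS hW hκ S ↔ strip A w ∈ S := by
  letI := actS A (XS S)
  have h1 : aYS W hW hκ S (aw w) (yS hW hκ S) = Md191E.th hW hκ (XS S) (w • xS S) :=
    actY_aw_th hW hκ W.gen (XS S) w (xS S)
  rw [h1]
  change Md191E.th hW hκ (XS S) (w • xS S) = Md191E.th hW hκ (XS S) (xS S) ↔ _
  rw [(Md191E.th_inj hW hκ (XS S)).eq_iff]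
  exact smul_xS S

/-- the honest case: the relations hold -/
theorem relOK_S (hκ' : ∀ g, κ g = g ∨ (g ∈ Acc' ∧ κ g = 1))
    (hS : ∀ w ∈ Acc', ∀ v : FreeGroup A, v⁻¹ * strip A w * v ∈ S) :
    RelOK W (aYS W hW hκ S) := by
  letI := actS A (XS S)
  refine relOK_actY hW hκ (XS S) W ?_
  intro g x
  rcases hκ' g with h | ⟨h, h'⟩
  · rw [h]
  · rw [h', one_smul]
    obtain ⟨v, rfl⟩ := QuotientGroup.mk_surjective x
    change ((v : FreeGroup A) : FreeGroup A ⧸ S) = ((strip A g * v : FreeGroup A) : FreeGroup A ⧸ S)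
    rw [QuotientGroup.eq, ← mul_assoc]
    exact hS g h v

section hom

variable (hκ' : ∀ g, κ g = g ∨ (g ∈ Acc' ∧ κ g = 1))
  (hS : ∀ w ∈ Acc', ∀ v : FreeGroup A, v⁻¹ * strip A w * v ∈ S)

/-- `EP` acts on `Y(X)` -/
noncomputable def hE : EP W →* Equiv.Perm (YS hW hκ S) :=
  liftE W (aYS W hW hκ S) (relOK_S W hW hκ S hκ' hS)

theorem hE_prE (x : FreeGroup (UL ι (Option (A × Bool)))) :
    hE W hW hκ S hκ' hS (prE W x) = aYS W hW hκ S x := liftE_prE _ _ _ _

theorem hE_al (w : FreeGroup (Option (A × Bool))) :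
    letI := actS A (XS S)
    hE W hW hκ S hκ' hS (alE W w) = jYY hW hκ (XS S) (al (Option (A × Bool)) (XS S) w) := by
  letI := actS A (XS S)
  exact (hE_prE W hW hκ S hκ' hS (aw w)).trans (actY_aw hW hκ W.gen (XS S) w)

theorem al_strip {w : FreeGroup (Option (A × Bool))} (hw : strip A w = 1) :
    letI := actS A (XS S)
    al (Option (A × Bool)) (XS S) w = 1 := by
  letI := actS A (XS S)
  classical
  apply Equiv.ext
  rintro ⟨g, n, x⟩
  rw [al_eq, lab_apply]
  have h1 : ∀ y : XS S, w • y = y := by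
    intro y
    change strip A w • y = y
    rw [hw, one_smul]
  by_cases h : g = 1 ∧ n = 0
  · rw [if_pos h, h1]; rfl
  · rw [if_neg h, one_smul]; rfl

theorem hE_RX (x : EP W) (hx : x ∈ Subgroup.normalClosure (RX W)) :
    hE W hW hκ S hκ' hS x = 1 := by
  letI := actS A (XS S)
  have h : Subgroup.normalClosure (RX W) ≤ (hE W hW hκ S hκ' hS).ker := by
    apply Subgroup.normalClosure_le_normal
    rintro x (rfl | ⟨a, rfl⟩)
    · rw [SetLike.mem_coe, MonoidHom.mem_ker, hE_al, al_strip S (by simp), map_one]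
    · rw [SetLike.mem_coe, MonoidHom.mem_ker]
      change hE W hW hκ S hκ' hS (alE W (FreeGroup.of (some (a, true))) *
        alE W (FreeGroup.of (some (a, false)))) = 1
      rw [← map_mul (alE W), hE_al, al_strip S (by
        rw [map_mul, strip_some, strip_some, FreeGroup.mul_mk]
        have : (FreeGroup.mk ([(a, true)] ++ [(a, false)]) : FreeGroup A) =
          FreeGroup.of a * (FreeGroup.of a)⁻¹ := rfl
        rw [this, mul_inv_cancel]), map_one]
  exact MonoidHom.mem_ker.1 (h hx)

/-- `EX` acts on `Y(X)` -/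
noncomputable def hX : EX W →* Equiv.Perm (YS hW hκ S) :=
  QuotientGroup.lift _ (hE W hW hκ S hκ' hS) (hE_RX W hW hκ S hκ' hS)

theorem hX_prX (x : FreeGroup (UL ι (Option (A × Bool)))) :
    hX W hW hκ S hκ' hS (prX W x) = aYS W hW hκ S x := hE_prE W hW hκ S hκ' hS x

end hom

/-- **from the model to a core** -/
theorem core_of_model {G B : Type} [Group G] [Finite A] [Finite ι] {e : B → G}
    (he : Subgroup.closure (Set.range e) = ⊤)
    (hκ' : ∀ g, κ g = g ∨ (g ∈ Acc' ∧ κ g = 1))
    (hS : ∀ w ∈ Acc', ∀ v : FreeGroup A, v⁻¹ * strip A w * v ∈ S)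
    (hS' : ∀ w : FreeGroup A, (∀ v, v⁻¹ * w * v ∈ S) → ∃ w' ∈ Acc', strip A w' = w)
    (kw : FreeGroup (KLet (UL ι (Option (A × Bool))) B) →* FreeGroup A)
    (c1 : ∀ w, kw0 e (yS hW hκ S) (lYS W hW hκ S) w (pts G _ 0) = pts G _ 0 ↔ kw w ∈ S)
    (c2 : ∀ w, (∀ v, kw0 e (yS hW hκ S) (lYS W hW hκ S) (v⁻¹ * w * v) (pts G _ 0) = pts G _ 0) →
      ∀ v : FreeGroup A, v⁻¹ * kw w * v ∈ S) : Nonempty (Core G) := by
  letI : MulAction (EX W) (YS hW hκ S) :=
    MulAction.compHom (YS hW hκ S) (hX W hW hκ S hκ' hS)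
  have hpE : pE (Y := YS hW hκ S) (ulX W) = lYS W hW hκ S := by
    funext a
    apply Equiv.ext
    intro y
    change hX W hW hκ S hκ' hS (prX W (FreeGroup.of a)) y = _
    rw [hX_prX, aYS_eq, FreeGroup.lift_apply_of]
  have hkf : ∀ w, kf e (yS hW hκ S) (ulX W) w = kw0 e (yS hW hκ S) (lYS W hW hκ S) w := by
    intro w
    rw [kf_eq, hpE]
  refine core_of_guard (e := e) (EX_fp W) (closure_ulX W) he (yS hW hκ S) S kw (alX W) ?_ ?_ ?_ ?_
  · intro w
    rw [hkf]
    exact c1 w
  · intro w hw
    apply c2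
    intro v
    rw [← hkf]
    exact hw v
  · intro w hw
    obtain ⟨w', h1, rfl⟩ := hS' w hw
    exact alX_one W h1
  · intro w
    have h1 : alX W w = prX W (aw (posl A w)) := rfl
    change hX W hW hκ S hκ' hS (alX W w) (yS hW hκ S) = yS hW hκ S ↔ _
    rw [h1, hX_prX, aYS_aw, strip_posl]

end act

end model

end Crest.Agent.R185.Asm
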