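import Crest.Agent.R185.Wit3
import Mathlib.Algebra.Order.Ring.Abs
import Mathlib.Algebra.Order.Group.Unbundled.Int
import Mathlib.Tactic.Positivity

/-!
# R185, block WIT, part 4: start points, acceptance, and (STAR)
-/

set_option autoImplicit false
set_option linter.unusedSectionVars false

namespace Crest.Agent.R185.Wit

variable {R A : Type} [DecidableEq R] [DecidableEq A] (W : WS R A)

/-- the start point of a word -/
def pt (L : List (A × Bool)) : Om W.toSys := st W (FreeGroup.mk L)

theorem pt_nil : pt W [] = cfg (S := W.toSys) W.qin W.tx := by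
  have : (FreeGroup.mk [] : FreeGroup A) = 1 := rfl
  simp [pt, st, this]

theorem mk_cons' (x : A × Bool) (L : List (A × Bool)) :
    (FreeGroup.mk (x :: L) : FreeGroup A) = FreeGroup.mk [x] * FreeGroup.mk L := by
  rw [FreeGroup.mul_mk]; rfl

theorem pt_true (x : A) (L : List (A × Bool)) :
    pt W ((x, true) :: L) = (lperm (S := W.toSys) (.inr x))⁻¹ (pt W L) := by
  have h2 : (FreeGroup.mk [(x, true)] : FreeGroup A) = FreeGroup.of x := rfl
  rw [pt, mk_cons', st_mul, h2, ip_of, map_inv, act_my]
  rfl

theorem pt_false (x : A) (L : List (A × Bool)) :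
    pt W ((x, false) :: L) = lperm (S := W.toSys) (.inr x) (pt W L) := by
  have h2 : (FreeGroup.mk [(x, false)] : FreeGroup A) = (FreeGroup.of x)⁻¹ := rfl
  rw [pt, mk_cons', st_mul, h2, map_inv, ip_of, inv_inv, act_my]
  rfl

/-- all exponents positive -/
def Pos (L : List (A × Bool)) : Prop := ∀ x ∈ L, x.2 = true

theorem pos_cons {x : A × Bool} {L : List (A × Bool)} : Pos (x :: L) ↔ x.2 = true ∧ Pos L := by
  simp [Pos]

theorem pt_pos {L : List (A × Bool)} (h : Pos L) :
    pt W L = cfg (S := W.toSys) W.qin (code W (L.map Prod.fst)) := by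
  induction L with
  | nil => rw [pt_nil]; rfl
  | cons x L ih =>
    obtain ⟨x, e⟩ := x
    obtain ⟨h1, h2⟩ := pos_cons.1 h
    simp only at h1
    subst h1
    rw [pt_true, ih h2]
    have := lperm_cfg (S := W.toSys) (.inr x) (code W (L.map Prod.fst))
    rw [show (code W (L.map Prod.fst)) = (code W (L.map Prod.fst)) from rfl] at this
    have h3 : cfg (S := W.toSys) W.qin (code W (L.map Prod.fst)) =
        lperm (S := W.toSys) (.inr x) (cfg (S := W.toSys) W.qin
          (code W (((x, true) :: L).map Prod.fst))) := this.symm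
    rw [h3]
    exact Equiv.symm_apply_apply _ _

theorem codeI_cons (x : A) (L : List A) :
    code W (x :: L) W.I = W.b * code W L W.I + W.a (.inr x) W.I := by
  simp only [code, Pi.add_apply, mulB]
  rw [W.BA]

theorem codeI_nonneg (L : List A) : 0 ≤ code W L W.I := by
  induction L with
  | nil => exact W.tx_I.ge
  | cons x L ih =>
    rw [codeI_cons]
    have := W.aI_pos x
    have := W.hb
    positivity

theorem pow_le_codeI {L : List A} (h : L ≠ []) : W.b ^ L.length ≤ W.b * code W L W.I := by
  have hb := W.hb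
  induction L with
  | nil => exact absurd rfl h
  | cons x L ih =>
    rw [codeI_cons, List.length_cons, pow_succ, mul_comm]
    have h1 := W.aI_pos x
    apply mul_le_mul_of_nonneg_left _ (by omega)
    rcases L with _ | ⟨y, L⟩
    · simp only [List.length_nil, pow_zero]
      have := codeI_nonneg W []
      nlinarith
    · have := ih (by simp)
      linarith

theorem code_res_ne {x : A} {L : List (A × Bool)} (h : Pos L)
    (hr : FreeGroup.IsReduced ((x, false) :: L)) :
    res (S := W.toSys) (.inr x) (code W (L.map Prod.fst)) ≠ W.a (.inr x) := by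
  intro he
  have h1 := congrFun he W.I
  have hb := W.hb
  simp only [res] at h1
  rw [W.BA] at h1
  cases L with
  | nil =>
    simp only [List.map_nil, code] at h1
    have := W.aI_pos x
    rw [W.tx_I, Int.zero_emod] at h1
    omega
  | cons y L =>
    obtain ⟨y, e⟩ := y
    rw [FreeGroup.isReduced_cons_cons] at hr
    have hy := (pos_cons.1 h).1
    simp only at hy
    subst hy
    rw [List.map_cons, codeI_cons, Int.add_comm, Int.add_mul_emod_self_left,
      Int.emod_eq_of_lt (W.a_nonneg _ _) (by have := W.a_lt (.inr y) W.I; rw [W.BA] at this; exact this)]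
      at h1
    have := W.aI_inj _ _ h1
    subst this
    exact absurd (hr.1 rfl) (by simp)

/-- head condition -/
def Hd : List (A × Bool) → Tm W.toSys → Prop
  | [], _ => False
  | (x, false) :: _, s => ∃ e s1, s = .fwd (.inr x) e s1
  | (x, true) :: _, s => ∃ s1, s = .bwd (.inr x) s1

theorem pt_neg {L : List (A × Bool)} (hr : FreeGroup.IsReduced L) (hp : ¬ Pos L) :
    ∃ v : List A, len (pt W L).2.1 + v.length = L.length ∧
      rt (pt W L) = (some W.qin, code W v) ∧ ab (pt W L) = len (pt W L).2.1 ∧
      len (pt W L).2.1 ≠ 0 ∧ Hd W L (pt W L).2.1 := by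
  induction L with
  | nil => exact absurd (by simp [Pos]) hp
  | cons x L ih =>
    obtain ⟨x, e⟩ := x
    have hr' : FreeGroup.IsReduced L := hr.infix ⟨[(x, e)], [], by simp⟩
    by_cases hL : Pos L
    · have he : e = false := by
        cases e with
        | false => rfl
        | true => exact absurd (pos_cons.2 ⟨rfl, hL⟩) hp
      subst he
      refine ⟨L.map Prod.fst, ?_⟩
      have h1 := code_res_ne W hL hr
      have h2 : (lperm (S := W.toSys) (.inr x) (cfg (S := W.toSys) W.qin
          (code W (L.map Prod.fst)))).2.1 =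
          .fwd (.inr x) (res (S := W.toSys) (.inr x) (code W (L.map Prod.fst)))
            (.base (some W.qin)) := by
        simp only [lperm_apply, cfg, fs]
        rw [if_neg]
        rintro ⟨-, h3⟩
        exact h1 h3
      rw [pt_false, pt_pos W hL]
      refine ⟨?_, ?_, ?_, ?_, ?_⟩
      · rw [h2]; simp [len]; omega
      · rw [rt, h2]
        change (some W.qin, mulB (S := W.toSys) (Sum.inr x)
          (quo (S := W.toSys) (Sum.inr x) (code W (List.map Prod.fst L))) +
          res (S := W.toSys) (Sum.inr x) (code W (List.map Prod.fst L))) = _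
        rw [mulB_quo_add_res]
      · rw [ab, h2]; rfl
      · rw [h2]; simp [len]
      · rw [h2]; exact ⟨_, _, rfl⟩
    · obtain ⟨v, h1, h2, h3, h4, h5⟩ := ih hr' hL
      refine ⟨v, ?_⟩
      generalize hω : pt W L = ω at *
      obtain ⟨c, s, hs⟩ := ω
      simp only at h1 h2 h3 h4 h5
      cases e with
      | false =>
        have h6 : fs (S := W.toSys) (.inr x) (res (S := W.toSys) (.inr x) c) s =
            .fwd (.inr x) (res (S := W.toSys) (.inr x) c) s := by
          cases s with
          | base q => exact absurd rfl h4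
          | fwd l' e' s' => rfl
          | bwd l' s' =>
            simp only [fs]
            rw [if_neg]
            rintro ⟨rfl, -⟩
            rcases L with _ | ⟨⟨y, e⟩, L⟩
            · exact h5
            · cases e with
              | false => obtain ⟨_, _, h⟩ := h5; exact absurd h (by simp)
              | true =>
                obtain ⟨s1, h⟩ := h5
                simp only [Tm.bwd.injEq, Sum.inr.injEq] at h
                rw [FreeGroup.isReduced_cons_cons] at hr
                exact absurd (hr.1 h.1) (by simp)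
        rw [pt_false, hω]
        have h7 : (lperm (S := W.toSys) (.inr x) (c, ⟨s, hs⟩)).2.1 =
            .fwd (.inr x) (res (S := W.toSys) (.inr x) c) s := h6
        refine ⟨?_, ?_, ?_, ?_, ?_⟩
        · rw [h7]; simp only [len, List.length_cons]; omega
        · rw [rt, h7]
          change root (mulB (S := W.toSys) (Sum.inr x) (quo (S := W.toSys) (Sum.inr x) c) +
            res (S := W.toSys) (Sum.inr x) c) s = _
          rw [mulB_quo_add_res]
          exact h2
        · rw [ab, h7]; rfl
        · rw [h7]; simp [len]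
        · rw [h7]; exact ⟨_, _, rfl⟩
      | true =>
        have h6 : bs (S := W.toSys) (.inr x) s = (0, .bwd (.inr x) s) := by
          cases s with
          | base q => exact absurd rfl h4
          | fwd l' e' s' =>
            simp only [bs]
            rw [if_neg]
            rintro rfl
            rcases L with _ | ⟨⟨y, e⟩, L⟩
            · exact h5
            · cases e with
              | true => obtain ⟨_, h⟩ := h5; exact absurd h (by simp)
              | false =>
                obtain ⟨e1, s1, h⟩ := h5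
                simp only [Tm.fwd.injEq, Sum.inr.injEq] at h
                rw [FreeGroup.isReduced_cons_cons] at hr
                exact absurd (hr.1 h.1) (by simp)
          | bwd l' s' => rfl
        rw [pt_true, hω]
        have h7 : ((lperm (S := W.toSys) (.inr x))⁻¹ (c, ⟨s, hs⟩)).2.1 =
            .bwd (.inr x) s := by
          rw [lperm_symm_apply]
          simp only [h6]
        have h8 : ((lperm (S := W.toSys) (.inr x))⁻¹ (c, ⟨s, hs⟩)).1 =
            mulB (S := W.toSys) (.inr x) c + 0 := by
          rw [lperm_symm_apply]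
          simp only [h6]
        refine ⟨?_, ?_, ?_, ?_, ?_⟩
        · rw [h7]; simp only [len, List.length_cons]; omega
        · rw [rt, h7, h8]
          change root (quo (S := W.toSys) (Sum.inr x) (mulB (S := W.toSys) (Sum.inr x) c + 0)) s = _
          rw [quo_mulB_add (isDig_zero _)]
          exact h2
        · rw [ab, h7]; rfl
        · rw [h7]; simp [len]
        · rw [h7]; exact ⟨_, rfl⟩

theorem st_eq_pt (g : FreeGroup A) : st W g = pt W g.toWord := by
  rw [pt, FreeGroup.mk_toWord]

theorem ab_hl : ab (hl W) = 0 := rfl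

theorem ab_Ch {ω : Om W.toSys} (h : ω ∈ Ch W) : ab ω = 0 := by
  obtain ⟨p, rfl⟩ := h
  rw [ab_iR]
  rfl

theorem pos_of_ab {g : FreeGroup A} (h : ab (st W g) = 0) : Pos g.toWord := by
  by_contra hp
  obtain ⟨v, -, -, h3, h4, -⟩ := pt_neg W FreeGroup.isReduced_toWord hp
  rw [← st_eq_pt] at h3 h4
  exact h4 (h3.symm.trans h)

/-- exactness of acceptance -/
theorem st_mem_Ch {g : FreeGroup A} :
    st W g ∈ Ch W ↔ Pos g.toWord ∧ Acc W (g.toWord.map Prod.fst) := by
  constructor
  · intro h
    have hp := pos_of_ab W (ab_Ch W h)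
    refine ⟨hp, ?_⟩
    obtain ⟨p, hp'⟩ := h
    have h1 := rt_iR p (hl W)
    rw [← hp', st_eq_pt, pt_pos W hp] at h1
    rcases eqvGen_Rs' h1 with h2 | ⟨c', d', h2, h3, h4⟩
    · have h2' : ((some W.qh, (0 : W.toSys.V)) : Option W.Q × W.toSys.V) =
        (some W.qin, code W (g.toWord.map Prod.fst)) := h2
      have h5 := congrArg Prod.fst h2'
      have h6 := congrArg Prod.snd h2'
      simp only [Option.some.injEq] at h5 h6
      rw [Acc, ← h5, ← h6]
      exact .refl _
    · have h2' : ((some W.qh, (0 : W.toSys.V)) : Option W.Q × W.toSys.V) =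
        (some c'.1, c'.2) := h2
      have h3' : ((some W.qin, code W (g.toWord.map Prod.fst)) : Option W.Q × W.toSys.V) =
        (some d'.1, d'.2) := h3
      have e1 := congrArg Prod.fst h2'
      have e2 := congrArg Prod.snd h2'
      have e3 := congrArg Prod.fst h3'
      have e4 := congrArg Prod.snd h3'
      simp only [Option.some.injEq] at e1 e2 e3 e4
      have e5 : c' = (W.qh, 0) := Prod.ext e1.symm e2.symm
      have e6 : d' = (W.qin, code W (g.toWord.map Prod.fst)) := Prod.ext e3.symm e4.symm
      rw [e5, e6] at h4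
      exact .symm _ _ h4
  · rintro ⟨hp, ha⟩
    rw [st_eq_pt, pt_pos W hp]
    obtain ⟨p, h⟩ := exists_iR_of_Cn (Relation.EqvGen.symm _ _ ha)
    exact ⟨p, h⟩

theorem st_eq_st_one {g : FreeGroup A} (h : st W g = st W 1) : g = 1 := by
  have h1 : ab (st W g) = 0 := by
    rw [h]; simp [st]; rfl
  have hp := pos_of_ab W h1
  rw [st_eq_pt, pt_pos W hp, st_eq_pt, FreeGroup.toWord_one, pt_nil] at h
  have h2 : code W (g.toWord.map Prod.fst) = W.tx := congrArg Prod.fst h
  rw [← FreeGroup.toWord_eq_nil_iff]
  by_contra h3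
  have h4 := pow_le_codeI W (L := g.toWord.map Prod.fst) (by simpa using h3)
  rw [h2] at h4
  have hb := W.hb
  have h5 : 0 < W.b ^ (List.map Prod.fst g.toWord).length := by positivity
  rw [W.tx_I, mul_zero] at h4
  omega

theorem st_injective : Function.Injective (st W) := by
  intro g h hgh
  have h1 : st W (h⁻¹ * g) = st W 1 := by
    rw [st_mul, hgh, ← st_mul, inv_mul_cancel]
  have := st_eq_st_one W h1
  rwa [inv_mul_eq_one, eq_comm] at this

/-! ### small points -/

/-- points of size at most `n` -/
def Sm (n : ℕ) (p : Om W.toSys) : Prop := |p.1 W.I| < W.b ^ n ∧ len p.2.1 ≤ n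

theorem len_fs (l : W.toSys.Lam) (e : W.toSys.V) (s : Tm W.toSys) : len (fs l e s) ≤ len s + 1 := by
  cases s with
  | base q => simp only [fs]; split_ifs <;> simp [len]
  | fwd l' e' s' => simp [fs, len]
  | bwd l' s' => 
    simp only [fs]
    split_ifs
    · simp only [len]; omega
    · simp [len]

theorem len_bs (l : W.toSys.Lam) (s : Tm W.toSys) : len (bs l s).2 ≤ len s + 1 := by
  cases s with
  | base q => simp only [bs]; split_ifs <;> simp [len]
  | fwd l' e' s' => 
    simp only [bs]
    split_ifs
    · simp only [len]; omega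
    · simp [len]
  | bwd l' s' => simp [bs, len]

theorem Sm.mono {n m : ℕ} (h : n ≤ m) {p : Om W.toSys} (hp : Sm W n p) : Sm W m p := by
  have hb := W.hb
  exact ⟨hp.1.trans_le (pow_le_pow_right₀ (by omega) h), hp.2.trans h⟩

theorem abs_step {c e B b : ℤ} {n : ℕ} (hb : 2 ≤ b) (hB : 0 < B) (hBb : B ≤ b) (he0 : 0 ≤ e)
    (he : e < B) (hc : |c| < b ^ n) : |B * c + e| < b ^ (n + 1) := by
  have h1 : |B * c + e| ≤ b * |c| + (b - 1) := by
    calc |B * c + e| ≤ |B * c| + |e| := abs_add_le _ _
      _ = B * |c| + e := by rw [abs_mul, abs_of_pos hB, abs_of_nonneg he0]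
      _ ≤ b * |c| + (b - 1) := by nlinarith [abs_nonneg c]
  have h2 : |c| ≤ b ^ n - 1 := by omega
  calc |B * c + e| ≤ b * |c| + (b - 1) := h1
    _ ≤ b * (b ^ n - 1) + (b - 1) := by nlinarith
    _ < b ^ (n + 1) := by rw [pow_succ]; nlinarith

theorem Sm.lperm {n : ℕ} {p : Om W.toSys} (hp : Sm W n p) (l : W.toSys.Lam) :
    Sm W (n + 1) (lperm (S := W.toSys) l p) := by
  have hb := W.hb
  refine ⟨?_, ?_⟩
  · calc |p.1 W.I / W.B l W.I| ≤ |p.1 W.I| := Int.abs_ediv_le_abs _ _
      _ < W.b ^ n := hp.1
      _ ≤ W.b ^ (n + 1) := pow_le_pow_right₀ (by omega) (by omega)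
  · exact (len_fs W l _ _).trans (by have := hp.2; omega)

theorem Sm.lperm_inv {n : ℕ} {p : Om W.toSys} (hp : Sm W n p) (l : W.toSys.Lam) :
    Sm W (n + 1) ((Wit.lperm (S := W.toSys) l)⁻¹ p) := by
  have hd := isDig_bs (l := l) p.2.2 W.I
  refine ⟨?_, ?_⟩
  · exact abs_step W.hb (W.Bpos l _) (W.BI l) hd.1 hd.2 hp.1
  · exact (len_bs W l _).trans (by have := hp.2; omega)

theorem Sm.tperm {n : ℕ} {p : Om W.toSys} (hp : Sm W n p) (v : W.toSys.V) (hv : |v W.I| ≤ 1) :
    Sm W (n + 1) (Wit.tperm v p) := by
  have hb := W.hb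
  refine ⟨?_, hp.2.trans (by omega)⟩
  have h1 : |(v + p.1) W.I| ≤ |v W.I| + |p.1 W.I| := abs_add_le _ _
  have h2 := hp.1
  have h3 : (0:ℤ) < W.b ^ n := by positivity
  calc |(v + p.1) W.I| ≤ |v W.I| + |p.1 W.I| := h1
    _ ≤ W.b ^ n := by omega
    _ < W.b ^ (n + 1) := by rw [pow_succ]; nlinarith

theorem Sm_cfg_zero (q : W.Q) : Sm W 0 (cfg (S := W.toSys) q 0) := by
  refine ⟨?_, le_rfl⟩
  simp [cfg]

theorem root_lt (s : Tm W.toSys) : ∀ (m : ℕ) (c : W.toSys.V), Valid s → |c W.I| < W.b ^ m →
    |(root c s).2 W.I| < W.b ^ (m + len s) := by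
  have hb := W.hb
  induction s with
  | base q => intro m c _ h; exact h
  | fwd l e s ih =>
    intro m c hv h
    have h1 : |(mulB (S := W.toSys) l c + e) W.I| < W.b ^ (m + 1) :=
      abs_step W.hb (W.Bpos l _) (W.BI l) (hv.2.1 W.I).1 (hv.2.1 W.I).2 h
    have := ih (m + 1) _ hv.1 h1
    simp only [root, len]
    rw [show m + (len s + 1) = m + 1 + len s by omega]
    exact this
  | bwd l s ih =>
    intro m c hv h
    have h1 : |(quo (S := W.toSys) l c) W.I| < W.b ^ m :=
      (Int.abs_ediv_le_abs _ _).trans_lt h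
    have := ih m _ hv.1 h1
    simp only [root, len]
    exact this.trans_le (pow_le_pow_right₀ (by omega) (by omega))

theorem code_bound {v : List A} {n : ℕ} (h : |code W v W.I| < W.b ^ n) : v.length ≤ n := by
  have hb := W.hb
  by_cases hv : v = []
  · subst hv; simp
  · have h1 := pow_le_codeI W hv
    rw [abs_of_nonneg (codeI_nonneg W v)] at h
    by_contra h2
    have h3 : W.b ^ (n + 1) ≤ W.b ^ v.length := pow_le_pow_right₀ (by omega) (by omega)
    rw [pow_succ] at h3
    nlinarith

/-- **(STAR)** -/
theorem star_bound (hW : Archive W) {g : FreeGroup A} (hg : st W g ∉ Ch W) (p : FreeGroup R)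
    {n : ℕ} (hS : Sm W n (act W.toSys (iR W p) (st W g))) : g.toWord.length ≤ 3 * n := by
  have hroot := root_lt W _ n _ (act W.toSys (iR W p) (st W g)).2.2 hS.1
  have hb := W.hb
  have hroot' : |(rt (act W.toSys (iR W p) (st W g))).2 W.I| < W.b ^ (2 * n) :=
    hroot.trans_le (pow_le_pow_right₀ (by omega) (by have := hS.2; omega))
  by_cases hp : Pos g.toWord
  · have hna : ¬ Acc W (g.toWord.map Prod.fst) := fun h => hg ((st_mem_Ch W).2 ⟨hp, h⟩)
    have h1 := rt_iR p (st W g)
    have h2 : (rt (act W.toSys (iR W p) (st W g))).2 W.I = code W (g.toWord.map Prod.fst) W.I := by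
      rcases eqvGen_Rs' h1 with h3 | ⟨c', d', h3, h4, h5⟩
      · rw [← h3, st_eq_pt, pt_pos W hp]; rfl
      · rw [h4]
        rw [st_eq_pt, pt_pos W hp] at h3
        have h3' : ((some W.qin, code W (g.toWord.map Prod.fst)) : Option W.Q × W.toSys.V) =
          (some c'.1, c'.2) := h3
        have e3 := congrArg Prod.fst h3'
        have e4 := congrArg Prod.snd h3'
        simp only [Option.some.injEq] at e3 e4
        have e5 : c' = (W.qin, code W (g.toWord.map Prod.fst)) := Prod.ext e3.symm e4.symm
        rw [e5] at h5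
        exact hW _ hna _ h5
    rw [h2] at hroot'
    have := code_bound W hroot'
    rw [List.length_map] at this
    omega
  · obtain ⟨v, h1, h2, h3, h4, -⟩ := pt_neg W FreeGroup.isReduced_toWord hp
    rw [← st_eq_pt] at h1 h2 h3 h4
    have h5 : ab (st W g) ≠ 0 := by rw [h3]; exact h4
    rw [rt_iR_ne p _ h5, h2] at hroot'
    have h6 := code_bound W hroot'
    have h7 : ab (act W.toSys (iR W p) (st W g)) ≤ n := (abot_le _).trans hS.2
    rw [ab_iR, h3] at h7
    omega

end Crest.Agent.R185.Wit
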