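import Crest.Agent.R185.Clk8
import Crest.Agent.R185.Wit4

/-!
# R185, block WIT (a), part 9: the machine as a witness system `Wit.WS`
-/

set_option autoImplicit false

namespace Crest.Agent.R185.Clk

open Relation Function Crest.Agent.R292 Crest.Agent.R185.Re
open Crest.Agent.R185.Wit (WS)

/-- base of a pop of the digit `o` -/
def dB (b : ℕ) (o : Option ℕ) : ℤ := match o with
  | none => 1
  | some _ => b

/-- digit of a pop of the digit `o` -/
def dA (o : Option ℕ) : ℤ := match o with
  | none => 0
  | some d => d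

theorem aff_eq (b : ℕ) (o : Option ℕ) (z : ℤ) : aff b o z = dB b o * z + dA o := by
  cases o with
  | none => simp [dB, dA]
  | some d => simp only [aff_some, dB, dA]; ring

variable {A : Type} [Primcodable A] [DecidableEq A] (U : UM A)

/-- the letters of the witness system -/
def UM.let (U : UM A) : Fin U.nR ⊕ Option A → Pop (Fin U.nQ) (Fin U.nK) := Sum.elim U.rule U.inp

omit [DecidableEq A] in
theorem UM.let_lt (U : UM A) (l : Fin U.nR ⊕ Option A) (k : Fin U.nK) (d : ℕ)
    (h : (U.let l).dg k = some d) : d < U.b := by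
  cases l with
  | inl r => exact U.rule_lt r k d h
  | inr o => exact U.inp_lt o k d h

/-- the witness system of the machine with the text `e` -/
def UM.ws (U : UM A) (e : ℕ) : WS (Fin U.nR) (Option A) where
  Q := Fin U.nQ
  k := U.nK
  I := U.I
  b := U.b
  hb := by exact_mod_cast U.hb
  B := fun l j => dB U.b ((U.let l).dg j)
  Bpos := fun l j => by
    have := U.hb
    rcases (U.let l).dg j with _ | d
    · exact one_pos
    · simp only [dB]; omega
  BI := fun l => by
    have := U.hb
    rcases (U.let l).dg U.I with _ | d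
    · simp only [dB]; omega
    · exact le_rfl
  BA := fun x => by
    have : (U.let (.inr x)).dg U.I = some (U.da x) := U.inp_I x
    rw [this]
    rfl
  a := fun l j => dA ((U.let l).dg j)
  a_nonneg := fun l j => by
    rcases (U.let l).dg j with _ | d
    · exact le_rfl
    · simp [dA]
  a_lt := fun l j => by
    rcases h : (U.let l).dg j with _ | d
    · simp [dA, dB]
    · simp only [dA, dB]
      exact_mod_cast U.let_lt l j d h
  aI_pos := fun x => by
    have : (U.let (.inr x)).dg U.I = some (U.da x) := U.inp_I x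
    rw [this]
    simp only [dA]
    exact_mod_cast U.da_pos x
  aI_inj := fun x y h => by
    have h1 : (U.let (.inr x)).dg U.I = some (U.da x) := U.inp_I x
    have h2 : (U.let (.inr y)).dg U.I = some (U.da y) := U.inp_I y
    rw [h1, h2] at h
    simp only [dA] at h
    exact U.da_inj (by exact_mod_cast h)
  srcR := fun r => (U.rule r).src
  tgtR := fun r => (U.rule r).tgt
  qin := U.qin
  qh := U.qh
  tx := U.start e []
  tx_I := by rw [U.start_I]; rfl

theorem UM.Rs_iff (U : UM A) (e : ℕ) (c d : Cf (Fin U.nQ) (Fin U.nK)) :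
    Wit.Rs (U.ws e) c d ↔ PStp U.b U.rule c d := by
  constructor
  · rintro ⟨r, c⟩
    refine ⟨r, rfl, rfl, fun k => ?_⟩
    rw [aff_eq]
    rfl
  · rintro ⟨r, h1, h2, h3⟩
    obtain ⟨q, s⟩ := c
    obtain ⟨q', s'⟩ := d
    simp only at h1 h2 h3
    subst h1 h2
    have h4 : s = Wit.mulB (S := (U.ws e).toSys) (.inl r) s' + (U.ws e).a (.inl r) := by
      funext k
      rw [h3 k, aff_eq]
      rfl
    rw [h4]
    exact Wit.Rs.mk (W := U.ws e) r s'

theorem UM.Cn_iff (U : UM A) (e : ℕ) (c d : Cf (Fin U.nQ) (Fin U.nK)) :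
    Wit.Cn (U.ws e) c d ↔ PConn U.b U.rule c d := by
  unfold Wit.Cn PConn
  have h : Wit.Rs (U.ws e) = PStp U.b U.rule := by
    funext c d
    exact propext (U.Rs_iff e c d)
  rw [h]
  exact Iff.rfl

theorem UM.code_eq (U : UM A) (e : ℕ) (w : List (Option A)) :
    Wit.code (U.ws e) w = U.start e w := by
  induction w with
  | nil => rfl
  | cons o w ih =>
    funext k
    have h := (U.start_cons e o w).2.2 k
    simp only at h
    rw [h, aff_eq]
    show Wit.mulB (S := (U.ws e).toSys) (.inr o) (Wit.code (U.ws e) w) k + _ = _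
    rw [ih]
    rfl

theorem UM.Acc_iff (U : UM A) (e : ℕ) (w : List (Option A)) :
    Wit.Acc (U.ws e) w ↔ PConn U.b U.rule (U.qin, U.start e w) (U.qh, fun _ => 0) := by
  unfold Wit.Acc
  rw [UM.code_eq]
  exact U.Cn_iff e _ _

theorem UM.archive' (U : UM A) (e : ℕ) : Wit.Archive (U.ws e) := by
  intro L hL d hd
  rw [UM.Acc_iff] at hL
  rw [UM.code_eq] at hd ⊢
  exact U.archive e L hL d ((U.Cn_iff e _ _).1 hd)

end Crest.Agent.R185.Clk
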