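import Crest.Agent.R185.Md191E
import Crest.Agent.R185.Wit7

/-!
# R185 / MOD (F): the instantiation at the syntactic witness `Wit`
-/

set_option autoImplicit false
set_option linter.unusedSectionVars false

namespace Crest.Agent.R185.Md191F

open Crest.Agent.R185.Md191B Crest.Agent.R185.Md191C Crest.Agent.R185.Md191D
open Crest.Agent.R185.Wit (WS HL Hg Ls eps st Ch hv tg emb tew te FC my mx ip iR Om M hl ht cfg)

variable {R A : Type} [DecidableEq R] [DecidableEq A] (W : WS R A)

/-- the accepted words -/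
def AccS : Set (FreeGroup A) := {g | st W g ∈ Ch W}

theorem emb_eq_piw (g : FreeGroup A) : emb g = Md191B.piw g := by
  have : (emb : FreeGroup A →* _) = Md191B.piw := by
    ext1 a
    simp [emb, Md191B.piw]
  rw [this]

theorem tg_eq_tw (g : FreeGroup A) : tg g = tw g := by
  rw [tg, tw, emb_eq_piw, tt]

/-- `WitOK` for the witness -/
theorem witOK : WitOK (Ls W) (eps W) (AccS W) where
  inj := Wit.eps_injective W
  cap := by
    intro e he
    have h := (Wit.eps_mem_Ls W).1 he
    refine Subgroup.closure_mono ?_ h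
    rintro y ⟨g, hg, rfl⟩
    exact ⟨g, hg, (tg_eq_tw g).symm⟩

/-- the words of the letters of `E` -/
def thW : FreeGroup (Option A) →* FreeGroup (HL W) :=
  FreeGroup.lift (fun o => o.elim (tew W) (fun a => Wit.piw W (FreeGroup.of a)))

theorem thW_piw (g : FreeGroup A) : thW W (Md191B.piw g) = Wit.piw W g := by
  have : (thW W).comp Md191B.piw = Wit.piw W := by
    ext1 a
    simp [thW, Md191B.piw]
  exact congrArg (fun f : FreeGroup A →* _ => f g) this

theorem thW_tt : thW W tt = tew W := by simp [thW, tt]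

/-- `WitFP` for the witness -/
def witFP [Finite R] [Finite A] : WitFP (Ls W) (eps W) (AccS W) (HL W) where
  gen := hv W
  rels := {w | Wit.rels W w}
  rels_fin := Wit.rels_finite W
  rels_true := fun r hr => Wit.hv_rels W hr
  θ := thW W
  hθ := by
    intro e
    have : (hv W).comp (thW W) = eps W := by
      ext1 o
      rcases o with _ | a
      · simp [thW, Wit.hv_tew]
      · simp [thW, Wit.hv_piw]
    exact congrArg (fun f : FreeGroup (Option A) →* _ => f e) this
  Lw := (Set.range (fun r : R => (FreeGroup.of (HL.y (.inl r)) : FreeGroup (HL W)))) ∪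
    {FreeGroup.of (HL.t W.qh)}
  Lw_fin := (Set.finite_range _).union (Set.finite_singleton _)
  Lw_mem := by
    rintro w (⟨r, rfl⟩ | rfl)
    · rw [Wit.hv_y, ← Wit.iR_of]
      exact ⟨⟨FreeGroup.of r, by simp⟩, by simp⟩
    · rw [Wit.hv_t]
      refine ⟨⟨1, by simp [ht]⟩, ?_⟩
      rw [ht, SemidirectProduct.left_inl]
      exact Wit.of_mem_FC.2 ⟨1, by simp [hl]⟩
  deriv := by
    intro K _ f hf w hw
    obtain ⟨p, hp⟩ := Wit.derivation W f (fun r hr => hf r hr) hw
    have h1 : f (thW W (tw w)) = f (Wit.piw W w) * f (tew W) * (f (Wit.piw W w))⁻¹ := by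
      rw [tw, map_mul (thW W), map_mul (thW W), map_inv (thW W), thW_piw, thW_tt, map_mul f,
        map_mul f, map_inv f]
    rw [h1, hp]
    set C := Subgroup.closure (f '' ((Set.range (fun r : R =>
      (FreeGroup.of (HL.y (.inl r)) : FreeGroup (HL W)))) ∪ {FreeGroup.of (HL.t W.qh)})) with hC
    have h2 : f (FreeGroup.of (HL.t W.qh)) ∈ C :=
      Subgroup.subset_closure ⟨_, Or.inr rfl, rfl⟩
    have h3 : f (Wit.rw' W p) ∈ C := by
      have h4 : (⊤ : Subgroup (FreeGroup R)) ≤ C.comap (f.comp (Wit.rw' W)) := by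
        rw [← FreeGroup.closure_range_of, Subgroup.closure_le]
        rintro _ ⟨r, rfl⟩
        refine Subgroup.subset_closure ⟨_, Or.inl ⟨r, rfl⟩, ?_⟩
        rw [MonoidHom.comp_apply, Wit.rw', FreeGroup.lift_apply_of]
      exact h4 (Subgroup.mem_top p)
    exact C.mul_mem (C.mul_mem h3 h2) (C.inv_mem h3)

instance [Finite R] [Finite A] [Finite W.Q] : Finite (HL W) := by
  have : Function.Surjective (fun x : (Fin W.k ⊕ (R ⊕ A)) ⊕ W.Q =>
      (match x with
        | Sum.inl (Sum.inl j) => HL.x j
        | Sum.inl (Sum.inr l) => HL.y l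
        | Sum.inr q => HL.t q : HL W)) := by
    rintro (j | l | q)
    · exact ⟨Sum.inl (Sum.inl j), rfl⟩
    · exact ⟨Sum.inl (Sum.inr l), rfl⟩
    · exact ⟨Sum.inr q, rfl⟩
  exact Finite.of_surjective _ this

end Crest.Agent.R185.Md191F
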