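import Mathlib

/-!
# R185 / MOD (B): the payload `P(X) = F(A) × ℤ × X` and the letters `β'`, `γ`, `d`

* `bp w : (g, n, x) ↦ (w g, n, x)`,
* `ga w : (g, n, x) ↦ (g, n, w x)` if `n < 0`, identity for `n ≥ 0`,
* `dd : (1, n, x) ↦ (1, n + 1, x)`, identity at `g ≠ 1`,
* `al w : (1, 0, x) ↦ (1, 0, w x)`, identity elsewhere; `dd * ga w * dd⁻¹ = al w * ga w`,
* `gau : (g, n, x) ↦ (g, n, g x)` if `n < 0`; `chi e = gau * chi' e * gau⁻¹`.
-/

set_option autoImplicit false

namespace Crest.Agent.R185.Md191B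

open Equiv

/-! ### words -/

section words

variable {A : Type}

/-- the word `π_w` -/
def piw : FreeGroup A →* FreeGroup (Option A) := FreeGroup.map some

/-- the letter `t` -/
def tt : FreeGroup (Option A) := FreeGroup.of none

/-- `t_w = π_w t π_w⁻¹` -/
def tw (w : FreeGroup A) : FreeGroup (Option A) := piw w * tt * (piw w)⁻¹

end words

variable {A : Type}

/-- the payload -/
abbrev P (A X : Type) : Type := FreeGroup A × ℤ × X

/-! ### the silent letters -/

section silent

variable (A) (X : Type)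

/-- `β'` -/
def bp : FreeGroup A →* Perm (P A X) where
  toFun w :=
    { toFun := fun p => (w * p.1, p.2)
      invFun := fun p => (w⁻¹ * p.1, p.2)
      left_inv := by rintro ⟨g, n, x⟩; simp
      right_inv := by rintro ⟨g, n, x⟩; simp }
  map_one' := by apply Equiv.ext; rintro ⟨g, n, x⟩; simp
  map_mul' a b := by apply Equiv.ext; rintro ⟨g, n, x⟩; simp [mul_assoc]

@[simp] theorem bp_apply (w g : FreeGroup A) (n : ℤ) (x : X) :
    bp A X w (g, n, x) = (w * g, n, x) := rfl

@[simp] theorem bp_inv_apply (w g : FreeGroup A) (n : ℤ) (x : X) :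
    (bp A X w)⁻¹ (g, n, x) = (w⁻¹ * g, n, x) := rfl

open Classical in
/-- `d` -/
noncomputable def dd : Perm (P A X) where
  toFun p := if p.1 = 1 then (p.1, p.2.1 + 1, p.2.2) else p
  invFun p := if p.1 = 1 then (p.1, p.2.1 - 1, p.2.2) else p
  left_inv := by
    rintro ⟨g, n, x⟩
    by_cases h : g = 1 <;> simp [h]
  right_inv := by
    rintro ⟨g, n, x⟩
    by_cases h : g = 1 <;> simp [h]

@[simp] theorem dd_one (n : ℤ) (x : X) : dd A X (1, n, x) = (1, n + 1, x) := by
  simp [dd]

theorem dd_ne {g : FreeGroup A} (h : g ≠ 1) (n : ℤ) (x : X) : dd A X (g, n, x) = (g, n, x) := by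
  simp [dd, h]

@[simp] theorem dd_inv_one (n : ℤ) (x : X) : (dd A X)⁻¹ (1, n, x) = (1, n - 1, x) := by
  rw [Perm.inv_eq_iff_eq, dd_one]; simp

theorem dd_inv_ne {g : FreeGroup A} (h : g ≠ 1) (n : ℤ) (x : X) :
    (dd A X)⁻¹ (g, n, x) = (g, n, x) := by
  rw [Perm.inv_eq_iff_eq, dd_ne A X h]

/-- the silent representation of `F(A ∪ {t})` -/
noncomputable def chi' : FreeGroup (Option A) →* Perm (P A X) :=
  FreeGroup.lift (fun o => o.elim (dd A X) (fun a => bp A X (FreeGroup.of a)))

@[simp] theorem chi'_pi (w : FreeGroup A) : chi' A X (piw w) = bp A X w := by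
  have : (chi' A X).comp piw = bp A X := by
    ext a : 1
    simp [chi', piw]
  exact congrArg (fun f : FreeGroup A →* _ => f w) this

@[simp] theorem chi'_t : chi' A X tt = dd A X := by simp [chi', tt]

theorem chi'_tw_self (w : FreeGroup A) (n : ℤ) (x : X) :
    chi' A X (tw w) (w, n, x) = (w, n + 1, x) := by
  rw [tw, map_mul, map_mul, map_inv, chi'_pi, chi'_t]
  simp only [Perm.mul_apply, bp_inv_apply, inv_mul_cancel, dd_one, bp_apply, mul_one]

theorem chi'_tw_ne {w g : FreeGroup A} (h : g ≠ w) (n : ℤ) (x : X) :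
    chi' A X (tw w) (g, n, x) = (g, n, x) := by
  have : w⁻¹ * g ≠ 1 := by
    intro h1; apply h; rw [inv_mul_eq_one] at h1; exact h1.symm
  rw [tw, map_mul, map_mul, map_inv, chi'_pi, chi'_t]
  simp only [Perm.mul_apply, bp_inv_apply, dd_ne A X this, bp_apply, mul_inv_cancel_left]

end silent

/-! ### the labelled letters -/

section letters

variable (A) (X : Type) [MulAction (FreeGroup A) X]

/-- a permutation of the form `(g, n, x) ↦ (g, n, c g n • x)` -/
def lab (c : FreeGroup A → ℤ → FreeGroup A) : Perm (P A X) where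
  toFun p := (p.1, p.2.1, c p.1 p.2.1 • p.2.2)
  invFun p := (p.1, p.2.1, (c p.1 p.2.1)⁻¹ • p.2.2)
  left_inv := by rintro ⟨g, n, x⟩; simp
  right_inv := by rintro ⟨g, n, x⟩; simp

@[simp] theorem lab_apply (c : FreeGroup A → ℤ → FreeGroup A) (g : FreeGroup A) (n : ℤ) (x : X) :
    lab A X c (g, n, x) = (g, n, c g n • x) := rfl

@[simp] theorem lab_inv_apply (c : FreeGroup A → ℤ → FreeGroup A) (g : FreeGroup A) (n : ℤ)
    (x : X) : (lab A X c)⁻¹ (g, n, x) = (g, n, (c g n)⁻¹ • x) := rfl

/-- `γ` -/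
def ga : FreeGroup A →* Perm (P A X) where
  toFun w := lab A X (fun _ n => if n < 0 then w else 1)
  map_one' := by
    apply Equiv.ext; rintro ⟨g, n, x⟩
    rw [lab_apply]
    by_cases h : n < 0 <;> simp
  map_mul' a b := by
    apply Equiv.ext; rintro ⟨g, n, x⟩
    simp only [Perm.mul_apply, lab_apply]
    by_cases h : n < 0 <;> simp [h, mul_smul]

@[simp] theorem ga_apply (w g : FreeGroup A) (n : ℤ) (x : X) :
    ga A X w (g, n, x) = (g, n, (if n < 0 then w else 1) • x) := rfl

theorem ga_neg (w g : FreeGroup A) {n : ℤ} (h : n < 0) (x : X) :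
    ga A X w (g, n, x) = (g, n, w • x) := by simp [h]

theorem ga_nonneg (w g : FreeGroup A) {n : ℤ} (h : 0 ≤ n) (x : X) :
    ga A X w (g, n, x) = (g, n, x) := by simp [not_lt.2 h]

open Classical in
/-- `α` -/
noncomputable def al : FreeGroup A →* Perm (P A X) where
  toFun w := lab A X (fun g n => if g = 1 ∧ n = 0 then w else 1)
  map_one' := by
    apply Equiv.ext; rintro ⟨g, n, x⟩
    rw [lab_apply]
    by_cases h : g = 1 ∧ n = 0 <;> simp
  map_mul' a b := by
    apply Equiv.ext; rintro ⟨g, n, x⟩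
    simp only [Perm.mul_apply, lab_apply]
    by_cases h : g = 1 ∧ n = 0 <;> simp [h, mul_smul]

open Classical in
theorem al_eq (w : FreeGroup A) : al A X w =
    lab A X (fun g n => if g = 1 ∧ n = 0 then w else 1) := rfl

theorem ga_eq (w : FreeGroup A) : ga A X w = lab A X (fun _ n => if n < 0 then w else 1) := rfl

theorem al_apply_one (w : FreeGroup A) (x : X) : al A X w (1, 0, x) = (1, 0, w • x) := by
  simp [al]

theorem al_apply_ne (w g : FreeGroup A) (n : ℤ) (h : ¬ (g = 1 ∧ n = 0)) (x : X) :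
    al A X w (g, n, x) = (g, n, x) := by
  simp [al, h]

theorem comm_bp_ga (v w : FreeGroup A) : Commute (bp A X v) (ga A X w) := by
  apply Equiv.ext; rintro ⟨g, n, x⟩
  simp

theorem comm_al_ga (v w : FreeGroup A) : Commute (al A X v) (ga A X w) := by
  apply Equiv.ext; rintro ⟨g, n, x⟩
  by_cases h : g = 1 ∧ n = 0
  · obtain ⟨rfl, rfl⟩ := h
    simp [al_apply_one]
  · simp [al_apply_ne _ _ _ _ _ h]

theorem dd_ga (w : FreeGroup A) :
    dd A X * ga A X w * (dd A X)⁻¹ = al A X w * ga A X w := by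
  rw [mul_inv_eq_iff_eq_mul]
  apply Equiv.ext; rintro ⟨g, n, x⟩
  simp only [Perm.mul_apply]
  by_cases hg : g = 1
  · subst hg
    rw [ga_apply, dd_one, dd_one, ga_apply]
    rcases lt_trichotomy n (-1) with h | h | h
    · rw [al_apply_ne _ _ _ _ _ (by omega)]
      simp [show n < 0 by omega, show n + 1 < 0 by omega]
    · subst h
      simp [al_apply_one]
    · rw [al_apply_ne _ _ _ _ _ (by omega)]
      simp [show ¬ n < 0 by omega, show ¬ n + 1 < 0 by omega]
  · rw [ga_apply, dd_ne _ _ hg, dd_ne _ _ hg, ga_apply, al_apply_ne _ _ _ _ _ (by tauto)]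

/-- the gauge -/
def gau : Perm (P A X) := lab A X (fun g n => if n < 0 then g else 1)

theorem gau_apply (g : FreeGroup A) (n : ℤ) (x : X) :
    gau A X (g, n, x) = (g, n, (if n < 0 then g else 1) • x) := rfl

theorem gau_inv_apply (g : FreeGroup A) (n : ℤ) (x : X) :
    (gau A X)⁻¹ (g, n, x) = (g, n, (if n < 0 then g else 1)⁻¹ • x) := rfl

theorem gau_bp (w : FreeGroup A) :
    gau A X * bp A X w * (gau A X)⁻¹ = bp A X w * ga A X w := by
  rw [mul_inv_eq_iff_eq_mul]
  apply Equiv.ext; rintro ⟨g, n, x⟩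
  by_cases h : n < 0 <;> simp [gau_apply, h, mul_smul]

theorem gau_dd : gau A X * dd A X * (gau A X)⁻¹ = dd A X := by
  rw [mul_inv_eq_iff_eq_mul]
  apply Equiv.ext; rintro ⟨g, n, x⟩
  by_cases hg : g = 1
  · subst hg
    simp [gau_apply]
  · simp [gau_apply, dd_ne _ _ hg]

/-- the labelled representation of `F(A ∪ {t})` -/
noncomputable def chi : FreeGroup (Option A) →* Perm (P A X) :=
  FreeGroup.lift (fun o => o.elim (dd A X)
    (fun a => bp A X (FreeGroup.of a) * ga A X (FreeGroup.of a)))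

@[simp] theorem chi_t : chi A X tt = dd A X := by simp [chi, tt]

theorem chi_eq (e : FreeGroup (Option A)) :
    chi A X e = gau A X * chi' A X e * (gau A X)⁻¹ := by
  have : chi A X = (MulAut.conj (gau A X)).toMonoidHom.comp (chi' A X) := by
    ext o : 1
    rcases o with _ | a
    · simp [chi, chi', gau_dd]
    · simp [chi, chi', gau_bp]
  rw [this]; rfl

@[simp] theorem chi_pi (w : FreeGroup A) : chi A X (piw w) = bp A X w * ga A X w := by
  rw [chi_eq, chi'_pi, gau_bp]

/-- if `w` acts trivially on `X`, the two representations agree at `t_w` -/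
theorem chi_tw {w : FreeGroup A} (hw : ∀ x : X, w • x = x) : chi A X (tw w) = chi' A X (tw w) := by
  rw [chi_eq, mul_inv_eq_iff_eq_mul]
  apply Equiv.ext; rintro ⟨g, n, x⟩
  simp only [Perm.mul_apply]
  have hw' : ∀ (m : ℤ) (y : X), (if m < 0 then w else 1) • y = y := by
    intro m y; by_cases h : m < 0 <;> simp [h, hw]
  by_cases hg : g = w
  · subst hg
    rw [chi'_tw_self, gau_apply, gau_apply, hw', hw', chi'_tw_self]
  · rw [chi'_tw_ne _ _ hg, gau_apply, chi'_tw_ne _ _ hg]

/-! ### the gauge with an arbitrary function `κ` -/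

/-- the gauge `(g, n, x) ↦ (g, n, κ(g) x)` if `n < 0` -/
def gauK (κ : FreeGroup A → FreeGroup A) : Perm (P A X) :=
  lab A X (fun g n => if n < 0 then κ g else 1)

theorem gauK_apply (κ : FreeGroup A → FreeGroup A) (g : FreeGroup A) (n : ℤ) (x : X) :
    gauK A X κ (g, n, x) = (g, n, (if n < 0 then κ g else 1) • x) := rfl

theorem gauK_inv_apply (κ : FreeGroup A → FreeGroup A) (g : FreeGroup A) (n : ℤ) (x : X) :
    (gauK A X κ)⁻¹ (g, n, x) = (g, n, (if n < 0 then κ g else 1)⁻¹ • x) := rfl

/-- the labelled representation in the gauge `κ` -/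
noncomputable def chiK (κ : FreeGroup A → FreeGroup A) :
    FreeGroup (Option A) →* Perm (P A X) :=
  (MulAut.conj (gauK A X κ)).toMonoidHom.comp (chi' A X)

theorem chiK_apply (κ : FreeGroup A → FreeGroup A) (e : FreeGroup (Option A)) :
    chiK A X κ e = gauK A X κ * chi' A X e * (gauK A X κ)⁻¹ := rfl

/-- if `κ w = 1` then the two representations agree at `t_w` -/
theorem chiK_tw {κ : FreeGroup A → FreeGroup A} {w : FreeGroup A} (hw : κ w = 1) :
    chiK A X κ (tw w) = chi' A X (tw w) := by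
  rw [chiK_apply, mul_inv_eq_iff_eq_mul]
  apply Equiv.ext; rintro ⟨g, n, x⟩
  simp only [Perm.mul_apply]
  have hw' : ∀ (m : ℤ) (y : X), (if m < 0 then (1 : FreeGroup A) else 1) • y = y := by
    intro m y; simp
  by_cases hg : g = w
  · subst hg
    rw [chi'_tw_self, gauK_apply, gauK_apply, hw, hw', hw', chi'_tw_self]
  · rw [chi'_tw_ne _ _ hg, gauK_apply, chi'_tw_ne _ _ hg]

theorem chiK_closure {κ : FreeGroup A → FreeGroup A} {Acc : Set (FreeGroup A)}
    (h : ∀ w ∈ Acc, κ w = 1)
    {e : FreeGroup (Option A)} (he : e ∈ Subgroup.closure (tw '' Acc)) :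
    chiK A X κ e = chi' A X e := by
  have : Subgroup.closure (tw '' Acc) ≤ (chiK A X κ).eqLocus (chi' A X) := by
    rw [Subgroup.closure_le]
    rintro _ ⟨w, hw, rfl⟩
    exact chiK_tw A X (h w hw)
  exact this he

/-- the honest case -/
theorem chiK_eq_chi {κ : FreeGroup A → FreeGroup A} (h : ∀ (g : FreeGroup A) (x : X),
    κ g • x = g • x) : chiK A X κ = chi A X := by
  have h1 : gauK A X κ = gau A X := by
    apply Equiv.ext; rintro ⟨g, n, x⟩
    rw [gauK_apply, gau_apply]
    by_cases hn : n < 0 <;> simp [hn, h]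
  ext1 e
  rw [chiK_apply, chi_eq, h1]

theorem chi_closure {Acc : Set (FreeGroup A)} (h : ∀ w ∈ Acc, ∀ x : X, w • x = x)
    {e : FreeGroup (Option A)} (he : e ∈ Subgroup.closure (tw '' Acc)) :
    chi A X e = chi' A X e := by
  have : Subgroup.closure (tw '' Acc) ≤ (chi A X).eqLocus (chi' A X) := by
    rw [Subgroup.closure_le]
    rintro _ ⟨w, hw, rfl⟩
    exact chi_tw A X (h w hw)
  exact this he

end letters

/-! ### functoriality -/

section functor

/-- the induced map -/
def mapP (A : Type) {X X' : Type} (f : X → X') : P A X → P A X' := fun p => (p.1, p.2.1, f p.2.2)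

@[simp] theorem mapP_apply {X X' : Type} (f : X → X') (g : FreeGroup A) (n : ℤ) (x : X) :
    mapP A f (g, n, x) = (g, n, f x) := rfl

theorem mapP_inj {X X' : Type} {f : X → X'} (hf : Function.Injective f) :
    Function.Injective (mapP A f) := by
  rintro ⟨g, n, x⟩ ⟨g', n', x'⟩ h
  simp only [mapP_apply, Prod.mk.injEq] at h
  obtain ⟨rfl, rfl, h⟩ := h
  rw [hf h]

theorem mapP_bp {X X' : Type} (f : X → X') (w : FreeGroup A) (p : P A X) :
    mapP A f (bp A X w p) = bp A X' w (mapP A f p) := rfl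

theorem mapP_dd {X X' : Type} (f : X → X') (p : P A X) :
    mapP A f (dd A X p) = dd A X' (mapP A f p) := by
  obtain ⟨g, n, x⟩ := p
  by_cases hg : g = 1
  · subst hg; simp
  · rw [dd_ne _ _ hg, mapP_apply, dd_ne _ _ hg]

/-- intertwining is inherited by inverses -/
theorem inv_intertwine {X X' : Type} {F : X → X'} {a : Perm X} {a' : Perm X'}
    (h : ∀ x, F (a x) = a' (F x)) (x : X) : F (a⁻¹ x) = a'⁻¹ (F x) := by
  rw [Perm.eq_inv_iff_eq, ← h]; simp

/-- intertwining on a free group follows from the letters -/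
theorem free_intertwine {B X X' : Type} {F : X → X'} {a : FreeGroup B →* Perm X}
    {a' : FreeGroup B →* Perm X'}
    (h : ∀ b x, F (a (FreeGroup.of b) x) = a' (FreeGroup.of b) (F x)) (w : FreeGroup B) (x : X) :
    F (a w x) = a' w (F x) := by
  induction w using FreeGroup.induction_on generalizing x with
  | C1 => simp
  | of b => exact h b x
  | inv_of b ih =>
    rw [map_inv, map_inv]
    exact inv_intertwine ih x
  | mul u v ihu ihv => simp [map_mul, ihu, ihv]

theorem mapP_chi' {X X' : Type} (f : X → X') (e : FreeGroup (Option A)) (p : P A X) :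
    mapP A f (chi' A X e p) = chi' A X' e (mapP A f p) := by
  refine free_intertwine ?_ e p
  rintro (_ | a) x
  · have := mapP_dd f x
    simpa [chi'] using this
  · simp [chi', mapP_bp]

variable {X X' : Type} [MulAction (FreeGroup A) X] [MulAction (FreeGroup A) X']
variable {f : X → X'} (hf : ∀ (w : FreeGroup A) x, f (w • x) = w • f x)

include hf in
theorem mapP_lab (c : FreeGroup A → ℤ → FreeGroup A) (p : P A X) :
    mapP A f (lab A X c p) = lab A X' c (mapP A f p) := by
  obtain ⟨g, n, x⟩ := p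
  simp [hf]

include hf in
theorem mapP_ga (w : FreeGroup A) (p : P A X) :
    mapP A f (ga A X w p) = ga A X' w (mapP A f p) := by
  rw [ga_eq, ga_eq]; exact mapP_lab hf _ p

include hf in
theorem mapP_al (w : FreeGroup A) (p : P A X) :
    mapP A f (al A X w p) = al A X' w (mapP A f p) := by
  rw [al_eq, al_eq]; exact mapP_lab hf _ p

include hf in
theorem mapP_gau (p : P A X) : mapP A f (gau A X p) = gau A X' (mapP A f p) := mapP_lab hf _ p

include hf in
theorem mapP_chi (e : FreeGroup (Option A)) (p : P A X) :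
    mapP A f (chi A X e p) = chi A X' e (mapP A f p) := by
  rw [chi_eq, chi_eq]
  simp only [Perm.mul_apply]
  rw [mapP_gau hf, mapP_chi', inv_intertwine (mapP_gau hf)]

include hf in
theorem mapP_gauK (κ : FreeGroup A → FreeGroup A) (p : P A X) :
    mapP A f (gauK A X κ p) = gauK A X' κ (mapP A f p) := mapP_lab hf _ p

include hf in
theorem mapP_chiK (κ : FreeGroup A → FreeGroup A) (e : FreeGroup (Option A)) (p : P A X) :
    mapP A f (chiK A X κ e p) = chiK A X' κ e (mapP A f p) := by
  rw [chiK_apply, chiK_apply]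
  simp only [Perm.mul_apply]
  rw [mapP_gauK hf, mapP_chi', inv_intertwine (mapP_gauK hf κ)]

end functor

end Crest.Agent.R185.Md191B
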