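import Crest.Agent.R185.Md191A
import Crest.Agent.R185.Md191B

/-!
# R185 / MOD (C): the groups `D = ⟨H, k | [k, L] = 1⟩`, `S = ⟨E, k E k⁻¹⟩` and `χ̂ : S → Sym P(X)`

`D = FreeGroup (H ⧸ L) ⋊ H`.  `D` acts on `XX = H ×_E (P(X) × Bool)` where `E` acts on the copy
`true` by `chi` and on the copy `false` by `chi'`, and `k` exchanges `[l, (p, b)]`, `[l, (p, !b)]`
for `l ∈ L` and is the identity elsewhere.  `S` preserves the copy `[1, (p, true)]` of `P(X)`; this
defines `chiS`.
-/

set_option autoImplicit false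

namespace Crest.Agent.R185.Md191C

open Equiv Crest.Agent.R185.Md191A Crest.Agent.R185.Md191B

/-! ### the group `D` -/

section dgroup

variable {H : Type} [Group H] (L : Subgroup H)

/-- `H` acts on the free group on `H ⧸ L` -/
def qact : H →* MulAut (FreeGroup (H ⧸ L)) where
  toFun h := FreeGroup.freeGroupCongr (MulAction.toPerm h)
  map_one' := by
    ext x
    simp only [FreeGroup.freeGroupCongr_apply]
    have : (⇑(MulAction.toPerm (1 : H) : Perm (H ⧸ L))) = id := by
      funext q; simp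
    rw [this, FreeGroup.map.id]; rfl
  map_mul' a b := by
    ext x
    simp only [FreeGroup.freeGroupCongr_apply, MulAut.mul_apply]
    rw [FreeGroup.map.comp]
    congr 1
    congr 1
    funext q
    simp [mul_smul]

@[simp] theorem qact_of (h : H) (q : H ⧸ L) : qact L h (FreeGroup.of q) = FreeGroup.of (h • q) := by
  simp [qact]

/-- the group `D` -/
abbrev DG : Type := FreeGroup (H ⧸ L) ⋊[qact L] H

/-- `H ≤ D` -/
def hD : H →* DG L := SemidirectProduct.inr

/-- the letter `k` -/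
def kD : DG L := SemidirectProduct.inl (FreeGroup.of ((1 : H) : H ⧸ L))

theorem conj_kD (h : H) : hD L h * kD L * (hD L h)⁻¹ =
    SemidirectProduct.inl (FreeGroup.of ((h : H) : H ⧸ L)) := by
  unfold hD kD
  rw [← map_inv, ← SemidirectProduct.inl_aut, qact_of]
  simp

theorem comm_kD {l : H} (hl : l ∈ L) : Commute (kD L) (hD L l) := by
  have h1 : ((l : H) : H ⧸ L) = ((1 : H) : H ⧸ L) := by
    rw [eq_comm, QuotientGroup.eq]; simpa using hl
  have := conj_kD L l
  rw [h1] at this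
  have h2 : hD L l * kD L * (hD L l)⁻¹ = kD L := this
  rw [mul_inv_eq_iff_eq_mul] at h2
  exact h2.symm

/-- the conjugates of `κ` indexed by `H ⧸ L` -/
def conjQ {K : Type} [Group K] (f : H →* K) (κ : K) (hκ : ∀ l ∈ L, Commute κ (f l)) : H ⧸ L → K :=
  Quotient.lift (fun h => f h * κ * (f h)⁻¹) (by
    intro a b hab
    have hab' : a⁻¹ * b ∈ L := QuotientGroup.leftRel_apply.1 hab
    have := hκ _ hab'
    have hb : b = a * (a⁻¹ * b) := by group
    change f a * κ * (f a)⁻¹ = f b * κ * (f b)⁻¹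
    rw [hb, map_mul f a (a⁻¹ * b), mul_assoc (f a) _ κ, ← this.eq]
    group)

@[simp] theorem conjQ_mk {K : Type} [Group K] (f : H →* K) (κ : K)
    (hκ : ∀ l ∈ L, Commute κ (f l)) (h : H) :
    conjQ L f κ hκ (h : H ⧸ L) = f h * κ * (f h)⁻¹ := rfl

/-- the universal property of `D` -/
def liftD {K : Type} [Group K] (f : H →* K) (κ : K) (hκ : ∀ l ∈ L, Commute κ (f l)) : DG L →* K :=
  SemidirectProduct.lift (FreeGroup.lift (conjQ L f κ hκ)) f (by
    intro g
    ext q : 1
    obtain ⟨h, rfl⟩ := QuotientGroup.mk_surjective q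
    simp only [MonoidHom.comp_apply, MulEquiv.coe_toMonoidHom, qact_of, FreeGroup.lift_apply_of,
      MulAut.conj_apply, conjQ_mk]
    have : g • ((h : H) : H ⧸ L) = ((g * h : H) : H ⧸ L) := rfl
    rw [this, conjQ_mk, map_mul]
    group)

@[simp] theorem liftD_h {K : Type} [Group K] (f : H →* K) (κ : K)
    (hκ : ∀ l ∈ L, Commute κ (f l)) (h : H) : liftD L f κ hκ (hD L h) = f h := by
  simp [liftD, hD]

@[simp] theorem liftD_k {K : Type} [Group K] (f : H →* K) (κ : K)
    (hκ : ∀ l ∈ L, Commute κ (f l)) : liftD L f κ hκ (kD L) = κ := by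
  simp [liftD, kD]

theorem closure_D : Subgroup.closure (Set.range (hD L) ∪ {kD L}) = ⊤ := by
  rw [eq_top_iff]
  rintro ⟨n, h⟩ -
  have hH : ∀ h, hD L h ∈ Subgroup.closure (Set.range (hD L) ∪ {kD L}) := fun h =>
    Subgroup.subset_closure (Or.inl ⟨h, rfl⟩)
  have hk : kD L ∈ Subgroup.closure (Set.range (hD L) ∪ {kD L}) :=
    Subgroup.subset_closure (Or.inr rfl)
  have h1 : ∀ n : FreeGroup (H ⧸ L), (SemidirectProduct.inl n : DG L) ∈
      Subgroup.closure (Set.range (hD L) ∪ {kD L}) := by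
    intro n
    have : (⊤ : Subgroup (FreeGroup (H ⧸ L))) ≤
        (Subgroup.closure (Set.range (hD L) ∪ {kD L})).comap SemidirectProduct.inl := by
      rw [← FreeGroup.closure_range_of, Subgroup.closure_le]
      rintro _ ⟨q, rfl⟩
      obtain ⟨h, rfl⟩ := QuotientGroup.mk_surjective q
      change (SemidirectProduct.inl (FreeGroup.of ((h : H) : H ⧸ L)) : DG L) ∈
        Subgroup.closure (Set.range (hD L) ∪ {kD L})
      rw [← conj_kD]
      exact Subgroup.mul_mem _ (Subgroup.mul_mem _ (hH h) hk) (Subgroup.inv_mem _ (hH h))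
    exact this (Subgroup.mem_top n)
  have h2 : (⟨n, h⟩ : DG L) = SemidirectProduct.inl n * hD L h := by
    unfold hD
    rw [SemidirectProduct.mk_eq_inl_mul_inr]
  rw [h2]
  exact Subgroup.mul_mem _ (h1 n) (hH h)

end dgroup

/-! ### restriction of an action to an invariant copy -/

section restrict

variable {G Z Pp : Type} [Group G]

/-- the action induced on an invariant copy `c : Pp → Z` -/
noncomputable def restrictHom (a : G →* Perm Z) (c : Pp → Z) (hc : Function.Injective c)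
    (h : ∀ g p, ∃ p', a g (c p) = c p') : G →* Perm Pp where
  toFun g :=
    { toFun := fun p => (h g p).choose
      invFun := fun p => (h g⁻¹ p).choose
      left_inv := by
        intro p
        apply hc
        rw [← (h g⁻¹ _).choose_spec, ← (h g p).choose_spec, map_inv]; simp
      right_inv := by
        intro p
        apply hc
        rw [← (h g _).choose_spec, ← (h g⁻¹ p).choose_spec, map_inv]; simp }
  map_one' := by
    apply Equiv.ext; intro p
    apply hc
    change c (h 1 p).choose = c p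
    rw [← (h 1 p).choose_spec]; simp
  map_mul' g g' := by
    apply Equiv.ext; intro p
    apply hc
    change c (h (g * g') p).choose = c (h g (h g' p).choose).choose
    rw [← (h (g * g') p).choose_spec, ← (h g _).choose_spec, ← (h g' p).choose_spec, map_mul]
    rfl

theorem restrictHom_spec (a : G →* Perm Z) (c : Pp → Z) (hc : Function.Injective c)
    (h : ∀ g p, ∃ p', a g (c p) = c p') (g : G) (p : Pp) :
    a g (c p) = c (restrictHom a c hc h g p) := (h g p).choose_spec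

end restrict

/-! ### the subgroup `S` -/

section sgroup

variable {A H : Type} [Group H] (L : Subgroup H) (ε : FreeGroup (Option A) →* H)

/-- the generators of `S` -/
def genS : Set (DG L) := Set.range (fun e => hD L (ε e)) ∪
  Set.range (fun e => kD L * hD L (ε e) * (kD L)⁻¹)

/-- `S = ⟨E, k E k⁻¹⟩` -/
def SG : Subgroup (DG L) := Subgroup.closure (genS L ε)

theorem mem_SG (e : FreeGroup (Option A)) : hD L (ε e) ∈ SG L ε :=
  Subgroup.subset_closure (Or.inl ⟨e, rfl⟩)

theorem mem_SG' (e : FreeGroup (Option A)) : kD L * hD L (ε e) * (kD L)⁻¹ ∈ SG L ε :=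
  Subgroup.subset_closure (Or.inr ⟨e, rfl⟩)

/-- `e ∈ S` -/
def eS (e : FreeGroup (Option A)) : SG L ε := ⟨hD L (ε e), mem_SG L ε e⟩

/-- `k e k⁻¹ ∈ S` -/
def eS' (e : FreeGroup (Option A)) : SG L ε := ⟨kD L * hD L (ε e) * (kD L)⁻¹, mem_SG' L ε e⟩

/-- induction on `S` -/
theorem SG_induction {p : SG L ε → Prop} (h1 : ∀ e, p (eS L ε e)) (h2 : ∀ e, p (eS' L ε e))
    (hmul : ∀ x y, p x → p y → p (x * y)) (hinv : ∀ x, p x → p x⁻¹) (x : SG L ε) : p x := by
  obtain ⟨x, hx⟩ := x
  refine Subgroup.closure_induction (p := fun x hx => p ⟨x, hx⟩) ?_ ?_ ?_ ?_ hx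
  · rintro _ (⟨e, rfl⟩ | ⟨e, rfl⟩)
    · exact h1 e
    · exact h2 e
  · have := h1 1
    convert this using 1
    apply Subtype.ext
    simp [eS]
  · intro x y hx hy ihx ihy
    exact hmul _ _ ihx ihy
  · intro x hx ih
    exact hinv _ ih

end sgroup

/-! ### the two-copy set `XX` and `χ̂` -/

section chiS

variable {A H : Type} [Group H] {L : Subgroup H} {ε : FreeGroup (Option A) →* H}
variable {Acc : Set (FreeGroup A)}

/-- what is needed from the syntactic witness -/
structure WitOK (L : Subgroup H) (ε : FreeGroup (Option A) →* H) (Acc : Set (FreeGroup A)) :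
    Prop where
  inj : Function.Injective ε
  cap : ∀ e, ε e ∈ L → e ∈ Subgroup.closure (tw '' Acc)

variable (X : Type) [MulAction (FreeGroup A) X] (κ : FreeGroup A → FreeGroup A)

/-- both representations at once -/
noncomputable def chi2 : FreeGroup (Option A) →* Perm (P A X × Bool) where
  toFun e :=
    { toFun := fun p => (if p.2 then chiK A X κ e p.1 else chi' A X e p.1, p.2)
      invFun := fun p => (if p.2 then (chiK A X κ e)⁻¹ p.1 else (chi' A X e)⁻¹ p.1, p.2)
      left_inv := by rintro ⟨p, b⟩; cases b <;> simp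
      right_inv := by rintro ⟨p, b⟩; cases b <;> simp }
  map_one' := by apply Equiv.ext; rintro ⟨p, b⟩; cases b <;> simp
  map_mul' a b := by apply Equiv.ext; rintro ⟨p, b⟩; cases b <;> simp

@[simp] theorem chi2_true (e : FreeGroup (Option A)) (p : P A X) :
    chi2 X κ e (p, true) = (chiK A X κ e p, true) := by simp [chi2]

@[simp] theorem chi2_false (e : FreeGroup (Option A)) (p : P A X) :
    chi2 X κ e (p, false) = (chi' A X e p, false) := by simp [chi2]

/-- the action of `E = ε.range` -/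
noncomputable def star2 (hε : Function.Injective ε) : ε.range →* Perm (P A X × Bool) :=
  (chi2 X κ).comp (MonoidHom.ofInjective hε).symm.toMonoidHom

theorem star2_apply (hε : Function.Injective ε) (e : FreeGroup (Option A)) :
    star2 X κ hε (ε.rangeRestrict e) = chi2 X κ e := by
  unfold star2
  have : (MonoidHom.ofInjective hε).symm (ε.rangeRestrict e) = e := by
    rw [MulEquiv.symm_apply_eq]; rfl
  simp only [MonoidHom.comp_apply, MulEquiv.coe_toMonoidHom, this]

/-- `H ×_E (P(X) × Bool)` -/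
abbrev XX (hε : Function.Injective ε) : Type := Ind ε.range (star2 X κ hε)

variable {X} {κ}

/-- the point `[h, (p, b)]` -/
noncomputable abbrev mk2 (κ : FreeGroup A → FreeGroup A) (hε : Function.Injective ε) (h : H) (p : P A X) (b : Bool) : XX X κ hε :=
  mkI ε.range (star2 X κ hε) h (p, b)

theorem mk2_mul (hε : Function.Injective ε) (h : H) (e : FreeGroup (Option A)) (p : P A X)
    (b : Bool) :
    mk2 κ hε (h * ε e) p b = mk2 κ hε h (if b then chiK A X κ e p else chi' A X e p) b := by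
  have := mkI_mul (star := star2 X κ hε) h (ε.rangeRestrict e) (p, b)
  rw [star2_apply, MonoidHom.coe_rangeRestrict] at this
  cases b
  · rw [chi2_false] at this; simpa using this
  · rw [chi2_true] at this; simpa using this

theorem mk2_eq {hε : Function.Injective ε} {h h' : H} {p p' : P A X} {b b' : Bool} :
    mk2 κ hε h p b = mk2 κ hε h' p' b' ↔ ∃ e, h' = h * (ε e)⁻¹ ∧ b' = b ∧
      p' = (if b then chiK A X κ e p else chi' A X e p) := by
  rw [mkI_eq]
  constructor
  · rintro ⟨s, h1, h2⟩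
    obtain ⟨e, rfl⟩ := ε.rangeRestrict_surjective s
    rw [star2_apply] at h2
    rw [MonoidHom.coe_rangeRestrict] at h1
    refine ⟨e, h1, ?_⟩
    cases b
    · rw [chi2_false] at h2
      exact ⟨congrArg Prod.snd h2, by simpa using congrArg Prod.fst h2⟩
    · rw [chi2_true] at h2
      exact ⟨congrArg Prod.snd h2, by simpa using congrArg Prod.fst h2⟩
  · rintro ⟨e, h1, rfl, h2⟩
    refine ⟨ε.rangeRestrict e, by rw [MonoidHom.coe_rangeRestrict]; exact h1, ?_⟩
    rw [star2_apply]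
    cases b'
    · rw [chi2_false]; simp at h2; rw [h2]
    · rw [chi2_true]; simp at h2; rw [h2]

open Classical in
/-- the exchange `[l, (p, b)] ↔ [l, (p, !b)]`, `l ∈ L` -/
noncomputable def kf (κ : FreeGroup A → FreeGroup A) (L : Subgroup H) (hε : Function.Injective ε) (z : XX X κ hε) : XX X κ hε :=
  if h : ∃ (l : H) (p : P A X) (b : Bool), l ∈ L ∧ z = mk2 κ hε l p b then
    mk2 κ hε h.choose h.choose_spec.choose (!h.choose_spec.choose_spec.choose) else z

theorem kf_mem (hW : WitOK L ε Acc) (hκ : ∀ w ∈ Acc, κ w = 1) {l : H} (hl : l ∈ L)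
    (p : P A X) (b : Bool) : kf κ L hW.inj (mk2 κ hW.inj l p b) = mk2 κ hW.inj l p (!b) := by
  have h : ∃ (l' : H) (p' : P A X) (b' : Bool), l' ∈ L ∧
      mk2 κ hW.inj l p b = mk2 κ hW.inj l' p' b' := ⟨l, p, b, hl, rfl⟩
  unfold kf
  rw [dif_pos h]
  have h1 := h.choose_spec.choose_spec.choose_spec
  generalize h.choose_spec.choose_spec.choose = b' at h1 ⊢
  generalize h.choose_spec.choose = p' at h1 ⊢
  generalize h.choose = l' at h1 ⊢
  obtain ⟨hl', h2⟩ := h1
  obtain ⟨e, h3, rfl, h4⟩ := mk2_eq.1 h2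
  have he : ε e ∈ L := by
    have : ε e = l'⁻¹ * l := by rw [h3]; group
    rw [this]; exact L.mul_mem (L.inv_mem hl') hl
  have h5 := chiK_closure A X hκ (hW.cap e he)
  symm
  rw [mk2_eq]
  refine ⟨e, h3, rfl, ?_⟩
  rw [h4]
  cases b' <;> simp [h5]

theorem kf_else (hε : Function.Injective ε) (z : XX X κ hε)
    (h : ¬ ∃ (l : H) (p : P A X) (b : Bool), l ∈ L ∧ z = mk2 κ hε l p b) : kf κ L hε z = z := by
  unfold kf
  rw [dif_neg h]

theorem kf_kf (hW : WitOK L ε Acc) (hκ : ∀ w ∈ Acc, κ w = 1) (z : XX X κ hW.inj) :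
    kf κ L hW.inj (kf κ L hW.inj z) = z := by
  by_cases h : ∃ (l : H) (p : P A X) (b : Bool), l ∈ L ∧ z = mk2 κ hW.inj l p b
  · obtain ⟨l, p, b, hl, rfl⟩ := h
    rw [kf_mem hW hκ hl, kf_mem hW hκ hl, Bool.not_not]
  · rw [kf_else _ z h, kf_else _ z h]

/-- the letter `k` on `XX` -/
noncomputable def kX (X : Type) [MulAction (FreeGroup A) X] (hW : WitOK L ε Acc) (hκ : ∀ w ∈ Acc, κ w = 1) :
    Perm (XX X κ hW.inj) where
  toFun := kf κ L hW.inj
  invFun := kf κ L hW.inj
  left_inv := kf_kf hW hκ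
  right_inv := kf_kf hW hκ

theorem kX_mem (hW : WitOK L ε Acc) (hκ : ∀ w ∈ Acc, κ w = 1) {l : H} (hl : l ∈ L)
    (p : P A X) (b : Bool) : kX X hW hκ (mk2 κ hW.inj l p b) = mk2 κ hW.inj l p (!b) :=
  kf_mem hW hκ hl p b

theorem kX_inv_mem (hW : WitOK L ε Acc) (hκ : ∀ w ∈ Acc, κ w = 1) {l : H}
    (hl : l ∈ L) (p : P A X) (b : Bool) :
    (kX X hW hκ)⁻¹ (mk2 κ hW.inj l p b) = mk2 κ hW.inj l p (!b) :=
  kf_mem hW hκ hl p b

theorem kX_else (hW : WitOK L ε Acc) (hκ : ∀ w ∈ Acc, κ w = 1) (z : XX X κ hW.inj)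
    (h : ¬ ∃ (l : H) (p : P A X) (b : Bool), l ∈ L ∧ z = mk2 κ hW.inj l p b) :
    kX X hW hκ z = z := kf_else _ z h

/-- the action of `H` on `XX` -/
noncomputable abbrev hX2 (X : Type) [MulAction (FreeGroup A) X] (κ : FreeGroup A → FreeGroup A) (hε : Function.Injective ε) : H →* Perm (XX X κ hε) :=
  dI ε.range (star2 X κ hε)

theorem kX_comm (hW : WitOK L ε Acc) (hκ : ∀ w ∈ Acc, κ w = 1) (l : H) (hl : l ∈ L) :
    Commute (kX X hW hκ) (hX2 X κ hW.inj l) := by
  apply Equiv.ext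
  intro z
  simp only [Perm.mul_apply]
  by_cases h : ∃ (l : H) (p : P A X) (b : Bool), l ∈ L ∧ z = mk2 κ hW.inj l p b
  · obtain ⟨l', p, b, hl', rfl⟩ := h
    rw [dI_mk, kX_mem hW hκ hl', dI_mk]
    exact kX_mem hW hκ (L.mul_mem hl hl') p b
  · rw [kX_else hW hκ z h, kX_else hW hκ]
    rintro ⟨l', p, b, hl', h1⟩
    apply h
    refine ⟨l⁻¹ * l', p, b, L.mul_mem (L.inv_mem hl) hl', ?_⟩
    obtain ⟨x, ⟨p0, b0⟩, rfl⟩ := Ind_cases z
    rw [dI_mk] at h1
    obtain ⟨e, h2, h3, h4⟩ := mk2_eq.1 h1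
    refine mk2_eq.2 ⟨e, ?_, h3, h4⟩
    rw [h2]; group

/-- the action of `D` on `XX` -/
noncomputable def actX (X : Type) [MulAction (FreeGroup A) X] (hW : WitOK L ε Acc) (hκ : ∀ w ∈ Acc, κ w = 1) :
    DG L →* Perm (XX X κ hW.inj) := liftD L (hX2 X κ hW.inj) (kX X hW hκ) (kX_comm hW hκ)

@[simp] theorem actX_h (hW : WitOK L ε Acc) (hκ : ∀ w ∈ Acc, κ w = 1) (h h' : H)
    (p : P A X) (b : Bool) :
    actX X hW hκ (hD L h) (mk2 κ hW.inj h' p b) = mk2 κ hW.inj (h * h') p b := by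
  unfold actX; rw [liftD_h]; rfl

theorem actX_k (hW : WitOK L ε Acc) (hκ : ∀ w ∈ Acc, κ w = 1) :
    actX X hW hκ (kD L) = kX X hW hκ := by
  unfold actX; rw [liftD_k]

theorem actX_e (hW : WitOK L ε Acc) (hκ : ∀ w ∈ Acc, κ w = 1)
    (e : FreeGroup (Option A)) (p : P A X) :
    actX X hW hκ (hD L (ε e)) (mk2 κ hW.inj 1 p true) = mk2 κ hW.inj 1 (chiK A X κ e p) true := by
  rw [actX_h, mul_one]
  have := mk2_mul (κ := κ) hW.inj 1 e p true
  rw [one_mul] at this
  simpa using this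

theorem actX_e' (hW : WitOK L ε Acc) (hκ : ∀ w ∈ Acc, κ w = 1)
    (e : FreeGroup (Option A)) (p : P A X) :
    actX X hW hκ (kD L * hD L (ε e) * (kD L)⁻¹) (mk2 κ hW.inj 1 p true) =
      mk2 κ hW.inj 1 (chi' A X e p) true := by
  simp only [map_mul, map_inv, Perm.mul_apply, actX_k]
  rw [kX_inv_mem hW hκ L.one_mem, Bool.not_true, actX_h, mul_one]
  have := mk2_mul (κ := κ) hW.inj 1 e p false
  rw [one_mul] at this
  rw [this]
  have := kX_mem hW hκ L.one_mem (chi' A X e p) false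
  simpa using this

theorem actX_inv (hW : WitOK L ε Acc) (hκ : ∀ w ∈ Acc, κ w = 1) (x : SG L ε)
    (p : P A X) : ∃ p', actX X hW hκ x (mk2 κ hW.inj 1 p true) = mk2 κ hW.inj 1 p' true := by
  have key : ∀ x : SG L ε, (∀ p : P A X, ∃ p', actX X hW hκ x (mk2 κ hW.inj 1 p true) =
      mk2 κ hW.inj 1 p' true) ∧ (∀ p : P A X, ∃ p', (actX X hW hκ x)⁻¹ (mk2 κ hW.inj 1 p true) =
      mk2 κ hW.inj 1 p' true) := by
    intro x
    refine SG_induction L ε (p := fun x => (∀ p : P A X, ∃ p', actX X hW hκ x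
      (mk2 κ hW.inj 1 p true) = mk2 κ hW.inj 1 p' true) ∧ (∀ p : P A X, ∃ p',
      (actX X hW hκ x)⁻¹ (mk2 κ hW.inj 1 p true) = mk2 κ hW.inj 1 p' true)) ?_ ?_ ?_ ?_ x
    · intro e
      refine ⟨fun p => ⟨_, actX_e hW hκ e p⟩, fun p => ⟨(chiK A X κ e)⁻¹ p, ?_⟩⟩
      rw [Perm.inv_eq_iff_eq]
      change _ = actX X hW hκ (hD L (ε e)) _
      rw [actX_e]; simp
    · intro e
      refine ⟨fun p => ⟨_, actX_e' hW hκ e p⟩, fun p => ⟨(chi' A X e)⁻¹ p, ?_⟩⟩
      rw [Perm.inv_eq_iff_eq]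
      change _ = actX X hW hκ (kD L * hD L (ε e) * (kD L)⁻¹) _
      rw [actX_e']; simp
    · rintro x y ⟨hx, hx'⟩ ⟨hy, hy'⟩
      constructor
      · intro p
        obtain ⟨p1, h1⟩ := hy p
        obtain ⟨p2, h2⟩ := hx p1
        refine ⟨p2, ?_⟩
        rw [Subgroup.coe_mul, map_mul, Perm.mul_apply, h1, h2]
      · intro p
        obtain ⟨p1, h1⟩ := hx' p
        obtain ⟨p2, h2⟩ := hy' p1
        refine ⟨p2, ?_⟩
        rw [Subgroup.coe_mul, map_mul, mul_inv_rev, Perm.mul_apply, h1, h2]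
    · rintro x ⟨hx, hx'⟩
      constructor
      · intro p
        rw [Subgroup.coe_inv, map_inv]; exact hx' p
      · intro p
        rw [Subgroup.coe_inv, map_inv, inv_inv]; exact hx p
  exact (key x).1 p

theorem mk2_one_inj (κ : FreeGroup A → FreeGroup A) (hε : Function.Injective ε) :
    Function.Injective (fun p : P A X => mk2 κ hε 1 p true) := by
  intro p p' h
  have := in0_inj h
  exact congrArg Prod.fst this

/-- **`χ̂ : S → Sym P(X)`** -/
noncomputable def chiS (X : Type) [MulAction (FreeGroup A) X] (hW : WitOK L ε Acc) (hκ : ∀ w ∈ Acc, κ w = 1) :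
    SG L ε →* Perm (P A X) :=
  restrictHom ((actX X hW hκ).comp (SG L ε).subtype) (fun p => mk2 κ hW.inj 1 p true)
    (mk2_one_inj κ hW.inj) (fun x p => actX_inv hW hκ x p)

/-- the defining property of `χ̂`: evaluate the word in `XX` -/
theorem chiS_spec (hW : WitOK L ε Acc) (hκ : ∀ w ∈ Acc, κ w = 1) (x : SG L ε)
    (p : P A X) :
    actX X hW hκ x (mk2 κ hW.inj 1 p true) = mk2 κ hW.inj 1 (chiS X hW hκ x p) true :=
  restrictHom_spec ((actX X hW hκ).comp (SG L ε).subtype) (fun p => mk2 κ hW.inj 1 p true)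
    (mk2_one_inj κ hW.inj) (fun x p => actX_inv hW hκ x p) x p

@[simp] theorem chiS_e (hW : WitOK L ε Acc) (hκ : ∀ w ∈ Acc, κ w = 1)
    (e : FreeGroup (Option A)) : chiS X hW hκ (eS L ε e) = chiK A X κ e := by
  apply Equiv.ext; intro p
  apply mk2_one_inj (ε := ε) κ hW.inj
  change mk2 κ hW.inj 1 _ true = mk2 κ hW.inj 1 _ true
  rw [← chiS_spec]
  exact actX_e hW hκ e p

@[simp] theorem chiS_e' (hW : WitOK L ε Acc) (hκ : ∀ w ∈ Acc, κ w = 1)
    (e : FreeGroup (Option A)) : chiS X hW hκ (eS' L ε e) = chi' A X e := by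
  apply Equiv.ext; intro p
  apply mk2_one_inj (ε := ε) κ hW.inj
  change mk2 κ hW.inj 1 _ true = mk2 κ hW.inj 1 _ true
  rw [← chiS_spec]
  exact actX_e' hW hκ e p

end chiS

/-- functoriality of `χ̂` -/
theorem mapP_chiS {A H : Type} [Group H] {L : Subgroup H} {ε : FreeGroup (Option A) →* H}
    {Acc : Set (FreeGroup A)} {X X' : Type} [MulAction (FreeGroup A) X]
    [MulAction (FreeGroup A) X'] {κ : FreeGroup A → FreeGroup A} (hW : WitOK L ε Acc) (hκ : ∀ w ∈ Acc, κ w = 1)
    {f : X → X'}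
    (hf : ∀ (w : FreeGroup A) x, f (w • x) = w • f x) (x : SG L ε) (p : P A X) :
    mapP A f (chiS X hW hκ x p) = chiS X' hW hκ x (mapP A f p) := by
  revert p
  refine SG_induction L ε (p := fun x => ∀ p : P A X,
    mapP A f (chiS X hW hκ x p) = chiS X' hW hκ x (mapP A f p)) ?_ ?_ ?_ ?_ x
  · intro e p
    rw [chiS_e, chiS_e, mapP_chiK hf]
  · intro e p
    rw [chiS_e', chiS_e', mapP_chi']
  · intro x y hx hy p
    simp [map_mul, hx, hy]
  · intro x hx p
    rw [map_inv, map_inv]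
    exact inv_intertwine hx p

end Crest.Agent.R185.Md191C
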