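import Crest.Agent.R185.Tab1
import Crest.Agent.R185.Md191C

/-!
# R185, block LIN (TAB), part 2: evaluation of `D`-words on `XX` (helper424)

`lit` is the literal label of a walk (products of `Q_η`); `eval_run` evaluates a `D`-word at
`[1, ((g, m, ξ), true)]`, `chiS_run` gives `chiS` of a word with value in `S`.
-/

set_option autoImplicit false
set_option linter.unusedSectionVars false

namespace Crest.Agent.R185.Tab

open Classical Equiv Crest.Agent.R185.Wit Crest.Agent.R185.Md191A Crest.Agent.R185.Md191B
  Crest.Agent.R185.Md191C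

variable {R A : Type} [DecidableEq R] [DecidableEq A] (W : WS R A)

/-! ### the witness -/

theorem emb_eq_piw (w : FreeGroup A) : (emb w : FreeGroup (Option A)) = piw w := by
  have : (emb : FreeGroup A →* FreeGroup (Option A)) = piw := by
    ext1 x; simp [emb, piw]
  rw [this]

theorem tg_eq_tw (w : FreeGroup A) : (tg w : FreeGroup (Option A)) = tw w := by
  rw [tg, tw, emb_eq_piw]; rfl

/-- the syntactic witness -/
theorem witOK : WitOK (Ls W) (eps W) (AccG W) where
  inj := eps_injective W
  cap e he := by
    rw [eps_mem_Ls] at he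
    have h : {y : FreeGroup (Option A) | ∃ g, st W g ∈ Ch W ∧ y = tg g} = tw '' AccG W := by
      ext y
      constructor
      · rintro ⟨g, hg, rfl⟩
        exact ⟨g, hg, (tg_eq_tw g).symm⟩
      · rintro ⟨g, hg, rfl⟩
        exact ⟨g, hg, (tg_eq_tw g).symm⟩
    rw [h] at he
    exact he

theorem kap_spec : ∀ w ∈ AccG W, kap W w = 1 := fun _ h => kap_acc W h

/-! ### the silent action -/

theorem ex_fgAut {T : Type*} [DecidableEq T] (s : Equiv.Perm T) (t : T) (f : FreeGroup T) :
    ex t ((fgAut s : MulAut (FreeGroup T)) f) = ex (s⁻¹ t) f := by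
  have : (ex t).comp (fgAut s : MulAut (FreeGroup T)).toMonoidHom = ex (s⁻¹ t) := by
    ext1 x
    simp only [MonoidHom.comp_apply, MulEquiv.coe_toMonoidHom, fgAut_of]
    rw [ex, ex, FreeGroup.lift_apply_of, FreeGroup.lift_apply_of]
    have : (s x = t) ↔ (x = s⁻¹ t) := by
      rw [Perm.eq_inv_iff_eq]
    simp only [this]
  exact DFunLike.congr_fun this f

theorem NH_eps_mul (g : FreeGroup A) (x y : FreeGroup (Option A)) :
    NH W g (eps W (x * y)) = NH W g (eps W x) + NH W ((prA x)⁻¹ * g) (eps W y) := by
  rw [NH_eps, NH_eps, NH_eps, map_mul, SemidirectProduct.mul_left, map_mul, toAdd_mul]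
  congr 2
  rw [phi_apply, ex_fgAut, eps_right, ← map_inv, ← map_inv (ip W), act_ip_st]

theorem NH_eps_some (g : FreeGroup A) (a : A) : NH W g (eps W (FreeGroup.of (some a))) = 0 := by
  rw [NH_eps, eps_some, SemidirectProduct.left_inr, map_one, toAdd_one]

theorem NH_eps_none (g : FreeGroup A) :
    NH W g (eps W (FreeGroup.of none)) = if g = 1 then 1 else 0 := by
  rw [NH_eps, eps_none, te, SemidirectProduct.left_inl, ex, FreeGroup.lift_apply_of, ← st_one]
  by_cases h : g = 1
  · subst h; simp
  · have : st W 1 ≠ st W g := fun h1 => h (st_injective W h1).symm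
    simp [h, this]

theorem NH_eps_inv (g : FreeGroup A) (x : FreeGroup (Option A)) :
    NH W g (eps W x⁻¹) = - NH W (prA x * g) (eps W x) := by
  have h := NH_eps_mul W (prA x * g) x x⁻¹
  rw [mul_inv_cancel, map_one, NH_one, inv_mul_cancel_left] at h
  omega

theorem chi'_inv_apply (X : Type) (x : FreeGroup (Option A)) :
    ∀ (g : FreeGroup A) (n : ℤ) (ξ : X), chi' A X x⁻¹ (g, n, ξ) =
      ((prA x)⁻¹ * g, n - NH W g (eps W x), ξ) := by
  induction x using FreeGroup.induction_on with
  | C1 => intro g n ξ; simp [NH_one]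
  | of o =>
    intro g n ξ
    rw [map_inv]
    cases o with
    | none =>
      rw [NH_eps_none]
      have h1 : (chi' A X) (FreeGroup.of none) = dd A X := by simp [chi']
      rw [h1]
      by_cases h : g = 1
      · subst h
        rw [dd_inv_one]; simp [prA]
      · rw [dd_inv_ne _ _ h]; simp [prA, h]
    | some a =>
      rw [NH_eps_some]
      simp [chi', prA]
  | inv_of o ih =>
    intro g n ξ
    rw [NH_eps_inv, map_inv (chi' A X), Perm.inv_eq_iff_eq, ih]
    simp
  | mul x y ihx ihy =>
    intro g n ξ
    rw [mul_inv_rev, map_mul, Perm.mul_apply, ihx, ihy, NH_eps_mul, map_mul]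
    simp [mul_assoc, sub_sub]

/-! ### the literal label -/

/-- the literal label of a walk -/
noncomputable def lstp (a : DL W × Bool) (σ : St W) (c : FreeGroup A → ℤ → FreeGroup A) :
    FreeGroup A → ℤ → FreeGroup A :=
  match a.1 with
  | some _ => c
  | none =>
    if σ.eta ∈ EL W then
      (if σ.b then fun g m => Qk W σ.eta g m * c g m else fun g m => (Qk W σ.eta g m)⁻¹ * c g m)
    else c

/-- the literal label of a word -/
noncomputable def lit : List (DL W × Bool) → FreeGroup A → ℤ → FreeGroup A
  | [] => fun g m => (Qk W 1 g m)⁻¹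
  | a :: u => lstp W a (run W u) (lit u)

/-- the value of a letter of `D` -/
def dlv : DL W → DG (Ls W)
  | some l => hD (Ls W) (hlv l)
  | none => kD (Ls W)

/-- the value of a word -/
def dval : FreeGroup (DL W) →* DG (Ls W) := FreeGroup.lift (dlv W)

theorem dval_cons (a : DL W × Bool) (u : List (DL W × Bool)) :
    dval W (FreeGroup.mk (a :: u)) = dval W (FreeGroup.mk [a]) * dval W (FreeGroup.mk u) := by
  rw [← map_mul, FreeGroup.mul_mk]; rfl

theorem dval_some (l : HL W) (e : Bool) :
    dval W (FreeGroup.mk [(some l, e)]) = hD (Ls W) (hL [(l, e)]) := by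
  cases e with
  | true =>
    have h : (FreeGroup.mk [(some l, true)] : FreeGroup (DL W)) = FreeGroup.of (some l) := rfl
    rw [h, hL_true, dval, FreeGroup.lift_apply_of]; rfl
  | false =>
    have h : (FreeGroup.mk [(some l, false)] : FreeGroup (DL W)) = (FreeGroup.of (some l))⁻¹ := rfl
    rw [h, hL_false, map_inv, dval, FreeGroup.lift_apply_of, map_inv]; rfl

theorem hL_not (l : HL W) (e : Bool) : hL [(l, !e)] = (hL [(l, e)])⁻¹ := by
  cases e with
  | true => rw [Bool.not_true, hL_true, hL_false]
  | false => rw [Bool.not_false, hL_true, hL_false, inv_inv]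

/-- `Γ_b` -/
noncomputable def Gb (X : Type) [MulAction (FreeGroup A) X] (b : Bool) (p : P A X) : P A X :=
  if b then gauK A X (kap W) p else p

theorem Gb_true (X : Type) [MulAction (FreeGroup A) X] (p : P A X) :
    Gb W X true p = gauK A X (kap W) p := rfl

theorem Gb_false (X : Type) [MulAction (FreeGroup A) X] (p : P A X) : Gb W X false p = p := rfl

/-- the two copies -/
theorem chib_apply (X : Type) [MulAction (FreeGroup A) X] (b : Bool) (e : FreeGroup (Option A))
    (p : P A X) :
    (if b then chiK A X (kap W) e (Gb W X b p) else chi' A X e (Gb W X b p)) =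
      Gb W X b (chi' A X e p) := by
  cases b
  · simp [Gb]
  · simp [Gb, chiK_apply]

theorem Gb_inj (X : Type) [MulAction (FreeGroup A) X] (b : Bool) :
    Function.Injective (Gb W X b) := by
  cases b
  · intro p q h; exact h
  · intro p q h; exact (gauK A X (kap W)).injective h

theorem mk2_mul_Gb (X : Type) [MulAction (FreeGroup A) X] (h : Hg W) (e : FreeGroup (Option A))
    (p : P A X) (b : Bool) :
    mk2 (kap W) (eps_injective W) (h * eps W e) (Gb W X b p) b =
      mk2 (kap W) (eps_injective W) h (Gb W X b (chi' A X e p)) b := by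
  rw [mk2_mul, chib_apply]

variable (X : Type) [MulAction (FreeGroup A) X]

/-- **evaluation of a `D`-word** -/
theorem eval_run (u : List (DL W × Bool)) (g : FreeGroup A) (m : ℤ) (ξ : X) :
    actX X (witOK W) (kap_spec W) (dval W (FreeGroup.mk u))
      (mk2 (kap W) (eps_injective W) 1 (g, m, ξ) true) =
    mk2 (kap W) (eps_injective W) (run W u).eta⁻¹
      (Gb W X (run W u).b (g, m, lit W u g m • ξ)) (run W u).b := by
  induction u with
  | nil =>
    have h : (FreeGroup.mk [] : FreeGroup (DL W)) = 1 := rfl
    rw [h, map_one, map_one, Perm.one_apply]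
    change _ = mk2 (kap W) (eps_injective W) (1 : Hg W)⁻¹
      (Gb W X true (g, m, (Qk W 1 g m)⁻¹ • ξ)) true
    rw [inv_one, Gb_true, gauK_apply, Qk, NH_one]
    have h1 : wH W (1 : Hg W) = 1 := by
      rw [wH, SemidirectProduct.one_right, map_one]
    rw [h1, inv_one, one_mul, smul_inv_smul]
  | cons a u ih =>
    rw [dval_cons, map_mul, Perm.mul_apply, ih]
    obtain ⟨o, e⟩ := a
    cases o with
    | some l =>
      rw [dval_some, actX_h, run_cons, stp_some]
      change _ = mk2 (kap W) (eps_injective W) ((run W u).eta * hL [(l, !e)])⁻¹ _ _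
      rw [hL_not, mul_inv_rev, inv_inv]
      rfl
    | none =>
      have hk : actX X (witOK W) (kap_spec W) (dval W (FreeGroup.mk [(none, e)])) =
          kX X (witOK W) (kap_spec W) := by
        cases e with
        | true =>
          have h : (FreeGroup.mk [(none, true)] : FreeGroup (DL W)) = FreeGroup.of none := rfl
          rw [h, dval, FreeGroup.lift_apply_of]
          exact actX_k _ _
        | false =>
          have h : (FreeGroup.mk [(none, false)] : FreeGroup (DL W)) = (FreeGroup.of none)⁻¹ := rfl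
          rw [h, dval, map_inv, FreeGroup.lift_apply_of, map_inv]
          change (actX X (witOK W) (kap_spec W) (kD (Ls W)))⁻¹ = _
          rw [actX_k]
          rfl
      rw [hk]
      by_cases h : (run W u).eta ∈ EL W
      · obtain ⟨x, l, hl, h1, h2, h3⟩ := EL_rep W h
        have h4 : (run W u).eta⁻¹ = l⁻¹ * eps W x⁻¹ := by
          rw [h1, mul_inv_rev, map_inv]
        have hc : ∀ ζ : X, chi' A X x⁻¹ (g, m, ζ) =
            ((wH W (run W u).eta)⁻¹ * g, m - NH W g (run W u).eta, ζ) := by
          intro ζ
          rw [chi'_inv_apply W, h2, h3]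
        rw [h4, mk2_mul_Gb W X, hc, kX_mem (witOK W) (kap_spec W) (inv_mem hl)]
        cases hb : (run W u).b with
        | true =>
          rw [run_cons, stp_none_true W e h hb]
          change _ = mk2 (kap W) (eps_injective W) (run W u).eta⁻¹
            (Gb W X false (g, m, lit W ((none, e) :: u) g m • ξ)) false
          rw [h4, mk2_mul_Gb W X, hc]
          have h5 : lit W ((none, e) :: u) g m = Qk W (run W u).eta g m * lit W u g m := by
            simp [lit, lstp, h, hb]
          rw [h5, Gb_true, gauK_apply, Gb_false, mul_smul, Bool.not_true]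
          have h6 : (m - NH W g (run W u).eta < 0) ↔ m < NH W g (run W u).eta := by omega
          simp only [Qk, h6]
        | false =>
          rw [run_cons, stp_none_false W e h hb]
          change _ = mk2 (kap W) (eps_injective W) (run W u).eta⁻¹
            (Gb W X true (g, m, lit W ((none, e) :: u) g m • ξ)) true
          rw [h4, mk2_mul_Gb W X, hc]
          have h5 : lit W ((none, e) :: u) g m = (Qk W (run W u).eta g m)⁻¹ * lit W u g m := by
            simp [lit, lstp, h, hb]
          rw [h5, Gb_true, gauK_apply, Gb_false, Bool.not_false]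
          have h6 : (m - NH W g (run W u).eta < 0) ↔ m < NH W g (run W u).eta := by omega
          simp only [Qk, h6, mul_smul, smul_inv_smul]
      · have hno : ¬ ∃ (l : Hg W) (p : P A X) (b : Bool), l ∈ Ls W ∧
            mk2 (kap W) (eps_injective W) (run W u).eta⁻¹
              (Gb W X (run W u).b (g, m, lit W u g m • ξ)) (run W u).b =
            mk2 (kap W) (eps_injective W) l p b := by
          rintro ⟨l, p, b, hl, h1⟩
          obtain ⟨x, h2, -, -⟩ := mk2_eq.1 h1
          apply h
          refine ⟨x⁻¹, l⁻¹, inv_mem hl, ?_⟩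
          rw [h2, mul_inv_rev, inv_inv, inv_inv, map_inv, inv_mul_cancel_left]
        rw [kX_else (witOK W) (kap_spec W) _ hno, run_cons, stp_none_else W e h]
        have h5 : lit W ((none, e) :: u) = lit W u := by
          simp [lit, lstp, h]
        rw [h5]

theorem run_aux {u : List (DL W × Bool)} (hu : dval W (FreeGroup.mk u) ∈ SG (Ls W) (eps W))
    (g : FreeGroup A) (m : ℤ) (ξ : X) : (run W u).b = true ∧
    ∃ x, (run W u).eta = eps W x ∧
      chiS X (witOK W) (kap_spec W) ⟨dval W (FreeGroup.mk u), hu⟩ (g, m, ξ) =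
        ((wH W (run W u).eta)⁻¹ * g, m - NH W g (run W u).eta,
          (Qk W (run W u).eta g m * lit W u g m) • ξ) := by
  have h1 := chiS_spec (witOK W) (kap_spec W) ⟨dval W (FreeGroup.mk u), hu⟩ (g, m, ξ)
  have h2 := eval_run W X u g m ξ
  rw [h1] at h2
  obtain ⟨e, h3, h4, h5⟩ := mk2_eq.1 h2
  rw [one_mul, inv_inj] at h3
  rw [h4]
  refine ⟨rfl, e, h3, ?_⟩
  have hx : chiS X (witOK W) (kap_spec W) ⟨dval W (FreeGroup.mk u), hu⟩ (g, m, ξ) =
      chiK A X (kap W) e⁻¹ (Gb W X true (g, m, lit W u g m • ξ)) := by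
    rw [if_pos rfl] at h5
    rw [← h4, h5, map_inv]
    simp
  have h6 := chib_apply W X true e⁻¹ (g, m, lit W u g m • ξ)
  rw [if_pos rfl] at h6
  have h7 : wH W (run W u).eta = prA e := by
    rw [h3, wH, eps_right, rA_ip]
  rw [hx, h6, chi'_inv_apply W, Gb_true, gauK_apply, h7, h3]
  have h8 : (m - NH W g (eps W e) < 0) ↔ m < NH W g (eps W e) := by omega
  have h9 : wH W (eps W e) = prA e := by
    rw [wH, eps_right, rA_ip]
  simp only [Qk, h8, h9, mul_smul]

theorem run_b {u : List (DL W × Bool)} (hu : dval W (FreeGroup.mk u) ∈ SG (Ls W) (eps W)) :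
    (run W u).b = true :=
  (run_aux W (FreeGroup A) hu 1 0 1).1

theorem run_eta {u : List (DL W × Bool)} (hu : dval W (FreeGroup.mk u) ∈ SG (Ls W) (eps W)) :
    (run W u).eta ∈ EL W := by
  obtain ⟨x, hx, -⟩ := (run_aux W (FreeGroup A) hu 1 0 1).2
  exact ⟨x, 1, one_mem _, by rw [hx, mul_one]⟩

/-- **`chiS` of a word with value in `S`**, literal label -/
theorem chiS_run {u : List (DL W × Bool)} (hu : dval W (FreeGroup.mk u) ∈ SG (Ls W) (eps W))
    (g : FreeGroup A) (m : ℤ) (ξ : X) :
    chiS X (witOK W) (kap_spec W) ⟨dval W (FreeGroup.mk u), hu⟩ (g, m, ξ) =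
        ((wH W (run W u).eta)⁻¹ * g, m - NH W g (run W u).eta,
          (Qk W (run W u).eta g m * lit W u g m) • ξ) := by
  obtain ⟨-, x, -, h⟩ := run_aux W X hu g m ξ
  exact h

end Crest.Agent.R185.Tab
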