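import Crest.Agent.R185.Asm3
import Crest.Agent.R185.Clk9
import Crest.Agent.R185.Md191F
import Crest.Agent.R185.Md191G
import Crest.Agent.R185.Tab2

/-!
# R185 / ASSEMBLY (4): the instantiation at the machine (helper958)

`U : UM (A × Bool)`; the letters of `H` are `HU U` (independent of the text `e`).
-/

set_option autoImplicit false
set_option linter.unusedSectionVars false

namespace Crest.Agent.R185.Asm

open Crest.Agent.R185.Wu Crest.Agent.R185.Hot Crest.Agent.R185.Smp
open Crest.Agent.R185.Md191B Crest.Agent.R185.Md191C Crest.Agent.R185.Md191D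
open Crest.Agent.R185.Clk (UM PConn)
open Crest.Agent.R185.Wit (HL hlv Hg mx my ht Ls eps st Ch)
open Crest.Agent.R185.Tab (AccG kap kap_spec)

section letters

variable {A : Type} [Primcodable A] [DecidableEq A] (U : UM (A × Bool))

/-- the letters of `H` -/
abbrev HU : Type := Fin U.nK ⊕ (Fin U.nR ⊕ Option (A × Bool)) ⊕ Fin U.nQ

/-- the letters of `H`, as the letters of the witness -/
def eqU (e : ℕ) : HU U ≃ HL (U.ws e) where
  toFun := Sum.elim (fun j => HL.x j) (Sum.elim (fun l => HL.y l) (fun q => HL.t q))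
  invFun l := match l with
    | .x j => Sum.inl j
    | .y l => Sum.inr (Sum.inl l)
    | .t q => Sum.inr (Sum.inr q)
  left_inv := by rintro (j | l | q) <;> rfl
  right_inv := by rintro (j | l | q) <;> rfl

/-- the values of the letters of `H` -/
def hlA (e : ℕ) : HU U → Hg (U.ws e) :=
  Sum.elim (fun j => SemidirectProduct.inr (mx (S := (U.ws e).toSys) (Pi.single j 1)))
    (Sum.elim (fun l => SemidirectProduct.inr (my (S := (U.ws e).toSys) l))
      (fun q => ht (U.ws e) q))

theorem hlv_eqU (e : ℕ) (l : HU U) : hlv (eqU U e l) = hlA U e l := by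
  rcases l with j | l | q <;> rfl

/-- the presentation data of `H` -/
def wfp [Finite A] (e : ℕ) : WitFP (Ls (U.ws e)) (eps (U.ws e)) (AccG (U.ws e)) (HU U) :=
  Md191G.reindex (Md191F.witFP (U.ws e)) (eqU U e)

theorem wfp_gen [Finite A] (e : ℕ) : (wfp U e).gen = FreeGroup.lift (hlA U e) := by
  ext1 l
  rw [FreeGroup.lift_apply_of]
  change Wit.hv (U.ws e) (FreeGroup.map (eqU U e) (FreeGroup.of l)) = _
  rw [FreeGroup.map.of, Wit.hv, FreeGroup.lift_apply_of]
  exact hlv_eqU U e l

/-! ### the accepted words -/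

/-- acceptance by the machine -/
def CU (e : ℕ) (w1 : List (Option (A × Bool))) : Prop :=
  PConn U.b U.rule (U.qin, U.start e w1) (U.qh, fun _ => 0)

/-- the accepted words, stripped -/
def AccU (e : ℕ) : Set (FreeGroup A) :=
  {w | ∃ w1 : List (Option (A × Bool)), FreeGroup.mk (w1.filterMap id) = w ∧ CU U e w1}

theorem isReduced_pos {α : Type} (w : List α) : FreeGroup.IsReduced (w.map fun a => (a, true)) := by
  unfold FreeGroup.IsReduced
  rw [List.isChain_iff_forall_rel_of_append_cons_cons]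
  intro a b l1 l2 h _
  have h1 : a ∈ w.map fun a => (a, true) := by rw [h]; simp
  have h2 : b ∈ w.map fun a => (a, true) := by rw [h]; simp
  simp only [List.mem_map] at h1 h2
  obtain ⟨x, -, rfl⟩ := h1
  obtain ⟨y, -, rfl⟩ := h2
  rfl

theorem toWord_pos {α : Type} [DecidableEq α] (w : List α) :
    (FreeGroup.mk (w.map fun a => (a, true))).toWord = w.map fun a => (a, true) := by
  rw [FreeGroup.toWord_mk]
  exact (isReduced_pos w).reduce_eq

theorem pos_eq {α : Type} [DecidableEq α] {l : List (α × Bool)} (h : Wit.Pos l) :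
    (l.map Prod.fst).map (fun a => (a, true)) = l := by
  induction l with
  | nil => rfl
  | cons x l ih =>
    rw [Wit.pos_cons] at h
    rw [List.map_cons, List.map_cons, ih h.2]
    rcases x with ⟨a, b⟩
    have : b = true := h.1
    rw [this]

/-- the accepted words of the witness are the positive words accepted by the machine -/
theorem mem_AccG (e : ℕ) {g : FreeGroup (Option (A × Bool))} :
    g ∈ AccG (U.ws e) ↔ ∃ w1, FreeGroup.mk (w1.map fun a => (a, true)) = g ∧ CU U e w1 := by
  change st (U.ws e) g ∈ Ch (U.ws e) ↔ _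
  rw [Wit.st_mem_Ch]
  constructor
  · rintro ⟨h1, h2⟩
    refine ⟨g.toWord.map Prod.fst, ?_, ?_⟩
    · rw [pos_eq h1, FreeGroup.mk_toWord]
    · exact (U.Acc_iff e _).1 h2
  · rintro ⟨w1, rfl, h⟩
    rw [toWord_pos]
    refine ⟨?_, ?_⟩
    · intro x hx
      obtain ⟨y, -, rfl⟩ := List.mem_map.1 hx
      rfl
    · rw [List.map_map]
      have : (Prod.fst ∘ fun a : Option (A × Bool) => (a, true)) = id := rfl
      rw [this, List.map_id]
      exact (U.Acc_iff e w1).2 h

theorem mem_AccU (e : ℕ) {w : FreeGroup A} :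
    w ∈ AccU U e ↔ ∃ g ∈ AccG (U.ws e), strip A g = w := by
  constructor
  · rintro ⟨w1, h1, h2⟩
    exact ⟨_, (mem_AccG U e).2 ⟨w1, rfl, h2⟩, by rw [strip_mk, h1]⟩
  · rintro ⟨g, hg, rfl⟩
    obtain ⟨w1, rfl, h2⟩ := (mem_AccG U e).1 hg
    exact ⟨w1, (strip_mk w1).symm, h2⟩

/-! ### the sheet space over the machine -/

variable (e : ℕ) (S : Subgroup (FreeGroup A))

/-- the sheet space -/
abbrev YU : Type := YS (Tab.witOK (U.ws e)) (kap_spec (U.ws e)) S

/-- the base point of the sheet space -/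
noncomputable def yU : YU U e S := yS (Tab.witOK (U.ws e)) (kap_spec (U.ws e)) S

/-- the letters on the sheet space -/
noncomputable def pU : UL (HU U) (Option (A × Bool)) → Equiv.Perm (YU U e S) :=
  letI := actS A (XS S)
  Md191E.lY (Tab.witOK (U.ws e)) (kap_spec (U.ws e)) (FreeGroup.lift (hlA U e)) (XS S)

theorem pU_eq [Finite A] :
    pU U e S = lYS (wfp U e) (Tab.witOK (U.ws e)) (kap_spec (U.ws e)) S := by
  unfold pU lYS
  rw [wfp_gen]

/-- **from the fixed point to a core** -/
theorem core_of_machine [Finite A] {G B : Type} [Group G] {eG : B → G}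
    (he : Subgroup.closure (Set.range eG) = ⊤)
    (hAcc : AccU U e = {w | ∀ v : FreeGroup A, v⁻¹ * w * v ∈ S})
    (kw : FreeGroup (KLet (UL (HU U) (Option (A × Bool))) B) →* FreeGroup A)
    (c1 : ∀ w, kw0 eG (yU U e S) (pU U e S) w (pts G _ 0) = pts G _ 0 ↔ kw w ∈ S)
    (c2 : ∀ w, (∀ v, kw0 eG (yU U e S) (pU U e S) (v⁻¹ * w * v) (pts G _ 0) = pts G _ 0) →
      ∀ v : FreeGroup A, v⁻¹ * kw w * v ∈ S) : Nonempty (Core G) := by
  classical
  have : Finite (U.ws e).Q := inferInstanceAs (Finite (Fin U.nQ))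
  rw [pU_eq] at c1 c2
  refine core_of_model (wfp U e) (Tab.witOK (U.ws e)) (kap_spec (U.ws e)) S he ?_ ?_ ?_ kw c1 c2
  · intro g
    by_cases h : g ∈ AccG (U.ws e)
    · exact Or.inr ⟨h, Tab.kap_acc _ h⟩
    · exact Or.inl (Tab.kap_not _ h)
  · intro w hw
    have h1 : strip A w ∈ AccU U e := (mem_AccU U e).2 ⟨w, hw, rfl⟩
    rw [hAcc] at h1
    exact h1
  · intro w hw
    have h1 : w ∈ AccU U e := by rw [hAcc]; exact hw
    exact (mem_AccU U e).1 h1

end letters

end Crest.Agent.R185.Asm
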