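import Mathlib

/-!
# The hub of the fixed point argument (R185)

An abstract statement about operators `Φ e` on subgroups of a free group: a program `e` and a
subgroup `S` with `Φ e S = S` such that the words accepted by `e` are exactly the words all of
whose conjugates lie in `S`.
-/

namespace Crest.Agent.R185.Hub

variable {A : Type} [DecidableEq A]

/-- all words of `N` fix all points `v x₀`, as long as everything has radius at most `r`. -/
def Good (N : Set (FreeGroup A)) (S : Subgroup (FreeGroup A)) (r : ℕ) : Prop :=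
  ∀ w ∈ N, ∀ v : FreeGroup A, w.norm + 2 * v.norm ≤ r → v⁻¹ * w * v ∈ S

/-- the two stabilisers agree on the ball of radius `r`. -/
def Agr (S S' : Subgroup (FreeGroup A)) (r : ℕ) : Prop :=
  ∀ w : FreeGroup A, w.norm ≤ r → (w ∈ S ↔ w ∈ S')

/-- `n`-types of `k`-tuples of points of norm `≤ ρ` have witnesses of norm `≤ b`. -/
def TL (S : Subgroup (FreeGroup A)) (n ρ k b : ℕ) : Prop :=
  ∀ v : Fin k → FreeGroup A, (∀ j, (v j).norm ≤ ρ) →
    ∃ v' : Fin k → FreeGroup A, (∀ j, (v' j).norm ≤ b) ∧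
      ∀ i j (u : FreeGroup A), u.norm ≤ n →
        ((v i)⁻¹ * u * v j ∈ S ↔ (v' i)⁻¹ * u * v' j ∈ S)

theorem Good.mono {N : Set (FreeGroup A)} {S : Subgroup (FreeGroup A)} {r r' : ℕ}
    (h : Good N S r) (hr : r' ≤ r) : Good N S r' :=
  fun w hw v hv => h w hw v (hv.trans hr)

theorem Agr.mono {S S' : Subgroup (FreeGroup A)} {r r' : ℕ}
    (h : Agr S S' r) (hr : r' ≤ r) : Agr S S' r' :=
  fun w hw => h w (hw.trans hr)

theorem Agr.refl (S : Subgroup (FreeGroup A)) (r : ℕ) : Agr S S r := fun _ _ => Iff.rfl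

theorem Agr.symm {S S' : Subgroup (FreeGroup A)} {r : ℕ} (h : Agr S S' r) : Agr S' S r :=
  fun w hw => (h w hw).symm

theorem Agr.trans {S S' S'' : Subgroup (FreeGroup A)} {r : ℕ} (h : Agr S S' r)
    (h' : Agr S' S'' r) : Agr S S'' r :=
  fun w hw => (h w hw).trans (h' w hw)

theorem norm_conj_le (w v : FreeGroup A) : (v⁻¹ * w * v).norm ≤ w.norm + 2 * v.norm := by
  have h1 := FreeGroup.norm_mul_le (v⁻¹ * w) v
  have h2 := FreeGroup.norm_mul_le v⁻¹ w
  have h3 := FreeGroup.norm_inv_eq (x := v)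
  omega

/-- bounds for the witnesses. -/
def bnd (β : ℕ → ℕ → ℕ → ℕ) (β0 : ℕ → ℕ) (c : ℕ → ℕ) : ℕ → ℕ → ℕ
  | 0, k => β0 k
  | n + 1, k => β (n + 1) k (bnd β β0 c ((n + 1) / 2) (c k))
termination_by n => n
decreasing_by omega

/-- the levels. -/
def lev {E : Type*} (Φ : E → Subgroup (FreeGroup A) → Subgroup (FreeGroup A)) (e : E) :
    ℕ → Subgroup (FreeGroup A)
  | 0 => ⊤
  | i + 1 => Φ e (lev Φ e i)

section

variable {E : Type*} {Φ : E → Subgroup (FreeGroup A) → Subgroup (FreeGroup A)}
  {Acc : E → Set (FreeGroup A)} {β : ℕ → ℕ → ℕ → ℕ} {β0 c : ℕ → ℕ}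

/-- stabilisation: agreement on consecutive levels. -/
theorem agr_of_le (e : E) {r : ℕ} (h : ∀ i, r ≤ i → Agr (lev Φ e i) (lev Φ e (i + 1)) r)
    {i j : ℕ} (hi : r ≤ i) (hij : i ≤ j) : Agr (lev Φ e i) (lev Φ e j) r := by
  induction j, hij using Nat.le_induction with
  | base => exact Agr.refl _ _
  | succ j hj ih => exact ih.trans (h j (hi.trans hj))

theorem tl_lev
    (H2 : ∀ e S n ρ k b, 1 ≤ n → Good (Acc e) S ((n + 2 * ρ) / 2) →
      TL S (n / 2) (ρ / 2) (c k) b → TL (Φ e S) n ρ k (β n k b))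
    (H2' : ∀ e S ρ k, TL (Φ e S) 0 ρ k (β0 k))
    (e : E) {r : ℕ} (hG : ∀ r', r' < r → ∀ i, r' ≤ i → Good (Acc e) (lev Φ e i) r') :
    ∀ n ρ k i, n + 2 * ρ ≤ r → n + 2 * ρ ≤ i → 1 ≤ i →
      TL (lev Φ e i) n ρ k (bnd β β0 c n k) := by
  intro n
  induction n using Nat.strong_induction_on with
  | _ n IH =>
    intro ρ k i hr hi h1
    obtain ⟨i, rfl⟩ : ∃ i', i = i' + 1 := ⟨i - 1, by omega⟩
    rcases Nat.eq_zero_or_pos n with rfl | hn
    · rw [bnd]
      exact H2' e _ ρ k
    · obtain ⟨m, rfl⟩ : ∃ m, n = m + 1 := ⟨n - 1, by omega⟩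
      rw [bnd]
      have hg : Good (Acc e) (lev Φ e i) ((m + 1 + 2 * ρ) / 2) :=
        hG _ (by omega) i (by omega)
      rcases Nat.eq_zero_or_pos i with rfl | hipos
      · -- level `0` is `⊤`
        refine H2 e _ _ ρ k _ (by omega) hg ?_
        intro v _
        refine ⟨fun _ => 1, fun j => by simp, fun i j u _ => ?_⟩
        simp [lev]
      · exact H2 e _ _ ρ k _ (by omega) hg
          (IH ((m + 1) / 2) (by omega) (ρ / 2) (c k) i (by omega) (by omega) hipos)

/-- **The hub.** -/
theorem hub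
    (H1 : ∀ e S S' r, Good (Acc e) S r → Good (Acc e) S' r → Agr S S' r →
      Agr (Φ e S) (Φ e S') (2 * r + 1))
    (H2 : ∀ e S n ρ k b, 1 ≤ n → Good (Acc e) S ((n + 2 * ρ) / 2) →
      TL S (n / 2) (ρ / 2) (c k) b → TL (Φ e S) n ρ k (β n k b))
    (H2' : ∀ e S ρ k, TL (Φ e S) 0 ρ k (β0 k))
    (HK : ∃ e, Acc e = {w | ∀ v : FreeGroup A, v.norm ≤ bnd β β0 c w.norm 1 →
      v⁻¹ * w * v ∈ lev Φ e (w.norm + 2 * bnd β β0 c w.norm 1)}) :
    ∃ e S, Φ e S = S ∧ Acc e = {w | ∀ v : FreeGroup A, v⁻¹ * w * v ∈ S} := by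
  obtain ⟨e, he⟩ := HK
  -- main induction
  have main : ∀ r, (∀ i, r ≤ i → Good (Acc e) (lev Φ e i) r) ∧
      (∀ i, r ≤ i → Agr (lev Φ e i) (lev Φ e (i + 1)) r) := by
    intro r
    induction r using Nat.strong_induction_on with
    | _ r IH =>
      rcases Nat.eq_zero_or_pos r with rfl | hr
      · refine ⟨fun i _ w _ v h => ?_, fun i _ w h => ?_⟩
        · have hw : w = 1 := FreeGroup.norm_eq_zero.1 (by omega)
          have hv : v = 1 := FreeGroup.norm_eq_zero.1 (by omega)
          subst hw; subst hv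
          simp
        · have hw : w = 1 := FreeGroup.norm_eq_zero.1 (by omega)
          subst hw
          exact ⟨fun _ => one_mem _, fun _ => one_mem _⟩
      · -- agreement
        have hA : ∀ i, r ≤ i → Agr (lev Φ e i) (lev Φ e (i + 1)) r := by
          intro i hi
          obtain ⟨i, rfl⟩ : ∃ i', i = i' + 1 := ⟨i - 1, by omega⟩
          have h := H1 e (lev Φ e i) (lev Φ e (i + 1)) (r / 2)
            ((IH (r / 2) (by omega)).1 i (by omega))
            ((IH (r / 2) (by omega)).1 (i + 1) (by omega))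
            ((IH (r / 2) (by omega)).2 i (by omega))
          exact h.mono (by omega)
        refine ⟨fun i hi w hw v hv => ?_, hA⟩
        rw [he] at hw
        set b := bnd β β0 c w.norm 1 with hb
        have hw' : ∀ v : FreeGroup A, v.norm ≤ b → v⁻¹ * w * v ∈ lev Φ e (w.norm + 2 * b) := hw
        by_cases hvb : v.norm ≤ b
        · -- `v` itself is a test point
          have h1 := hw' v hvb
          have hn := norm_conj_le w v
          rcases le_total i (w.norm + 2 * b) with hij | hij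
          · exact (agr_of_le e hA hi hij _ (by omega)).2 h1
          · rcases Nat.lt_or_ge (w.norm + 2 * b) r with hlt | hge
            · exact (agr_of_le e (IH _ hlt).2 le_rfl hij _ (by omega)).1 h1
            · exact (agr_of_le e hA hge hij _ (by omega)).1 h1
        · -- replace `v` by a test point
          have htl := tl_lev (Acc := Acc) H2 H2' e (r := r)
            (fun r' hr' i hi => (IH r' hr').1 i hi) w.norm v.norm 1 i hv (by omega) (by omega)
          obtain ⟨v', hv', htt⟩ := htl (fun _ => v) (fun _ => le_rfl)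
          have h1 := hw' (v' 0) (hv' 0)
          have hn := norm_conj_le w (v' 0)
          have hv0 := hv' 0
          rw [← hb] at hv0
          have hlt : w.norm + 2 * b < r := by omega
          have h2 : (v' 0)⁻¹ * w * v' 0 ∈ lev Φ e i :=
            (agr_of_le e (IH _ hlt).2 le_rfl (by omega) _ (by omega)).1 h1
          exact (htt 0 0 w le_rfl).2 h2
  -- the limit subgroup
  have stab : ∀ (w : FreeGroup A) (i j : ℕ), w.norm ≤ i → w.norm ≤ j →
      (w ∈ lev Φ e i ↔ w ∈ lev Φ e j) := by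
    intro w i j hi hj
    have h1 := agr_of_le e (main w.norm).2 le_rfl hi w le_rfl
    have h2 := agr_of_le e (main w.norm).2 le_rfl hj w le_rfl
    exact h1.symm.trans h2
  let S : Subgroup (FreeGroup A) :=
    { carrier := {w | w ∈ lev Φ e w.norm}
      one_mem' := by
        show (1 : FreeGroup A) ∈ lev Φ e (1 : FreeGroup A).norm
        exact one_mem _
      mul_mem' := by
        intro a b ha hb
        have hn := FreeGroup.norm_mul_le a b
        have ha' := (stab a a.norm (a.norm + b.norm) le_rfl (by omega)).1 ha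
        have hb' := (stab b b.norm (a.norm + b.norm) le_rfl (by omega)).1 hb
        exact (stab (a * b) _ (a.norm + b.norm) le_rfl hn).2 (mul_mem ha' hb')
      inv_mem' := by
        intro a ha
        have hn := FreeGroup.norm_inv_eq (x := a)
        show a⁻¹ ∈ lev Φ e a⁻¹.norm
        rw [hn]
        exact inv_mem ha }
  have memS : ∀ (w : FreeGroup A) (i : ℕ), w.norm ≤ i → (w ∈ S ↔ w ∈ lev Φ e i) :=
    fun w i hi => stab w _ i le_rfl hi
  have goodS : ∀ r, Good (Acc e) S r := by
    intro r w hw v hv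
    have h := (main r).1 r le_rfl w hw v hv
    have hn := norm_conj_le w v
    exact (memS _ r (by omega)).2 h
  refine ⟨e, S, ?_, ?_⟩
  · ext w
    have h := H1 e S (lev Φ e w.norm) w.norm (goodS _) ((main _).1 _ le_rfl)
      (fun u hu => memS u _ hu) w (by omega)
    rw [h, memS w (w.norm + 1) (by omega)]
    rfl
  · ext w
    constructor
    · intro hw v
      exact goodS _ w hw v le_rfl
    · intro hw
      rw [he]
      intro v hv
      have hn := norm_conj_le w v
      exact (memS _ _ (by omega)).1 (hw v)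

end

end Crest.Agent.R185.Hub
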