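import Crest.Agent.R185.Smp10

/-!
# R185 / SMP (11): the guard words of `K`-words and the stabiliser of the base point
-/

set_option autoImplicit false

namespace Crest.Agent.R185.Smp

open Crest.Agent.R185.Wu Crest.Agent.R185.Hot

section

variable {G Y A B : Type} [Group G] {M J : ℕ} {lt : ℤ → Option (KLet A B)}
  {ix : KLet A B → ℤ} {e : B → G} {y₀ : Y} {pa : A → Equiv.Perm Y}

/-- the guard word of a `K`-word acts exactly on the fibre over `(0, 0, 0)` -/
theorem lift_gzP_kHom (hL : Lbl J lt ix) (hM : 0 < M) (w : FreeGroup (KLet A B)) :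
    FreeGroup.lift (gzP M lt e y₀ pa) (kHom M ix w) = blkH (FreeGroup.lift (kact e y₀ pa) w) :=
  lift_kHom hL hM w

/-- **(c1)** -/
theorem kHom_mem_gzS (hL : Lbl J lt ix) (hM : 0 < M) (w : FreeGroup (KLet A B)) :
    kHom M ix w ∈ gzS M lt e y₀ pa ↔
      FreeGroup.lift (kact e y₀ pa) w (pts G Y 0) = pts G Y 0 := by
  rw [mem_gzS, lift_gzP_kHom hL hM, blkH_apply]
  unfold gz0
  rw [blk_zero]
  simp

/-- the points of the orbit of the base point lie over the orbit of `pts 0` -/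
theorem gz_orbit (v : FreeGroup GdL) : ∃ (p : GP) (k : FreeGroup (KLet A B)),
    FreeGroup.lift (gzP M lt e y₀ pa) v (gz0 G Y) =
      (p, FreeGroup.lift (kact e y₀ pa) k (pts G Y 0)) := by
  have h0 := ev_gstep M (sig lt (kact e y₀ pa)) v.toWord (0, 0, 0) (pts G Y 0)
  rw [glabs_word, ev_sg] at h0
  exact ⟨_, _, (lift_gzP' M lt e y₀ pa v _).trans h0⟩

/-- **(c2)** -/
theorem kHom_conj_mem_gzS (hL : Lbl J lt ix) (hM : 0 < M) (w : FreeGroup (KLet A B))
    (hw : ∀ v : FreeGroup (KLet A B),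
      FreeGroup.lift (kact e y₀ pa) (v⁻¹ * w * v) (pts G Y 0) = pts G Y 0)
    (v : FreeGroup GdL) : v⁻¹ * kHom M ix w * v ∈ gzS M lt e y₀ pa := by
  rw [mem_gzS_conj, lift_gzP_kHom hL hM]
  obtain ⟨p, k, hk⟩ := gz_orbit (G := G) (M := M) (lt := lt) (e := e) (y₀ := y₀) (pa := pa) v
  rw [hk, blkH_apply, blk_apply]
  have h1 := hw k
  rw [map_mul, map_mul, map_inv, Equiv.Perm.mul_apply, Equiv.Perm.mul_apply,
    Equiv.Perm.inv_eq_iff_eq] at h1
  simp only
  rw [h1, ite_self]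

end

end Crest.Agent.R185.Smp
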