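import Crest.Agent.R185.Asm4
import Crest.Agent.R185.Smp11
import Crest.Agent.R185.Hub3

/-!
# R185 / ASSEMBLY (5): the operator `Φ` and the core from a fixed point (helper958)

`Phi U eG M e S` is the stabiliser in `FreeGroup GdL` of the base point of the guard over
`ZZ G (YU U e S)`; all obligations H1, H2, H3 of `Hub.hub_machine` are about this `Φ`.
-/

set_option autoImplicit false
set_option linter.unusedSectionVars false

namespace Crest.Agent.R185.Asm

open Crest.Agent.R185.Wu Crest.Agent.R185.Hot Crest.Agent.R185.Smp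
open Crest.Agent.R185.Clk (UM PConn)

/-! ### the alphabet of the guard -/

/-- the letters of the guard are coded by `Fin 3` -/
def gdlEquiv : GdL ≃ Fin 3 where
  toFun a := match a with
    | .x => 0
    | .y => 1
    | .t => 2
  invFun i := match i with
    | 0 => .x
    | 1 => .y
    | 2 => .t
  left_inv := by rintro (_ | _ | _) <;> rfl
  right_inv := by intro i; fin_cases i <;> rfl

instance : Primcodable GdL := Primcodable.ofEquiv (Fin 3) gdlEquiv

instance : Finite GdL := Finite.of_equiv _ gdlEquiv.symm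

instance instFiniteKLet {A B : Type} [Finite A] [Finite B] : Finite (KLet A B) := by
  let f : (A ⊕ (Fin 3 × Fin 4 × A)) ⊕ (B ⊕ Fin 4) → KLet A B := fun x => match x with
    | Sum.inl (Sum.inl a) => .b a
    | Sum.inl (Sum.inr (i, j, a)) => .v i j a
    | Sum.inr (Sum.inl c) => .g c
    | Sum.inr (Sum.inr 0) => .s
    | Sum.inr (Sum.inr 1) => .sp
    | Sum.inr (Sum.inr 2) => .sw
    | Sum.inr (Sum.inr 3) => .sw'
  refine Finite.of_surjective f ?_
  rintro (a | ⟨i, j, a⟩ | _ | c | _ | _ | _)
  · exact ⟨.inl (.inl a), rfl⟩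
  · exact ⟨.inl (.inr (i, j, a)), rfl⟩
  · exact ⟨.inr (.inr 0), rfl⟩
  · exact ⟨.inr (.inl c), rfl⟩
  · exact ⟨.inr (.inr 1), rfl⟩
  · exact ⟨.inr (.inr 2), rfl⟩
  · exact ⟨.inr (.inr 3), rfl⟩

/-- a list of all elements -/
noncomputable def allL (C : Type) [Finite C] : List C :=
  (@Finset.univ C (Fintype.ofFinite C)).toList

theorem mem_allL {C : Type} [Finite C] (c : C) : c ∈ allL C := by
  unfold allL
  rw [Finset.mem_toList]
  exact @Finset.mem_univ C (Fintype.ofFinite C) c

/-! ### the operator -/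

section phi

variable (U : UM (GdL × Bool)) {G B : Type} [Group G] [Finite B] (eG : B → G)

/-- the letters of `U` -/
abbrev UU : Type := Md191D.UL (HU U) (Option (GdL × Bool))

/-- the door of a letter -/
noncomputable def ltU (B : Type) [Finite B] : ℤ → Option (KLet (UU U) B) :=
  ltL (allL (KLet (UU U) B))

open Classical in
/-- the letter of a door -/
noncomputable def ixU (B : Type) [Finite B] : KLet (UU U) B → ℤ := ixL (allL (KLet (UU U) B))

/-- the number of doors -/
noncomputable def JU (B : Type) [Finite B] : ℕ := (allL (KLet (UU U) B)).length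

theorem lblU : Lbl (JU U B) (ltU U B) (ixU U B) := by
  classical
  exact lbl_list (mem_allL)

/-- **the operator `Φ`** -/
noncomputable def Phi (M e : ℕ) (S : Subgroup (FreeGroup GdL)) : Subgroup (FreeGroup GdL) :=
  gzS M (ltU U B) eG (yU U e S) (pU U e S)

/-- **from a fixed point to a core** -/
theorem core_of_fix (he : Subgroup.closure (Set.range eG) = ⊤) {M : ℕ} (hM : 0 < M) (e : ℕ)
    (S : Subgroup (FreeGroup GdL)) (hS : Phi U eG M e S = S)
    (hAcc : AccU U e = {w | ∀ v : FreeGroup GdL, v⁻¹ * w * v ∈ S}) : Nonempty (Core G) := by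
  have hL := lblU U (B := B)
  refine core_of_machine U e S he hAcc (kHom M (ixU U B)) ?_ ?_
  · intro w
    have h := kHom_mem_gzS (G := G) (e := eG) (y₀ := yU U e S) (pa := pU U e S) hL hM w
    have h2 : kHom M (ixU U B) w ∈ S ↔ kHom M (ixU U B) w ∈ Phi U eG M e S := by rw [hS]
    exact (h2.trans h).symm
  · intro w hw v
    have h := kHom_conj_mem_gzS (G := G) (e := eG) (y₀ := yU U e S) (pa := pU U e S) hL hM w hw v
    have h2 : v⁻¹ * kHom M (ixU U B) w * v ∈ S ↔
      v⁻¹ * kHom M (ixU U B) w * v ∈ Phi U eG M e S := by rw [hS]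
    exact h2.2 h

/-- **the core from the three obligations of the hub** -/
theorem core_of_hub (he : Subgroup.closure (Set.range eG) = ⊤) {M : ℕ} (hM : 0 < M)
    {β : ℕ → ℕ → ℕ} (hβ : Computable₂ β)
    (H1 : ∀ e S S' r, Hub.Good (AccU U e) S r → Hub.Good (AccU U e) S' r → Hub.Agr S S' r →
      Hub.Agr (Phi U eG M e S) (Phi U eG M e S') (2 * r + 1))
    (H2 : ∀ e S n ρ b, 1 ≤ n → Hub.Good (AccU U e) S ((n + 2 * ρ) / 2) →
      Hub.TL1 S (n / 2) (ρ / 2) b → Hub.TL1 (Phi U eG M e S) n ρ (β n b))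
    (H3 : ComputablePred fun x : ℕ × ℕ × List (GdL × Bool) =>
      FreeGroup.mk x.2.2 ∈ Hub.lev (Phi U eG M) x.1 x.2.1) : Nonempty (Core G) := by
  obtain ⟨e, S, hS, hA⟩ := Hub.hub_machine (Φ := Phi U eG M) (C := CU U) (Acc := AccU U)
    (fun _ => rfl) hβ H1 H2 H3 U.kleene
  exact core_of_fix U eG he hM e S hS hA

end phi

end Crest.Agent.R185.Asm
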