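import Crest.Agent.R185.QFinal

/-!
# Row 185: S0277 and S0278 from the existence of a core (helper424)
-/

set_option autoImplicit false

namespace Crest.Agent.R185.Fin

open Crest.Agent.R185.Null Crest.Agent.R185.Hot Crest.Agent.R185.Q

/-- `Q` over the hotel of a core: f.p., simple, finite type, contains `G` -/
theorem of_core' {G : Type} [Group G] (C : Core G) :
    ∃ (S : Type) (_ : Group S) (f : G →* S),
      Group.IsFinitelyPresented S ∧ IsSimpleGroup S ∧
      Crest.Topology.HasFiniteTypeClassifyingComplex S ∧ Function.Injective f :=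
  of_core C (isHT_fp C.isHT C.fp) (isHT_null C.isHT (core_null C))

/-- **the remaining input is exactly `Nonempty (Core G)`** -/
theorem of_cores (H : ∀ (G : Type) [Group G] (k : ℕ) (s : _root_.Fin k → G),
      Subgroup.closure (Set.range s) = ⊤ →
      (ComputablePred fun w : List (_root_.Fin k × Bool) => FreeGroup.lift s (FreeGroup.mk w) = 1) →
      Nonempty (Core G))
    (G : Type*) [Group G] (k : ℕ) (s : _root_.Fin k → G)
    (hgen : Subgroup.closure (Set.range s) = ⊤)
    (hdec : ComputablePred fun w : List (_root_.Fin k × Bool) =>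
      FreeGroup.lift s (FreeGroup.mk w) = 1) :
    ∃ (S : Type) (_ : Group S) (f : G →* S),
      Group.IsFinitelyPresented S ∧ IsSimpleGroup S ∧
      Crest.Topology.HasFiniteTypeClassifyingComplex S ∧ Function.Injective f := by
  refine of_small ?_ G k s hgen hdec
  intro G _ k s hgen hdec
  obtain ⟨C⟩ := H G k s hgen hdec
  exact of_core' C

end Crest.Agent.R185.Fin
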