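import Crest.Agent.R185.Asm5
import Crest.Agent.R185.Fin4

/-!
# R185 / ASSEMBLY (6): the final statement from H1, H2, H3 (helper958)

The core is built for `G × Multiplicative ℤ` with the generators `(s i, 1)` and `(1, 1)`.
-/

set_option autoImplicit false
set_option linter.unusedSectionVars false

namespace Crest.Agent.R185.Asm

open Crest.Agent.R185.Wu Crest.Agent.R185.Hot Crest.Agent.R185.Smp
open Crest.Agent.R185.Clk (UM PConn)

section gens

variable {G : Type} [Group G] {k : ℕ} (s : Fin k → G)

/-- the generators of `G × ℤ` -/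
def e1 : Option (Fin k) → G × Multiplicative ℤ
  | none => (1, Multiplicative.ofAdd 1)
  | some i => (s i, 1)

/-- the height -/
def ht1 (g : G × Multiplicative ℤ) : ℤ := Multiplicative.toAdd g.2

theorem height_e1 : Height (e1 s) (ht1 (G := G)) none where
  lip := by
    rintro (_ | i) ⟨g, n⟩
    · simp [e1, ht1]
    · simp [e1, ht1]
  up := by
    rintro ⟨g, n⟩
    simp [e1, ht1, add_comm]
  one := rfl

theorem closure_e1 (hs : Subgroup.closure (Set.range s) = ⊤) :
    Subgroup.closure (Set.range (e1 s)) = ⊤ := by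
  rw [eq_top_iff]
  rintro ⟨g, n⟩ -
  have h1 : ((g, 1) : G × Multiplicative ℤ) ∈ Subgroup.closure (Set.range (e1 s)) := by
    have hg : g ∈ Subgroup.closure (Set.range s) := by rw [hs]; trivial
    have := Subgroup.mem_map_of_mem (MonoidHom.inl G (Multiplicative ℤ)) hg
    rw [MonoidHom.map_closure] at this
    refine Subgroup.closure_mono ?_ this
    rintro _ ⟨_, ⟨i, rfl⟩, rfl⟩
    exact ⟨some i, rfl⟩
  have h2 : ((1, n) : G × Multiplicative ℤ) ∈ Subgroup.closure (Set.range (e1 s)) := by
    have h3 : ((1, Multiplicative.ofAdd 1) : G × Multiplicative ℤ) ∈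
        Subgroup.closure (Set.range (e1 s)) := Subgroup.subset_closure ⟨none, rfl⟩
    have h4 := Subgroup.zpow_mem _ h3 (Multiplicative.toAdd n)
    have h5 : ((1, Multiplicative.ofAdd 1) : G × Multiplicative ℤ) ^ (Multiplicative.toAdd n) =
        (1, n) := by
      ext
      · simp
      · simp [← ofAdd_zsmul]
    rwa [h5] at h4
  have h := Subgroup.mul_mem _ h1 h2
  simpa using h

/-- the letters of `G` -/
def g1 (x : Option (Fin k) × Bool) : Option (Fin k × Bool) := x.1.map fun i => (i, x.2)

/-- the positive letters of `ℤ` -/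
def g2 (x : Option (Fin k) × Bool) : Option Unit := if x = (none, true) then some () else none

/-- the negative letters of `ℤ` -/
def g3 (x : Option (Fin k) × Bool) : Option Unit := if x = (none, false) then some () else none

theorem lift_e1 (w : List (Option (Fin k) × Bool)) :
    FreeGroup.lift (e1 s) (FreeGroup.mk w) = (FreeGroup.lift s (FreeGroup.mk (w.filterMap g1)),
      Multiplicative.ofAdd (((w.filterMap g2).length : ℤ) - ((w.filterMap g3).length : ℤ))) := by
  induction w with
  | nil => simp [← FreeGroup.one_eq_mk]; rfl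
  | cons x w ih =>
    have h1 : (FreeGroup.mk (x :: w) : FreeGroup (Option (Fin k))) =
        FreeGroup.mk [x] * FreeGroup.mk w := by rw [FreeGroup.mul_mk]; rfl
    rw [h1, map_mul, ih]
    rcases x with ⟨_ | i, _ | _⟩
    · simp only [g1, g2, g3, List.filterMap_cons, FreeGroup.lift_mk, e1]
      ext
      · simp
      · simp
        ring
    · simp only [g1, g2, g3, List.filterMap_cons, FreeGroup.lift_mk, e1]
      ext
      · simp
      · simp
        ring
    · simp only [g1, g2, g3, List.filterMap_cons, FreeGroup.lift_mk, e1]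
      ext
      · simp
      · simp
    · simp only [g1, g2, g3, List.filterMap_cons, FreeGroup.lift_mk, e1]
      ext
      · simp
      · simp

theorem dec_e1 (hdec : ComputablePred fun w : List (Fin k × Bool) =>
      FreeGroup.lift s (FreeGroup.mk w) = 1) :
    ComputablePred fun w : List (Option (Fin k) × Bool) =>
      FreeGroup.lift (e1 s) (FreeGroup.mk w) = 1 := by
  obtain ⟨f, hf, hfe⟩ := ComputablePred.computable_iff.1 hdec
  have c1 : Primrec fun w : List (Option (Fin k) × Bool) => w.filterMap g1 :=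
    Primrec.listFilterMap Primrec.id ((Primrec.dom_finite g1).comp Primrec.snd).to₂
  have c2 : Primrec fun w : List (Option (Fin k) × Bool) => (w.filterMap g2).length :=
    Primrec.list_length.comp
      (Primrec.listFilterMap Primrec.id ((Primrec.dom_finite g2).comp Primrec.snd).to₂)
  have c3 : Primrec fun w : List (Option (Fin k) × Bool) => (w.filterMap g3).length :=
    Primrec.list_length.comp
      (Primrec.listFilterMap Primrec.id ((Primrec.dom_finite g3).comp Primrec.snd).to₂)
  rw [ComputablePred.computable_iff]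
  refine ⟨fun w => f (w.filterMap g1) &&
    decide ((w.filterMap g2).length = (w.filterMap g3).length), ?_, ?_⟩
  · have h1 : Computable fun w : List (Option (Fin k) × Bool) => f (w.filterMap g1) :=
      hf.comp c1.to_comp
    have h2 : Primrec fun w : List (Option (Fin k) × Bool) =>
        decide ((w.filterMap g2).length = (w.filterMap g3).length) :=
      (Primrec.eq.comp c2 c3).decide
    exact (Primrec.and.to_comp).comp h1 h2.to_comp
  · funext w
    apply propext
    rw [lift_e1, Bool.and_eq_true, decide_eq_true_iff, Prod.mk_eq_one]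
    have h1 : FreeGroup.lift s (FreeGroup.mk (w.filterMap g1)) = 1 ↔ f (w.filterMap g1) = true :=
      iff_of_eq (congrFun hfe (w.filterMap g1))
    rw [h1]
    refine and_congr_right fun _ => ?_
    rw [ofAdd_eq_one, sub_eq_zero, Nat.cast_inj]

end gens

/-! ### the obligations -/

/-- H1 and H2, for some modulus `M` -/
def HubOK : Prop := ∀ (U : UM (GdL × Bool)) (G B : Type) [Group G] [Finite B] (eG : B → G)
  (ht : G → ℤ) (t : B), Height eG ht t → ∃ M : ℕ, 0 < M ∧ ∃ β : ℕ → ℕ → ℕ, Computable₂ β ∧
    (∀ e S S' r, Hub.Good (AccU U e) S r → Hub.Good (AccU U e) S' r → Hub.Agr S S' r →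
      Hub.Agr (Phi U eG M e S) (Phi U eG M e S') (2 * r + 1)) ∧
    (∀ e S n ρ b, 1 ≤ n → Hub.Good (AccU U e) S ((n + 2 * ρ) / 2) →
      Hub.TL1 S (n / 2) (ρ / 2) b → Hub.TL1 (Phi U eG M e S) n ρ (β n b))

/-- H3 -/
def LevOK : Prop := ∀ (U : UM (GdL × Bool)) (G B : Type) [Group G] [Finite B] [Primcodable B]
  (eG : B → G), (ComputablePred fun w : List (B × Bool) =>
      FreeGroup.lift eG (FreeGroup.mk w) = 1) → ∀ M : ℕ,
    ComputablePred fun x : ℕ × ℕ × List (GdL × Bool) =>
      FreeGroup.mk x.2.2 ∈ Hub.lev (Phi U eG M) x.1 x.2.1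

/-- a core of `G × ℤ` -/
theorem core_e1 (h12 : HubOK) (h3 : LevOK) {G : Type} [Group G] {k : ℕ} (s : Fin k → G)
    (hgen : Subgroup.closure (Set.range s) = ⊤)
    (hdec : ComputablePred fun w : List (Fin k × Bool) =>
      FreeGroup.lift s (FreeGroup.mk w) = 1) : Nonempty (Core (G × Multiplicative ℤ)) := by
  obtain ⟨U⟩ := Clk.exists_um (GdL × Bool)
  obtain ⟨M, hM, β, hβ, H1, H2⟩ := h12 U (G × Multiplicative ℤ) (Option (Fin k)) (e1 s) ht1 none
    (height_e1 s)
  exact core_of_hub U (e1 s) (closure_e1 s hgen) hM hβ H1 H2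
    (h3 U (G × Multiplicative ℤ) (Option (Fin k)) (e1 s) (dec_e1 s hdec) M)

/-- **the final statement from the obligations** -/
theorem emb_final (h12 : HubOK) (h3 : LevOK) (G : Type*) [Group G] (k : ℕ) (s : Fin k → G)
    (hgen : Subgroup.closure (Set.range s) = ⊤)
    (hdec : ComputablePred fun w : List (Fin k × Bool) =>
      FreeGroup.lift s (FreeGroup.mk w) = 1) :
    ∃ (S : Type) (_ : Group S) (f : G →* S),
      Group.IsFinitelyPresented S ∧ IsSimpleGroup S ∧
      Crest.Topology.HasFiniteTypeClassifyingComplex S ∧ Function.Injective f := by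
  refine Fin.of_small ?_ G k s hgen hdec
  intro G _ k s hgen hdec
  obtain ⟨C⟩ := core_e1 h12 h3 s hgen hdec
  obtain ⟨S, iS, f, h1, h2, h3, h4⟩ := Fin.of_core' C
  exact ⟨S, iS, f.comp (MonoidHom.inl G (Multiplicative ℤ)), h1, h2, h3,
    h4.comp (fun x y h => (Prod.ext_iff.1 h).1)⟩

end Crest.Agent.R185.Asm
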