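import Crest.Agent.R185.Cw459E
import Crest.Agent.R185.Clk9

/-!
# R185, computability of the witness, part F: the family `U.ws e`

All questions about words in the letters of `H` and `D` are decidable, uniformly in the program `e`.
-/

set_option autoImplicit false
set_option linter.unusedSectionVars false

namespace Crest.Agent.R185.Cw

open Crest.Agent.R185.Wit Crest.Agent.R185.Re
open Crest.Agent.R185.Md191C Crest.Agent.R185.Md191G
open Crest.Agent.R185.Clk (UM PConn)

variable {A : Type} [Finite A] [Primcodable A] [DecidableEq A] (U : UM A)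

instance instPQ (e : ℕ) : Primcodable (U.ws e).Q := inferInstanceAs (Primcodable (Fin U.nQ))
instance instFQ (e : ℕ) : Finite (U.ws e).Q := inferInstanceAs (Finite (Fin U.nQ))

/-- the letters of `H` -/
abbrev HU : Type := Fin U.nK ⊕ (Fin U.nR ⊕ Option A) ⊕ Fin U.nQ

/-- values of the letters of `H` -/
def hlu (e : ℕ) : HU U → Hg (U.ws e) :=
  Sum.elim (fun j => SemidirectProduct.inr (mx (S := (U.ws e).toSys) (Pi.single j 1)))
    (Sum.elim (fun l => SemidirectProduct.inr (my (S := (U.ws e).toSys) l))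
      (fun q => ht (U.ws e) q))

/-- values of the words in the letters of `H` -/
def hval (e : ℕ) (u : List (HU U × Bool)) : Hg (U.ws e) :=
  FreeGroup.lift (hlu U e) (FreeGroup.mk u)

/-- values of the words in the letters of `D` -/
def dval (e : ℕ) (d : List (Option (HU U) × Bool)) : DG (Ls (U.ws e)) :=
  FreeGroup.lift (fun o : Option (HU U) => o.elim (kD (Ls (U.ws e)))
    fun a => hD (Ls (U.ws e)) (hlu U e a)) (FreeGroup.mk d)

theorem hlr_eq (e : ℕ) : (hlr (U.ws e) : HU U → Hg (U.ws e)) = hlu U e := by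
  funext a
  rcases a with j | l | q <;> rfl

theorem hvl_eq (e : ℕ) (u : List (HU U × Bool)) : hvl (U.ws e) u = hval U e u := by
  unfold hval
  rw [← hlr_eq]
  rfl

theorem dvl_eq (e : ℕ) (d : List (Option (HU U) × Bool)) : dvl (U.ws e) d = dval U e d := by
  unfold dval
  rw [← hlr_eq]
  rfl

/-- the text -/
theorem computable_tx : Computable fun e : ℕ => (U.start e [] : Fin U.nK → ℤ) :=
  U.start_comp.comp (Computable.id.pair (Computable.const []))

theorem exists_cd : ∃ cd : Fin U.nQ × (Fin U.nK → ℤ) → Bool, Computable cd ∧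
    ∀ e : ℕ, CdOK (W := U.ws e) cd := by
  obtain ⟨cd, hcd, h⟩ := ComputablePred.computable_iff.1 U.dec
  refine ⟨cd, hcd, fun e c => ?_⟩
  rw [← (congrFun h c : _ = (cd c = true))]
  exact (U.Cn_iff e c _).symm

/-- the decision procedure for the real configurations -/
noncomputable def cdU : Fin U.nQ × (Fin U.nK → ℤ) → Bool := (exists_cd U).choose

theorem computable_cdU : Computable (cdU U) := (exists_cd U).choose_spec.1

theorem cdU_ok (e : ℕ) : CdOK (W := U.ws e) (cdU U) := (exists_cd U).choose_spec.2 e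

theorem pred_of {α : Type*} [Primcodable α] {p : α → Prop} {f : α → Bool} (hf : Computable f)
    (h : ∀ a, f a = true ↔ p a) : ComputablePred p :=
  ComputablePred.computable_iff.2 ⟨f, hf, funext fun a => propext (h a).symm⟩

/-! ### the tests do not depend on the program -/

set_option smartUnfolding false in
theorem oneT_ws (e : ℕ) (u : List (HU U × Bool)) : oneT (W := U.ws 0) u = oneT (W := U.ws e) u :=
  rfl

set_option smartUnfolding false in
theorem inLT_ws (cd : Fin U.nQ × (Fin U.nK → ℤ) → Bool) (e : ℕ) (u : List (HU U × Bool)) :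
    inLT (W := U.ws 0) cd u = inLT (W := U.ws e) cd u := rfl

set_option smartUnfolding false in
theorem inET_ws (tx : Fin U.nK → ℤ) (e : ℕ) (u : List (HU U × Bool)) :
    inET (U.ws 0) tx u = inET (U.ws e) tx u := rfl

set_option smartUnfolding false in
theorem inELT_ws (cd : Fin U.nQ × (Fin U.nK → ℤ) → Bool) (tx : Fin U.nK → ℤ) (e : ℕ)
    (u : List (HU U × Bool)) : inELT (U.ws 0) cd tx u = inELT (U.ws e) cd tx u := rfl

set_option smartUnfolding false in
theorem epsT_ws (tx : Fin U.nK → ℤ) (e : ℕ) (u : List (HU U × Bool))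
    (x : List (Option (Option A) × Bool)) :
    epsT (U.ws 0) tx u x = epsT (U.ws e) tx u x := rfl

set_option smartUnfolding false in
theorem doneT_ws (cd : Fin U.nQ × (Fin U.nK → ℤ) → Bool) (e : ℕ)
    (d : List (Option (HU U) × Bool)) :
    doneT (W := U.ws 0) cd d = doneT (W := U.ws e) cd d := rfl

set_option smartUnfolding false in
theorem inST_ws (cd : Fin U.nQ × (Fin U.nK → ℤ) → Bool) (tx : Fin U.nK → ℤ) (e : ℕ)
    (d : List (Option (HU U) × Bool)) :
    inST (U.ws 0) cd tx d = inST (U.ws e) cd tx d := rfl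

set_option smartUnfolding false in
theorem chP_ws (cd : Fin U.nQ × (Fin U.nK → ℤ) → Bool) (tx : Fin U.nK → ℤ) (e : ℕ)
    (w : List (Option A × Bool)) :
    chP (W := U.ws 0) cd (stR (U.ws 0) tx w) = chP (W := U.ws e) cd (stR (U.ws e) tx w) := rfl

/-! ### the predicates -/

theorem comp_one : ComputablePred fun x : ℕ × List (HU U × Bool) => hval U x.1 x.2 = 1 := by
  refine pred_of (f := fun x : ℕ × List (HU U × Bool) => oneT (W := U.ws 0) x.2) ?_ ?_
  · exact primrec_oneT.to_comp.comp Computable.snd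
  · intro x
    have h := oneT_ws U x.1 x.2
    exact (iff_of_eq (congrArg (· = true) h)).trans
      ((oneT_iff (W := U.ws x.1) x.2).trans (iff_of_eq (congrArg (· = 1) (hvl_eq U x.1 x.2))))

theorem comp_L : ComputablePred fun x : ℕ × List (HU U × Bool) =>
    hval U x.1 x.2 ∈ Ls (U.ws x.1) := by
  refine pred_of (f := fun x : ℕ × List (HU U × Bool) => inLT (W := U.ws 0) (cdU U) x.2) ?_ ?_
  · exact (computable_inLT (W := U.ws 0) (computable_cdU U)).comp Computable.snd
  · intro x
    have h := inLT_ws U (cdU U) x.1 x.2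
    exact (iff_of_eq (congrArg (· = true) h)).trans ((inLT_iff (cdU_ok U x.1) x.2).trans
      (iff_of_eq (congrArg (· ∈ Ls (U.ws x.1)) (hvl_eq U x.1 x.2))))

theorem comp_E : ComputablePred fun x : ℕ × List (HU U × Bool) =>
    hval U x.1 x.2 ∈ (eps (U.ws x.1)).range := by
  refine pred_of (f := fun x : ℕ × List (HU U × Bool) =>
    inET (U.ws 0) (U.start x.1 []) x.2) ?_ ?_
  · exact (computable_inET (W := U.ws 0)).comp ((computable_tx U).comp Computable.fst)
      Computable.snd
  · intro x
    have h := inET_ws U (U.start x.1 []) x.1 x.2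
    exact (iff_of_eq (congrArg (· = true) h)).trans ((inET_iff (W := U.ws x.1) x.2).trans
      (iff_of_eq (congrArg (· ∈ (eps (U.ws x.1)).range) (hvl_eq U x.1 x.2))))

theorem comp_EL : ComputablePred fun x : ℕ × List (HU U × Bool) =>
    hval U x.1 x.2 ∈ EL (U.ws x.1) := by
  refine pred_of (f := fun x : ℕ × List (HU U × Bool) =>
    inELT (U.ws 0) (cdU U) (U.start x.1 []) x.2) ?_ ?_
  · exact (computable_inELT (W := U.ws 0) (computable_cdU U)).comp
      ((computable_tx U).comp Computable.fst) Computable.snd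
  · intro x
    have h := inELT_ws U (cdU U) (U.start x.1 []) x.1 x.2
    exact (iff_of_eq (congrArg (· = true) h)).trans ((inELT_iff (cdU_ok U x.1) x.2).trans
      (iff_of_eq (congrArg (· ∈ EL (U.ws x.1)) (hvl_eq U x.1 x.2))))

theorem comp_eps : ComputablePred fun x : ℕ × List (HU U × Bool) ×
    List (Option (Option A) × Bool) => hval U x.1 x.2.1 = eps (U.ws x.1) (FreeGroup.mk x.2.2) := by
  refine pred_of (f := fun x : ℕ × List (HU U × Bool) × List (Option (Option A) × Bool) =>
    epsT (U.ws 0) (U.start x.1 []) x.2.1 x.2.2) ?_ ?_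
  · exact computable_epsT (W := U.ws 0) ((computable_tx U).comp Computable.fst)
      (Computable.fst.comp Computable.snd) (Computable.snd.comp Computable.snd)
  · intro x
    have h := epsT_ws U (U.start x.1 []) x.1 x.2.1 x.2.2
    exact (iff_of_eq (congrArg (· = true) h)).trans ((epsT_iff (W := U.ws x.1) x.2.1 x.2.2).trans
      (iff_of_eq (congrArg (· = eps (U.ws x.1) (FreeGroup.mk x.2.2)) (hvl_eq U x.1 x.2.1))))

theorem comp_done : ComputablePred fun x : ℕ × List (Option (HU U) × Bool) =>
    dval U x.1 x.2 = 1 := by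
  refine pred_of (f := fun x : ℕ × List (Option (HU U) × Bool) =>
    doneT (W := U.ws 0) (cdU U) x.2) ?_ ?_
  · exact (computable_doneT (W := U.ws 0) (computable_cdU U)).comp Computable.snd
  · intro x
    have h := doneT_ws U (cdU U) x.1 x.2
    exact (iff_of_eq (congrArg (· = true) h)).trans ((doneT_iff (cdU_ok U x.1) x.2).trans
      (iff_of_eq (congrArg (· = 1) (dvl_eq U x.1 x.2))))

theorem comp_S : ComputablePred fun x : ℕ × List (Option (HU U) × Bool) =>
    dval U x.1 x.2 ∈ SG (Ls (U.ws x.1)) (eps (U.ws x.1)) := by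
  refine pred_of (f := fun x : ℕ × List (Option (HU U) × Bool) =>
    inST (U.ws 0) (cdU U) (U.start x.1 []) x.2) ?_ ?_
  · exact (computable_inST (W := U.ws 0) (computable_cdU U)).comp
      ((computable_tx U).comp Computable.fst) Computable.snd
  · intro x
    have h := inST_ws U (cdU U) (U.start x.1 []) x.1 x.2
    exact (iff_of_eq (congrArg (· = true) h)).trans ((inST_iff (cdU_ok U x.1) x.2).trans
      (iff_of_eq (congrArg (· ∈ SG (Ls (U.ws x.1)) (eps (U.ws x.1))) (dvl_eq U x.1 x.2))))

theorem comp_acc : ComputablePred fun x : ℕ × List (Option A × Bool) =>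
    st (U.ws x.1) (FreeGroup.mk x.2) ∈ Ch (U.ws x.1) := by
  refine pred_of (f := fun x : ℕ × List (Option A × Bool) =>
    chP (W := U.ws 0) (cdU U) (stR (U.ws 0) (U.start x.1 []) x.2)) ?_ ?_
  · exact (computable_chP (W := U.ws 0) (computable_cdU U)).comp
      ((primrec_stR (W := U.ws 0)).to_comp.comp ((computable_tx U).comp Computable.fst)
        Computable.snd)
  · intro x
    have h := chP_ws U (cdU U) (U.start x.1 []) x.1 x.2
    have h2 : cp (st (U.ws x.1) (FreeGroup.mk x.2)) = stR (U.ws x.1) (U.start x.1 []) x.2 :=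
      cp_st (W := U.ws x.1) x.2
    have h3 := chP_iff (cdU_ok U x.1) (st (U.ws x.1) (FreeGroup.mk x.2))
    exact (iff_of_eq (congrArg (· = true) (h.trans (congrArg (chP (W := U.ws x.1) (cdU U))
      h2.symm)))).trans h3

theorem mem_LE_iff {W : WS (Fin U.nR) (Option A)} {h : Hg W} :
    (∃ l ∈ Ls W, ∃ y, h = l * eps W y) ↔ h⁻¹ ∈ EL W := by
  constructor
  · rintro ⟨l, hl, y, rfl⟩
    exact ⟨y⁻¹, l⁻¹, inv_mem hl, by rw [mul_inv_rev, map_inv]⟩
  · rintro ⟨y, l, hl, h1⟩
    refine ⟨l⁻¹, inv_mem hl, y⁻¹, ?_⟩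
    rw [map_inv, ← mul_inv_rev, ← h1, inv_inv]

theorem comp_LE : ComputablePred fun x : ℕ × List (HU U × Bool) =>
    ∃ l ∈ Ls (U.ws x.1), ∃ y, hval U x.1 x.2 = l * eps (U.ws x.1) y := by
  obtain ⟨f, hf, h⟩ := ComputablePred.computable_iff.1 (comp_EL U)
  refine pred_of (f := fun x : ℕ × List (HU U × Bool) => f (x.1, FreeGroup.invRev x.2)) ?_ ?_
  · exact hf.comp (Computable.fst.pair (Hk.invRev_primrec.to_comp.comp Computable.snd))
  · intro x
    rw [mem_LE_iff, ← (congrFun h (x.1, FreeGroup.invRev x.2) : _ = (f _ = true))]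
    simp only [hval, ← FreeGroup.inv_mk, map_inv]

end Crest.Agent.R185.Cw
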