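import Crest.Agent.R185.She6
import Crest.Agent.R185.Cw459F

/-!
# R185 / ASSEMBLY: computability of the witness in the form needed by the sheet layer (helper958)
-/

set_option autoImplicit false
set_option linter.unusedSectionVars false

namespace Crest.Agent.R185.Asm

open Crest.Agent.R292 Crest.Agent.R185.Re Crest.Agent.R185.She
open Crest.Agent.R185.Md191C Crest.Agent.R185.Md191D
open Crest.Agent.R185.Clk (UM)
open Crest.Agent.R185.Wit (Hg Ls eps st Ch HL hlv)
open Crest.Agent.R185.Tab (AccG kap kap_spec)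

variable {A : Type} [Finite A] [Primcodable A] [DecidableEq A] (U : UM (A × Bool))

theorem hvalU (e : ℕ) (u : List (HU U × Bool)) : (TU U e).hval u = Cw.hval U e u := rfl

theorem dvalU (e : ℕ) (u : List (Option (HU U) × Bool)) : (TU U e).dval u = Cw.dval U e u := by
  unfold Wt.dval Cw.dval
  congr 2
  funext o
  rcases o with _ | i
  · rfl
  · change hD (Ls (U.ws e)) (FreeGroup.lift (hlA U e) (FreeGroup.of i)) = _
    rw [FreeGroup.lift_apply_of]
    rfl

theorem epsWU (e : ℕ) (y : FreeGroup (Option (Option (A × Bool)))) :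
    ∃ h : List (HU U × Bool), (TU U e).hval h = eps (U.ws e) y := by
  refine ⟨((wfp U e).θ y).toWord, ?_⟩
  have h1 : (TU U e).hval (((wfp U e).θ y).toWord) = (wfp U e).gen ((wfp U e).θ y) := by
    rw [wfp_gen]
    change FreeGroup.lift (hlA U e) (FreeGroup.mk _) = _
    rw [FreeGroup.mk_toWord]
  rw [h1]
  exact (wfp U e).hθ y

theorem kapU : REPred fun x : ℕ × List (Option (A × Bool) × Bool) × List (Option (A × Bool) × Bool) =>
    FreeGroup.mk x.2.2 = (TU U x.1).κ (FreeGroup.mk x.2.1) := by
  obtain ⟨f, hf, h⟩ := ComputablePred.computable_iff.1 (Cw.comp_acc U)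
  let B := Option (A × Bool) × Bool
  have h1 : Primrec fun x : ℕ × List B × List B => FreeGroup.reduce x.2.2 :=
    Hk.reduce_primrec.comp (Primrec.snd.comp Primrec.snd)
  have h2 : Primrec fun x : ℕ × List B × List B => FreeGroup.reduce x.2.1 :=
    Hk.reduce_primrec.comp (Primrec.fst.comp Primrec.snd)
  have c1 : Computable fun x : ℕ × List B × List B => decide (FreeGroup.reduce x.2.2 = []) :=
    (Primrec.eq.decide.comp h1 (Primrec.const [])).to_comp
  have c2 : Computable fun x : ℕ × List B × List B =>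
      decide (FreeGroup.reduce x.2.2 = FreeGroup.reduce x.2.1) :=
    (Primrec.eq.decide.comp h1 h2).to_comp
  have c3 : Computable fun x : ℕ × List B × List B => f (x.1, x.2.1) :=
    hf.comp (Computable.fst.pair (Computable.fst.comp Computable.snd))
  refine re_of_computable (f := fun x : ℕ × List B × List B => bif f (x.1, x.2.1) then
    decide (FreeGroup.reduce x.2.2 = []) else
    decide (FreeGroup.reduce x.2.2 = FreeGroup.reduce x.2.1)) (Computable.cond c3 c1 c2) ?_
  rintro ⟨e, u, v⟩
  have h3 : (st (U.ws e) (FreeGroup.mk u) ∈ Ch (U.ws e)) = (f (e, u) = true) := congrFun h (e, u)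
  change FreeGroup.mk v = Tab.kap (U.ws e) (FreeGroup.mk u) ↔ _
  by_cases h4 : f (e, u) = true
  · have h5 : FreeGroup.mk u ∈ AccG (U.ws e) := by
      change st (U.ws e) (FreeGroup.mk u) ∈ Ch (U.ws e)
      rw [h3]; exact h4
    rw [Tab.kap_acc _ h5]
    simp only [h4, cond_true, decide_eq_true_eq]
    rw [← FreeGroup.toWord_eq_nil_iff, FreeGroup.toWord_mk]
  · have h5 : FreeGroup.mk u ∉ AccG (U.ws e) := by
      change ¬ st (U.ws e) (FreeGroup.mk u) ∈ Ch (U.ws e)
      rw [h3]; exact h4
    rw [Tab.kap_not _ h5]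
    rw [Bool.not_eq_true] at h4
    simp only [h4, cond_false, decide_eq_true_eq]
    rw [← FreeGroup.toWord_mk, ← FreeGroup.toWord_mk, FreeGroup.toWord_inj]

theorem wtC' : WtC (TU U) where
  epsW := epsWU U
  heps := (Cw.comp_eps U).to_re
  inL := (Cw.comp_L U).to_re
  ninLE := (Cw.comp_LE U).not.to_re
  one := (Cw.comp_done U).to_re.of_eq fun x => by rw [dvalU]; rfl
  ne := (Cw.comp_done U).not.to_re.of_eq fun x => by rw [dvalU]; rfl
  inS := (Cw.comp_S U).to_re.of_eq fun x => by rw [dvalU]; rfl
  ninS := (Cw.comp_S U).not.to_re.of_eq fun x => by rw [dvalU]; rfl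
  kap := kapU U

end Crest.Agent.R185.Asm
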