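import Crest.Agent.R185.Loc1

/-!
# R185 / LOC (2): tables and the main local lemma
-/

set_option autoImplicit false

namespace Crest.Agent.R185.Loc

open Equiv Crest.Agent.R185.Md191A Crest.Agent.R185.Md191B Crest.Agent.R185.Md191E
  Crest.Agent.R185.Hub

/-! ### balls in `D` -/

section ball

variable {D J : Type} [Group D] {dl : J → D}

/-- elements of length `≤ n` -/
def Ball (dl : J → D) (n : ℕ) (x : D) : Prop :=
  ∃ l : List (J × Bool), l.length ≤ n ∧ FreeGroup.lift dl (FreeGroup.mk l) = x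

theorem Ball.mono {n m : ℕ} {x : D} (h : Ball dl n x) (hm : n ≤ m) : Ball dl m x := by
  obtain ⟨l, h1, h2⟩ := h
  exact ⟨l, h1.trans hm, h2⟩

theorem Ball.one (n : ℕ) : Ball dl n 1 := ⟨[], Nat.zero_le _, by
  rw [← FreeGroup.one_eq_mk, map_one]⟩

theorem Ball.mul {n m : ℕ} {x y : D} (hx : Ball dl n x) (hy : Ball dl m y) :
    Ball dl (n + m) (x * y) := by
  obtain ⟨l, h1, rfl⟩ := hx
  obtain ⟨l', h1', rfl⟩ := hy
  refine ⟨l ++ l', by simp; omega, ?_⟩
  rw [← FreeGroup.mul_mk, map_mul]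

theorem Ball.inv {n : ℕ} {x : D} (hx : Ball dl n x) : Ball dl n x⁻¹ := by
  obtain ⟨l, h1, rfl⟩ := hx
  refine ⟨FreeGroup.invRev l, by simpa using h1, ?_⟩
  rw [← FreeGroup.inv_mk, map_inv]

theorem Ball.letter (j : J) : Ball dl 1 (dl j) := ⟨[(j, true)], by simp, by
  rw [← FreeGroup.of]; simp⟩

end ball

/-! ### tables -/

section tab

variable {A : Type} [DecidableEq A]

/-- accepted words act trivially near `x` -/
def GoodAt {X : Type} [MulAction (FreeGroup A) X] (Acc : Set (FreeGroup A)) (x : X) (R : ℕ) :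
    Prop := ∀ w ∈ Acc, ∀ v : FreeGroup A, w.norm + 2 * v.norm ≤ R → w • v • x = v • x

variable {X : Type} [MulAction (FreeGroup A) X] {Acc : Set (FreeGroup A)} {x : X}

theorem GoodAt.mono {R R' : ℕ} (h : GoodAt Acc x R) (hR : R' ≤ R) : GoodAt Acc x R' :=
  fun w hw v hv => h w hw v (hv.trans hR)

theorem GoodAt.smul {R R' : ℕ} (h : GoodAt Acc x R) (u : FreeGroup A) (hR : R' + 2 * u.norm ≤ R) :
    GoodAt Acc (u • x) R' := by
  intro w hw v hv
  have h1 := h w hw (v * u) (by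
    have := FreeGroup.norm_mul_le v u
    omega)
  rwa [mul_smul] at h1

/-- a table of size `N` -/
structure Tab (N : ℕ) (w : FreeGroup A) (τ : FreeGroup A → ℤ)
    (v : FreeGroup A → ℤ → FreeGroup A) : Prop where
  w_le : w.norm ≤ N
  τ_le : ∀ g, (τ g).natAbs ≤ N
  τ_far : ∀ g, N < g.norm → τ g = 0
  v_le : ∀ g m, (v g m).norm ≤ N
  v_far : ∀ g g' m m', (g = g' ∨ (N < g.norm ∧ N < g'.norm)) →
    (m = m' ∨ ((N : ℤ) < m ∧ (N : ℤ) < m') ∨ (m < -(N : ℤ) ∧ m' < -(N : ℤ))) → v g m = v g' m'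

variable {D J : Type} [Group D]

/-- the table property of `χ` -/
def LinH (dl : J → D) (S : Subgroup D)
    (chi : ∀ (X : Type) [MulAction (FreeGroup A) X], S →* Perm (P A X))
    (Acc : Set (FreeGroup A)) (C : ℕ) : Prop :=
  ∀ (n : ℕ) (e : S), Ball dl n (e : D) →
    ∃ (w : FreeGroup A) (τ : FreeGroup A → ℤ) (v : FreeGroup A → ℤ → FreeGroup A),
      Tab (C * n) w τ v ∧ ∀ (X : Type) [MulAction (FreeGroup A) X] (x : X) (g : FreeGroup A)
        (m : ℤ), GoodAt Acc x (C * (n + g.norm)) → chi X e (g, m, x) = (w * g, m + τ g, v g m • x)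

end tab

/-! ### the letters -/

/-- the kinds of letters of `U` -/
inductive Kd (D A : Type) where
  | d (x : D)
  | s
  | b (a : A)
  | g (a : A)
  | t

section letters

variable {A D J : Type} [Group D] {S : Subgroup D}
  (chi : ∀ (X : Type) [MulAction (FreeGroup A) X], S →* Perm (P A X))

/-- the action of the letters -/
noncomputable def kAct (X : Type) [MulAction (FreeGroup A) X] : Kd D A → Perm (YP (chi X))
  | Kd.d x => dP (chi X) x
  | Kd.s => sP (chi X)
  | Kd.b a => jP (chi X) (bp A X (FreeGroup.of a))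
  | Kd.g a => jP (chi X) (ga A X (FreeGroup.of a))
  | Kd.t => jP (chi X) (dd A X)

/-- letters of `D` have length `≤ 1` -/
def Kd.Ok (dl : J → D) : Kd D A → Prop
  | Kd.d x => Ball dl 1 x
  | _ => True

/-- a signed letter -/
def sgn {Y : Type} (f : Perm Y) (b : Bool) : Perm Y := cond b f f⁻¹

@[simp] theorem sgn_true {Y : Type} (f : Perm Y) : sgn f true = f := rfl
@[simp] theorem sgn_false {Y : Type} (f : Perm Y) : sgn f false = f⁻¹ := rfl

end letters

/-! ### the main local lemma -/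

section main

variable {A : Type} [DecidableEq A] {D J : Type} [Group D] {dl : J → D} {S : Subgroup D}
  {chi : ∀ (X : Type) [MulAction (FreeGroup A) X], S →* Perm (P A X)}
  {Acc : Set (FreeGroup A)} {C : ℕ}
  {X X' : Type} [MulAction (FreeGroup A) X] [MulAction (FreeGroup A) X']

/-- the data of a pair of points -/
structure Pair (A D X X' : Type) where
  s : ℤ
  s' : ℤ
  x : D
  z : D
  z' : D
  g : FreeGroup A
  g' : FreeGroup A
  m : ℤ
  m' : ℤ
  ξ : X
  ξ' : X'

/-- the relation between the points reached after `j` letters -/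
def Rel (dl : J → D) (chi : ∀ (X : Type) [MulAction (FreeGroup A) X], S →* Perm (P A X))
    (C k₀ : ℕ) (q : Pair A D X X') (j : ℕ) (y : YP (chi X)) (y' : YP (chi X')) : Prop :=
  ∃ (σ : ℤ) (x c : D) (a : FreeGroup A) (t : ℤ) (l : FreeGroup A) (k : ℕ),
    σ.natAbs ≤ j ∧ (Ball dl k x ∧ k ≤ k₀ + j) ∧
    a.norm + t.natAbs + l.norm + 3 * (C * k) ≤ 3 * (C * k₀) + 3 * (C * j) + j ∧
    y = ptS (chi X) (q.s + σ) x (c * q.z) (a * q.g, q.m + t, l • q.ξ) ∧
    y' = ptS (chi X') (q.s' + σ) x (c * q.z') (a * q.g', q.m' + t, l • q.ξ')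

/-- conditions on the pair, at precision `n` with budget `B` -/
structure Pair.Ok (dl : J → D) (Acc : Set (FreeGroup A)) (C k₀ n B : ℕ) (q : Pair A D X X') :
    Prop where
  hs : q.s = q.s' ∨ (q.s < -(n : ℤ) ∧ q.s' < -(n : ℤ)) ∨ ((n : ℤ) + 1 < q.s ∧ (n : ℤ) + 1 < q.s')
  hg : q.g = q.g' ∨ (2 * B < q.g.norm ∧ 2 * B < q.g'.norm)
  hm : q.m = q.m' ∨ (2 * (B : ℤ) < q.m ∧ 2 * (B : ℤ) < q.m') ∨
    (q.m < -(2 * (B : ℤ)) ∧ q.m' < -(2 * (B : ℤ)))
  hx : Ball dl k₀ q.x
  good : GoodAt Acc q.ξ (C * B + 3 * B + C * q.g.norm)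
  good' : GoodAt Acc q.ξ' (C * B + 3 * B + C * q.g'.norm)
  ty : ∀ u : FreeGroup A, u.norm ≤ 2 * B → (u • q.ξ = q.ξ ↔ u • q.ξ' = q.ξ')

theorem norm_ge (a g : FreeGroup A) : g.norm ≤ (a * g).norm + a.norm := by
  have h := FreeGroup.norm_mul_le a⁻¹ (a * g)
  rw [inv_mul_cancel_left, FreeGroup.norm_inv_eq] at h
  omega

theorem Pair.Ok.one_iff {q : Pair A D X X'} {k₀ n B : ℕ} (hq : q.Ok dl Acc C k₀ n B)
    {a : FreeGroup A} (ha : a.norm ≤ B) : a * q.g = 1 ↔ a * q.g' = 1 := by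
  rcases hq.hg with h | ⟨h1, h2⟩
  · rw [h]
  · have h3 := norm_ge a q.g
    have h4 := norm_ge a q.g'
    constructor
    · intro h; rw [h, FreeGroup.norm_one] at h3; omega
    · intro h; rw [h, FreeGroup.norm_one] at h4; omega

/-- evaluation of an element of `S` on both sides -/
theorem Pair.Ok.table {q : Pair A D X X'} {k₀ n B : ℕ} (hq : q.Ok dl Acc C k₀ n B)
    (hlin : LinH dl S chi Acc C) {a : FreeGroup A} {t : ℤ} {l : FreeGroup A} {k : ℕ}
    (ha : a.norm ≤ B) (ht : t.natAbs ≤ B) (hl : l.norm ≤ B) (hk : C * k ≤ B) (e : S)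
    (he : Ball dl k (e : D)) :
    ∃ (w : FreeGroup A) (τ : ℤ) (v : FreeGroup A), w.norm ≤ C * k ∧ τ.natAbs ≤ C * k ∧
      v.norm ≤ C * k ∧
      chi X e (a * q.g, q.m + t, l • q.ξ) = (w * a * q.g, q.m + (t + τ), (v * l) • q.ξ) ∧
      chi X' e (a * q.g', q.m' + t, l • q.ξ') = (w * a * q.g', q.m' + (t + τ), (v * l) • q.ξ') := by
  obtain ⟨w, τ, v, hT, hv⟩ := hlin k e he
  have hn1 := norm_ge a q.g
  have hn2 := norm_ge a q.g'
  have hn3 := FreeGroup.norm_mul_le a q.g
  have hn4 := FreeGroup.norm_mul_le a q.g'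
  have hCa : C * a.norm ≤ C * B := Nat.mul_le_mul_left _ ha
  have hr1 : C * (k + (a * q.g).norm) ≤ C * k + C * a.norm + C * q.g.norm := by
    rw [← Nat.mul_add, ← Nat.mul_add]
    exact Nat.mul_le_mul_left _ (by omega)
  have hr2 : C * (k + (a * q.g').norm) ≤ C * k + C * a.norm + C * q.g'.norm := by
    rw [← Nat.mul_add, ← Nat.mul_add]
    exact Nat.mul_le_mul_left _ (by omega)
  have e1 := hv X (l • q.ξ) (a * q.g) (q.m + t) (hq.good.smul l (by omega))
  have e2 := hv X' (l • q.ξ') (a * q.g') (q.m' + t) (hq.good'.smul l (by omega))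
  have eτ : τ (a * q.g') = τ (a * q.g) := by
    rcases hq.hg with h | ⟨h1, h2⟩
    · rw [h]
    · rw [hT.τ_far _ (by omega), hT.τ_far _ (by omega)]
  have ev : v (a * q.g') (q.m' + t) = v (a * q.g) (q.m + t) := by
    apply hT.v_far
    · rcases hq.hg with h | ⟨h1, h2⟩
      · left; rw [h]
      · right; omega
    · rcases hq.hm with h | ⟨h1, h2⟩ | ⟨h1, h2⟩
      · left; rw [h]
      · right; left; omega
      · right; right; omega
  refine ⟨w, τ (a * q.g), v (a * q.g) (q.m + t), hT.w_le, hT.τ_le _, hT.v_le _ _, ?_, ?_⟩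
  · rw [e1, mul_assoc, mul_smul, add_assoc]
  · rw [e2, eτ, ev, mul_assoc, mul_smul, add_assoc]

theorem natAbs_add_le (a b : ℤ) : (a + b).natAbs ≤ a.natAbs + b.natAbs := Int.natAbs_add_le a b

/-- `s` from the sheet `0`, with `x ∈ S` -/
theorem Rel.step_zero {q : Pair A D X X'} {k₀ n B : ℕ} (hq : q.Ok dl Acc C k₀ n B)
    (hlin : LinH dl S chi Acc C) {a : FreeGroup A} {t : ℤ} {l : FreeGroup A} {k j : ℕ}
    {σ : ℤ} {x c : D} (hσ : σ.natAbs ≤ j + 1) (hB : 3 * (C * k₀) + 3 * (C * j) + j ≤ B)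
    (hk : Ball dl k x)
    (hb : a.norm + t.natAbs + l.norm + 3 * (C * k) ≤ 3 * (C * k₀) + 3 * (C * j) + j)
    (hx : x ∈ S) {y : YP (chi X)} {y' : YP (chi X')}
    (h1 : y = ptS (chi X) (q.s + σ) 1 (x * (c * q.z))
      (chi X ⟨x, hx⟩ (a * q.g, q.m + t, l • q.ξ)))
    (h2 : y' = ptS (chi X') (q.s' + σ) 1 (x * (c * q.z'))
      (chi X' ⟨x, hx⟩ (a * q.g', q.m' + t, l • q.ξ'))) :
    Rel dl chi C k₀ q (j + 1) y y' := by
  obtain ⟨w, τ, v, hw, hτ, hv, e1, e2⟩ := hq.table hlin (a := a) (t := t) (l := l) (k := k)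
    (by omega) (by omega) (by omega) (by omega) ⟨x, hx⟩ hk
  rw [e1] at h1
  rw [e2] at h2
  refine ⟨σ, 1, x * c, w * a, t + τ, v * l, 0, hσ, ⟨Ball.one 0, by omega⟩, ?_, ?_, ?_⟩
  · have n1 := FreeGroup.norm_mul_le w a
    have n2 := FreeGroup.norm_mul_le v l
    have n3 := natAbs_add_le t τ
    have n4 : C * (j + 1) = C * j + C := by ring
    omega
  · rw [h1, mul_assoc x c]
  · rw [h2, mul_assoc x c]

/-- a letter of `J` -/
theorem Rel.step_j {q : Pair A D X X'} {k₀ n B : ℕ} (hq : q.Ok dl Acc C k₀ n B)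
    {y : YP (chi X)} {y' : YP (chi X')} {j : ℕ} (hj : j < n)
    (hB : 3 * (C * k₀) + 3 * (C * n) + n ≤ B)
    (h : Rel dl chi C k₀ q j y y') (f : Perm (P A X)) (f' : Perm (P A X'))
    (hf : ∀ (a : FreeGroup A) (t : ℤ) (l : FreeGroup A), a.norm ≤ B → t.natAbs ≤ B →
      ∃ (a₁ : FreeGroup A) (t₁ : ℤ) (l₁ : FreeGroup A),
        a₁.norm + t₁.natAbs + l₁.norm ≤ a.norm + t.natAbs + l.norm + 1 ∧
        f (a * q.g, q.m + t, l • q.ξ) = (a₁ * q.g, q.m + t₁, l₁ • q.ξ) ∧
        f' (a * q.g', q.m' + t, l • q.ξ') = (a₁ * q.g', q.m' + t₁, l₁ • q.ξ')) :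
    Rel dl chi C k₀ q (j + 1) (jP (chi X) f y) (jP (chi X') f' y') := by
  obtain ⟨σ, x, c, a, t, l, k, hσ, ⟨hk, hkj⟩, hb, rfl, rfl⟩ := h
  have n4 : C * (j + 1) = C * j + C := by ring
  have n5 : C * j ≤ C * n := Nat.mul_le_mul_left _ hj.le
  have hs := hq.hs
  by_cases h1 : q.s + σ = 1
  · have h1' : q.s' + σ = 1 := by omega
    obtain ⟨a₁, t₁, l₁, h3, h4, h5⟩ := hf a t l (by omega) (by omega)
    refine ⟨σ, x, c, a₁, t₁, l₁, k, by omega, ⟨hk, by omega⟩, by omega, ?_, ?_⟩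
    · rw [h1, jP_one, h4]
    · rw [h1', jP_one, h5]
  · have h1' : q.s' + σ ≠ 1 := by omega
    refine ⟨σ, x, c, a, t, l, k, by omega, ⟨hk, by omega⟩, by omega, ?_, ?_⟩
    · rw [jP_ne _ h1]
    · rw [jP_ne _ h1']

theorem jP_inv {Pp : Type} {χ : S →* Perm Pp} (j : Perm Pp) : (jP χ j)⁻¹ = jP χ j⁻¹ := by
  unfold jP
  rw [map_inv (jQ D), map_inv]

/-- **one letter** -/
theorem Rel.step {q : Pair A D X X'} {k₀ n B : ℕ} (hq : q.Ok dl Acc C k₀ n B)
    (hlin : LinH dl S chi Acc C) (hB : 3 * (C * k₀) + 3 * (C * n) + n ≤ B)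
    {y : YP (chi X)} {y' : YP (chi X')} {j : ℕ} (hj : j < n)
    (h : Rel dl chi C k₀ q j y y') (f : Kd D A) (hf : f.Ok dl) (b : Bool) :
    Rel dl chi C k₀ q (j + 1) (sgn (kAct chi X f) b y) (sgn (kAct chi X' f) b y') := by
  have n4 : C * (j + 1) = C * j + C := by ring
  have n5 : C * j ≤ C * n := Nat.mul_le_mul_left _ hj.le
  have hs := hq.hs
  cases f with
  | d d =>
    obtain ⟨σ, x, c, a, t, l, k, hσ, ⟨hk, hkj⟩, hb, rfl, rfl⟩ := h
    have hd : Ball dl 1 d := hf
    have n6 : C * (k + 1) = C * k + C := by ring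
    cases b
    · refine ⟨σ, d⁻¹ * x, c, a, t, l, k + 1, by omega, ?_, by omega, ?_, ?_⟩
      · have := hd.inv.mul hk
        rw [add_comm] at this
        exact ⟨this, by omega⟩
      · rw [sgn_false, kAct, dPi_pt]
      · rw [sgn_false, kAct, dPi_pt]
    · refine ⟨σ, d * x, c, a, t, l, k + 1, by omega, ?_, by omega, ?_, ?_⟩
      · have := hd.mul hk
        rw [add_comm] at this
        exact ⟨this, by omega⟩
      · rw [sgn_true, kAct, dP_pt]
      · rw [sgn_true, kAct, dP_pt]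
  | s =>
    obtain ⟨σ, x, c, a, t, l, k, hσ, ⟨hk, hkj⟩, hb, rfl, rfl⟩ := h
    cases b
    · rw [sgn_false, sgn_false, kAct, kAct]
      by_cases h1 : 1 < q.s + σ
      · rw [sPi_pos h1, sPi_pos (by omega)]
        refine ⟨σ - 1, x, c, a, t, l, k, by omega, ⟨hk, by omega⟩, by omega, ?_, ?_⟩
        · congr 1; ring
        · congr 1; ring
      · by_cases h2 : q.s + σ = 1
        · have h2' : q.s' + σ = 1 := by omega
          rw [h2, h2', sPi_one, sPi_one]
          refine ⟨σ - 1, 1, x * c, a, t, l, 0, by omega, ⟨Ball.one 0, by omega⟩, by omega, ?_, ?_⟩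
          · rw [mul_assoc]; congr 1; omega
          · rw [mul_assoc]; congr 1; omega
        · have h3 : q.s + σ ≤ 0 := by omega
          have h3' : q.s' + σ ≤ 0 := by omega
          by_cases hx : x ∈ S
          · rw [sPi_neg h3 hx, sPi_neg h3' hx]
            refine ⟨σ - 1, x, c, a, t, l, k, by omega, ⟨hk, by omega⟩, by omega, ?_, ?_⟩
            · congr 1; ring
            · congr 1; ring
          · rw [sPi_else h3 hx, sPi_else h3' hx]
            exact ⟨σ, x, c, a, t, l, k, by omega, ⟨hk, by omega⟩, by omega, rfl, rfl⟩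
    · rw [sgn_true, sgn_true, kAct, kAct]
      by_cases h1 : 0 < q.s + σ
      · rw [sP_pos h1, sP_pos (by omega)]
        refine ⟨σ + 1, x, c, a, t, l, k, by omega, ⟨hk, by omega⟩, by omega, ?_, ?_⟩
        · congr 1; ring
        · congr 1; ring
      · by_cases hx : x ∈ S
        · by_cases h2 : q.s + σ = 0
          · have h2' : q.s' + σ = 0 := by omega
            rw [h2, h2', sP_zero hx, sP_zero hx]
            refine Rel.step_zero hq hlin (σ := σ + 1) (c := c) (a := a) (t := t) (l := l)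
              (k := k) (by omega) (by omega) hk (by omega) hx ?_ ?_
            · congr 1; omega
            · congr 1; omega
          · rw [sP_neg (by omega) hx, sP_neg (by omega) hx]
            refine ⟨σ + 1, x, c, a, t, l, k, by omega, ⟨hk, by omega⟩, by omega, ?_, ?_⟩
            · congr 1; ring
            · congr 1; ring
        · rw [sP_else (by omega) hx, sP_else (by omega) hx]
          exact ⟨σ, x, c, a, t, l, k, by omega, ⟨hk, by omega⟩, by omega, rfl, rfl⟩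
  | b a₀ =>
    have key : sgn (kAct chi X (Kd.b a₀)) b = jP (chi X) (sgn (bp A X (FreeGroup.of a₀)) b) := by
      cases b
      · rw [sgn_false, kAct, jP_inv]; rfl
      · rfl
    have key' : sgn (kAct chi X' (Kd.b a₀)) b =
        jP (chi X') (sgn (bp A X' (FreeGroup.of a₀)) b) := by
      cases b
      · rw [sgn_false, kAct, jP_inv]; rfl
      · rfl
    rw [key, key']
    refine Rel.step_j hq hj hB h _ _ ?_
    intro a t l ha ht
    have hn : (FreeGroup.of a₀).norm = 1 := FreeGroup.norm_of a₀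
    cases b
    · refine ⟨(FreeGroup.of a₀)⁻¹ * a, t, l, ?_, ?_, ?_⟩
      · have := FreeGroup.norm_mul_le (FreeGroup.of a₀)⁻¹ a
        rw [FreeGroup.norm_inv_eq] at this
        omega
      · rw [sgn_false, bp_inv_apply, mul_assoc]
      · rw [sgn_false, bp_inv_apply, mul_assoc]
    · refine ⟨(FreeGroup.of a₀) * a, t, l, ?_, ?_, ?_⟩
      · have := FreeGroup.norm_mul_le (FreeGroup.of a₀) a
        omega
      · rw [sgn_true, bp_apply, mul_assoc]
      · rw [sgn_true, bp_apply, mul_assoc]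
  | g a₀ =>
    have key : sgn (kAct chi X (Kd.g a₀)) b = jP (chi X) (sgn (ga A X (FreeGroup.of a₀)) b) := by
      cases b
      · rw [sgn_false, kAct, jP_inv]; rfl
      · rfl
    have key' : sgn (kAct chi X' (Kd.g a₀)) b =
        jP (chi X') (sgn (ga A X' (FreeGroup.of a₀)) b) := by
      cases b
      · rw [sgn_false, kAct, jP_inv]; rfl
      · rfl
    rw [key, key']
    refine Rel.step_j hq hj hB h _ _ ?_
    intro a t l ha ht
    have hn : (FreeGroup.of a₀).norm = 1 := FreeGroup.norm_of a₀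
    have hm := hq.hm
    obtain ⟨u, hu, hX, hX'⟩ : ∃ u : FreeGroup A, u.norm ≤ 1 ∧
        sgn (ga A X (FreeGroup.of a₀)) b = ga A X u ∧
        sgn (ga A X' (FreeGroup.of a₀)) b = ga A X' u := by
      cases b
      · exact ⟨(FreeGroup.of a₀)⁻¹, by rw [FreeGroup.norm_inv_eq]; omega,
          by rw [sgn_false, map_inv], by rw [sgn_false, map_inv]⟩
      · exact ⟨FreeGroup.of a₀, by omega, rfl, rfl⟩
    rw [hX, hX']
    by_cases h1 : q.m + t < 0
    · have h1' : q.m' + t < 0 := by omega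
      refine ⟨a, t, u * l, ?_, ?_, ?_⟩
      · have := FreeGroup.norm_mul_le u l
        omega
      · rw [ga_neg _ _ _ _ h1, mul_smul]
      · rw [ga_neg _ _ _ _ h1', mul_smul]
    · have h1' : ¬ q.m' + t < 0 := by omega
      refine ⟨a, t, l, by omega, ?_, ?_⟩
      · rw [ga_nonneg _ _ _ _ (not_lt.1 h1)]
      · rw [ga_nonneg _ _ _ _ (not_lt.1 h1')]
  | t =>
    have key : sgn (kAct chi X (Kd.t)) b = jP (chi X) (sgn (dd A X) b) := by
      cases b
      · rw [sgn_false, kAct, jP_inv]; rfl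
      · rfl
    have key' : sgn (kAct chi X' (Kd.t)) b = jP (chi X') (sgn (dd A X') b) := by
      cases b
      · rw [sgn_false, kAct, jP_inv]; rfl
      · rfl
    rw [key, key']
    refine Rel.step_j hq hj hB h _ _ ?_
    intro a t l ha ht
    have hone := hq.one_iff ha
    by_cases h1 : a * q.g = 1
    · have h1' := hone.1 h1
      cases b
      · refine ⟨a, t - 1, l, by omega, ?_, ?_⟩
        · rw [sgn_false, h1, dd_inv_one, add_sub_assoc]
        · rw [sgn_false, h1', dd_inv_one, add_sub_assoc]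
      · refine ⟨a, t + 1, l, by omega, ?_, ?_⟩
        · rw [sgn_true, h1, dd_one, add_assoc]
        · rw [sgn_true, h1', dd_one, add_assoc]
    · have h1' : ¬ a * q.g' = 1 := fun h => h1 (hone.2 h)
      refine ⟨a, t, l, by omega, ?_, ?_⟩
      · cases b
        · rw [sgn_false, dd_inv_ne _ _ h1]
        · rw [sgn_true, dd_ne _ _ h1]
      · cases b
        · rw [sgn_false, dd_inv_ne _ _ h1']
        · rw [sgn_true, dd_ne _ _ h1']

/-- **comparison with the initial pair** -/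
theorem Rel.fin {q : Pair A D X X'} {k₀ n B : ℕ} (hq : q.Ok dl Acc C k₀ n B)
    (hlin : LinH dl S chi Acc C) (hB : 3 * (C * k₀) + 3 * (C * n) + n ≤ B)
    {y : YP (chi X)} {y' : YP (chi X')} {j : ℕ} (hj : j ≤ n)
    (h : Rel dl chi C k₀ q j y y') :
    y = ptS (chi X) q.s q.x q.z (q.g, q.m, q.ξ) ↔
      y' = ptS (chi X') q.s' q.x q.z' (q.g', q.m', q.ξ') := by
  obtain ⟨σ, x, c, a, t, l, k, hσ, ⟨hk, hkj⟩, hb, rfl, rfl⟩ := h
  have n5 : C * j ≤ C * n := Nat.mul_le_mul_left _ hj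
  have hs := hq.hs
  by_cases h0 : 0 < q.s + σ
  · have h0' : 0 < q.s' + σ := by omega
    rw [ptS_eq_pos h0, ptS_eq_pos h0']
    have e1 : q.s + σ = q.s ↔ q.s' + σ = q.s' := by omega
    have e2 : x * (c * q.z) = q.x * q.z ↔ x * (c * q.z') = q.x * q.z' := by
      rw [← mul_assoc, ← mul_assoc, mul_left_inj, mul_left_inj]
    have e3 : (a * q.g, q.m + t, l • q.ξ) = (q.g, q.m, q.ξ) ↔
        (a * q.g', q.m' + t, l • q.ξ') = (q.g', q.m', q.ξ') := by
      simp only [Prod.mk.injEq, mul_eq_right, add_eq_left]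
      rw [hq.ty l (by omega)]
    rw [e1, e2, e3]
  · have h0' : ¬ 0 < q.s' + σ := by omega
    rw [ptS_eq_neg (not_lt.1 h0), ptS_eq_neg (not_lt.1 h0')]
    have e1 : q.s + σ = q.s ↔ q.s' + σ = q.s' := by omega
    rw [e1]
    refine and_congr_right fun _ => exists_congr fun e => and_congr_right fun he => ?_
    have hball : Ball dl (k₀ + k) (e : D) := by
      rw [he]; exact hq.hx.inv.mul hk
    have n6 : C * (k₀ + k) = C * k₀ + C * k := by ring
    obtain ⟨w, τ, v, hw, hτ, hv, e2, e3⟩ := hq.table hlin (a := a) (t := t) (l := l)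
      (k := k₀ + k) (by omega) (by omega) (by omega) (by omega) e hball
    rw [e2, e3]
    have e4 : q.z = (e : D) * (c * q.z) ↔ q.z' = (e : D) * (c * q.z') := by
      rw [← mul_assoc, ← mul_assoc, right_eq_mul, right_eq_mul]
    rw [e4]
    refine and_congr_right fun _ => ?_
    simp only [Prod.mk.injEq, right_eq_mul, left_eq_add]
    have e5 := hq.ty (v * l) (by
      have := FreeGroup.norm_mul_le v l
      omega)
    rw [eq_comm (a := q.ξ), eq_comm (a := q.ξ'), e5]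

end main

end Crest.Agent.R185.Loc
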