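import Crest.Agent.R185.Hub1

/-!
# The hub of the fixed point argument, single point form (R185)

The same as `Hub.hub`, but only types of single points are passed between the stages.
-/

namespace Crest.Agent.R185.Hub

variable {A : Type} [DecidableEq A]

/-- `n`-types of points of norm `≤ ρ` have witnesses of norm `≤ b`. -/
def TL1 (S : Subgroup (FreeGroup A)) (n ρ b : ℕ) : Prop :=
  ∀ v : FreeGroup A, v.norm ≤ ρ → ∃ v' : FreeGroup A, v'.norm ≤ b ∧
    ∀ u : FreeGroup A, u.norm ≤ n → (v⁻¹ * u * v ∈ S ↔ v'⁻¹ * u * v' ∈ S)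

theorem TL1.mono {S : Subgroup (FreeGroup A)} {n ρ b n' ρ' b' : ℕ} (h : TL1 S n ρ b)
    (hn : n' ≤ n) (hρ : ρ' ≤ ρ) (hb : b ≤ b') : TL1 S n' ρ' b' := by
  intro v hv
  obtain ⟨v', h1, h2⟩ := h v (hv.trans hρ)
  exact ⟨v', h1.trans hb, fun u hu => h2 u (hu.trans hn)⟩

theorem TL1.self (S : Subgroup (FreeGroup A)) (n ρ : ℕ) : TL1 S n ρ ρ :=
  fun v hv => ⟨v, hv, fun _ _ => Iff.rfl⟩

theorem TL1.zero (S : Subgroup (FreeGroup A)) (ρ : ℕ) : TL1 S 0 ρ 0 := by
  intro v _
  refine ⟨1, by simp, fun u hu => ?_⟩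
  have hu1 : u = 1 := FreeGroup.norm_eq_zero.1 (by omega)
  subst hu1
  simp

theorem TL1.top (n ρ : ℕ) : TL1 (⊤ : Subgroup (FreeGroup A)) n ρ 0 :=
  fun _ _ => ⟨1, by simp, fun _ _ => by simp⟩

/-- bounds for the witnesses. -/
def bnd1 (β : ℕ → ℕ → ℕ) : ℕ → ℕ
  | 0 => 0
  | n + 1 => β (n + 1) (bnd1 β ((n + 1) / 2))
termination_by n => n
decreasing_by omega

theorem bnd1_zero (β : ℕ → ℕ → ℕ) : bnd1 β 0 = 0 := by rw [bnd1]

theorem bnd1_succ (β : ℕ → ℕ → ℕ) (n : ℕ) :
    bnd1 β (n + 1) = β (n + 1) (bnd1 β ((n + 1) / 2)) := by rw [bnd1]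

section

variable {E : Type*} {Φ : E → Subgroup (FreeGroup A) → Subgroup (FreeGroup A)}
  {Acc : E → Set (FreeGroup A)} {β : ℕ → ℕ → ℕ}

theorem tl1_lev
    (H2 : ∀ e S n ρ b, 1 ≤ n → Good (Acc e) S ((n + 2 * ρ) / 2) →
      TL1 S (n / 2) (ρ / 2) b → TL1 (Φ e S) n ρ (β n b))
    (e : E) {r : ℕ} (hG : ∀ r', r' < r → ∀ i, r' ≤ i → Good (Acc e) (lev Φ e i) r') :
    ∀ n ρ i, n + 2 * ρ ≤ r → n + 2 * ρ ≤ i → TL1 (lev Φ e i) n ρ (bnd1 β n) := by
  intro n
  induction n using Nat.strong_induction_on with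
  | _ n IH =>
    intro ρ i hr hi
    rcases Nat.eq_zero_or_pos n with rfl | hn
    · rw [bnd1_zero]; exact TL1.zero _ _
    · obtain ⟨m, rfl⟩ : ∃ m, n = m + 1 := ⟨n - 1, by omega⟩
      rcases i with _ | i
      · exact (TL1.top _ _).mono le_rfl le_rfl (Nat.zero_le _)
      · rw [bnd1_succ]
        have hg : Good (Acc e) (lev Φ e i) ((m + 1 + 2 * ρ) / 2) :=
          hG _ (by omega) i (by omega)
        exact H2 e _ _ ρ _ (by omega) hg
          (IH ((m + 1) / 2) (by omega) (ρ / 2) i (by omega) (by omega))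

/-- **The hub, single point form.** -/
theorem hub1
    (H1 : ∀ e S S' r, Good (Acc e) S r → Good (Acc e) S' r → Agr S S' r →
      Agr (Φ e S) (Φ e S') (2 * r + 1))
    (H2 : ∀ e S n ρ b, 1 ≤ n → Good (Acc e) S ((n + 2 * ρ) / 2) →
      TL1 S (n / 2) (ρ / 2) b → TL1 (Φ e S) n ρ (β n b))
    (HK : ∃ e, Acc e = {w | ∀ v : FreeGroup A, v.norm ≤ bnd1 β w.norm →
      v⁻¹ * w * v ∈ lev Φ e (w.norm + 2 * bnd1 β w.norm)}) :
    ∃ e S, Φ e S = S ∧ Acc e = {w | ∀ v : FreeGroup A, v⁻¹ * w * v ∈ S} := by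
  obtain ⟨e, he⟩ := HK
  -- main induction
  have main : ∀ r, (∀ i, r ≤ i → Good (Acc e) (lev Φ e i) r) ∧
      (∀ i, r ≤ i → Agr (lev Φ e i) (lev Φ e (i + 1)) r) := by
    intro r
    induction r using Nat.strong_induction_on with
    | _ r IH =>
      rcases Nat.eq_zero_or_pos r with rfl | hr
      · refine ⟨fun i _ w _ v h => ?_, fun i _ w h => ?_⟩
        · have hw : w = 1 := FreeGroup.norm_eq_zero.1 (by omega)
          have hv : v = 1 := FreeGroup.norm_eq_zero.1 (by omega)
          subst hw; subst hv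
          simp
        · have hw : w = 1 := FreeGroup.norm_eq_zero.1 (by omega)
          subst hw
          exact ⟨fun _ => one_mem _, fun _ => one_mem _⟩
      · -- agreement
        have hA : ∀ i, r ≤ i → Agr (lev Φ e i) (lev Φ e (i + 1)) r := by
          intro i hi
          obtain ⟨i, rfl⟩ : ∃ i', i = i' + 1 := ⟨i - 1, by omega⟩
          have h := H1 e (lev Φ e i) (lev Φ e (i + 1)) (r / 2)
            ((IH (r / 2) (by omega)).1 i (by omega))
            ((IH (r / 2) (by omega)).1 (i + 1) (by omega))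
            ((IH (r / 2) (by omega)).2 i (by omega))
          exact h.mono (by omega)
        refine ⟨fun i hi w hw v hv => ?_, hA⟩
        rw [he] at hw
        set b := bnd1 β w.norm with hb
        have hw' : ∀ v : FreeGroup A, v.norm ≤ b → v⁻¹ * w * v ∈ lev Φ e (w.norm + 2 * b) := hw
        by_cases hvb : v.norm ≤ b
        · -- `v` itself is a test point
          have h1 := hw' v hvb
          have hn := norm_conj_le w v
          rcases le_total i (w.norm + 2 * b) with hij | hij
          · exact (agr_of_le e hA hi hij _ (by omega)).2 h1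
          · rcases Nat.lt_or_ge (w.norm + 2 * b) r with hlt | hge
            · exact (agr_of_le e (IH _ hlt).2 le_rfl hij _ (by omega)).1 h1
            · exact (agr_of_le e hA hge hij _ (by omega)).1 h1
        · -- replace `v` by a test point
          have htl := tl1_lev (Acc := Acc) H2 e (r := r)
            (fun r' hr' i hi => (IH r' hr').1 i hi) w.norm v.norm i hv (by omega)
          obtain ⟨v', hv', htt⟩ := htl v le_rfl
          rw [← hb] at hv'
          have h1 := hw' v' hv'
          have hn := norm_conj_le w v'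
          have hlt : w.norm + 2 * b < r := by omega
          have h2 : v'⁻¹ * w * v' ∈ lev Φ e i :=
            (agr_of_le e (IH _ hlt).2 le_rfl (by omega) _ (by omega)).1 h1
          exact (htt w le_rfl).2 h2
  -- the limit subgroup
  have stab : ∀ (w : FreeGroup A) (i j : ℕ), w.norm ≤ i → w.norm ≤ j →
      (w ∈ lev Φ e i ↔ w ∈ lev Φ e j) := by
    intro w i j hi hj
    have h1 := agr_of_le e (main w.norm).2 le_rfl hi w le_rfl
    have h2 := agr_of_le e (main w.norm).2 le_rfl hj w le_rfl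
    exact h1.symm.trans h2
  let S : Subgroup (FreeGroup A) :=
    { carrier := {w | w ∈ lev Φ e w.norm}
      one_mem' := by
        show (1 : FreeGroup A) ∈ lev Φ e (1 : FreeGroup A).norm
        exact one_mem _
      mul_mem' := by
        intro a b ha hb
        have hn := FreeGroup.norm_mul_le a b
        have ha' := (stab a a.norm (a.norm + b.norm) le_rfl (by omega)).1 ha
        have hb' := (stab b b.norm (a.norm + b.norm) le_rfl (by omega)).1 hb
        exact (stab (a * b) _ (a.norm + b.norm) le_rfl hn).2 (mul_mem ha' hb')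
      inv_mem' := by
        intro a ha
        have hn := FreeGroup.norm_inv_eq (x := a)
        show a⁻¹ ∈ lev Φ e a⁻¹.norm
        rw [hn]
        exact inv_mem ha }
  have memS : ∀ (w : FreeGroup A) (i : ℕ), w.norm ≤ i → (w ∈ S ↔ w ∈ lev Φ e i) :=
    fun w i hi => stab w _ i le_rfl hi
  have goodS : ∀ r, Good (Acc e) S r := by
    intro r w hw v hv
    have h := (main r).1 r le_rfl w hw v hv
    have hn := norm_conj_le w v
    exact (memS _ r (by omega)).2 h
  refine ⟨e, S, ?_, ?_⟩
  · ext w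
    have h := H1 e S (lev Φ e w.norm) w.norm (goodS _) ((main _).1 _ le_rfl)
      (fun u hu => memS u _ hu) w (by omega)
    rw [h, memS w (w.norm + 1) (by omega)]
    rfl
  · ext w
    constructor
    · intro hw v
      exact goodS _ w hw v le_rfl
    · intro hw
      rw [he]
      intro v hv
      have hn := norm_conj_le w v
      exact (memS _ _ (by omega)).1 (hw v)

end

end Crest.Agent.R185.Hub
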