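import Crest.Agent.R185.Smp9
import Crest.Agent.R185.Hub2

/-!
# R185 / SMP (10): the stage `Y ↦ Guard (ZZ G Y)` in the format of the hub
-/

set_option autoImplicit false

namespace Crest.Agent.R185.Smp

open Crest.Agent.R185.Wu Crest.Agent.R185.Hot

/-! ### doors from a list of letters -/

section list

variable {C : Type}

/-- the letter behind the door `k` -/
def ltL (L : List C) (k : ℤ) : Option C := if 1 ≤ k then L[(k - 1).toNat]? else none

/-- the door of a letter -/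
def ixL [DecidableEq C] (L : List C) (c : C) : ℤ := L.idxOf c + 1

theorem lbl_list [DecidableEq C] {L : List C} (h : ∀ c, c ∈ L) :
    Lbl L.length (ltL L) (ixL L) where
  rng k c hk := by
    unfold ltL at hk
    split_ifs at hk with h1
    obtain ⟨h2, -⟩ := List.getElem?_eq_some_iff.1 hk
    omega
  ix c := by
    unfold ltL ixL
    have h1 : L.idxOf c < L.length := List.idxOf_lt_length_iff.2 (h c)
    rw [if_pos (by omega), add_sub_cancel_right, Int.toNat_natCast, List.getElem?_eq_getElem h1,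
      List.getElem_idxOf h1]

end list

section stage

variable {G Y Y' A B : Type} [Group G] (M : ℕ) (lt : ℤ → Option (KLet A B)) (e : B → G)
  (y₀ : Y) (pa : A → Equiv.Perm Y)

/-- the guard letters over `ZZ G Y` -/
noncomputable def gzP : GdL → Equiv.Perm (GX (ZZ G Y)) := gperm M (sig lt (kact e y₀ pa))

/-- the base point -/
def gz0 (G Y : Type) : GX (ZZ G Y) := ((0, 0, 0), pts G Y 0)

/-- the stabiliser of the base point -/
noncomputable def gzS : Subgroup (FreeGroup GdL) :=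
  (MulAction.stabilizer (Equiv.Perm (GX (ZZ G Y))) (gz0 G Y)).comap
    (FreeGroup.lift (gzP M lt e y₀ pa))

theorem mem_gzS {w : FreeGroup GdL} :
    w ∈ gzS M lt e y₀ pa ↔ FreeGroup.lift (gzP M lt e y₀ pa) w (gz0 G Y) = gz0 G Y := Iff.rfl

theorem mem_gzS_conj {u v : FreeGroup GdL} :
    v⁻¹ * u * v ∈ gzS M lt e y₀ pa ↔
      FreeGroup.lift (gzP M lt e y₀ pa) u (FreeGroup.lift (gzP M lt e y₀ pa) v (gz0 G Y)) =
        FreeGroup.lift (gzP M lt e y₀ pa) v (gz0 G Y) := by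
  rw [mem_gzS, map_mul, map_mul, map_inv, Equiv.Perm.mul_apply, Equiv.Perm.mul_apply,
    Equiv.Perm.inv_eq_iff_eq]

theorem lift_gzP (w : List (GdL × Bool)) (x : GX (ZZ G Y)) :
    FreeGroup.lift (gzP M lt e y₀ pa) (FreeGroup.mk w) x =
      ev (gstep M (sig lt (kact e y₀ pa))) w x := by
  rw [← ev_sg, show sg (gzP M lt e y₀ pa) = gstep M (sig lt (kact e y₀ pa)) from
    funext fun a => sg_gperm M _ a]

theorem lift_gzP' [DecidableEq GdL] (w : FreeGroup GdL) (x : GX (ZZ G Y)) :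
    FreeGroup.lift (gzP M lt e y₀ pa) w x =
      ev (gstep M (sig lt (kact e y₀ pa))) w.toWord x := by
  rw [← lift_gzP, FreeGroup.mk_toWord]

end stage

section free

variable {A Y Y' : Type} [DecidableEq A] {pa : A → Equiv.Perm Y} {pa' : A → Equiv.Perm Y'}

/-- types in the language of free groups -/
theorem tyEq_of_free {ι : Type} {n : ℕ} {y : ι → Y} {y' : ι → Y'}
    (h : ∀ i j (u : FreeGroup A), u.norm ≤ n →
      (FreeGroup.lift pa u (y i) = y j ↔ FreeGroup.lift pa' u (y' i) = y' j)) :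
    TyEq (sg pa) (sg pa') n y y' := by
  intro i j w hw
  rw [ev_sg, ev_sg]
  exact h i j _ (FreeGroup.norm_mk_le.trans hw)

theorem ent_iff {y₀ : Y} {ρ : ℕ} {y : Y} :
    Ent pa y₀ ρ y ↔ ∃ u : FreeGroup A, u.norm ≤ ρ ∧ FreeGroup.lift pa u y₀ = y := by
  constructor
  · rintro ⟨u, hu, rfl⟩
    exact ⟨FreeGroup.mk u, FreeGroup.norm_mk_le.trans hu, (ev_sg pa u y₀).symm⟩
  · rintro ⟨u, hu, rfl⟩
    exact ⟨u.toWord, hu, by rw [ev_sg, FreeGroup.mk_toWord]⟩

/-- the input of the `ZZ` layer in the language of free groups -/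
theorem T5_of_free {y₀ : Y} {n ρ b : ℕ}
    (h : ∀ v : Fin 4 → FreeGroup A, (∀ l, (v l).norm ≤ ρ) →
      ∃ v' : Fin 4 → FreeGroup A, (∀ l, (v' l).norm ≤ b) ∧
        ∀ (i j : Fin 5) (u : FreeGroup A), u.norm ≤ n →
          (FreeGroup.lift pa u (FreeGroup.lift pa ((Fin.cons 1 v : Fin 5 → FreeGroup A) i) y₀) =
              FreeGroup.lift pa ((Fin.cons 1 v : Fin 5 → FreeGroup A) j) y₀ ↔
            FreeGroup.lift pa u (FreeGroup.lift pa ((Fin.cons 1 v' : Fin 5 → FreeGroup A) i) y₀) =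
              FreeGroup.lift pa ((Fin.cons 1 v' : Fin 5 → FreeGroup A) j) y₀)) :
    T5 pa y₀ n ρ b := by
  intro w hw
  have hw' : ∀ l, ∃ u : FreeGroup A, u.norm ≤ ρ ∧ FreeGroup.lift pa u y₀ = w l :=
    fun l => ent_iff.1 (hw l)
  choose v hv hvw using hw'
  obtain ⟨v', hv', H⟩ := h v hv
  refine ⟨fun l => FreeGroup.lift pa (v' l) y₀, fun l => ent_iff.2 ⟨v' l, hv' l, rfl⟩, ?_⟩
  have e1 : (Fin.cons y₀ w : Fin 5 → Y) =
      fun i => FreeGroup.lift pa ((Fin.cons 1 v : Fin 5 → FreeGroup A) i) y₀ := by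
    funext i
    refine Fin.cases ?_ (fun l => ?_) i
    · simp
    · simp [hvw]
  have e2 : (Fin.cons y₀ (fun l => FreeGroup.lift pa (v' l) y₀) : Fin 5 → Y) =
      fun i => FreeGroup.lift pa ((Fin.cons 1 v' : Fin 5 → FreeGroup A) i) y₀ := by
    funext i
    refine Fin.cases ?_ (fun l => ?_) i
    · simp
    · simp
  rw [e1, e2]
  exact tyEq_of_free H

end free

section hub

variable {G Y Y' A B : Type} [Group G] {M J : ℕ} {lt : ℤ → Option (KLet A B)}
  {ix : KLet A B → ℤ} {e : B → G} {y₀ : Y} {pa : A → Equiv.Perm Y} {y₀' : Y'}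
  {pa' : A → Equiv.Perm Y'}

/-- **(GZ1)**: the stabiliser of the base point of the guard depends only on the stabiliser of
`y₀`, with gain `M` -/
theorem gz_agree [DecidableEq A] {N : ℕ}
    (hy : ∀ u : FreeGroup A, u.norm ≤ 2 * N →
      (FreeGroup.lift pa u y₀ = y₀ ↔ FreeGroup.lift pa' u y₀' = y₀'))
    {w : FreeGroup GdL} (hw : w.norm < M * (2 * N + 1)) :
    w ∈ gzS M lt e y₀ pa ↔ w ∈ gzS M lt e y₀' pa' := by
  rw [mem_gzS, mem_gzS, lift_gzP', lift_gzP']
  have h1 : TyEq (sg pa) (sg pa') (2 * N) (fun _ : Fin 1 => y₀) (fun _ => y₀') :=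
    tyEq_of_free (fun _ _ u hu => hy u hu)
  have h2 := zz_type_base (G := G) (e := e) h1
  exact guard_type_base (lt := lt) hw h2 0 0 w.toWord le_rfl

/-- the bound of the witnesses -/
def gzbd (M J b n : ℕ) : ℕ :=
  zbd b (n / M) * (4 * (M * (J + 1)) + 6) + (n + 1) + 2 * M + (n + 2) + (M * J + n + 1 + M)

/-- **(GZ2)**: types of points of the guard have small witnesses -/
theorem gz_tl1 {ht : G → ℤ} {t : B} (hh : Height e ht t) (hL : Lbl J lt ix) (hM : 0 < M)
    {n ρ b : ℕ} (hT : 0 < n / M → T5 pa y₀ (2 * (n / M)) (ρ / M) b) :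
    Hub.TL1 (gzS M lt e y₀ pa) n ρ (gzbd M J b n) := by
  intro v hv
  -- the point
  obtain ⟨p, z, hx, hz⟩ : ∃ (p : GP) (z : ZZ G Y),
      FreeGroup.lift (gzP M lt e y₀ pa) v (gz0 G Y) = (p, z) ∧ Shape G pa y₀ (ρ / M) z := by
    have h0 := ev_gstep M (sig lt (kact e y₀ pa)) v.toWord (0, 0, 0) (pts G Y 0)
    rw [glabs_word] at h0
    refine ⟨_, _, (lift_gzP' M lt e y₀ pa v _).trans h0, ?_⟩
    · refine (shape_ev e _).mono ?_
      refine (kwd_length M lt _ _).trans ?_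
      have h1 := gds_base (M := M) v.toWord 0 0
      exact (Nat.le_div_iff_mul_le hM).2 (by rw [Nat.mul_comm]; exact h1.trans hv)
  -- the small entries
  obtain ⟨z', ⟨wz, hwz, hwz'⟩, hzz⟩ : ∃ z', Rch e pa y₀ (zbd b (n / M)) z' ∧
      TyEq (sg (kact e y₀ pa)) (sg (kact e y₀ pa)) (2 * (n / M)) (fun _ : Fin 1 => z)
        (fun _ => z') := by
    rcases Nat.eq_zero_or_pos (n / M) with h0 | h0
    · refine ⟨pts G Y 0, Rch.pts0.mono (Nat.zero_le _), ?_⟩
      intro i j w hw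
      rw [h0] at hw
      have : w = [] := List.eq_nil_of_length_eq_zero (by omega)
      subst this
      simp
    · exact zz_type hh (hT h0) hz
  obtain ⟨⟨i', j', n'⟩, α, β, γ, hs, b1, b2, b3⟩ := exists_smallpos hM J n p
  simp only at b1 b2 b3
  have hty := guard_type (lt := lt) hL.rng hM hs hzz
  obtain ⟨w, hw, hw'⟩ := guard_reach (q := kact e y₀ pa) hL hM (z₀ := pts G Y 0) wz i' j' n'
  refine ⟨FreeGroup.mk w, FreeGroup.norm_mk_le.trans ?_, ?_⟩
  · have h1 : wz.length * (4 * (M * (J + 1)) + 6) ≤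
        zbd b (n / M) * (4 * (M * (J + 1)) + 6) := Nat.mul_le_mul_right _ hwz
    unfold gzbd
    omega
  · intro u hu
    rw [mem_gzS_conj, mem_gzS_conj, hx, lift_gzP (w := w)]
    unfold gz0
    rw [hw', hwz', lift_gzP', lift_gzP']
    exact hty 0 0 u.toWord hu

end hub

end Crest.Agent.R185.Smp
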