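import Crest.Agent.R185.Asm3
import Crest.Agent.R185.Smp10
import Crest.Agent.R185.Loc2
import Crest.Agent.R185.Hub3

/-!
# R185, glue: (H1) and (H2) of the hub from the local lemmas and the guard (helper424)
-/

set_option autoImplicit false
set_option linter.unusedSectionVars false

namespace Crest.Agent.R185.Glu

open Crest.Agent.R185.Wu Crest.Agent.R185.Hot Crest.Agent.R185.Smp Crest.Agent.R185.Asm
  Crest.Agent.R185.Hub

/-! ### stripping -/

section strip

variable {A : Type} [DecidableEq A]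

theorem norm_strip_mk (L : List (Option (A × Bool) × Bool)) :
    (strip A (FreeGroup.mk L)).norm ≤ L.length := by
  induction L with
  | nil =>
    rw [← FreeGroup.one_eq_mk, map_one]; simp
  | cons x L ih =>
    have h1 : (FreeGroup.mk (x :: L) : FreeGroup (Option (A × Bool))) =
        FreeGroup.mk [x] * FreeGroup.mk L := by rw [FreeGroup.mul_mk]; rfl
    rw [h1, map_mul]
    refine (FreeGroup.norm_mul_le _ _).trans ?_
    have h2 : (strip A (FreeGroup.mk [x])).norm ≤ 1 := by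
      have h3 : (strip A (FreeGroup.of x.1)).norm ≤ 1 := by
        obtain ⟨o, b⟩ := x
        cases o with
        | none => simp
        | some p =>
          rw [strip_some]
          exact FreeGroup.norm_mk_le
      obtain ⟨o, b⟩ := x
      cases b with
      | true => exact h3
      | false =>
        have h4 : (FreeGroup.mk [(o, false)] : FreeGroup (Option (A × Bool))) =
            (FreeGroup.of o)⁻¹ := rfl
        rw [h4, map_inv, FreeGroup.norm_inv_eq]
        exact h3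
    simp only [List.length_cons]
    omega

theorem norm_strip_le (w : FreeGroup (Option (A × Bool))) : (strip A w).norm ≤ w.norm := by
  have := norm_strip_mk w.toWord
  rwa [FreeGroup.mk_toWord] at this

theorem norm_posl_le (w : FreeGroup A) : (posl A w).norm ≤ w.norm := by
  have h : posl A w = FreeGroup.mk (w.toWord.map fun x => (some (x.1, true), x.2)) := by
    conv_lhs => rw [← FreeGroup.mk_toWord (x := w)]
    rfl
  rw [h]
  refine FreeGroup.norm_mk_le.trans ?_
  rw [List.length_map]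
  rfl

/-! ### the machine alphabet on `F(A) ⧸ S` -/

variable (S : Subgroup (FreeGroup A))

/-- `GoodAt` for the machine alphabet -/
def GoodM (AccM : Set (FreeGroup (Option (A × Bool)))) (S : Subgroup (FreeGroup A)) (r : ℕ) :
    Prop :=
  @Loc.GoodAt (Option (A × Bool)) _ (XS S) (actS A (XS S)) AccM (xS S) r

theorem smul_smul_xS (w v : FreeGroup A) : w • (v • xS S) = v • xS S ↔ v⁻¹ * w * v ∈ S := by
  rw [← smul_xS S, mul_smul, mul_smul, inv_smul_eq_iff]

theorem Good.toM {Acc : Set (FreeGroup A)} {AccM : Set (FreeGroup (Option (A × Bool)))}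
    (hAcc : ∀ w ∈ AccM, strip A w ∈ Acc) {r : ℕ} (h : Good Acc S r) : GoodM AccM S r := by
  intro w hw v hv
  change strip A w • (strip A v • xS S) = strip A v • xS S
  rw [smul_smul_xS]
  refine h _ (hAcc w hw) _ ?_
  have h1 := norm_strip_le w
  have h2 := norm_strip_le v
  omega

/-- agreement of types of the base points, machine alphabet -/
def AgrM (S S' : Subgroup (FreeGroup A)) (r : ℕ) : Prop :=
  ∀ w : FreeGroup (Option (A × Bool)), w.norm ≤ r →
    (strip A w • xS S = xS S ↔ strip A w • xS S' = xS S')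

theorem Agr.toM {S S' : Subgroup (FreeGroup A)} {r : ℕ} (h : Agr S S' r) : AgrM S S' r := by
  intro w hw
  rw [smul_xS, smul_xS]
  exact h _ ((norm_strip_le w).trans hw)

/-- small witnesses for types of points, machine alphabet -/
def TLM (S : Subgroup (FreeGroup A)) (n ρ b : ℕ) : Prop :=
  ∀ v : FreeGroup (Option (A × Bool)), v.norm ≤ ρ →
    ∃ v' : FreeGroup (Option (A × Bool)), v'.norm ≤ b ∧
      ∀ u : FreeGroup (Option (A × Bool)), u.norm ≤ n →
        (strip A u • (strip A v • xS S) = strip A v • xS S ↔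
          strip A u • (strip A v' • xS S) = strip A v' • xS S)

theorem TL1.toM {S : Subgroup (FreeGroup A)} {n ρ b : ℕ} (h : TL1 S n ρ b) : TLM S n ρ b := by
  intro v hv
  obtain ⟨v', h1, h2⟩ := h (strip A v) ((norm_strip_le v).trans hv)
  refine ⟨posl A v', (norm_posl_le v').trans h1, fun u hu => ?_⟩
  rw [strip_posl, smul_smul_xS, smul_smul_xS]
  exact h2 _ ((norm_strip_le u).trans hu)

end strip

theorem TLM.mono {A : Type} [DecidableEq A] {S : Subgroup (FreeGroup A)} {n ρ b n' ρ' b' : ℕ}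
    (h : TLM S n ρ b) (hn : n' ≤ n) (hρ : ρ' ≤ ρ) (hb : b ≤ b') : TLM S n' ρ' b' := by
  intro v hv
  obtain ⟨v', h1, h2⟩ := h v (hv.trans hρ)
  exact ⟨v', h1.trans hb, fun u hu => h2 u (hu.trans hn)⟩

theorem GoodM.mono {A : Type} [DecidableEq A] {S : Subgroup (FreeGroup A)}
    {AccM : Set (FreeGroup (Option (A × Bool)))} {r r' : ℕ} (h : GoodM AccM S r) (hr : r' ≤ r) :
    GoodM AccM S r' := fun w hw v hv => h w hw v (hv.trans hr)

theorem AgrM.mono {A : Type} [DecidableEq A] {S S' : Subgroup (FreeGroup A)}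
    {r r' : ℕ} (h : AgrM S S' r) (hr : r' ≤ r) :
    AgrM S S' r' := fun w hw => h w (hw.trans hr)

theorem T5.trivial {A Y : Type} {pa : A → Equiv.Perm Y} {y₀ : Y} {n ρ b : ℕ} (h : ρ ≤ b) :
    T5 pa y₀ n ρ b := fun w hw =>
  ⟨w, fun l => (hw l).mono h, fun _ _ _ _ => Iff.rfl⟩

/-! ### (H1) and (H2) -/

section glue

variable {G B U : Type} [Group G] [DecidableEq U]
variable {Y : ℕ → Subgroup (FreeGroup GdL) → Type}
variable (AccM : ℕ → Set (FreeGroup (Option (GdL × Bool))))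
variable (y₀ : ∀ e S, Y e S) (pa : ∀ e S, U → Equiv.Perm (Y e S))

/-- input (A'): the stabiliser of the base point of `Y` is determined locally -/
def LocA (C : ℕ) : Prop :=
  ∀ e S S' r, 1 ≤ r → GoodM (AccM e) S (C * r) → GoodM (AccM e) S' (C * r) →
    AgrM S S' (C * r) → ∀ u : FreeGroup U, u.norm ≤ r →
      (FreeGroup.lift (pa e S) u (y₀ e S) = y₀ e S ↔
        FreeGroup.lift (pa e S') u (y₀ e S') = y₀ e S')

/-- input (T5'): small witnesses for types of 5-tuples -/
def LocB (C : ℕ) (β : ℕ → ℕ → ℕ) : Prop :=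
  ∀ e S n ρ b, 1 ≤ n → β n b ≤ ρ → GoodM (AccM e) S (C * (n + ρ)) → TLM S (C * n) (C * ρ) b →
    T5 (pa e S) (y₀ e S) n ρ (β n b)

variable {AccM y₀ pa} {Acc : ℕ → Set (FreeGroup GdL)}
variable {M J C : ℕ} {lt : ℤ → Option (KLet U B)} {ix : KLet U B → ℤ} {e₀ : B → G}

/-- **(H1)** -/
theorem H1 (hAcc : ∀ e, ∀ w ∈ AccM e, strip GdL w ∈ Acc e) (hC : 1 ≤ C) (hM : 4 * C + 1 ≤ M)
    (hA : LocA AccM y₀ pa C) (e : ℕ) (S S' : Subgroup (FreeGroup GdL)) (r : ℕ)
    (hS : Good (Acc e) S r) (hS' : Good (Acc e) S' r) (hSS : Agr S S' r) :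
    Agr (gzS M lt e₀ (y₀ e S) (pa e S)) (gzS M lt e₀ (y₀ e S') (pa e S')) (2 * r + 1) := by
  intro w hw
  have hN : 2 * C * (r / (2 * C)) ≤ r := Nat.mul_div_le r (2 * C)
  have hN' : r < 2 * C * (r / (2 * C) + 1) := Nat.lt_mul_div_succ r (by omega)
  generalize r / (2 * C) = N at hN hN'
  refine gz_agree (N := N) (fun u hu => ?_) ?_
  · rcases Nat.eq_zero_or_pos N with h0 | h0
    · have : u = 1 := by
        rw [← FreeGroup.norm_eq_zero]; omega
      subst this
      simp
    · have h1 : C * (2 * N) ≤ r := by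
        calc C * (2 * N) = 2 * C * N := by ring
          _ ≤ r := hN
      exact hA e S S' (2 * N) (by omega) ((Good.toM S (hAcc e) hS).mono h1)
        ((Good.toM S' (hAcc e) hS').mono h1) ((Agr.toM hSS).mono h1) u hu
  · have h2 : (4 * C + 1) * (2 * N + 1) ≤ M * (2 * N + 1) := Nat.mul_le_mul_right _ hM
    have h3 : (4 * C + 1) * (2 * N + 1) = 8 * (C * N) + 4 * C + 2 * N + 1 := by ring
    have h4 : 2 * C * (N + 1) = 2 * (C * N) + 2 * C := by ring
    omega

/-- the bound of (H2) -/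
def beta2 (M J : ℕ) (β : ℕ → ℕ → ℕ) (n b : ℕ) : ℕ := gzbd M J (β (2 * (n / M)) b) n

/-- **(H2)** -/
theorem H2 (hAcc : ∀ e, ∀ w ∈ AccM e, strip GdL w ∈ Acc e) (hC : 1 ≤ C) (hM : 4 * C + 1 ≤ M)
    {ht : G → ℤ} {t : B} (hh : Height e₀ ht t) (hL : Lbl J lt ix) {β : ℕ → ℕ → ℕ}
    (hB : LocB AccM y₀ pa C β) (e : ℕ) (S : Subgroup (FreeGroup GdL)) (n ρ b : ℕ)
    (_hn : 1 ≤ n) (hS : Good (Acc e) S ((n + 2 * ρ) / 2)) (hT : TL1 S (n / 2) (ρ / 2) b) :
    TL1 (gzS M lt e₀ (y₀ e S) (pa e S)) n ρ (beta2 M J β n b) := by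
  refine gz_tl1 hh hL (by omega) (fun h0 => ?_)
  have h1 : M * (n / M) ≤ n := Nat.mul_div_le n M
  have h2 : M * (ρ / M) ≤ ρ := Nat.mul_div_le ρ M
  generalize n / M = n' at *
  generalize ρ / M = ρ' at *
  have h3 : (4 * C + 1) * n' ≤ M * n' := Nat.mul_le_mul_right _ hM
  have h4 : (4 * C + 1) * ρ' ≤ M * ρ' := Nat.mul_le_mul_right _ hM
  have h5 : (4 * C + 1) * n' = 4 * (C * n') + n' := by ring
  have h6 : (4 * C + 1) * ρ' = 4 * (C * ρ') + ρ' := by ring
  have h7 : C * (2 * n') = 2 * (C * n') := by ring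
  have h8 : C * (2 * n' + ρ') = 2 * (C * n') + C * ρ' := by ring
  rcases Nat.lt_or_ge ρ' (β (2 * n') b) with h9 | h9
  · exact T5.trivial h9.le
  · refine hB e S (2 * n') ρ' b (by omega) h9 ((Good.toM S (hAcc e) hS).mono ?_)
      ((TL1.toM hT).mono ?_ ?_ le_rfl)
    · rw [h8]; omega
    · rw [h7]; omega
    · omega

/-! ### computability of the bound -/

theorem gzbd_eq (M J b n : ℕ) : gzbd M J b n =
    (4 * b + (2 * (n / M) + 1) + 3 + (2 * (n / M) + 1)) * (4 * (M * (J + 1)) + 6) + (n + 1) +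
      2 * M + (n + 2) + (M * J + n + 1 + M) := by
  unfold gzbd zbd
  simp only [regF]
  ring

theorem primrec_gzbd (M J : ℕ) : Primrec₂ (gzbd M J) := by
  have hb : Primrec fun x : ℕ × ℕ => x.1 := Primrec.fst
  have hn : Primrec fun x : ℕ × ℕ => x.2 := Primrec.snd
  have hc : ∀ k : ℕ, Primrec fun _ : ℕ × ℕ => k := fun k => Primrec.const k
  have hd : Primrec fun x : ℕ × ℕ => x.2 / M := Primrec.nat_div.comp hn (hc M)
  have hd2 : Primrec fun x : ℕ × ℕ => 2 * (x.2 / M) + 1 :=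
    Primrec.nat_add.comp (Primrec.nat_mul.comp (hc 2) hd) (hc 1)
  have h1 : Primrec fun x : ℕ × ℕ =>
      (4 * x.1 + (2 * (x.2 / M) + 1) + 3 + (2 * (x.2 / M) + 1)) :=
    Primrec.nat_add.comp (Primrec.nat_add.comp (Primrec.nat_add.comp
      (Primrec.nat_mul.comp (hc 4) hb) hd2) (hc 3)) hd2
  have h2 : Primrec fun x : ℕ × ℕ =>
      (4 * x.1 + (2 * (x.2 / M) + 1) + 3 + (2 * (x.2 / M) + 1)) * (4 * (M * (J + 1)) + 6) :=
    Primrec.nat_mul.comp h1 (hc _)
  have h3 : Primrec fun x : ℕ × ℕ =>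
      (4 * x.1 + (2 * (x.2 / M) + 1) + 3 + (2 * (x.2 / M) + 1)) * (4 * (M * (J + 1)) + 6) +
        (x.2 + 1) + 2 * M + (x.2 + 2) + (M * J + x.2 + 1 + M) :=
    Primrec.nat_add.comp (Primrec.nat_add.comp (Primrec.nat_add.comp (Primrec.nat_add.comp h2
      (Primrec.nat_add.comp hn (hc 1))) (hc (2 * M))) (Primrec.nat_add.comp hn (hc 2)))
      (Primrec.nat_add.comp (Primrec.nat_add.comp (Primrec.nat_add.comp (hc (M * J)) hn) (hc 1))
        (hc M))
  exact h3.of_eq (fun x => (gzbd_eq M J x.1 x.2).symm)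

theorem beta2_computable (M J : ℕ) {β : ℕ → ℕ → ℕ} (hβ : Computable₂ β) :
    Computable₂ (beta2 M J β) := by
  have hd : Computable fun x : ℕ × ℕ => 2 * (x.1 / M) :=
    (Primrec.nat_mul.comp (Primrec.const 2)
      (Primrec.nat_div.comp Primrec.fst (Primrec.const M))).to_comp
  have h1 : Computable fun x : ℕ × ℕ => β (2 * (x.1 / M)) x.2 := hβ.comp hd Computable.snd
  exact (primrec_gzbd M J).to_comp.comp h1 Computable.fst

end glue

end Crest.Agent.R185.Glu
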