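import Crest.Agent.R185.Tab3
import Crest.Agent.R185.Loc2

/-!
# R185, block LIN (TAB), part 4: the hypothesis `LinH` of block LOC (helper424)
-/

set_option autoImplicit false
set_option linter.unusedSectionVars false

namespace Crest.Agent.R185.Tab

open Classical Equiv Crest.Agent.R185.Wit Crest.Agent.R185.Md191A Crest.Agent.R185.Md191B
  Crest.Agent.R185.Md191C

variable {R A : Type} [DecidableEq R] [DecidableEq A] (W : WS R A)

theorem LTab.toLoc {N : ℕ} {w : FreeGroup A} {τ : FreeGroup A → ℤ}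
    {v : FreeGroup A → ℤ → FreeGroup A} (h : LTab N w τ v) : Loc.Tab N w τ v where
  w_le := h.hw
  τ_le g := by have := h.hτ g; rw [Int.abs_eq_natAbs] at this; exact_mod_cast this
  τ_far := h.far
  v_le := h.hv
  v_far g g' m m' hg hm := h.congr hg hm

theorem dval_eq (w : FreeGroup (DL W)) : FreeGroup.lift (dlv W) w = dval W w := rfl

/-- **`LinH`** for `χ̂` in the gauge `κ` -/
theorem linH (hW : Archive W) :
    Loc.LinH (dlv W) (SG (Ls W) (eps W)) (fun X _ => chiS X (witOK W) (kap_spec W)) (AccG W) 9 := by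
  rintro n ⟨e, he⟩ ⟨u, hu, rfl⟩
  obtain ⟨w, τ, v, h1, h2⟩ := lin W hW u he
  refine ⟨w, τ, v, (h1.mono (by omega)).toLoc, fun X _ x g m hx => ?_⟩
  exact h2 X x g m (fun w hw v hv => hx w hw v (hv.trans (by omega)))

/-- any gauge which is `1` on accepted words and the identity elsewhere -/
theorem kap_eq {κ : FreeGroup A → FreeGroup A} (h1 : ∀ w ∈ AccG W, κ w = 1)
    (h2 : ∀ w, w ∉ AccG W → κ w = w) : κ = kap W := by
  funext y
  by_cases h : y ∈ AccG W
  · rw [h1 y h, kap_acc W h]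
  · rw [h2 y h, kap_not W h]

/-- `LinH` for arbitrary proofs, any gauge and any family of letters `dl'` which are letters `dlv` -/
theorem linH' (hW : Archive W) {κ : FreeGroup A → FreeGroup A} (hOK : WitOK (Ls W) (eps W) (AccG W))
    (h1 : ∀ w ∈ AccG W, κ w = 1) (h2 : ∀ w, w ∉ AccG W → κ w = w)
    {J : Type} (dl' : J → DG (Ls W)) (f : J → DL W) (hf : ∀ j, dl' j = dlv W (f j)) :
    Loc.LinH dl' (SG (Ls W) (eps W)) (fun X _ => chiS X hOK h1) (AccG W) 9 := by
  obtain rfl := kap_eq W h1 h2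
  rintro n ⟨e, he⟩ ⟨u, hu, rfl⟩
  refine linH W hW n ⟨_, he⟩ ⟨u.map (fun x => (f x.1, x.2)), by simpa using hu, ?_⟩
  have h3 : FreeGroup.lift dl' = (FreeGroup.lift (dlv W)).comp (FreeGroup.map f) := by
    ext1 j
    simp [hf]
  have h4 := DFunLike.congr_fun h3 (FreeGroup.mk u)
  change FreeGroup.lift (dlv W) (FreeGroup.mk (u.map (fun x => (f x.1, x.2)))) =
    FreeGroup.lift dl' (FreeGroup.mk u)
  rw [h4]
  rfl

end Crest.Agent.R185.Tab
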