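import Crest.Agent.R185.Loc6
import Crest.Agent.R185.Tab4
import Crest.Agent.R185.Glu424
import Crest.Agent.R185.Asm6

/-!
# R185 / LOC (7): `LocA`, `LocB` for the machine, and `HubOK`
-/

set_option autoImplicit false
set_option linter.unusedSectionVars false

namespace Crest.Agent.R185.Loc

open Crest.Agent.R185.Md191C Crest.Agent.R185.Md191D Crest.Agent.R185.Smp
  Crest.Agent.R185.Asm Crest.Agent.R185.Glu Crest.Agent.R185.Tab
open Crest.Agent.R185.Clk (UM PConn)
open Crest.Agent.R185.Wit (HL hlv Hg mx my ht Ls eps st Ch)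

section machine

variable {A : Type} [Primcodable A] [DecidableEq A] (U : UM (A × Bool)) (e : ℕ)

/-- the table property for the machine -/
theorem linU : LinH (dlO (L := Ls (U.ws e)) (FreeGroup.lift (hlA U e)))
    (SG (Ls (U.ws e)) (eps (U.ws e))) (chiY (Tab.witOK (U.ws e)) (kap_spec (U.ws e)))
    (AccG (U.ws e)) 9 := by
  refine linH' (U.ws e) (U.archive' e) (Tab.witOK (U.ws e)) (kap_spec (U.ws e))
    (fun w hw => kap_not (U.ws e) hw) _ (Option.map (eqU U e)) ?_
  rintro (_ | l)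
  · rfl
  · change hD (Ls (U.ws e)) (FreeGroup.lift (hlA U e) (FreeGroup.of l)) =
      hD (Ls (U.ws e)) (hlv (eqU U e l))
    rw [FreeGroup.lift_apply_of, hlv_eqU]

end machine

/-! ### `LocA`, `LocB` -/

theorem lift_eq_ev {L Y : Type} [DecidableEq L] (p : L → Equiv.Perm Y) (u : FreeGroup L) (y : Y) :
    FreeGroup.lift p u y = Smp.ev (sg p) u.toWord y := by
  rw [ev_sg, FreeGroup.mk_toWord]

variable (U : UM (GdL × Bool))

open Classical in
/-- the constant of `LocA`, `LocB` -/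
theorem locA : LocA (fun e => AccG (U.ws e)) (fun e S => yU U e S) (fun e S => pU U e S)
    (2 * cst 9) := by
  intro e S S' r hr hS hS' hA u hu
  rw [lift_eq_ev, lift_eq_ev]
  refine @yy_base (Option (GdL × Bool)) _ (HU U) _ _ _ (AccG (U.ws e)) _ (Tab.witOK (U.ws e))
    (kap_spec (U.ws e)) (FreeGroup.lift (hlA U e)) _ 9 (linU U e) (XS S) (XS S')
    (actS GdL (XS S)) (actS GdL (XS S')) r (xS S) (xS S') ?_ ?_ ?_ 0 0 u.toWord hu
  · exact GoodM.mono hS (by nlinarith)
  · exact GoodM.mono hS' (by nlinarith)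
  · intro v hv
    exact hA v (by nlinarith)

theorem t5b_eq (b n : ℕ) : t5b 9 b n = 4 * b + 24124 * n + 32 := by
  unfold t5b bud; ring

open Classical in
theorem locB : LocB (fun e => AccG (U.ws e)) (fun e S => yU U e S) (fun e S => pU U e S)
    (2 * cst 9) (fun n b => t5b 9 b n) := by
  intro e S n ρ b hn hρ hS hT
  have hρ' : t5b 9 b n ≤ ρ := hρ
  rw [t5b_eq] at hρ'
  refine @yy_t5 (Option (GdL × Bool)) _ (HU U) _ _ _ (AccG (U.ws e)) _ (Tab.witOK (U.ws e))
    (kap_spec (U.ws e)) (FreeGroup.lift (hlA U e)) _ 9 (linU U e) (XS S)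
    (actS GdL (XS S)) n ρ b (xS S) ?_ ?_
  · refine TLM.mono hT ?_ ?_ le_rfl
    · rw [mul_assoc, two_mul]; exact Nat.le_add_left _ _
    · calc cst 9 * (n + ρ) ≤ cst 9 * (2 * ρ) := Nat.mul_le_mul_left _ (by omega)
        _ = 2 * cst 9 * ρ := by ring
  · refine GoodM.mono hS ?_
    have h1 : n + ρ + b + 1 ≤ 2 * (n + ρ) := by omega
    calc cst 9 * (n + ρ + b + 1) ≤ cst 9 * (2 * (n + ρ)) := Nat.mul_le_mul_left _ h1
      _ = 2 * cst 9 * (n + ρ) := by ring

theorem t5b_computable : Computable₂ (fun n b => t5b 9 b n) := by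
  have h : Primrec fun x : ℕ × ℕ => 4 * x.2 + 24124 * x.1 + 32 :=
    Primrec.nat_add.comp (Primrec.nat_add.comp
      (Primrec.nat_mul.comp (Primrec.const 4) Primrec.snd)
      (Primrec.nat_mul.comp (Primrec.const 24124) Primrec.fst)) (Primrec.const 32)
  exact (h.of_eq (fun x => (t5b_eq x.2 x.1).symm)).to_comp

/-- **H1 and H2 of the hub** -/
theorem hubOK : HubOK := by
  classical
  intro U G B _ _ eG ht t hh
  have hC : 1 ≤ 2 * cst 9 := by unfold cst; norm_num
  have hAcc : ∀ e, ∀ w ∈ AccG (U.ws e), strip GdL w ∈ AccU U e :=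
    fun e w hw => (mem_AccU U e).2 ⟨w, hw, rfl⟩
  refine ⟨4 * (2 * cst 9) + 1, by omega, beta2 (4 * (2 * cst 9) + 1) (JU U B) (fun n b => t5b 9 b n),
    beta2_computable _ _ t5b_computable, ?_, ?_⟩
  · intro e S S' r hS hS' hA
    exact Glu.H1 (AccM := fun e => AccG (U.ws e)) (y₀ := fun e S => yU U e S)
      (pa := fun e S => pU U e S) hAcc hC le_rfl (locA U) e S S' r hS hS' hA
  · intro e S n ρ b hn hS hT
    exact Glu.H2 (AccM := fun e => AccG (U.ws e)) (y₀ := fun e S => yU U e S)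
      (pa := fun e S => pU U e S) hAcc hC le_rfl hh (lblU U (B := B)) (locB U) e S n ρ b hn hS hT

end Crest.Agent.R185.Loc
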