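import Crest.Agent.R185.Ev8

/-!
# R185, block H3 (9): membership in the stabiliser `gzS` is r.e. and co-r.e. in the oracle
-/

set_option autoImplicit false
set_option linter.unusedSectionVars false
set_option linter.unusedVariables false

namespace Crest.Agent.R185.Ev

open Crest.Agent.R292 Crest.Agent.R185.Re Crest.Agent.R185.Wu Crest.Agent.R185.Hot
  Crest.Agent.R185.Smp

instance finite_GdL : Finite GdL := by
  have : Function.Surjective (fun i : Fin 3 => (![GdL.x, GdL.y, GdL.t] i)) := by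
    intro a
    cases a with
    | x => exact ⟨0, rfl⟩
    | y => exact ⟨1, rfl⟩
    | t => exact ⟨2, rfl⟩
  exact Finite.of_surjective _ this

section stage

variable {σ W ε : Type} [Primcodable W] [Primcodable ε] {orc : σ → W → Prop}
variable {Y : ε → σ → Type} {R : Type} [Primcodable R] {dec : ∀ e s, R → Y e s}
variable {G A B : Type} [Group G] [Primcodable B] {gB : B → G}
variable {y₀ : ∀ e s, Y e s} {r₀ : ε → R} {pa : ∀ e s, A → Equiv.Perm (Y e s)}

/-- **H3, guard + ZZ layer** -/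
theorem ore_gzS [Primcodable GdL] (M : ℕ) (L : List (KLet A B))
    (hwp : ComputablePred fun w : List (B × Bool) => FreeGroup.lift gB (FreeGroup.mk w) = 1)
    (h : Lay orc dec) (hr : Computable r₀) (hy : ∀ e s, dec e s (r₀ e) = y₀ e s)
    (hpa : ∀ a, RP orc dec (fun e s => pa e s a)) :
    ORE orc (fun s (x : ε × List (GdL × Bool)) =>
      FreeGroup.mk x.2 ∈ gzS M (ltL L) gB (y₀ x.1 s) (pa x.1 s)) := by
  have hG : Lay orc (ε := ε) (Y := fun _ _ => G) (fun _ _ => decG gB) := Lay.grp hwp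
  have hk := fun c => rp_kact (A := A) h hG hr hy hpa c
  have hg := fun a => rp_gperm M L (p := fun e s => kact gB (y₀ e s) (pa e s)) hk a
  exact ore_fix (p := fun e s => gzP M (ltL L) gB (y₀ e s) (pa e s))
    (r₀ := fun _ : ε => ((((0, 0), (0, 0), (0, 0)), Sum.inr (Sum.inl 0)) : RGd (RZ R B)))
    (y₀ := fun e s => gz0 G (Y e s)) (h.zz hG).guard hg (ccst _) (fun e s => rfl)

theorem ore_ngzS [Primcodable GdL] (M : ℕ) (L : List (KLet A B))
    (hwp : ComputablePred fun w : List (B × Bool) => FreeGroup.lift gB (FreeGroup.mk w) = 1)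
    (h : Lay orc dec) (hr : Computable r₀) (hy : ∀ e s, dec e s (r₀ e) = y₀ e s)
    (hpa : ∀ a, RP orc dec (fun e s => pa e s a)) :
    ORE orc (fun s (x : ε × List (GdL × Bool)) =>
      ¬ FreeGroup.mk x.2 ∈ gzS M (ltL L) gB (y₀ x.1 s) (pa x.1 s)) := by
  have hG : Lay orc (ε := ε) (Y := fun _ _ => G) (fun _ _ => decG gB) := Lay.grp hwp
  have hk := fun c => rp_kact (A := A) h hG hr hy hpa c
  have hg := fun a => rp_gperm M L (p := fun e s => kact gB (y₀ e s) (pa e s)) hk a
  exact ore_nfix (p := fun e s => gzP M (ltL L) gB (y₀ e s) (pa e s))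
    (r₀ := fun _ : ε => ((((0, 0), (0, 0), (0, 0)), Sum.inr (Sum.inl 0)) : RGd (RZ R B)))
    (y₀ := fun e s => gz0 G (Y e s)) (h.zz hG).guard hg (ccst _) (fun e s => rfl)

end stage

section final

variable {ε : Type} [Primcodable ε]
variable {Y : ε → Subgroup (FreeGroup GdL) → Type} {R : Type} [Primcodable R]
  {dec : ∀ e s, R → Y e s}
variable {G A B : Type} [Group G] [Primcodable B] {gB : B → G}
variable {y₀ : ∀ e s, Y e s} {r₀ : ε → R} {pa : ∀ e s, A → Equiv.Perm (Y e s)}

/-- the oracle: membership in the subgroup -/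
def orcS [Primcodable GdL] (s : Subgroup (FreeGroup GdL)) (w : List (GdL × Bool)) : Prop :=
  FreeGroup.mk w ∈ s

/-- **H3**: all levels of `Φ e S := Stab (guard base point over ZZ G (Y e S))` are computable -/
theorem levels_gzS [Primcodable GdL] (M : ℕ) (L : List (KLet A B))
    (hwp : ComputablePred fun w : List (B × Bool) => FreeGroup.lift gB (FreeGroup.mk w) = 1)
    (h : Lay orcS dec) (hr : Computable r₀) (hy : ∀ e s, dec e s (r₀ e) = y₀ e s)
    (hpa : ∀ a, RP orcS dec (fun e s => pa e s a))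
    {Φ : ε → Subgroup (FreeGroup GdL) → Subgroup (FreeGroup GdL)}
    (hΦ : ∀ e s, Φ e s = gzS M (ltL L) gB (y₀ e s) (pa e s)) :
    ComputablePred fun x : ε × ℕ × List (GdL × Bool) =>
      FreeGroup.mk x.2.2 ∈ (Φ x.1)^[x.2.1] (⊤ : Subgroup (FreeGroup GdL)) := by
  apply computable_levels (Φ := Φ)
  · exact (ore_gzS (orc := orcS) M L hwp h hr hy hpa).congr fun s x => by rw [hΦ]
  · exact (ore_ngzS (orc := orcS) M L hwp h hr hy hpa).congr fun s x => by rw [hΦ]

theorem lev_eq {A : Type} {Φ : ε → Subgroup (FreeGroup A) → Subgroup (FreeGroup A)} (e : ε)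
    (i : ℕ) : Hub.lev Φ e i = (Φ e)^[i] (⊤ : Subgroup (FreeGroup A)) := by
  induction i with
  | zero => rfl
  | succ i ih =>
    rw [Function.iterate_succ_apply', ← ih]
    rfl

/-- **H3 in the format of `Hub.hub_machine`** -/
theorem H3_gzS [Primcodable GdL] (M : ℕ) (L : List (KLet A B))
    (hwp : ComputablePred fun w : List (B × Bool) => FreeGroup.lift gB (FreeGroup.mk w) = 1)
    (h : Lay orcS dec) (hr : Computable r₀) (hy : ∀ e s, dec e s (r₀ e) = y₀ e s)
    (hpa : ∀ a, RP orcS dec (fun e s => pa e s a))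
    {Φ : ε → Subgroup (FreeGroup GdL) → Subgroup (FreeGroup GdL)}
    (hΦ : ∀ e s, Φ e s = gzS M (ltL L) gB (y₀ e s) (pa e s)) :
    ComputablePred fun x : ε × ℕ × List (GdL × Bool) =>
      FreeGroup.mk x.2.2 ∈ Hub.lev Φ x.1 x.2.1 := by
  have h1 := levels_gzS M L hwp h hr hy hpa hΦ
  have h2 : (fun x : ε × ℕ × List (GdL × Bool) => FreeGroup.mk x.2.2 ∈ Hub.lev Φ x.1 x.2.1) =
      fun x : ε × ℕ × List (GdL × Bool) =>
      FreeGroup.mk x.2.2 ∈ (Φ x.1)^[x.2.1] (⊤ : Subgroup (FreeGroup GdL)) := by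
    funext x
    rw [lev_eq]
  rw [h2]
  exact h1

end final

end Crest.Agent.R185.Ev
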