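import Crest.Agent.R185.She5
import Crest.Agent.R185.Ev9
import Crest.Agent.R185.Asm6

/-!
# R185, block H3 (6): `LevOK` from the computability of the witness
-/

set_option autoImplicit false
set_option linter.unusedSectionVars false
set_option linter.style.haveILetI false

namespace Crest.Agent.R185.She

open Equiv Crest.Agent.R292 Crest.Agent.R185.Re Crest.Agent.R185.Ev
  Crest.Agent.R185.Md191C Crest.Agent.R185.Md191D Crest.Agent.R185.Md191E
  Crest.Agent.R185.Asm Crest.Agent.R185.Smp
open Crest.Agent.R185.Clk (UM)
open Crest.Agent.R185.Wit (Hg Ls eps)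
open Crest.Agent.R185.Tab (AccG kap kap_spec)

section family

variable {A : Type} [Primcodable A] [DecidableEq A]

/-- the family of witnesses -/
noncomputable def TU (U : UM (A × Bool)) (e : ℕ) : Wt (Option (A × Bool)) (HU U) where
  H := Hg (U.ws e)
  grp := inferInstance
  L := Ls (U.ws e)
  ε := eps (U.ws e)
  Acc := AccG (U.ws e)
  ok := Tab.witOK (U.ws e)
  κ := kap (U.ws e)
  hκ := kap_spec (U.ws e)
  gen := FreeGroup.lift (hlA U e)

end family

/-- **H3 from the computability of the witness** -/
theorem levOK_of (h : ∀ U : UM (GdL × Bool), WtC (TU U)) : Asm.LevOK := by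
  intro U G B _ _ _ eG hwp M
  have hT := h U
  have hlay := lay_YS (T := TU U) hT
  refine Ev.H3_gzS (ε := ℕ) (Y := fun e S => YU U e S) (dec := decYS (TU U))
    (y₀ := fun e S => yU U e S) (pa := fun e S => pU U e S) (r₀ := fun _ => rY0 [])
    (Φ := Phi U eG M) M (allL (KLet (UU U) B)) hwp ?_ (Computable.const _) ?_ ?_ ?_
  · exact hlay
  · intro e S
    exact decYS_r0 (T := TU U) e S
  · intro a
    exact rpm_YS (T := TU U) hT a
  · intro e S
    rfl

end Crest.Agent.R185.She
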