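import Crest.Agent.R185.Asm6
import Crest.Agent.R185.Loc7
import Crest.Agent.R185.She6
import Crest.Agent.R185.AsmW

/-!
# R185 / ASSEMBLY (7): the embedding theorem
-/

set_option autoImplicit false

namespace Crest.Agent.R185.Asm

/-- **Every finitely generated group with solvable word problem embeds in a finitely presented simple
group of type `F∞`.** -/
theorem embedding (G : Type*) [Group G] (k : ℕ) (s : Fin k → G)
    (hgen : Subgroup.closure (Set.range s) = ⊤)
    (hdec : ComputablePred fun w : List (Fin k × Bool) =>
      FreeGroup.lift s (FreeGroup.mk w) = 1) :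
    ∃ (S : Type) (_ : Group S) (f : G →* S),
      Group.IsFinitelyPresented S ∧ IsSimpleGroup S ∧
      Crest.Topology.HasFiniteTypeClassifyingComplex S ∧ Function.Injective f :=
  emb_final Loc.hubOK (She.levOK_of wtC') G k s hgen hdec

end Crest.Agent.R185.Asm
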