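import Mathlib
import Crest.Agent.R197.E3CoverAbs

/-!
# Row 185, block T1: equivariant attachment of cells

`GAtt φ`: attach the free cells `G × C × closedBall^m` to the `G`-space `Z` along
`φ : C → C(S m, Z)` (extended equivariantly).  Balls are in `Fin m → ℝ` with the sup norm, so they are
cubes `[-1,1]^m`; `S m` is the boundary of the cube (empty for `m = 0`).
-/

set_option autoImplicit false
set_option linter.unusedSectionVars false

open Set Metric Topology
open Crest.Agent.R197 (OrbSep)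

namespace Crest.Agent.R185.Att

/-- closed unit ball (cube) -/
abbrev D (m : ℕ) : Type := ↥(closedBall (0 : Fin m → ℝ) 1)
/-- its boundary -/
abbrev S (m : ℕ) : Type := ↥(sphere (0 : Fin m → ℝ) 1)
/-- its interior -/
abbrev B (m : ℕ) : Type := ↥(ball (0 : Fin m → ℝ) 1)

/-- `S m → D m` -/
def sd (m : ℕ) : C(S m, D m) := ⟨fun x => ⟨x.1, sphere_subset_closedBall x.2⟩, by fun_prop⟩
/-- `B m → D m` -/
def bd (m : ℕ) : C(B m, D m) := ⟨fun x => ⟨x.1, ball_subset_closedBall x.2⟩, by fun_prop⟩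

@[simp] theorem sd_coe {m : ℕ} (x : S m) : ((sd m x : D m) : Fin m → ℝ) = x := rfl
@[simp] theorem bd_coe {m : ℕ} (x : B m) : ((bd m x : D m) : Fin m → ℝ) = x := rfl

theorem D.norm_le {m : ℕ} (x : D m) : ‖(x : Fin m → ℝ)‖ ≤ 1 := mem_closedBall_zero_iff.1 x.2
theorem S.norm_eq {m : ℕ} (x : S m) : ‖(x : Fin m → ℝ)‖ = 1 := mem_sphere_zero_iff_norm.1 x.2
theorem B.norm_lt {m : ℕ} (x : B m) : ‖(x : Fin m → ℝ)‖ < 1 := mem_ball_zero_iff.1 x.2

instance (m : ℕ) : CompactSpace (D m) := isCompact_iff_compactSpace.1 (isCompact_closedBall 0 1)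
instance (m : ℕ) : CompactSpace (S m) := isCompact_iff_compactSpace.1 (isCompact_sphere 0 1)

instance (m : ℕ) : ContractibleSpace (D m) :=
  (convex_closedBall (0 : Fin m → ℝ) 1).contractibleSpace ⟨0, by simp⟩

section att

variable {G : Type} [Group G] {Z : Type} [TopologicalSpace Z] [MulAction G Z]
  {m : ℕ} {C : Type}

/-- The space obtained by attaching the free `G`-cells `G × C × D m` along `φ`. -/
def GAtt (G : Type) {Z : Type} [TopologicalSpace Z] {m : ℕ} {C : Type} (_φ : C → C(S m, Z)) : Type :=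
  Z ⊕ (G × C × B m)

variable (φ : C → C(S m, Z))

/-- the inclusion of the old space -/
def inZ (z : Z) : GAtt G φ := Sum.inl z

/-- a point of an open cell -/
def inB (g : G) (c : C) (x : B m) : GAtt G φ := Sum.inr (g, c, x)

/-- the characteristic map of the cell `(g, c)` -/
noncomputable def chr (g : G) (c : C) (x : D m) : GAtt G φ := by
  classical
  exact if h : ‖(x : Fin m → ℝ)‖ < 1 then inB φ g c ⟨x, mem_ball_zero_iff.2 h⟩
    else inZ φ (g • φ c ⟨x, mem_sphere_zero_iff_norm.2 (le_antisymm x.norm_le (not_lt.1 h))⟩)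

variable {φ}

@[elab_as_elim] theorem GAtt.cases' {motive : GAtt G φ → Prop} (hZ : ∀ z, motive (inZ φ z))
    (hB : ∀ g c x, motive (inB φ g c x)) (p : GAtt G φ) : motive p := by
  rcases p with z | ⟨g, c, x⟩
  · exact hZ z
  · exact hB g c x

@[simp] theorem inZ_inj {z w : Z} : (inZ φ z : GAtt G φ) = inZ φ w ↔ z = w :=
  ⟨fun h => Sum.inl.inj h, fun h => congrArg _ h⟩

theorem inZ_injective : Function.Injective (inZ φ : Z → GAtt G φ) := fun _ _ h => inZ_inj.1 h

@[simp] theorem inB_inj {g g' : G} {c c' : C} {x x' : B m} :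
    inB φ g c x = inB φ g' c' x' ↔ g = g' ∧ c = c' ∧ x = x' := by
  constructor
  · intro h
    have := Sum.inr.inj h
    simpa [Prod.ext_iff] using this
  · rintro ⟨rfl, rfl, rfl⟩; rfl

@[simp] theorem inZ_ne_inB {z : Z} {g : G} {c : C} {x : B m} : inZ φ z ≠ inB φ g c x := Sum.inl_ne_inr
@[simp] theorem inB_ne_inZ {z : Z} {g : G} {c : C} {x : B m} : inB φ g c x ≠ inZ φ z := Sum.inr_ne_inl

theorem chr_bd (g : G) (c : C) (x : B m) : chr φ g c (bd m x) = inB φ g c x := by
  unfold chr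
  rw [dif_pos (by simpa using x.norm_lt)]
  rfl

theorem chr_sd (g : G) (c : C) (x : S m) : chr φ g c (sd m x) = inZ φ (g • φ c x) := by
  unfold chr
  rw [dif_neg (by simp [x.norm_eq])]
  rfl

theorem D.cases' {motive : D m → Prop} (hB : ∀ x : B m, motive (bd m x))
    (hS : ∀ x : S m, motive (sd m x)) (x : D m) : motive x := by
  rcases lt_or_eq_of_le x.norm_le with h | h
  · exact hB ⟨x, mem_ball_zero_iff.2 h⟩
  · exact hS ⟨x, mem_sphere_zero_iff_norm.2 h⟩

theorem bd_ne_sd (x : B m) (y : S m) : bd m x ≠ sd m y := by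
  intro h
  have h1 := congrArg (fun z : D m => ‖(z : Fin m → ℝ)‖) h
  simp only [bd_coe, sd_coe, y.norm_eq] at h1
  exact absurd h1 (ne_of_lt x.norm_lt)

/-- the topology: coinduced from `Z` and the characteristic maps -/
instance : TopologicalSpace (GAtt G φ) where
  IsOpen U := IsOpen (inZ φ ⁻¹' U) ∧ ∀ g c, IsOpen (chr φ g c ⁻¹' U)
  isOpen_univ := ⟨isOpen_univ, fun _ _ => isOpen_univ⟩
  isOpen_inter U V hU hV := ⟨hU.1.inter hV.1, fun g c => (hU.2 g c).inter (hV.2 g c)⟩
  isOpen_sUnion s hs := by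
    constructor
    · rw [preimage_sUnion]
      exact isOpen_biUnion fun t ht => (hs t ht).1
    · intro g c
      rw [preimage_sUnion]
      exact isOpen_biUnion fun t ht => (hs t ht).2 g c

theorem isOpen_iff {U : Set (GAtt G φ)} :
    IsOpen U ↔ IsOpen (inZ φ ⁻¹' U) ∧ ∀ g c, IsOpen (chr φ g c ⁻¹' U) := Iff.rfl

theorem isClosed_iff {U : Set (GAtt G φ)} :
    IsClosed U ↔ IsClosed (inZ φ ⁻¹' U) ∧ ∀ g c, IsClosed (chr φ g c ⁻¹' U) := by
  simp only [← isOpen_compl_iff, isOpen_iff, preimage_compl]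

theorem continuous_inZ : Continuous (inZ φ : Z → GAtt G φ) :=
  continuous_def.2 fun _ hU => hU.1

theorem continuous_chr (g : G) (c : C) : Continuous (chr φ g c) :=
  continuous_def.2 fun _ hU => hU.2 g c

theorem continuous_iff {W : Type*} [TopologicalSpace W] {f : GAtt G φ → W} :
    Continuous f ↔ Continuous (f ∘ inZ φ) ∧ ∀ g c, Continuous (f ∘ chr φ g c) := by
  refine ⟨fun h => ⟨h.comp continuous_inZ, fun g c => h.comp (continuous_chr g c)⟩, fun h => ?_⟩
  rw [continuous_def]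
  intro U hU
  exact ⟨hU.preimage h.1, fun g c => hU.preimage (h.2 g c)⟩

/-- the total characteristic map is a quotient map -/
theorem isQuotientMap_tot : IsQuotientMap
    (Sum.elim (inZ φ) (fun p : (Σ _ : G × C, D m) => chr φ p.1.1 p.1.2 p.2) : _ → GAtt G φ) := by
  rw [isQuotientMap_iff, isCoinducing_iff]
  constructor
  · intro U
    rw [isOpen_sum_iff, isOpen_sigma_iff, isOpen_iff]
    constructor
    · rintro ⟨h1, h2⟩
      exact ⟨h1, fun g c => h2 (g, c)⟩
    · rintro ⟨h1, h2⟩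
      exact ⟨h1, fun p => h2 p.1 p.2⟩
  · intro p
    induction p using GAtt.cases' with
    | hZ z => exact ⟨Sum.inl z, rfl⟩
    | hB g c x => exact ⟨Sum.inr ⟨(g, c), bd m x⟩, chr_bd g c x⟩

theorem continuous_prod_iff {W K : Type*} [TopologicalSpace W] [TopologicalSpace K]
    [LocallyCompactSpace K] {f : GAtt G φ × K → W} :
    Continuous f ↔ Continuous (fun p : Z × K => f (inZ φ p.1, p.2)) ∧
      ∀ g c, Continuous (fun p : D m × K => f (chr φ g c p.1, p.2)) := by
  constructor
  · intro h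
    exact ⟨h.comp ((continuous_inZ.comp continuous_fst).prodMk continuous_snd),
      fun g c => h.comp (((continuous_chr g c).comp continuous_fst).prodMk continuous_snd)⟩
  · rintro ⟨h1, h2⟩
    refine (isQuotientMap_tot (φ := φ)).continuous_lift_prod_left ?_
    have e : (fun p : (Z ⊕ (Σ _ : G × C, D m)) × K =>
        f (Sum.elim (inZ φ) (fun p : (Σ _ : G × C, D m) => chr φ p.1.1 p.1.2 p.2) p.1, p.2)) =
      (Sum.elim (fun p : Z × K => f (inZ φ p.1, p.2))
        (fun p : (Σ _ : G × C, D m) × K => f (chr φ p.1.1.1 p.1.1.2 p.1.2, p.2))) ∘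
        (Homeomorph.sumProdDistrib (X := Z) (Y := (Σ _ : G × C, D m)) (Z := K)) := by
      funext ⟨p, k⟩
      rcases p with z | p <;> rfl
    rw [e]
    refine Continuous.comp ?_ (Homeomorph.continuous _)
    refine Continuous.sumElim h1 ?_
    have e2 : (fun p : (Σ _ : G × C, D m) × K => f (chr φ p.1.1.1 p.1.1.2 p.1.2, p.2)) =
      (fun q : (Σ _ : G × C, D m × K) => f (chr φ q.1.1 q.1.2 q.2.1, q.2.2)) ∘
        (Homeomorph.sigmaProdDistrib (X := fun _ : G × C => D m) (Y := K)) := by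
      funext ⟨p, k⟩
      rfl
    rw [e2]
    refine Continuous.comp ?_ (Homeomorph.continuous _)
    exact continuous_sigma fun p => h2 p.1 p.2

/-! ### closed embedding -/

theorem inZ_preimage_image (K : Set Z) : (inZ φ : Z → GAtt G φ) ⁻¹' (inZ φ '' K) = K :=
  preimage_image_eq _ inZ_injective

theorem isClosedEmbedding_inZ [ContinuousConstSMul G Z] :
    IsClosedEmbedding (inZ φ : Z → GAtt G φ) := by
  refine IsClosedEmbedding.of_continuous_injective_isClosedMap continuous_inZ inZ_injective ?_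
  intro K hK
  rw [isClosed_iff, inZ_preimage_image]
  refine ⟨hK, fun g c => ?_⟩
  have h1 : chr φ g c ⁻¹' (inZ φ '' K) = sd m '' ((fun s : S m => g • φ c s) ⁻¹' K) := by
    ext x
    constructor
    · rintro ⟨z, hz, hzx⟩
      induction x using D.cases' with
      | hB x => rw [chr_bd] at hzx; exact absurd hzx inZ_ne_inB
      | hS x =>
        rw [chr_sd, inZ_inj] at hzx
        exact ⟨x, by simpa [← hzx] using hz, rfl⟩
    · rintro ⟨s, hs, rfl⟩
      exact ⟨_, hs, (chr_sd g c s).symm⟩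
  rw [h1]
  have h2 : IsClosed ((fun s : S m => g • φ c s) ⁻¹' K) :=
    hK.preimage ((φ c).continuous.const_smul g)
  exact (h2.isCompact.image (sd m).continuous).isClosed

theorem isOpenMap_bd (m : ℕ) : IsOpenMap (bd m) := by
  intro V hV
  obtain ⟨W, hW, rfl⟩ := isOpen_induced_iff.1 hV
  refine isOpen_induced_iff.2 ⟨W ∩ ball 0 1, hW.inter isOpen_ball, ?_⟩
  ext x
  constructor
  · rintro ⟨h1, h2⟩
    exact ⟨⟨x.1, h2⟩, h1, rfl⟩
  · rintro ⟨y, hy, rfl⟩
    exact ⟨hy, y.2⟩

/-- a set inside one open cell is open iff it is open in the cell -/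
theorem isOpen_inB_image {g : G} {c : C} {V : Set (B m)} (hV : IsOpen V) :
    IsOpen (inB φ g c '' V) := by
  rw [isOpen_iff]
  constructor
  · convert isOpen_empty
    ext z
    simp only [mem_preimage, mem_image, mem_empty_iff_false, iff_false]
    rintro ⟨x, -, hx⟩
    exact inB_ne_inZ hx
  · intro g' c'
    by_cases hgc : g' = g ∧ c' = c
    · obtain ⟨rfl, rfl⟩ := hgc
      have : chr φ g' c' ⁻¹' (inB φ g' c' '' V) = bd m '' V := by
        ext x
        constructor
        · rintro ⟨y, hy, hyx⟩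
          induction x using D.cases' with
          | hB x =>
            rw [chr_bd, inB_inj] at hyx
            exact ⟨y, hy, by rw [hyx.2.2]⟩
          | hS x => rw [chr_sd] at hyx; exact absurd hyx inB_ne_inZ
        · rintro ⟨y, hy, rfl⟩
          exact ⟨y, hy, (chr_bd _ _ _).symm⟩
      rw [this]
      exact isOpenMap_bd m V hV
    · convert isOpen_empty
      ext x
      simp only [mem_preimage, mem_image, mem_empty_iff_false, iff_false]
      rintro ⟨y, hy, hyx⟩
      induction x using D.cases' with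
      | hB x =>
        rw [chr_bd, inB_inj] at hyx
        exact hgc ⟨hyx.1.symm, hyx.2.1.symm⟩
      | hS x => rw [chr_sd] at hyx; exact absurd hyx inB_ne_inZ

/-! ### the action -/

instance : MulAction G (GAtt G φ) where
  smul g := Sum.elim (fun z => inZ φ (g • z)) (fun p => inB φ (g * p.1) p.2.1 p.2.2)
  one_smul p := by
    rcases p with z | ⟨g, c, x⟩
    · exact congrArg (inZ φ) (one_smul G z)
    · exact congrArg (fun g => inB φ g c x) (one_mul g)
  mul_smul g h p := by
    rcases p with z | ⟨k, c, x⟩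
    · exact congrArg (inZ φ) (mul_smul g h z)
    · exact congrArg (fun g => inB φ g c x) (mul_assoc g h k)

@[simp] theorem smul_inZ (g : G) (z : Z) : g • (inZ φ z : GAtt G φ) = inZ φ (g • z) := rfl
@[simp] theorem smul_inB (g h : G) (c : C) (x : B m) : g • inB φ h c x = inB φ (g * h) c x := rfl

theorem smul_chr (g h : G) (c : C) (x : D m) : g • chr φ h c x = chr φ (g * h) c x := by
  induction x using D.cases' with
  | hB x => rw [chr_bd, chr_bd, smul_inB]
  | hS x => rw [chr_sd, chr_sd, smul_inZ, mul_smul]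

instance [ContinuousConstSMul G Z] : ContinuousConstSMul G (GAtt G φ) where
  continuous_const_smul g := by
    rw [continuous_iff]
    constructor
    · exact continuous_inZ.comp (continuous_const_smul g)
    · intro h c
      have : ((fun x : GAtt G φ => g • x) ∘ chr φ h c) = chr φ (g * h) c := by
        funext x; exact smul_chr g h c x
      rw [this]; exact continuous_chr _ _

theorem free (hZ : ∀ (g : G) (z : Z), g • z = z → g = 1) (g : G) (p : GAtt G φ) (h : g • p = p) :
    g = 1 := by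
  induction p using GAtt.cases' with
  | hZ z => exact hZ g z (inZ_inj.1 h)
  | hB k c x =>
    rw [smul_inB, inB_inj] at h
    exact mul_eq_right.1 h.1

/-! ### collars -/

/-- extend a set of `Z` radially over the collar `‖x‖ > ρ` of the cells -/
def col (φ : C → C(S m, Z)) (ρ : ℝ) (U : Set Z) : Set (GAtt G φ) :=
  {p | (∃ z ∈ U, p = inZ φ z) ∨
    ∃ g c, ∃ x : B m, p = inB φ g c x ∧ ρ < ‖(x : Fin m → ℝ)‖ ∧
      ∃ s : S m, (x : Fin m → ℝ) = ‖(x : Fin m → ℝ)‖ • (s : Fin m → ℝ) ∧ g • φ c s ∈ U}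

theorem inZ_mem_col {ρ : ℝ} {U : Set Z} {z : Z} : (inZ φ z : GAtt G φ) ∈ col φ ρ U ↔ z ∈ U := by
  constructor
  · rintro (⟨w, hw, h⟩ | ⟨g, c, x, h, -⟩)
    · rw [inZ_inj.1 h]; exact hw
    · exact absurd h inZ_ne_inB
  · intro h
    exact Or.inl ⟨z, h, rfl⟩

theorem inB_mem_col {ρ : ℝ} {U : Set Z} {g : G} {c : C} {x : B m} : inB φ g c x ∈ col φ ρ U ↔
    ρ < ‖(x : Fin m → ℝ)‖ ∧
      ∃ s : S m, (x : Fin m → ℝ) = ‖(x : Fin m → ℝ)‖ • (s : Fin m → ℝ) ∧ g • φ c s ∈ U := by
  constructor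
  · rintro (⟨w, hw, h⟩ | ⟨g', c', x', h, h2⟩)
    · exact absurd h inB_ne_inZ
    · obtain ⟨rfl, rfl, rfl⟩ := inB_inj.1 h
      exact h2
  · intro h
    exact Or.inr ⟨g, c, x, rfl, h⟩

theorem chr_mem_col {ρ : ℝ} (hρ : ρ < 1) {U : Set Z} {g : G} {c : C} {x : D m} :
    chr φ g c x ∈ col φ ρ U ↔ ρ < ‖(x : Fin m → ℝ)‖ ∧
      ∃ s : S m, (x : Fin m → ℝ) = ‖(x : Fin m → ℝ)‖ • (s : Fin m → ℝ) ∧ g • φ c s ∈ U := by
  induction x using D.cases' with
  | hB x => rw [chr_bd, inB_mem_col]; rfl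
  | hS x =>
    rw [chr_sd, inZ_mem_col]
    constructor
    · intro h
      refine ⟨by simpa [x.norm_eq] using hρ, x, by simp [x.norm_eq], h⟩
    · rintro ⟨-, s, hs, h⟩
      have : x = s := by
        apply Subtype.ext
        simpa [x.norm_eq] using hs
      rw [this]; exact h

/-- radial projection -/
noncomputable def rad (x : Fin m → ℝ) (hx : x ≠ 0) : S m :=
  ⟨‖x‖⁻¹ • x, by rw [mem_sphere_zero_iff_norm, norm_smul, norm_inv, norm_norm,
    inv_mul_cancel₀ (norm_ne_zero_iff.2 hx)]⟩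

theorem rad_spec (x : Fin m → ℝ) (hx : x ≠ 0) : x = ‖x‖ • (rad x hx : Fin m → ℝ) := by
  simp only [rad, smul_smul, mul_inv_cancel₀ (norm_ne_zero_iff.2 hx), one_smul]

theorem rad_unique {x : Fin m → ℝ} {s : S m} (hx : x ≠ 0) (h : x = ‖x‖ • (s : Fin m → ℝ)) :
    s = rad x hx := by
  apply Subtype.ext
  have h2 : ‖x‖ • (s : Fin m → ℝ) = ‖x‖ • (rad x hx : Fin m → ℝ) := h.symm.trans (rad_spec x hx)
  exact smul_right_injective _ (norm_ne_zero_iff.2 hx) h2

theorem isOpen_col {ρ : ℝ} (h0 : 0 ≤ ρ) (h1 : ρ < 1) [ContinuousConstSMul G Z] {U : Set Z}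
    (hU : IsOpen U) : IsOpen (col φ ρ U : Set (GAtt G φ)) := by
  rw [isOpen_iff]
  constructor
  · have : (inZ φ : Z → GAtt G φ) ⁻¹' col φ ρ U = U := by
      ext z; exact inZ_mem_col
    rw [this]; exact hU
  · intro g c
    -- the radial map on `{ρ < ‖x‖}`
    let O : Set (D m) := {x | ρ < ‖(x : Fin m → ℝ)‖}
    have hO : IsOpen O := isOpen_lt continuous_const (continuous_norm.comp continuous_subtype_val)
    have hne : ∀ x : O, ((x : D m) : Fin m → ℝ) ≠ 0 := by
      intro x h
      have := x.2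
      simp only [O, mem_ofPred_eq, h, norm_zero] at this
      exact absurd this (not_lt.2 h0)
    let r : O → S m := fun x => rad ((x : D m) : Fin m → ℝ) (hne x)
    have hr : Continuous r := by
      apply Continuous.subtype_mk
      have hc : Continuous fun x : O => ((x : D m) : Fin m → ℝ) :=
        continuous_subtype_val.comp continuous_subtype_val
      exact (hc.norm.inv₀ fun x => norm_ne_zero_iff.2 (hne x)).smul hc
    have : chr φ g c ⁻¹' col φ ρ U = Subtype.val '' (r ⁻¹' ((fun s => g • φ c s) ⁻¹' U)) := by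
      ext x
      rw [mem_preimage, chr_mem_col h1]
      constructor
      · rintro ⟨hx, s, hs, hsU⟩
        refine ⟨⟨x, hx⟩, ?_, rfl⟩
        have := rad_unique (hne ⟨x, hx⟩) hs
        simp only [mem_preimage, r]
        rw [← this]; exact hsU
      · rintro ⟨y, hy, rfl⟩
        exact ⟨y.2, r y, rad_spec _ _, hy⟩
    rw [this]
    exact hO.isOpenMap_subtype_val _
      ((hU.preimage ((φ c).continuous.const_smul g)).preimage hr)

theorem col_inter {ρ : ℝ} (h0 : 0 ≤ ρ) {U V : Set Z} :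
    (col φ ρ U ∩ col φ ρ V : Set (GAtt G φ)) = col φ ρ (U ∩ V) := by
  ext p
  induction p using GAtt.cases' with
  | hZ z => simp only [mem_inter_iff, inZ_mem_col]
  | hB g c x =>
    simp only [mem_inter_iff, inB_mem_col]
    constructor
    · rintro ⟨⟨hx, s, hs, hsU⟩, -, t, ht, htV⟩
      have hne : (x : Fin m → ℝ) ≠ 0 := by
        intro h; rw [h, norm_zero] at hx; exact absurd hx (not_lt.2 h0)
      have e : s = t := (rad_unique hne hs).trans (rad_unique hne ht).symm
      exact ⟨hx, s, hs, hsU, by rw [e]; exact htV⟩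
    · rintro ⟨hx, s, hs, hsU, hsV⟩
      exact ⟨⟨hx, s, hs, hsU⟩, hx, s, hs, hsV⟩

theorem col_empty {ρ : ℝ} : (col φ ρ ∅ : Set (GAtt G φ)) = ∅ := by
  ext p
  induction p using GAtt.cases' with
  | hZ z => simp [inZ_mem_col]
  | hB g c x => simp [inB_mem_col]

theorem col_nonempty {ρ : ℝ} {U : Set Z} (h : (col φ ρ U : Set (GAtt G φ)).Nonempty) : U.Nonempty := by
  by_contra hU
  rw [not_nonempty_iff_eq_empty] at hU
  rw [hU, col_empty] at h
  exact not_nonempty_empty h

theorem smul_col {ρ : ℝ} {U : Set Z} (g : G) :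
    (fun p => g • p) '' (col φ ρ U : Set (GAtt G φ)) = col φ ρ ((fun z => g • z) '' U) := by
  ext p
  constructor
  · rintro ⟨q, hq, rfl⟩
    induction q using GAtt.cases' with
    | hZ z =>
      rw [inZ_mem_col] at hq
      simp only [smul_inZ, inZ_mem_col]
      exact ⟨z, hq, rfl⟩
    | hB h c x =>
      rw [inB_mem_col] at hq
      obtain ⟨hx, s, hs, hsU⟩ := hq
      simp only [smul_inB, inB_mem_col]
      exact ⟨hx, s, hs, _, hsU, (mul_smul g h _).symm⟩
  · intro hp
    refine ⟨g⁻¹ • p, ?_, smul_inv_smul g p⟩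
    induction p using GAtt.cases' with
    | hZ z =>
      rw [inZ_mem_col] at hp
      obtain ⟨w, hw, rfl⟩ := hp
      simp only [smul_inZ, inZ_mem_col, inv_smul_smul]
      exact hw
    | hB h c x =>
      rw [inB_mem_col] at hp
      obtain ⟨hx, s, hs, w, hw, hws⟩ := hp
      simp only [smul_inB, inB_mem_col]
      refine ⟨hx, s, hs, ?_⟩
      rw [mul_smul, ← hws]
      simp only [inv_smul_smul]
      exact hw

theorem col_mono {ρ : ℝ} {U V : Set Z} (h : U ⊆ V) : (col φ ρ U : Set (GAtt G φ)) ⊆ col φ ρ V := by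
  intro p hp
  induction p using GAtt.cases' with
  | hZ z => rw [inZ_mem_col] at *; exact h hp
  | hB g c x =>
    rw [inB_mem_col] at *
    obtain ⟨hx, s, hs, hsU⟩ := hp
    exact ⟨hx, s, hs, h hsU⟩

/-! ### separated orbits -/

theorem orbSep [ContinuousConstSMul G Z] (hZ : OrbSep G Z) : OrbSep G (GAtt G φ) := by
  -- the symmetric mixed case
  have key : ∀ (z : Z) (h : G) (c : C) (x : B m),
      ∃ ρ : ℝ, 0 ≤ ρ ∧ ρ < 1 ∧ ‖(x : Fin m → ℝ)‖ < ρ := by
    intro z h c x
    obtain ⟨ρ, h1, h2⟩ := exists_between x.norm_lt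
    exact ⟨ρ, (norm_nonneg _).trans h1.le, h2, h1⟩
  intro p q
  induction p using GAtt.cases' with
  | hZ z =>
    induction q using GAtt.cases' with
    | hZ w =>
      obtain ⟨U, hU, V, hV, hUV⟩ := hZ z w
      refine ⟨col φ (1/2) (interior U), (isOpen_col (by norm_num) (by norm_num)
        isOpen_interior).mem_nhds (inZ_mem_col.2 (mem_interior_iff_mem_nhds.2 hU)),
        col φ (1/2) (interior V), (isOpen_col (by norm_num) (by norm_num)
        isOpen_interior).mem_nhds (inZ_mem_col.2 (mem_interior_iff_mem_nhds.2 hV)), ?_⟩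
      intro g hg
      rw [smul_col, col_inter (by norm_num)] at hg
      have h1 := col_nonempty hg
      rw [smul_inZ, hUV g]
      exact h1.mono (inter_subset_inter (image_mono interior_subset) interior_subset)
    | hB h c x =>
      obtain ⟨ρ, h0, h1, h2⟩ := key z h c x
      refine ⟨col φ ρ univ, (isOpen_col h0 h1 isOpen_univ).mem_nhds (inZ_mem_col.2 (mem_univ z)),
        inB φ h c '' {y | ‖(y : Fin m → ℝ)‖ < ρ}, (isOpen_inB_image (isOpen_lt
          (continuous_norm.comp continuous_subtype_val) continuous_const)).mem_nhds ⟨x, h2, rfl⟩, ?_⟩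
      rintro g ⟨p, hp1, y, hy, rfl⟩
      rw [smul_col, inB_mem_col] at hp1
      exact absurd hp1.1 (not_lt.2 (le_of_lt hy))
  | hB h c x =>
    induction q using GAtt.cases' with
    | hZ w =>
      obtain ⟨ρ, h0, h1, h2⟩ := key w h c x
      refine ⟨inB φ h c '' {y | ‖(y : Fin m → ℝ)‖ < ρ}, (isOpen_inB_image (isOpen_lt
          (continuous_norm.comp continuous_subtype_val) continuous_const)).mem_nhds ⟨x, h2, rfl⟩,
        col φ ρ univ, (isOpen_col h0 h1 isOpen_univ).mem_nhds (inZ_mem_col.2 (mem_univ w)), ?_⟩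
      rintro g ⟨p, ⟨q, ⟨y, hy, rfl⟩, rfl⟩, hp⟩
      simp only [smul_inB, inB_mem_col] at hp
      exact absurd hp.1 (not_lt.2 (le_of_lt hy))
    | hB h' c' x' =>
      by_cases hx : x = x'
      · subst hx
        refine ⟨inB φ h c '' univ, (isOpen_inB_image isOpen_univ).mem_nhds ⟨x, trivial, rfl⟩,
          inB φ h' c' '' univ, (isOpen_inB_image isOpen_univ).mem_nhds ⟨x, trivial, rfl⟩, ?_⟩
        rintro g ⟨p, ⟨q, ⟨y, -, rfl⟩, rfl⟩, y', -, hy'⟩
        simp only [smul_inB, inB_inj] at hy' ⊢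
        exact ⟨hy'.1.symm, hy'.2.1.symm, trivial⟩
      · obtain ⟨U, V, hU, hV, hxU, hxV, hUV⟩ := t2_separation hx
        refine ⟨inB φ h c '' U, (isOpen_inB_image hU).mem_nhds ⟨x, hxU, rfl⟩,
          inB φ h' c' '' V, (isOpen_inB_image hV).mem_nhds ⟨x', hxV, rfl⟩, ?_⟩
        rintro g ⟨p, ⟨q, ⟨y, hy, rfl⟩, rfl⟩, y', hy', hyy⟩
        simp only [smul_inB, inB_inj] at hyy
        obtain ⟨-, -, rfl⟩ := hyy
        exact absurd hy' (Set.disjoint_left.1 hUV hy)

theorem t2_of_orbSep {E : Type} [TopologicalSpace E] [MulAction G E] (h : OrbSep G E) : T2Space E := by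
  refine ⟨fun x y hxy => ?_⟩
  obtain ⟨U, hU, V, hV, hUV⟩ := h x y
  refine ⟨interior U, interior V, isOpen_interior, isOpen_interior,
    mem_interior_iff_mem_nhds.2 hU, mem_interior_iff_mem_nhds.2 hV, ?_⟩
  rw [Set.disjoint_left]
  intro z hz1 hz2
  apply hxy
  have := hUV 1 ⟨z, ⟨z, interior_subset hz1, one_smul G z⟩, interior_subset hz2⟩
  rwa [one_smul] at this

end att

end Crest.Agent.R185.Att
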