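import Crest.Agent.R185.Att3

/-!
# Row 185, block T1, part 4: filling boxes, extension cell by cell, contraction

`Fill k W`: every map `S m → W`, `m ≤ k`, extends to `D m`.
-/

set_option autoImplicit false
set_option linter.unusedSectionVars false

open Set Metric Topology unitInterval

namespace Crest.Agent.R185.Att

/-- every map of a sphere `S m`, `m ≤ k`, extends to the ball (`(k-1)`-connected) -/
def Fill (k : ℕ) (W : Type*) [TopologicalSpace W] : Prop :=
  ∀ m ≤ k, ∀ f : C(S m, W), ∃ g : C(D m, W), ∀ s, g (sd m s) = f s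

theorem Fill.mono {k l : ℕ} {W : Type*} [TopologicalSpace W] (h : Fill l W) (hkl : k ≤ l) : Fill k W :=
  fun m hm => h m (hm.trans hkl)

/-! ### `D n × I ≅ D (n+1)` -/

theorem norm_cons_le {n : ℕ} (a : ℝ) (x : Fin n → ℝ) :
    ‖(Fin.cons a x : Fin (n + 1) → ℝ)‖ ≤ 1 ↔ |a| ≤ 1 ∧ ‖x‖ ≤ 1 := by
  rw [pi_norm_le_iff_of_nonneg zero_le_one, pi_norm_le_iff_of_nonneg zero_le_one, Fin.forall_fin_succ]
  simp [Real.norm_eq_abs]

theorem norm_cons_lt {n : ℕ} (a : ℝ) (x : Fin n → ℝ) :
    ‖(Fin.cons a x : Fin (n + 1) → ℝ)‖ < 1 ↔ |a| < 1 ∧ ‖x‖ < 1 := by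
  rw [pi_norm_lt_iff zero_lt_one, pi_norm_lt_iff zero_lt_one, Fin.forall_fin_succ]
  simp [Real.norm_eq_abs]

/-- the homeomorphism `(x, t) ↦ (2t-1, x)` -/
noncomputable def box (n : ℕ) : C(D n × I, D (n + 1)) where
  toFun p := ⟨Fin.cons (2 * (p.2 : ℝ) - 1) (p.1 : Fin n → ℝ), by
    rw [mem_closedBall_zero_iff, norm_cons_le]
    refine ⟨?_, p.1.norm_le⟩
    rw [abs_le]
    constructor <;> [linarith [p.2.2.1]; linarith [p.2.2.2]]⟩
  continuous_toFun := by
    apply Continuous.subtype_mk
    apply Continuous.finCons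
    · fun_prop
    · fun_prop

/-- `(y 0 + 1)/2` -/
noncomputable def tau (n : ℕ) : C(D (n + 1), I) where
  toFun y := ⟨((y : Fin (n + 1) → ℝ) 0 + 1) / 2, by
    have h := (norm_le_pi_norm (y : Fin (n + 1) → ℝ) 0).trans y.norm_le
    rw [Real.norm_eq_abs, abs_le] at h
    constructor <;> linarith [h.1, h.2]⟩
  continuous_toFun := by
    apply Continuous.subtype_mk
    have : Continuous fun y : D (n + 1) => (y : Fin (n + 1) → ℝ) 0 :=
      (continuous_apply 0).comp continuous_subtype_val
    exact (this.add continuous_const).div_const 2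

/-- the tail -/
noncomputable def tl (n : ℕ) : C(D (n + 1), D n) where
  toFun y := ⟨Fin.tail (y : Fin (n + 1) → ℝ), by
    rw [mem_closedBall_zero_iff]
    refine ((norm_cons_le ((y : Fin (n + 1) → ℝ) 0) _).1 ?_).2
    rw [Fin.cons_self_tail]
    exact y.norm_le⟩
  continuous_toFun := by
    apply Continuous.subtype_mk
    refine continuous_pi fun i => ?_
    exact (continuous_apply i.succ).comp continuous_subtype_val

@[simp] theorem tau_box {n : ℕ} (p : D n × I) : tau n (box n p) = p.2 := by
  apply Subtype.ext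
  simp [tau, box]

@[simp] theorem tl_box {n : ℕ} (p : D n × I) : tl n (box n p) = p.1 := by
  apply Subtype.ext
  simp [tl, box]

theorem box_tl_tau {n : ℕ} (y : D (n + 1)) : box n (tl n y, tau n y) = y := by
  apply Subtype.ext
  have : (2 * (((y : Fin (n + 1) → ℝ) 0 + 1) / 2) - 1) = (y : Fin (n + 1) → ℝ) 0 := by ring
  simp only [box, tl, tau, ContinuousMap.coe_mk, this]
  exact Fin.cons_self_tail _

/-- a boundary point of the box -/
theorem sphere_cases {n : ℕ} (y : S (n + 1)) :
    ‖(tl n (sd _ y) : Fin n → ℝ)‖ = 1 ∨ tau n (sd _ y) = 0 ∨ tau n (sd _ y) = 1 := by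
  by_contra hcon
  push Not at hcon
  obtain ⟨h1, h2, h3⟩ := hcon
  have h4 : ‖(tl n (sd _ y) : Fin n → ℝ)‖ < 1 := lt_of_le_of_ne (D.norm_le _) h1
  have h5 : |(y : Fin (n + 1) → ℝ) 0| < 1 := by
    have h := (norm_le_pi_norm (y : Fin (n + 1) → ℝ) 0).trans y.norm_eq.le
    rw [Real.norm_eq_abs] at h
    refine lt_of_le_of_ne h fun h6 => ?_
    rcases (abs_eq zero_le_one).1 h6 with h7 | h7
    · apply h3
      apply Subtype.ext
      simp only [tau, ContinuousMap.coe_mk, sd_coe, h7]; norm_num
    · apply h2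
      apply Subtype.ext
      simp only [tau, ContinuousMap.coe_mk, sd_coe, h7]; norm_num
  have h6 := (norm_cons_lt ((y : Fin (n + 1) → ℝ) 0) _).2 ⟨h5, h4⟩
  have h7 : (Fin.cons ((y : Fin (n + 1) → ℝ) 0) (tl n (sd _ y) : Fin n → ℝ) : Fin (n + 1) → ℝ) = y :=
    Fin.cons_self_tail _
  rw [h7, y.norm_eq] at h6
  exact lt_irrefl _ h6

theorem box_mem_sphere {n : ℕ} (p : D n × I) (h : ‖(p.1 : Fin n → ℝ)‖ = 1 ∨ p.2 = 0 ∨ p.2 = 1) :
    ‖(box n p : Fin (n + 1) → ℝ)‖ = 1 := by
  by_contra hne
  have h1 : ‖(box n p : Fin (n + 1) → ℝ)‖ < 1 := lt_of_le_of_ne (D.norm_le _) hne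
  have h2 := (norm_cons_lt _ _).1 h1
  rcases h with h | h | h
  · exact absurd h2.2 (by rw [h]; exact lt_irrefl _)
  · have := h2.1
    rw [h] at this
    norm_num at this
  · have := h2.1
    rw [h] at this
    norm_num at this

/-- Filling a box with prescribed side, bottom and top. -/
theorem box_fill {W : Type*} [TopologicalSpace W] {n : ℕ} (hW : Fill (n + 1) W)
    (u : C(S n × I, W)) (a b : C(D n, W)) (ha : ∀ s, u (s, 0) = a (sd n s))
    (hb : ∀ s, u (s, 1) = b (sd n s)) :
    ∃ e : C(D n × I, W), (∀ s t, e (sd n s, t) = u (s, t)) ∧ (∀ x, e (x, 0) = a x) ∧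
      ∀ x, e (x, 1) = b x := by
  classical
  let v : S (n + 1) → W := fun y =>
    if h : ‖(tl n (sd _ y) : Fin n → ℝ)‖ = 1 then
      u (⟨tl n (sd _ y), mem_sphere_zero_iff_norm.2 h⟩, tau n (sd _ y))
    else if tau n (sd _ y) = 0 then a (tl n (sd _ y)) else b (tl n (sd _ y))
  let A : Fin 3 → Set (S (n + 1)) := ![{y | ‖(tl n (sd _ y) : Fin n → ℝ)‖ = 1},
    {y | tau n (sd _ y) = 0}, {y | tau n (sd _ y) = 1}]
  have hv0 : ∀ y ∈ A 0, ∀ s : S n, (s : Fin n → ℝ) = tl n (sd _ y) →
      v y = u (s, tau n (sd _ y)) := by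
    intro y hy s hs
    have hy' : ‖(tl n (sd _ y) : Fin n → ℝ)‖ = 1 := hy
    simp only [v]
    rw [dif_pos hy']
    congr 2
    exact Subtype.ext hs.symm
  have hv1 : ∀ y ∈ A 1, v y = a (tl n (sd _ y)) := by
    intro y hy
    have hy' : tau n (sd _ y) = 0 := hy
    simp only [v]
    split_ifs with h
    · rw [hy', ha]; rfl
    · rfl
  have hv2 : ∀ y ∈ A 2, v y = b (tl n (sd _ y)) := by
    intro y hy
    have hy' : tau n (sd _ y) = 1 := hy
    simp only [v]
    split_ifs with h h2
    · rw [hy', hb]; rfl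
    · rw [hy'] at h2; exact absurd h2 one_ne_zero
    · rfl
  have hvc : Continuous v := by
    refine (locallyFinite_of_finite A).continuous ?_ ?_ ?_
    · rw [eq_univ_iff_forall]
      intro y
      rw [mem_iUnion]
      rcases sphere_cases y with h | h | h
      · exact ⟨0, h⟩
      · exact ⟨1, h⟩
      · exact ⟨2, h⟩
    · have hc1 : Continuous fun y : S (n + 1) => ‖(tl n (sd _ y) : Fin n → ℝ)‖ :=
        (continuous_subtype_val.comp ((tl n).continuous.comp (sd (n + 1)).continuous)).norm
      have hc2 : Continuous fun y : S (n + 1) => tau n (sd _ y) :=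
        (tau n).continuous.comp (sd (n + 1)).continuous
      intro i
      fin_cases i
      · exact isClosed_eq hc1 continuous_const
      · exact isClosed_eq hc2 continuous_const
      · exact isClosed_eq hc2 continuous_const
    · intro i
      fin_cases i
      · rw [continuousOn_iff_continuous_domRestrict]
        let w : A 0 → S n × I := fun y =>
          (⟨tl n (sd _ y.1), mem_sphere_zero_iff_norm.2 y.2⟩, tau n (sd _ y.1))
        have hw : Continuous w := by
          refine Continuous.prodMk (Continuous.subtype_mk ?_ _) ?_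
          · exact continuous_subtype_val.comp
              ((tl n).continuous.comp ((sd (n + 1)).continuous.comp continuous_subtype_val))
          · exact (tau n).continuous.comp ((sd (n + 1)).continuous.comp continuous_subtype_val)
        have : (A 0).domRestrict v = u ∘ w := by
          funext y
          exact hv0 y.1 y.2 _ rfl
        show Continuous ((A 0).domRestrict v)
        rw [this]
        exact u.continuous.comp hw
      · have hc : Continuous fun y : S (n + 1) => a (tl n (sd _ y)) :=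
          a.continuous.comp ((tl n).continuous.comp (sd (n + 1)).continuous)
        exact hc.continuousOn.congr fun y hy => hv1 y hy
      · have hc : Continuous fun y : S (n + 1) => b (tl n (sd _ y)) :=
          b.continuous.comp ((tl n).continuous.comp (sd (n + 1)).continuous)
        exact hc.continuousOn.congr fun y hy => hv2 y hy
  obtain ⟨g, hg⟩ := hW (n + 1) le_rfl ⟨v, hvc⟩
  have hgv : ∀ (p : D n × I) (h : ‖(p.1 : Fin n → ℝ)‖ = 1 ∨ p.2 = 0 ∨ p.2 = 1),
      g (box n p) = v ⟨box n p, mem_sphere_zero_iff_norm.2 (box_mem_sphere p h)⟩ := by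
    intro p h
    exact hg ⟨box n p, mem_sphere_zero_iff_norm.2 (box_mem_sphere p h)⟩
  have hsd : ∀ (p : D n × I) (h : ‖(p.1 : Fin n → ℝ)‖ = 1 ∨ p.2 = 0 ∨ p.2 = 1),
      sd (n + 1) ⟨box n p, mem_sphere_zero_iff_norm.2 (box_mem_sphere p h)⟩ = box n p :=
    fun p h => rfl
  refine ⟨g.comp (box n), ?_, ?_, ?_⟩
  · intro s t
    have h : ‖((sd n s, t) : D n × I).1.1‖ = 1 ∨ t = 0 ∨ t = 1 := Or.inl s.norm_eq
    show g (box n (sd n s, t)) = _
    rw [hgv (sd n s, t) h, hv0 _ ?_ s ?_]
    · rw [hsd (sd n s, t) h, tau_box]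
    · show ‖(tl n (sd _ _) : Fin n → ℝ)‖ = 1
      rw [hsd (sd n s, t) h, tl_box]; exact s.norm_eq
    · rw [hsd (sd n s, t) h, tl_box]; rfl
  · intro x
    have h : ‖(x : Fin n → ℝ)‖ = 1 ∨ (0 : I) = 0 ∨ (0 : I) = 1 := Or.inr (Or.inl rfl)
    show g (box n (x, 0)) = _
    rw [hgv (x, 0) h, hv1 _ ?_, hsd (x, 0) h, tl_box]
    show tau n (sd _ _) = 0
    rw [hsd (x, 0) h, tau_box]
  · intro x
    have h : ‖(x : Fin n → ℝ)‖ = 1 ∨ (1 : I) = 0 ∨ (1 : I) = 1 := Or.inr (Or.inr rfl)
    show g (box n (x, 1)) = _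
    rw [hgv (x, 1) h, hv2 _ ?_, hsd (x, 1) h, tl_box]
    show tau n (sd _ _) = 1
    rw [hsd (x, 1) h, tau_box]

/-! ### gluing maps -/

section att

variable {G : Type} [Group G] {Z : Type} [TopologicalSpace Z] [MulAction G Z]
  {m : ℕ} {C : Type} {φ : C → C(S m, Z)} {W : Type*} [TopologicalSpace W]

/-- a map out of an attachment -/
theorem exists_glue (f : C(Z, W)) (e : G → C → C(D m, W))
    (h : ∀ g c s, e g c (sd m s) = f (g • φ c s)) :
    ∃ F : C(GAtt G φ, W), (∀ z, F (inZ φ z) = f z) ∧ ∀ g c x, F (chr φ g c x) = e g c x := by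
  let F : GAtt G φ → W := Sum.elim f (fun p => e p.1 p.2.1 (bd m p.2.2))
  have h1 : ∀ z, F (inZ φ z) = f z := fun z => rfl
  have h2 : ∀ g c x, F (chr φ g c x) = e g c x := by
    intro g c x
    induction x using D.cases' with
    | hB x => rw [chr_bd]; rfl
    | hS x => rw [chr_sd, h1, h]
  refine ⟨⟨F, ?_⟩, h1, h2⟩
  rw [continuous_iff]
  constructor
  · exact f.continuous
  · intro g c
    have : F ∘ chr φ g c = e g c := funext (h2 g c)
    rw [this]; exact (e g c).continuous

/-- an equivariant map out of an attachment -/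
theorem exists_glueG [MulAction G W] [ContinuousConstSMul G W] (f : C(Z, W))
    (hf : ∀ (g : G) z, f (g • z) = g • f z) (e : C → C(D m, W))
    (h : ∀ c s, e c (sd m s) = f (φ c s)) :
    ∃ F : C(GAtt G φ, W), (∀ z, F (inZ φ z) = f z) ∧ (∀ g c x, F (chr φ g c x) = g • e c x) ∧
      ∀ (g : G) p, F (g • p) = g • F p := by
  obtain ⟨F, h1, h2⟩ := exists_glue (φ := φ) f
    (fun g c => ⟨fun x => g • e c x, (e c).continuous.const_smul g⟩)
    (fun g c s => by simp only [ContinuousMap.coe_mk]; rw [h, hf])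
  refine ⟨F, h1, h2, ?_⟩
  intro g p
  induction p using GAtt.cases' with
  | hZ z => rw [smul_inZ, h1, h1, hf]
  | hB k c x =>
    rw [← chr_bd, smul_chr, h2, h2]
    simp only [ContinuousMap.coe_mk, mul_smul]

end att

section un

variable {G : Type} [Group G] (F : ∀ (m : ℕ) (X : GSp G), Cells X m)

/-- a map out of the next stage -/
theorem tower_glue {n : ℕ} {W : Type*} [TopologicalSpace W] (f : C((tower F n).Z, W))
    (e : G → cel F n → C(D n, W)) (h : ∀ g c s, e g c (sd n s) = f (g • atm F n c s)) :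
    ∃ f' : C((tower F (n + 1)).Z, W), (∀ z, f' (inc F n z) = f z) ∧
      ∀ g c x, f' (chn F n g c x) = e g c x :=
  exists_glue (φ := (F n (tower F n)).φ) f e h

/-- an equivariant map out of the next stage -/
theorem tower_glueG {n : ℕ} {W : Type*} [TopologicalSpace W] [MulAction G W]
    [ContinuousConstSMul G W] (f : C((tower F n).Z, W)) (hf : ∀ (g : G) z, f (g • z) = g • f z)
    (e : cel F n → C(D n, W)) (h : ∀ c s, e c (sd n s) = f (atm F n c s)) :
    ∃ f' : C((tower F (n + 1)).Z, W), (∀ z, f' (inc F n z) = f z) ∧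
      (∀ g c x, f' (chn F n g c x) = g • e c x) ∧ ∀ (g : G) p, f' (g • p) = g • f' p :=
  exists_glueG (φ := (F n (tower F n)).φ) f hf e h

/-- gluing a compatible family of maps -/
theorem exists_unglue {W : Type*} [TopologicalSpace W] (f : ∀ n, C((tower F n).Z, W))
    (h : ∀ n z, f (n + 1) (inc F n z) = f n z) :
    ∃ H : C(Un F, W), ∀ n z, H (jj F n z) = f n z := by
  have h1 : ∀ n (z : (tower F n).Z) (y : Un F) (w : (tower F (y.1 + 1)).Z),
      jj F n z = y → jj F (y.1 + 1) w = y → f n z = f (y.1 + 1) w := by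
    intro n
    induction n with
    | zero => intro z; exact z.elim
    | succ n ih =>
      intro z y w hz hw
      revert hz
      induction z using tower_cases with
      | hZ z => intro hz; rw [h]; exact ih z y w hz hw
      | hB g c x =>
        intro hz
        subst hz
        have : jj F (n + 1) w = jj F (n + 1) (opn F n g c x) := hw
        exact congrArg (f (n + 1)) (jj_injective F (n + 1) this).symm
  choose r hr using fun y : Un F => exists_jj F y (Nat.lt_succ_self y.1)
  let H : Un F → W := fun y => f (y.1 + 1) (r y)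
  have hH : ∀ n z, H (jj F n z) = f n z := fun n z => (h1 n z _ (r _) rfl (hr _)).symm
  refine ⟨⟨H, ?_⟩, hH⟩
  rw [un_continuous_iff]
  intro n
  have : H ∘ jj F n = f n := funext (hH n)
  rw [this]; exact (f n).continuous

/-- building a map out of the union stage by stage -/
theorem exists_un_map {W : Type*} [TopologicalSpace W] (P : ∀ n, C((tower F n).Z, W) → Prop)
    (h0 : ∀ f, P 0 f)
    (hs : ∀ n f, P n f → ∃ f' : C((tower F (n + 1)).Z, W), (∀ z, f' (inc F n z) = f z) ∧
      P (n + 1) f') :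
    ∃ H : C(Un F, W), ∀ n, P n (H.comp (jm F n)) := by
  choose nx hnx hnP using hs
  let f0 : C((tower F 0).Z, W) := ⟨fun z => Empty.elim z, by
    rw [continuous_def]; intro U _
    convert isOpen_empty
    ext z; exact z.elim⟩
  let f : ∀ n, {f : C((tower F n).Z, W) // P n f} := fun n =>
    Nat.rec ⟨f0, h0 f0⟩ (fun n g => ⟨nx n g.1 g.2, hnP n g.1 g.2⟩) n
  obtain ⟨H, hH⟩ := exists_unglue F (fun n => (f n).1) (fun n z => hnx n (f n).1 (f n).2 z)
  refine ⟨H, fun n => ?_⟩
  have : H.comp (jm F n) = (f n).1 := ContinuousMap.ext (hH n)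
  rw [this]; exact (f n).2

/-- two maps from the union to a space with all fillings are homotopic -/
theorem un_homotopic {W : Type*} [TopologicalSpace W] (hW : ∀ k, Fill k W) (a b : C(Un F, W)) :
    ContinuousMap.Homotopic a b := by
  obtain ⟨H, hH⟩ := exists_un_map F (W := C(I, W))
    (fun n f => ∀ z, f z 0 = a (jj F n z) ∧ f z 1 = b (jj F n z))
    (fun f z => z.elim) (by
      intro n f hf
      have h1 : ∀ (g : G) (c : cel F n), ∃ e : C(D n × I, W),
          (∀ s t, e (sd n s, t) = f (g • atm F n c s) t) ∧ (∀ x, e (x, 0) = a (Chr F n g c x)) ∧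
          ∀ x, e (x, 1) = b (Chr F n g c x) := by
        intro g c
        have hcont : Continuous fun s : S n => f (g • atm F n c s) :=
          f.continuous.comp ((atm F n c).continuous.const_smul g)
        obtain ⟨e, he1, he2, he3⟩ := box_fill (hW (n + 1))
          ((⟨fun s : S n => f (g • atm F n c s), hcont⟩ : C(S n, C(I, W))).uncurry)
          (a.comp (Chr F n g c)) (b.comp (Chr F n g c))
          (fun s => by
            show f (g • atm F n c s) 0 = a (Chr F n g c (sd n s))
            rw [(hf _).1, Chr_sd])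
          (fun s => by
            show f (g • atm F n c s) 1 = b (Chr F n g c (sd n s))
            rw [(hf _).2, Chr_sd])
        exact ⟨e, he1, he2, he3⟩
      choose e he1 he2 he3 using h1
      obtain ⟨f', hf1, hf2⟩ := tower_glue F f
        (fun g c => (e g c).curry) (fun g c s => by
          ext t
          exact he1 g c s t)
      refine ⟨f', hf1, ?_⟩
      intro z
      induction z using tower_cases with
      | hZ z =>
        rw [hf1]; exact hf z
      | hB g c x =>
        have h3 : f' (opn F n g c x) = (e g c).curry (bd n x) := by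
          rw [← chn_bd]; exact hf2 g c (bd n x)
        rw [h3]
        have h4 : jj F (n + 1) (opn F n g c x) = Chr F n g c (bd n x) := by
          rw [Chr_bd]; rfl
        rw [h4]
        exact ⟨he2 g c (bd n x), he3 g c (bd n x)⟩)
  have hy : ∀ y : Un F, H y 0 = a y ∧ H y 1 = b y := by
    intro y
    obtain ⟨z, hz⟩ := exists_jj F y (Nat.lt_succ_self y.1)
    have := hH (y.1 + 1) z
    rw [hz] at this
    have h2 : (H.comp (jm F (y.1 + 1))) z = H y := congrArg H hz
    rw [h2] at this
    exact this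
  refine ⟨⟨⟨fun p => H p.2 p.1, ?_⟩, fun y => (hy y).1, fun y => (hy y).2⟩⟩
  have : Continuous (H.uncurry ∘ Prod.swap (α := I) (β := Un F)) :=
    H.uncurry.continuous.comp continuous_swap
  exact this

/-- **Contraction cell by cell.** -/
theorem un_contractible (h : ∀ k, Fill k (Un F)) : ContractibleSpace (Un F) := by
  obtain ⟨g, -⟩ := h 0 0 le_rfl ⟨fun s => absurd s.norm_eq (by
    have : (s : Fin 0 → ℝ) = 0 := Subsingleton.elim _ _
    rw [this, norm_zero]; exact zero_ne_one), by
      rw [continuous_def]; intro U _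
      convert isOpen_empty
      ext s
      exact absurd s.norm_eq (by
        have : (s : Fin 0 → ℝ) = 0 := Subsingleton.elim _ _
        rw [this, norm_zero]; exact zero_ne_one)⟩
  let y0 : Un F := g ⟨0, by simp⟩
  exact (contractible_iff_id_nullhomotopic _).2
    ⟨y0, un_homotopic F h (ContinuousMap.id _) (ContinuousMap.const _ y0)⟩

/-- **Final step**: it is enough that every sphere in a stage is filled in a later stage. -/
theorem final_of_stages
    (h : ∀ N m, ∀ f : C(S m, (tower F N).Z), ∃ n, N ≤ n ∧ ∃ g : C(D m, (tower F n).Z),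
      ∀ s, jj F n (g (sd m s)) = jj F N (f s)) :
    Crest.Topology.HasFiniteTypeClassifyingComplex G := by
  refine final F (un_contractible F fun k m _ f => ?_)
  obtain ⟨N, f', hf'⟩ := exists_factor F f
  obtain ⟨n, -, g, hg⟩ := h N m f'
  exact ⟨(jm F n).comp g, fun s => (hg s).trans (hf' s)⟩

end un

end Crest.Agent.R185.Att
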