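import Crest.Agent.R185.BldDefs

/-!
# Row 185, BASE, part 1: paths in a complex

A map `φ` out of a simplicial complex which is trivialised on edges (classes `P v` of paths from a
base point to `φ v`, compatible with the edges) is trivial on all loops.
-/

set_option autoImplicit false
set_option linter.unusedSectionVars false

open Set Topology
open Crest.Agent.R185.Att Crest.Agent.R185.Bld

namespace Crest.Agent.R185.Base

theorem homotopic_of_contractible {X : Type*} [TopologicalSpace X] {A : Set X}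
    (hA : ContractibleSpace A) {p q : X} (γ₁ γ₂ : Path p q) (h₁ : ∀ t, γ₁ t ∈ A)
    (h₂ : ∀ t, γ₂ t ∈ A) : γ₁.Homotopic γ₂ := by
  have hp : p ∈ A := by simpa using h₁ 0
  have hq : q ∈ A := by simpa using h₁ 1
  let γ₁' : Path (⟨p, hp⟩ : A) ⟨q, hq⟩ :=
    ⟨⟨fun t => ⟨γ₁ t, h₁ t⟩, by fun_prop⟩, by simp, by simp⟩
  let γ₂' : Path (⟨p, hp⟩ : A) ⟨q, hq⟩ :=
    ⟨⟨fun t => ⟨γ₂ t, h₂ t⟩, by fun_prop⟩, by simp, by simp⟩
  exact (SimplyConnectedSpace.paths_homotopic γ₁' γ₂').map ⟨Subtype.val, continuous_subtype_val⟩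

section cx

variable {V : Type} {K : Cx V}

/-- the support of the convex combination -/
theorem joinable [DecidableEq V] {p q : K.R} (h : p.m.support ∪ q.m.support ∈ K.s) (t : unitInterval) :
    ((1 - (t : ℝ)) • p.m + (t : ℝ) • q.m).support ∈ K.s := Cx.mix_support_mem t p q h

/-- `A` is star-shaped about `c` -/
def StarAt (c : K.R) (A : Set K.R) : Prop :=
  c ∈ A ∧ ∀ p ∈ A, ∃ h : ∀ t : unitInterval, ((1 - (t : ℝ)) • p.m + (t : ℝ) • c.m).support ∈ K.s,
    ∀ t : unitInterval, Cx.mix t p c (h t) ∈ A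

theorem StarAt.contractible {c : K.R} {A : Set K.R} (h : StarAt c A) : ContractibleSpace A := by
  rw [contractible_iff_id_nullhomotopic]
  obtain ⟨hc, h⟩ := h
  choose h1 h2 using h
  refine ⟨⟨c, hc⟩, ⟨⟨⟨fun x => ⟨Cx.mix x.1 x.2.1 c (h1 _ x.2.2 _), h2 _ x.2.2 _⟩, ?_⟩, ?_, ?_⟩⟩⟩
  · apply Continuous.subtype_mk
    rw [Cx.continuous_iff_eval]
    intro v
    simp only [Cx.mix_apply]
    have h3 : Continuous fun x : unitInterval × A => (x.2.1 : K.R) v :=
      (Cx.continuous_eval v).comp (continuous_subtype_val.comp continuous_snd)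
    fun_prop
  · rintro ⟨p, hp⟩
    apply Subtype.ext
    apply Cx.R.ext
    intro v
    simp [Cx.mix_apply]
  · rintro ⟨p, hp⟩
    apply Subtype.ext
    apply Cx.R.ext
    intro v
    simp [Cx.mix_apply]

theorem starAt_star {v : V} (hv : {v} ∈ K.s) : StarAt (Cx.vert v hv) {p : K.R | 0 < p v} := by
  classical
  have hv0 : (Cx.vert v hv : K.R) v = 1 := by
    show (Finsupp.single v (1 : ℝ)) v = 1
    simp
  refine ⟨by simp [hv0], fun p hp => ?_⟩
  have h1 : p.m.support ∪ (Cx.vert v hv : K.R).m.support = p.m.support := by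
    apply Finset.union_eq_left.2
    show (Finsupp.single v (1 : ℝ)).support ⊆ _
    rw [Finsupp.support_single _ one_ne_zero, Finset.singleton_subset_iff]
    exact Cx.R.mem_support'.2 hp
  refine ⟨fun t => joinable (by rw [h1]; exact p.mem) t, fun t => ?_⟩
  show 0 < Cx.mix t p _ _ v
  rw [Cx.mix_apply, hv0]
  have hp' : 0 < p v := hp
  rcases eq_or_lt_of_le t.2.1 with h | h
  · rw [← h]; linarith
  · have := t.2.2
    have h2 : 0 ≤ (1 - (t : ℝ)) * p v := mul_nonneg (by linarith) hp'.le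
    linarith

theorem starAt_face {σ : Finset V} (hσ : σ ∈ K.s) {c : K.R} (hc : c ∈ K.face σ) :
    StarAt c (K.face σ) := by
  classical
  refine ⟨hc, fun p hp => ?_⟩
  have h1 : p.m.support ∪ c.m.support ∈ K.s :=
    K.down hσ (Finset.union_subset hp hc) (p.nonempty.mono Finset.subset_union_left)
  refine ⟨fun t => joinable h1 t, fun t => ?_⟩
  exact (Cx.mix_support_subset t p c).trans (Finset.union_subset hp hc)

/-- straight segment -/
noncomputable def segm (p q : K.R)
    (h : ∀ t : unitInterval, ((1 - (t : ℝ)) • p.m + (t : ℝ) • q.m).support ∈ K.s) : Path p q where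
  toFun t := Cx.mix t p q (h t)
  continuous_toFun := by
    rw [Cx.continuous_iff_eval]
    intro v
    simp only [Cx.mix_apply]
    fun_prop
  source' := by
    apply Cx.R.ext
    intro v
    simp [Cx.mix_apply]
  target' := by
    apply Cx.R.ext
    intro v
    simp [Cx.mix_apply]

theorem segm_mem_face {p q : K.R} {σ : Finset V} (hp : p ∈ K.face σ) (hq : q ∈ K.face σ)
    (h) (t : unitInterval) : segm p q h t ∈ K.face σ := by
  classical
  exact (Cx.mix_support_subset t p q).trans (Finset.union_subset hp hq)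

theorem vert_pos {v : V} (hv : {v} ∈ K.s) : 0 < (Cx.vert v hv : K.R) v := by
  show 0 < (Finsupp.single v (1 : ℝ)) v
  simp

theorem segm_pos {p q : K.R} (h) {v : V} (hp : 0 < p v) (hq : 0 < q v) (t : unitInterval) :
    0 < segm p q h t v := by
  show 0 < Cx.mix t p q _ v
  rw [Cx.mix_apply]
  rcases eq_or_lt_of_le t.2.1 with h0 | h0
  · rw [← h0]; linarith
  · have h1 := t.2.2
    have h2 : 0 ≤ (1 - (t : ℝ)) * p v := mul_nonneg (by linarith) hp.le
    have h3 : 0 < (t : ℝ) * q v := mul_pos h0 hq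
    linarith

/-- class of paths -/
abbrev Q {X : Type*} [TopologicalSpace X] (x y : X) : Type _ := Path.Homotopic.Quotient x y

open Path.Homotopic.Quotient in
theorem trans_cancel_left {X : Type*} [TopologicalSpace X] {x y z : X} (a : Q x y) {b c : Q y z}
    (h : a.trans b = a.trans c) : b = c := by
  have h1 := congrArg (fun u => (symm a).trans u) h
  simpa [← trans_assoc] using h1

open Path.Homotopic.Quotient in
theorem trans_cancel_right {X : Type*} [TopologicalSpace X] {x y z : X} {a b : Q x y} (c : Q y z)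
    (h : a.trans c = b.trans c) : a = b := by
  have h1 := congrArg (fun u => trans u (symm c)) h
  simpa [trans_assoc] using h1

/-- the vertex is a face of the support -/
theorem sing_mem {p : K.R} {v : V} (hv : 0 < p v) : {v} ∈ K.s :=
  K.down p.mem (Finset.singleton_subset_iff.2 (Cx.R.mem_support'.2 hv)) (Finset.singleton_nonempty v)

theorem vert_mem_face {v : V} (hv : {v} ∈ K.s) {σ : Finset V} (h : v ∈ σ) :
    (Cx.vert v hv : K.R) ∈ K.face σ := by
  show (Finsupp.single v (1 : ℝ)).support ⊆ _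
  rw [Finsupp.support_single _ one_ne_zero, Finset.singleton_subset_iff]
  exact h

theorem face_join {p q : K.R} {σ : Finset V} (hσ : σ ∈ K.s) (hp : p ∈ K.face σ) (hq : q ∈ K.face σ)
    (t : unitInterval) : ((1 - (t : ℝ)) • p.m + (t : ℝ) • q.m).support ∈ K.s := by
  classical
  exact joinable (K.down hσ (Finset.union_subset hp hq) (p.nonempty.mono Finset.subset_union_left)) t

/-- class of the segment inside a closed face -/
noncomputable def seg {σ : Finset V} (hσ : σ ∈ K.s) {p q : K.R} (hp : p ∈ K.face σ)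
    (hq : q ∈ K.face σ) : Q p q :=
  Path.Homotopic.Quotient.mk (segm p q (face_join hσ hp hq))

theorem mk_eq_of_face {σ : Finset V} (hσ : σ ∈ K.s) {p q : K.R} {γ₁ γ₂ : Path p q}
    (h₁ : ∀ t, γ₁ t ∈ K.face σ) (h₂ : ∀ t, γ₂ t ∈ K.face σ) :
    Path.Homotopic.Quotient.mk γ₁ = Path.Homotopic.Quotient.mk γ₂ := by
  have hc : p ∈ K.face σ := by simpa using h₁ 0
  exact Path.Homotopic.Quotient.eq.2
    (homotopic_of_contractible (starAt_face hσ hc).contractible γ₁ γ₂ h₁ h₂)

theorem trans_mem {X : Type*} [TopologicalSpace X] {A : Set X} {p q r : X} {γ₁ : Path p q}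
    {γ₂ : Path q r} (h₁ : ∀ t, γ₁ t ∈ A) (h₂ : ∀ t, γ₂ t ∈ A) (t : unitInterval) :
    γ₁.trans γ₂ t ∈ A := by
  rw [Path.trans_apply]
  split_ifs
  · exact h₁ _
  · exact h₂ _

theorem symm_mem {X : Type*} [TopologicalSpace X] {A : Set X} {p q : X} {γ₁ : Path p q}
    (h₁ : ∀ t, γ₁ t ∈ A) (t : unitInterval) : γ₁.symm t ∈ A := h₁ _

theorem seg_trans {σ : Finset V} (hσ : σ ∈ K.s) {p q r : K.R} (hp : p ∈ K.face σ)
    (hq : q ∈ K.face σ) (hr : r ∈ K.face σ) :
    (seg hσ hp hq).trans (seg hσ hq hr) = seg hσ hp hr := by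
  unfold seg
  rw [← Path.Homotopic.Quotient.mk_trans]
  exact mk_eq_of_face hσ (trans_mem (segm_mem_face hp hq _) (segm_mem_face hq hr _))
    (segm_mem_face hp hr _)

theorem seg_self {σ : Finset V} (hσ : σ ∈ K.s) {p : K.R} (hp : p ∈ K.face σ) :
    seg hσ hp hp = Path.Homotopic.Quotient.refl p := by
  have h := seg_trans hσ hp hp hp
  exact trans_cancel_left (seg hσ hp hp) (by rw [h]; simp)

theorem seg_eq {σ τ : Finset V} (hσ : σ ∈ K.s) (hτ : τ ∈ K.s) {p q : K.R} (hp : p ∈ K.face σ)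
    (hq : q ∈ K.face σ) (hp' : p ∈ K.face τ) (hq' : q ∈ K.face τ) :
    seg hσ hp hq = seg hτ hp' hq' := rfl

/-! ### trivialisations -/

variable {W : Type*} [TopologicalSpace W]

/-- compatible classes of paths to the vertices -/
structure Triv (φ : C(K.R, W)) (w : W) where
  P : ∀ (v : V) (hv : {v} ∈ K.s), Q w (φ (Cx.vert v hv))
  edge : ∀ (v v' : V) (hv : {v} ∈ K.s) (hv' : {v'} ∈ K.s) (σ : Finset V) (hσ : σ ∈ K.s)
    (h : v ∈ σ) (h' : v' ∈ σ),
    (P v hv).trans ((seg hσ (vert_mem_face hv h) (vert_mem_face hv' h')).map φ) = P v' hv'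

theorem mk_eq_of_star {v : V} (hv : {v} ∈ K.s) {p q : K.R} {γ₁ γ₂ : Path p q}
    (h₁ : ∀ t, 0 < γ₁ t v) (h₂ : ∀ t, 0 < γ₂ t v) :
    Path.Homotopic.Quotient.mk γ₁ = Path.Homotopic.Quotient.mk γ₂ :=
  Path.Homotopic.Quotient.eq.2
    (homotopic_of_contractible (starAt_star hv).contractible γ₁ γ₂ h₁ h₂)

theorem mem_face_self (p : K.R) : p ∈ K.face p.m.support := Subset.rfl

/-- class of the segment from a vertex of the support -/
noncomputable def toPt (v : V) (p : K.R) (hv : 0 < p v) : Q (Cx.vert v (sing_mem hv)) p :=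
  seg p.mem (vert_mem_face _ (Cx.R.mem_support'.2 hv)) (mem_face_self p)

open Path.Homotopic.Quotient in
theorem map_trans' {X Y : Type*} [TopologicalSpace X] [TopologicalSpace Y] {x y z : X} (a : Q x y)
    (b : Q y z) (f : C(X, Y)) : (a.trans b).map f = (a.map f).trans (b.map f) := by
  induction a using Path.Homotopic.Quotient.ind with | mk a =>
  induction b using Path.Homotopic.Quotient.ind with | mk b =>
  rw [← mk_trans, ← mk_map, ← mk_map, ← mk_map, ← mk_trans, Path.map_trans]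

namespace Triv

variable {φ : C(K.R, W)} {w : W} (T : Triv φ w)

/-- class of paths to an arbitrary point, through a vertex -/
noncomputable def Qv (v : V) (p : K.R) (hv : 0 < p v) : Q w (φ p) :=
  (T.P v (sing_mem hv)).trans ((toPt v p hv).map φ)

theorem Qv_eq {v v' : V} {p : K.R} (hv : 0 < p v) (hv' : 0 < p v') : T.Qv v p hv = T.Qv v' p hv' := by
  unfold Qv
  rw [← T.edge v v' (sing_mem hv) (sing_mem hv') p.m.support p.mem (Cx.R.mem_support'.2 hv)
    (Cx.R.mem_support'.2 hv'), Path.Homotopic.Quotient.trans_assoc, ← map_trans']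
  unfold toPt
  rw [seg_trans]

theorem Qv_path {v : V} {p q : K.R} (hp : 0 < p v) (hq : 0 < q v) (γ : Path p q)
    (hγ : ∀ t, 0 < γ t v) :
    (T.Qv v p hp).trans ((Path.Homotopic.Quotient.mk γ).map φ) = T.Qv v q hq := by
  unfold Qv
  rw [Path.Homotopic.Quotient.trans_assoc, ← map_trans']
  congr 2
  unfold toPt seg
  rw [← Path.Homotopic.Quotient.mk_trans]
  refine mk_eq_of_star (v := v) (sing_mem hp)
    (trans_mem (A := {x : K.R | 0 < x v}) (fun t => ?_) hγ) (fun t => ?_)
  · exact segm_pos _ (vert_pos _) hp t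
  · exact segm_pos _ (vert_pos _) hq t

theorem Qv_sub {a b : K.R} (γ : Path a b) (t : ℕ → unitInterval) (ht0 : t 0 = 0)
    (ht : Monotone t) (c : ℕ → V) (hc : ∀ n, ∀ s ∈ Icc (t n) (t (n + 1)), 0 < γ s (c n)) (n : ℕ) :
    ∀ (v v' : V) (hp : 0 < γ 0 v) (hq : 0 < γ (t n) v'),
    (T.Qv v (γ 0) hp).trans ((Path.Homotopic.Quotient.mk (γ.subpath 0 (t n))).map φ) =
      T.Qv v' (γ (t n)) hq := by
  induction n with
  | zero =>
    rw [ht0]
    intro v v' hp hq
    rw [Path.subpath_self, Path.Homotopic.Quotient.mk_refl]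
    have h : (Path.Homotopic.Quotient.refl (γ 0)).map φ = Path.Homotopic.Quotient.refl (φ (γ 0)) := by
      rw [← Path.Homotopic.Quotient.mk_refl, ← Path.Homotopic.Quotient.mk_map,
        ← Path.Homotopic.Quotient.mk_refl]
      rfl
    rw [h, Path.Homotopic.Quotient.trans_refl]
    exact T.Qv_eq hp hq
  | succ n ih =>
    intro v v' hp hq
    have h1 : 0 < γ (t n) (c n) := hc n _ ⟨le_rfl, ht n.le_succ⟩
    have h2 : 0 < γ (t (n + 1)) (c n) := hc n _ ⟨ht n.le_succ, le_rfl⟩
    have h3 : Path.Homotopic.Quotient.mk (γ.subpath 0 (t (n + 1))) =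
        (Path.Homotopic.Quotient.mk (γ.subpath 0 (t n))).trans
          (Path.Homotopic.Quotient.mk (γ.subpath (t n) (t (n + 1)))) := by
      rw [← Path.Homotopic.Quotient.mk_trans]
      exact (Path.Homotopic.Quotient.eq.2 ⟨Path.Homotopy.subpathTransSubpath γ _ _ _⟩).symm
    rw [h3, map_trans', ← Path.Homotopic.Quotient.trans_assoc, ih v (c n) hp h1,
      T.Qv_path h1 h2, T.Qv_eq h2 hq]
    intro s
    have h4 : γ.subpath (t n) (t (n + 1)) s ∈ range (γ.subpath (t n) (t (n + 1))) := mem_range_self s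
    rw [Path.range_subpath_of_le _ _ _ (ht n.le_succ)] at h4
    obtain ⟨r, hr, hr'⟩ := h4
    rw [← hr']
    exact hc n r hr

theorem Qv_cast {a b a' b' : K.R} (γ : Path a b) (ha : a' = a) (hb : b' = b) {v v' : V}
    (hp : 0 < a v) (hq : 0 < b v') (hp' : 0 < a' v) (hq' : 0 < b' v')
    (h : (T.Qv v a' hp').trans ((Path.Homotopic.Quotient.mk (γ.cast ha hb)).map φ) = T.Qv v' b' hq') :
    (T.Qv v a hp).trans ((Path.Homotopic.Quotient.mk γ).map φ) = T.Qv v' b hq := by
  subst ha hb
  simpa using h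

theorem Qv_all {p q : K.R} (γ : Path p q) {v v' : V} (hp : 0 < p v) (hq : 0 < q v') :
    (T.Qv v p hp).trans ((Path.Homotopic.Quotient.mk γ).map φ) = T.Qv v' q hq := by
  obtain ⟨t, ht0, htm, ⟨n, hn⟩, hc⟩ := exists_monotone_Icc_subset_open_cover_unitInterval
    (c := fun v : V => {s : unitInterval | 0 < γ s v})
    (fun v => (Cx.isOpen_star v).preimage γ.continuous)
    (fun s _ => by
      obtain ⟨v, hv⟩ := (γ s).exists_pos
      exact mem_iUnion.2 ⟨v, hv⟩)
  choose c hc using hc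
  have hp' : 0 < γ 0 v := by rw [γ.source]; exact hp
  have hq' : 0 < γ 1 v' := by rw [γ.target]; exact hq
  refine T.Qv_cast γ γ.source γ.target hp hq hp' hq' ?_
  rw [← Path.subpath_zero_one]
  have h := T.Qv_sub γ t ht0 htm c (fun n s hs => hc n hs) n v v' hp'
  rw [hn n le_rfl] at h
  exact h hq'

include T in
/-- loops are killed -/
theorem loop {p : K.R} (γ : Path p p) :
    (Path.Homotopic.Quotient.mk γ).map φ = Path.Homotopic.Quotient.refl (φ p) := by
  obtain ⟨v, hv⟩ := p.exists_pos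
  refine trans_cancel_left (T.Qv v p hv) ?_
  rw [T.Qv_all γ hv hv, Path.Homotopic.Quotient.trans_refl]

end Triv

end cx

end Crest.Agent.R185.Base
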