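import Crest.Agent.R185.Base1

/-!
# Row 185, BASE, part 2: a finitely presented group is coarsely simply connected
(in the Milnor model): the inclusion `mil F L k ⊆ mil F' (L+3) (L+3)` admits a trivialisation.
-/

set_option autoImplicit false
set_option linter.unusedSectionVars false

open Set Topology
open Crest.Agent.R185.Att Crest.Agent.R185.Bld

namespace Crest.Agent.R185.Base

/-! ### classes of paths with a representative in a set -/

section InA

variable {X : Type*} [TopologicalSpace X]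

/-- group structure on the classes of loops (composition in diagrammatic order) -/
@[reducible] noncomputable def loopGroup (w : X) : Group (Q w w) where
  mul a b := a.trans b
  one := Path.Homotopic.Quotient.refl w
  inv a := a.symm
  mul_assoc a b c := Path.Homotopic.Quotient.trans_assoc a b c
  one_mul a := Path.Homotopic.Quotient.refl_trans a
  mul_one a := Path.Homotopic.Quotient.trans_refl a
  inv_mul_cancel a := Path.Homotopic.Quotient.symm_trans a

/-- the class has a representative in `A` -/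
def InA (A : Set X) {x y : X} (c : Q x y) : Prop :=
  ∃ γ : Path x y, Path.Homotopic.Quotient.mk γ = c ∧ ∀ t, γ t ∈ A

theorem InA.trans {A : Set X} {x y z : X} {c : Q x y} {d : Q y z} (hc : InA A c) (hd : InA A d) :
    InA A (c.trans d) := by
  obtain ⟨γ, rfl, h1⟩ := hc
  obtain ⟨δ, rfl, h2⟩ := hd
  exact ⟨γ.trans δ, Path.Homotopic.Quotient.mk_trans _ _, trans_mem h1 h2⟩

theorem InA.symm {A : Set X} {x y : X} {c : Q x y} (hc : InA A c) : InA A c.symm := by
  obtain ⟨γ, rfl, h1⟩ := hc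
  exact ⟨γ.symm, Path.Homotopic.Quotient.mk_symm _, symm_mem h1⟩

theorem InA.refl {A : Set X} {x : X} (hx : x ∈ A) : InA A (Path.Homotopic.Quotient.refl x) :=
  ⟨Path.refl x, Path.Homotopic.Quotient.mk_refl x, fun _ => hx⟩

theorem InA.eq {A : Set X} (hA : ContractibleSpace A) {x y : X} {c d : Q x y} (hc : InA A c)
    (hd : InA A d) : c = d := by
  obtain ⟨γ, rfl, h1⟩ := hc
  obtain ⟨δ, rfl, h2⟩ := hd
  exact Path.Homotopic.Quotient.eq.2 (homotopic_of_contractible hA γ δ h1 h2)

end InA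

/-! ### edges of a complex -/

section edges

variable {V : Type} {K : Cx V}

/-- the class of an edge -/
noncomputable def ed {x y : V} (h : ∃ σ ∈ K.s, x ∈ σ ∧ y ∈ σ) :
    Q (Cx.vert x (K.down h.choose_spec.1 (Finset.singleton_subset_iff.2 h.choose_spec.2.1)
        (Finset.singleton_nonempty x)) : K.R)
      (Cx.vert y (K.down h.choose_spec.1 (Finset.singleton_subset_iff.2 h.choose_spec.2.2)
        (Finset.singleton_nonempty y))) :=
  seg h.choose_spec.1 (vert_mem_face _ h.choose_spec.2.1) (vert_mem_face _ h.choose_spec.2.2)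

theorem vert_support {x : V} (hx : {x} ∈ K.s) : (Cx.vert x hx : K.R).m.support = {x} :=
  Finsupp.support_single _ one_ne_zero

theorem inA_seg {σ : Finset V} (hσ : σ ∈ K.s) {x y : V} (hx0 : {x} ∈ K.s) (hy0 : {y} ∈ K.s)
    (hx1 : x ∈ σ) (hy1 : y ∈ σ) {c : V → Prop} (hx : c x) (hy : c y) :
    InA {p : K.R | ∀ v ∈ p.m.support, c v}
      (seg hσ (vert_mem_face hx0 hx1) (vert_mem_face hy0 hy1)) := by
  classical
  refine ⟨_, rfl, fun t v hv => ?_⟩
  have h1 := Cx.mix_support_subset t _ _ hv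
  rw [vert_support, vert_support, Finset.mem_union, Finset.mem_singleton, Finset.mem_singleton] at h1
  rcases h1 with rfl | rfl
  · exact hx
  · exact hy

theorem inA_ed {x y : V} (h : ∃ σ ∈ K.s, x ∈ σ ∧ y ∈ σ) {c : V → Prop} (hx : c x) (hy : c y) :
    InA {p : K.R | ∀ v ∈ p.m.support, c v} (ed h) := by
  classical
  refine ⟨_, rfl, fun t v hv => ?_⟩
  have h1 := Cx.mix_support_subset t _ _ hv
  rw [vert_support, vert_support, Finset.mem_union, Finset.mem_singleton, Finset.mem_singleton] at h1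
  rcases h1 with rfl | rfl
  · exact hx
  · exact hy

end edges

/-! ### the Milnor model -/

section mil

variable {G : Type} [Group G]

theorem mem_mil {F : Finset G} {M : ℕ} {σ : Finset (G × ℕ)}
    (h1 : ∀ a ∈ σ, ∀ b ∈ σ, a.1⁻¹ * b.1 ∈ F ∧ (a.2 = b.2 → a = b)) (h2 : ∀ a ∈ σ, a.2 < M) :
    σ ∈ (mil F M M).s := by
  refine ⟨h1, h2, ?_⟩
  have := Finset.card_le_card_of_injOn (s := σ) (t := Finset.range M) (fun a => a.2)
    (fun a ha => by simpa using h2 a ha) (fun a ha b hb hab => (h1 a ha b hb).2 hab)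
  simpa using this

theorem sing_mil {F : Finset G} {M : ℕ} (h1 : 1 ∈ F) {x : G × ℕ} (hx : x.2 < M) :
    {x} ∈ (mil F M M).s := by
  apply mem_mil
  · intro a ha b hb
    rw [Finset.mem_singleton] at ha hb
    subst ha hb
    simp [h1]
  · intro a ha
    rw [Finset.mem_singleton] at ha
    subst ha
    exact hx

theorem pair_mil {F : Finset G} {M : ℕ} (h1 : 1 ∈ F) {x y : G × ℕ} (hx : x.2 < M) (hy : y.2 < M)
    (hxy : x.1⁻¹ * y.1 ∈ F) (hyx : y.1⁻¹ * x.1 ∈ F) (hne : x.2 = y.2 → x = y) :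
    ∃ σ ∈ (mil F M M).s, x ∈ σ ∧ y ∈ σ := by
  classical
  refine ⟨{x, y}, mem_mil ?_ ?_, by simp, by simp⟩
  · intro a ha b hb
    rw [Finset.mem_insert, Finset.mem_singleton] at ha hb
    rcases ha with rfl | rfl <;> rcases hb with rfl | rfl
    · simp [h1]
    · exact ⟨hxy, hne⟩
    · exact ⟨hyx, fun h => (hne h.symm).symm⟩
    · simp [h1]
  · intro a ha
    rw [Finset.mem_insert, Finset.mem_singleton] at ha
    rcases ha with rfl | rfl
    · exact hx
    · exact hy

/-- the data: `B` the ball, `F'` the scale -/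
structure Scale (B F' : Finset G) : Prop where
  one : 1 ∈ B
  sub : B ⊆ F'
  inv : ∀ b ∈ B, b⁻¹ ∈ F'

variable {B F' : Finset G} {L : ℕ}

/-- the cone condition -/
def cond (B : Finset G) (L : ℕ) (g : G) (x : G × ℕ) : Prop :=
  g⁻¹ * x.1 ∈ B ∧ (x.2 = L + 2 → x.1 = g)

/-- the subset of the model near `g` -/
def Ag (B F' : Finset G) (L : ℕ) (g : G) : Set (mil F' (L + 3) (L + 3)).R :=
  {p | ∀ v ∈ p.m.support, cond B L g v}

theorem contractible_Ag (h : Scale B F') (g : G) : ContractibleSpace (Ag B F' L g) := by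
  classical
  have h1 : (1 : G) ∈ F' := h.sub h.one
  have hs : {((g, L + 2) : G × ℕ)} ∈ (mil F' (L + 3) (L + 3)).s := sing_mil h1 (by simp)
  refine StarAt.contractible (c := Cx.vert (g, L + 2) hs) ⟨?_, fun p hp => ?_⟩
  · intro v hv
    rw [vert_support, Finset.mem_singleton] at hv
    subst hv
    exact ⟨by simpa using h.one, fun _ => rfl⟩
  · have h2 : p.m.support ∪ (Cx.vert (g, L + 2) hs : (mil F' (L + 3) (L + 3)).R).m.support ∈
        (mil F' (L + 3) (L + 3)).s := by
      rw [vert_support]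
      have h3 := p.mem
      apply mem_mil
      · intro a ha b hb
        rw [Finset.mem_union, Finset.mem_singleton] at ha hb
        rcases ha with ha | rfl <;> rcases hb with hb | rfl
        · exact h3.1 a ha b hb
        · obtain ⟨h4, h5⟩ := hp a ha
          refine ⟨?_, fun h6 => Prod.ext (h5 h6) h6⟩
          have := h.inv _ h4
          simpa using this
        · obtain ⟨h4, h5⟩ := hp b hb
          exact ⟨h.sub h4, fun h6 => Prod.ext (h5 h6.symm).symm h6⟩
        · simp [h1]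
      · intro a ha
        rw [Finset.mem_union, Finset.mem_singleton] at ha
        rcases ha with ha | rfl
        · exact h3.2.1 a ha
        · simp
    refine ⟨fun t => joinable h2 t, fun t v hv => ?_⟩
    have h3 := Cx.mix_support_subset t _ _ hv
    rw [vert_support, Finset.mem_union, Finset.mem_singleton] at h3
    rcases h3 with h3 | rfl
    · exact hp v h3
    · exact ⟨by simpa using h.one, fun _ => rfl⟩

/-- the vertex `(g, L)` -/
noncomputable def VL (h1 : (1 : G) ∈ F') (L : ℕ) (g : G) : (mil F' (L + 3) (L + 3)).R :=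
  Cx.vert (g, L) (sing_mil h1 (by simp))

/-- the path `(g,L) → (g a, L+1) → (g a, L)` -/
noncomputable def mu (h1 : (1 : G) ∈ F') (L : ℕ) {a : G} (ha : a ∈ F') (ha' : a⁻¹ ∈ F') (g : G) :
    Q (VL h1 L g) (VL h1 L (g * a)) :=
  (ed (x := (g, L)) (y := (g * a, L + 1)) (pair_mil h1 (by simp) (by simp) (by simpa using ha)
    (by simpa using ha') (by simp))).trans
  (ed (x := (g * a, L + 1)) (y := (g * a, L)) (pair_mil h1 (by simp) (by simp) (by simpa using h1)
    (by simpa using h1) (by simp)))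

theorem cond_L {g x : G} (h : g⁻¹ * x ∈ B) : cond B L g (x, L) := ⟨h, fun h => by simp at h⟩
theorem cond_L1 {g x : G} (h : g⁻¹ * x ∈ B) : cond B L g (x, L + 1) := ⟨h, fun h => by simp at h⟩

theorem inA_mu (h1 : (1 : G) ∈ F') {a : G} (ha : a ∈ F') (ha' : a⁻¹ ∈ F') {g g₀ : G}
    (hg : g₀⁻¹ * g ∈ B) (hg' : g₀⁻¹ * (g * a) ∈ B) :
    InA (Ag B F' L g₀) (mu h1 L ha ha' g) :=
  InA.trans (inA_ed _ (cond_L hg) (cond_L1 hg')) (inA_ed _ (cond_L1 hg') (cond_L hg'))

theorem VL_mem (h1 : (1 : G) ∈ F') {g g₀ : G} (hg : g₀⁻¹ * g ∈ B) : VL h1 L g ∈ Ag B F' L g₀ := by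
  intro v hv
  unfold VL at hv
  rw [vert_support, Finset.mem_singleton] at hv
  subst hv
  exact cond_L hg

section act

variable {n : ℕ} (φ : FreeGroup (Fin n) →* G) (h1 : (1 : G) ∈ F')
  (hS : ∀ i, φ (FreeGroup.of i) ∈ F' ∧ (φ (FreeGroup.of i))⁻¹ ∈ F')

/-- a letter -/
abbrev sgen (i : Fin n) : G := φ (FreeGroup.of i)

variable (L) in
include hS in
theorem exists_tau (hφ : Function.Surjective φ) (g : G) :
    Nonempty (Q (VL h1 L 1) (VL h1 L g)) := by
  have key : ∀ u : FreeGroup (Fin n), ∀ g : G, Nonempty (Q (VL h1 L g) (VL h1 L (g * φ u))) := by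
    intro u
    induction u using FreeGroup.induction_on with
    | C1 => intro g; rw [map_one, mul_one]; exact ⟨Path.Homotopic.Quotient.refl _⟩
    | of i => intro g; exact ⟨mu h1 L (hS i).1 (hS i).2 g⟩
    | inv_of i ih =>
      intro g
      obtain ⟨c⟩ := ih (g * (φ (FreeGroup.of i))⁻¹)
      rw [inv_mul_cancel_right] at c
      rw [map_inv]
      exact ⟨c.symm⟩
    | mul x y hx hy =>
      intro g
      obtain ⟨c⟩ := hx g
      obtain ⟨d⟩ := hy (g * φ x)
      rw [mul_assoc, ← map_mul] at d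
      exact ⟨c.trans d⟩
  obtain ⟨u, rfl⟩ := hφ g
  have := key u 1
  rwa [one_mul] at this

variable (τ : ∀ g : G, Q (VL h1 L 1) (VL h1 L g))

attribute [local instance] loopGroup

/-- the loop of a letter -/
noncomputable def lam (i : Fin n) (g : G) : Q (VL h1 L 1) (VL h1 L 1) :=
  (τ g).trans ((mu h1 L (hS i).1 (hS i).2 g).trans (τ (g * φ (FreeGroup.of i))).symm)

/-- the permutation of a letter -/
noncomputable def perm (i : Fin n) : Equiv.Perm (G × Q (VL h1 L 1) (VL h1 L 1)) where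
  toFun p := (p.1 * (φ (FreeGroup.of i))⁻¹,
    p.2 * (lam φ h1 hS τ i (p.1 * (φ (FreeGroup.of i))⁻¹))⁻¹)
  invFun p := (p.1 * φ (FreeGroup.of i), p.2 * lam φ h1 hS τ i p.1)
  left_inv p := by simp
  right_inv p := by simp

/-- the action of the free group -/
noncomputable def rho : FreeGroup (Fin n) →* Equiv.Perm (G × Q (VL h1 L 1) (VL h1 L 1)) :=
  FreeGroup.lift (perm φ h1 hS τ)

theorem rho_fst (u : FreeGroup (Fin n)) (p : G × Q (VL h1 L 1) (VL h1 L 1)) :
    (rho φ h1 hS τ u p).1 = p.1 * (φ u)⁻¹ := by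
  induction u using FreeGroup.induction_on generalizing p with
  | C1 => simp
  | of i => simp [rho, perm]
  | inv_of i ih => simp [rho, perm]
  | mul x y hx hy => rw [map_mul, Equiv.Perm.mul_apply, hx, hy, map_mul]; group

/-- the suffixes of a word stay in the ball -/
def Sub (B : Finset G) (u : List (Fin n × Bool)) : Prop :=
  ∀ v, v <:+ u → (φ (FreeGroup.mk v))⁻¹ ∈ B

theorem symm_trans_cancel {X : Type*} [TopologicalSpace X] {x y z : X} (a : Q x y) (b : Q y z) :
    a.symm.trans (a.trans b) = b := by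
  rw [← Path.Homotopic.Quotient.trans_assoc, Path.Homotopic.Quotient.symm_trans,
    Path.Homotopic.Quotient.refl_trans]

theorem trans_symm_cancel {X : Type*} [TopologicalSpace X] {x y z : X} (a : Q x y) (b : Q x z) :
    a.trans (a.symm.trans b) = b := by
  rw [← Path.Homotopic.Quotient.trans_assoc, Path.Homotopic.Quotient.trans_symm,
    Path.Homotopic.Quotient.refl_trans]

theorem good (hB : (1 : G) ∈ B) (u : List (Fin n × Bool)) (hu : Sub φ B u) (g : G)
    (α : Q (VL h1 L 1) (VL h1 L 1)) (x : G) (hx : x = g * (φ (FreeGroup.mk u))⁻¹) :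
    ∃ c : Q (VL h1 L g) (VL h1 L x), InA (Ag B F' L g) c ∧
      rho φ h1 hS τ (FreeGroup.mk u) (g, α) =
        (x, α.trans ((τ g).trans (c.trans (τ x).symm))) := by
  induction u generalizing x with
  | nil =>
    have h0 : (FreeGroup.mk ([] : List (Fin n × Bool))) = 1 := rfl
    rw [h0, map_one, inv_one, mul_one] at hx
    subst hx
    refine ⟨Path.Homotopic.Quotient.refl _, InA.refl (VL_mem h1 (by simpa using hB)), ?_⟩
    rw [h0, map_one]
    simp
  | cons a u ih =>
    have hu' : Sub φ B u := fun v hv => hu v (hv.trans (List.suffix_cons a u))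
    obtain ⟨i, b⟩ := a
    cases b with
    | true =>
      have h0 : FreeGroup.mk ((i, true) :: u) = FreeGroup.of i * FreeGroup.mk u := by
        rw [FreeGroup.of, FreeGroup.mul_mk]; rfl
      have hx' : x * φ (FreeGroup.of i) = g * (φ (FreeGroup.mk u))⁻¹ := by
        rw [hx, h0, map_mul]; group
      obtain ⟨c, hc, hc'⟩ := ih hu' _ hx'
      refine ⟨c.trans (mu h1 L (hS i).1 (hS i).2 x).symm, hc.trans (InA.symm (inA_mu h1 _ _ ?_ ?_)), ?_⟩
      · have := hu _ List.suffix_rfl
        rw [hx]; simpa using this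
      · have := hu' _ List.suffix_rfl
        rw [hx']; simpa using this
      · rw [h0, map_mul, Equiv.Perm.mul_apply, hc']
        have h2 : rho φ h1 hS τ (FreeGroup.of i) = perm φ h1 hS τ i := by simp [rho]
        rw [h2]
        show ((_ : G), (_ : Q (VL h1 L 1) (VL h1 L 1))) = _
        rw [mul_inv_cancel_right]
        refine Prod.ext rfl ?_
        show Path.Homotopic.Quotient.trans _ (Path.Homotopic.Quotient.symm _) = _
        refine trans_cancel_right (lam φ h1 hS τ i x) ?_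
        rw [Path.Homotopic.Quotient.trans_assoc, Path.Homotopic.Quotient.symm_trans,
          Path.Homotopic.Quotient.trans_refl]
        unfold lam
        simp only [Path.Homotopic.Quotient.trans_assoc, symm_trans_cancel]
    | false =>
      have h0 : FreeGroup.mk ((i, false) :: u) = (FreeGroup.of i)⁻¹ * FreeGroup.mk u := by
        rw [FreeGroup.of, FreeGroup.inv_mk, FreeGroup.mul_mk]; rfl
      obtain ⟨y, hy⟩ : ∃ y, y = g * (φ (FreeGroup.mk u))⁻¹ := ⟨_, rfl⟩
      have hx' : x = y * φ (FreeGroup.of i) := by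
        rw [hx, hy, h0, map_mul, map_inv]; group
      subst hx'
      obtain ⟨c, hc, hc'⟩ := ih hu' _ hy
      refine ⟨c.trans (mu h1 L (hS i).1 (hS i).2 y), hc.trans (inA_mu h1 _ _ ?_ ?_), ?_⟩
      · have := hu' _ List.suffix_rfl
        rw [hy]; simpa using this
      · have := hu _ List.suffix_rfl
        rw [hx]; simpa using this
      · rw [h0, map_mul, Equiv.Perm.mul_apply, hc']
        have h2 : rho φ h1 hS τ (FreeGroup.of i)⁻¹ = (perm φ h1 hS τ i)⁻¹ := by simp [rho]
        rw [h2]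
        refine Prod.ext rfl ?_
        show Path.Homotopic.Quotient.trans _ (lam φ h1 hS τ i y) = _
        unfold lam
        simp only [Path.Homotopic.Quotient.trans_assoc, symm_trans_cancel]

theorem rho_eq_one (hsc : Scale B F') (u : FreeGroup (Fin n)) (hu : Sub φ B u.toWord)
    (h : φ u = 1) : rho φ h1 hS τ u = 1 := by
  apply Equiv.ext
  rintro ⟨g, α⟩
  have hmk : FreeGroup.mk u.toWord = u := FreeGroup.mk_toWord
  obtain ⟨c, hc, hc'⟩ := good φ h1 hS τ hsc.one u.toWord hu g α g (by rw [hmk, h]; simp)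
  have hc0 : c = Path.Homotopic.Quotient.refl _ :=
    InA.eq (contractible_Ag hsc g) hc (InA.refl (VL_mem h1 (by simpa using hsc.one)))
  rw [hmk] at hc'
  rw [hc', hc0]
  simp

theorem rho_ker (hsc : Scale B F') (R : Set (FreeGroup (Fin n)))
    (hR : Subgroup.normalClosure R = φ.ker) (hu : ∀ r ∈ R, Sub φ B r.toWord)
    (u : FreeGroup (Fin n)) (h : φ u = 1) : rho φ h1 hS τ u = 1 := by
  have h2 : R ⊆ (rho φ h1 hS τ).ker := by
    intro r hr
    have h3 : r ∈ φ.ker := hR ▸ Subgroup.subset_normalClosure hr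
    exact rho_eq_one φ h1 hS τ hsc r (hu r hr) h3
  have h4 := Subgroup.normalClosure_le_normal h2
  rw [hR] at h4
  exact h4 h

include hS τ in
theorem exists_E (hsc : Scale B F') (hφ : Function.Surjective φ) (R : Set (FreeGroup (Fin n)))
    (hR : Subgroup.normalClosure R = φ.ker) (hu : ∀ r ∈ R, Sub φ B r.toWord) :
    ∃ E : ∀ g : G, Q (VL h1 L 1) (VL h1 L g), ∀ (g a : G) (u : List (Fin n × Bool)), Sub φ B u →
      a = (φ (FreeGroup.mk u))⁻¹ →
      ∃ c : Q (VL h1 L g) (VL h1 L (g * a)), InA (Ag B F' L g) c ∧ E (g * a) = (E g).trans c := by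
  choose ω hω using fun g : G => hφ g⁻¹
  let β : G → Q (VL h1 L 1) (VL h1 L 1) := fun g => (rho φ h1 hS τ (ω g) (1, 1)).2
  have hβ : ∀ (g : G) (u : FreeGroup (Fin n)), φ u = g⁻¹ → rho φ h1 hS τ u (1, 1) = (g, β g) := by
    intro g u hg
    have h2 : rho φ h1 hS τ u = rho φ h1 hS τ (ω g) := by
      have h3 := rho_ker φ h1 hS τ hsc R hR hu (u * (ω g)⁻¹) (by rw [map_mul, map_inv, hg, hω]; simp)
      rw [map_mul, map_inv] at h3
      exact mul_inv_eq_one.1 h3
    rw [h2]
    refine Prod.ext ?_ rfl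
    rw [rho_fst, hω]
    simp
  refine ⟨fun g => (β g).trans (τ g), fun g a u hu' ha => ?_⟩
  obtain ⟨c, hc, hc'⟩ := good φ h1 hS τ hsc.one u hu' g (β g) (g * a) (by rw [ha])
  refine ⟨c, hc, ?_⟩
  have h3 := hβ (g * a) (FreeGroup.mk u * ω g) (by
    rw [map_mul, hω, mul_inv_rev, ha, inv_inv])
  rw [map_mul, Equiv.Perm.mul_apply, hβ g (ω g) (hω g), hc'] at h3
  have h4 := (Prod.ext_iff.1 h3).2
  show (β (g * a)).trans (τ (g * a)) = ((β g).trans (τ g)).trans c
  have h5 : β (g * a) = (β g).trans ((τ g).trans (c.trans (τ (g * a)).symm)) := h4.symm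
  rw [h5]
  simp only [Path.Homotopic.Quotient.trans_assoc, Path.Homotopic.Quotient.symm_trans,
    Path.Homotopic.Quotient.trans_refl]

end act

/-! ### the trivialisation -/

theorem assoc_swap {X : Type*} [TopologicalSpace X] {w x y z x' : X} (a : Q w x) (b : Q x y)
    (s : Q y z) (c : Q x x') (d : Q x' z) (h : b.trans s = c.trans d) :
    (a.trans b).trans s = (a.trans c).trans d := by
  rw [Path.Homotopic.Quotient.trans_assoc, Path.Homotopic.Quotient.trans_assoc, h]

theorem mil_sub {F : Finset G} {k M : ℕ} (hF : F ⊆ F') (hM : L ≤ M) :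
    (mil F L k).s ⊆ (mil F' M M).s := by
  intro σ hσ
  exact mem_mil (fun a ha b hb => ⟨hF (hσ.1 a ha b hb).1, (hσ.1 a ha b hb).2⟩)
    fun a ha => (hσ.2.1 a ha).trans_le hM

/-- the inclusion as a continuous map -/
def inc {K K' : Cx (G × ℕ)} (h : K.s ⊆ K'.s) : C(K.R, K'.R) := ⟨Cx.R.incl h, Cx.continuous_incl h⟩

theorem inc_vert {K K' : Cx (G × ℕ)} (h : K.s ⊆ K'.s) {v : G × ℕ} (hv : {v} ∈ K.s) :
    inc h (Cx.vert v hv) = Cx.vert v (h hv) := rfl

theorem inc_seg {K K' : Cx (G × ℕ)} (h : K.s ⊆ K'.s) {σ : Finset (G × ℕ)} (hσ : σ ∈ K.s)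
    {p q : K.R} (hp : p ∈ K.face σ) (hq : q ∈ K.face σ) :
    (seg hσ hp hq).map (inc h) = seg (K := K') (p := inc h p) (q := inc h q) (h hσ) hp hq := by
  unfold seg
  rw [← Path.Homotopic.Quotient.mk_map]
  rfl

/-- **Coarse simple connectivity** of a finitely presented group, in the Milnor model. -/
theorem exists_triv (G : Type) [Group G] (hG : Group.IsFinitelyPresented G) (F : Finset G) (L : ℕ) :
    ∃ (F' : Finset G) (_ : F ⊆ F') (h : ∀ k, (mil F L k).s ⊆ (mil F' (L + 3) (L + 3)).s)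
      (w : MJ F' (L + 3) (L + 3)), ∀ k, Nonempty (Triv (inc (h k)) w) := by
  classical
  obtain ⟨n, φ, hφ, R, hRf, hR⟩ := hG.out
  choose om hom using fun g : G => hφ g⁻¹
  -- the suffixes
  let sf : List (Fin n × Bool) → Finset G := fun u =>
    (u.tails.map fun v => (φ (FreeGroup.mk v))⁻¹).toFinset
  have hsf : ∀ u v, v <:+ u → (φ (FreeGroup.mk v))⁻¹ ∈ sf u := by
    intro u v hv
    simp only [sf, List.mem_toFinset, List.mem_map]
    exact ⟨v, (List.mem_tails _ _).2 hv, rfl⟩
  let B : Finset G := {1} ∪ F ∪ (hRf.toFinset.biUnion fun r => sf r.toWord) ∪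
    F.biUnion fun a => sf (om a).toWord
  let F' : Finset G := B ∪ B.image (fun b => b⁻¹) ∪
    (Finset.univ.image fun i : Fin n => φ (FreeGroup.of i)) ∪
    (Finset.univ.image fun i : Fin n => (φ (FreeGroup.of i))⁻¹)
  have hsc : Scale B F' := by
    refine ⟨?_, ?_, ?_⟩
    · simp [B]
    · intro b hb
      simp only [F', Finset.mem_union]
      exact Or.inl (Or.inl (Or.inl hb))
    · intro b hb
      simp only [F', Finset.mem_union]
      exact Or.inl (Or.inl (Or.inr (Finset.mem_image_of_mem _ hb)))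
  have hFB : F ⊆ B := by
    intro a ha
    simp only [B, Finset.mem_union]
    exact Or.inl (Or.inl (Or.inr ha))
  have h1 : (1 : G) ∈ F' := hsc.sub hsc.one
  have hS : ∀ i, φ (FreeGroup.of i) ∈ F' ∧ (φ (FreeGroup.of i))⁻¹ ∈ F' := by
    intro i
    simp only [F', Finset.mem_union]
    exact ⟨Or.inl (Or.inr (Finset.mem_image_of_mem _ (Finset.mem_univ _))),
      Or.inr (Finset.mem_image_of_mem _ (Finset.mem_univ _))⟩
  have hτ := fun g => exists_tau (F' := F') L φ h1 hS hφ g
  have τ : ∀ g : G, Q (VL h1 L 1) (VL h1 L g) := fun g => (hτ g).some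
  have hRs : ∀ r ∈ R, Sub φ B r.toWord := by
    intro r hr v hv
    simp only [B, Finset.mem_union, Finset.mem_biUnion]
    exact Or.inl (Or.inr ⟨r, by simpa using hr, hsf _ _ hv⟩)
  obtain ⟨E, hE⟩ := exists_E (B := B) (L := L) φ h1 hS τ hsc hφ R hR hRs
  have hsub : ∀ k, (mil F L k).s ⊆ (mil F' (L + 3) (L + 3)).s := fun k =>
    mil_sub (hFB.trans hsc.sub) (by omega)
  have hE' : ∀ g x : G, g⁻¹ * x ∈ F → ∃ c : Q (VL h1 L g) (VL h1 L x),
      InA (Ag B F' L g) c ∧ E x = (E g).trans c := by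
    intro g x hx
    obtain ⟨a, rfl⟩ : ∃ a, x = g * a := ⟨g⁻¹ * x, by group⟩
    rw [inv_mul_cancel_left] at hx
    refine hE g a (om a).toWord (fun v hv => ?_) ?_
    · simp only [B, Finset.mem_union, Finset.mem_biUnion]
      exact Or.inr ⟨a, hx, hsf _ _ hv⟩
    · rw [FreeGroup.mk_toWord, hom, inv_inv]
  have hvert : ∀ k (v : G × ℕ), {v} ∈ (mil F L k).s → v.2 < L := fun k v hv =>
    hv.2.1 v (Finset.mem_singleton_self v)
  have hpair : ∀ v : G × ℕ, v.2 < L → ∃ σ ∈ (mil F' (L + 3) (L + 3)).s,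
      ((v.1, L) : G × ℕ) ∈ σ ∧ v ∈ σ := by
    intro v hv
    refine pair_mil h1 (by simp) (by omega) (by simpa using h1) (by simpa using h1) ?_
    intro h
    simp only at h
    omega
  refine ⟨F', hFB.trans hsc.sub, hsub, VL h1 L 1, fun k => ⟨⟨fun v hv =>
    (E v.1).trans (ed (hpair v (hvert k v hv))), ?_⟩⟩⟩
  intro v v' hv hv' σ hσ h h'
  obtain ⟨c, hc, hc'⟩ := hE' v.1 v'.1 (hσ.1 v h v' h').1
  have hvB : v.1⁻¹ * v'.1 ∈ B := hFB (hσ.1 v h v' h').1
  have hc1 : cond B L v.1 v := ⟨by simpa using hsc.one, fun _ => rfl⟩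
  have hc2 : cond B L v.1 v' := ⟨hvB, fun h => by have := hvert k v' hv'; omega⟩
  rw [hc']
  refine assoc_swap (x := VL h1 L v.1) (y := Cx.vert v (hsub k hv)) (z := Cx.vert v' (hsub k hv'))
    (E v.1) (ed (hpair v (hvert k v hv)))
    (seg (hsub k hσ) (vert_mem_face (hsub k hv) h) (vert_mem_face (hsub k hv') h')) c
    (ed (hpair v' (hvert k v' hv'))) ?_
  refine InA.eq (contractible_Ag hsc v.1) (InA.trans ?_ ?_) (InA.trans hc ?_)
  · exact inA_ed (hpair v (hvert k v hv)) (c := cond B L v.1)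
      (cond_L (by simpa using hsc.one)) hc1
  · exact inA_seg (hsub k hσ) (hsub k hv) (hsub k hv') h h' hc1 hc2
  · exact inA_ed (hpair v' (hvert k v' hv')) (c := cond B L v.1) (cond_L hvB) hc2

end mil

end Crest.Agent.R185.Base
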