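import Crest.Agent.R185.Bld1
import Crest.Agent.R185.Base2

/-!
# Row 185, BASE, part 3: spheres `S 1`, `S 2` (two points, a circle) in the Milnor model of a finitely
presented group are filled.
-/

set_option autoImplicit false
set_option linter.unusedSectionVars false

open Set Topology Metric
open Crest.Agent.R185.Att Crest.Agent.R185.Bld

namespace Crest.Agent.R185.Base

/-! ### parametrisation of the circle -/

/-- the curve `(cos 2πt, sin 2πt)` -/
noncomputable def cs (t : ℝ) : Fin 2 → ℝ := ![Real.cos (2 * Real.pi * t), Real.sin (2 * Real.pi * t)]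

theorem cs_zero (t : ℝ) : cs t 0 = Real.cos (2 * Real.pi * t) := rfl
theorem cs_one (t : ℝ) : cs t 1 = Real.sin (2 * Real.pi * t) := rfl

theorem cs_sq (t : ℝ) : cs t 0 ^ 2 + cs t 1 ^ 2 = 1 := by
  rw [cs_zero, cs_one]; exact Real.cos_sq_add_sin_sq _

theorem cs_ne (t : ℝ) : cs t ≠ 0 := by
  intro h
  have := cs_sq t
  rw [h] at this
  simp at this

theorem continuous_cs : Continuous cs := by
  refine continuous_pi fun i => ?_
  fin_cases i
  · show Continuous fun t => Real.cos (2 * Real.pi * t)
    fun_prop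
  · show Continuous fun t => Real.sin (2 * Real.pi * t)
    fun_prop

/-- the parametrisation of the boundary of the square -/
noncomputable def cr (t : ℝ) : S 2 := rad (cs t) (cs_ne t)

theorem continuous_cr : Continuous cr := by
  apply Continuous.subtype_mk
  exact (continuous_cs.norm.inv₀ fun t => norm_ne_zero_iff.2 (cs_ne t)).smul continuous_cs

theorem cr_eq {t t' : ℝ} (h : cr t = cr t') : cs t = cs t' := by
  have h1 := rad_spec (cs t) (cs_ne t)
  have h2 := rad_spec (cs t') (cs_ne t')
  have h3 : (rad (cs t) (cs_ne t)) = rad (cs t') (cs_ne t') := h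
  rw [h3] at h1
  set E : Fin 2 → ℝ := (rad (cs t') (cs_ne t') : Fin 2 → ℝ) with hE
  have a1 := cs_sq t
  have a2 := cs_sq t'
  have b1 : ∀ i, cs t i = ‖cs t‖ * E i := fun i => by
    conv_lhs => rw [h1]
    rfl
  have b2 : ∀ i, cs t' i = ‖cs t'‖ * E i := fun i => by
    conv_lhs => rw [h2]
    rfl
  have hn : ‖cs t‖ = ‖cs t'‖ := by
    rw [b1, b1] at a1
    rw [b2, b2] at a2
    have c1 : ‖cs t‖ ^ 2 * (E 0 ^ 2 + E 1 ^ 2) = 1 := by linarith [a1, mul_pow ‖cs t‖ (E 0) 2, mul_pow ‖cs t‖ (E 1) 2]
    have c2 : ‖cs t'‖ ^ 2 * (E 0 ^ 2 + E 1 ^ 2) = 1 := by linarith [a2, mul_pow ‖cs t'‖ (E 0) 2, mul_pow ‖cs t'‖ (E 1) 2]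
    have c3 : E 0 ^ 2 + E 1 ^ 2 ≠ 0 := by
      intro h0
      rw [h0, mul_zero] at c1
      exact zero_ne_one c1
    have c4 : ‖cs t‖ ^ 2 = ‖cs t'‖ ^ 2 := mul_right_cancel₀ c3 (c1.trans c2.symm)
    exact (pow_left_inj₀ (norm_nonneg _) (norm_nonneg _) two_ne_zero).1 c4
  funext i
  rw [b1, b2, hn]

theorem cr_inj {t t' : unitInterval} (h : cr t = cr t') :
    t = t' ∨ (t = 0 ∧ t' = 1) ∨ (t = 1 ∧ t' = 0) := by
  have h1 := cr_eq h
  have h2 : Real.cos (2 * Real.pi * t) = Real.cos (2 * Real.pi * t') := congrFun h1 0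
  have h3 : Real.sin (2 * Real.pi * t) = Real.sin (2 * Real.pi * t') := congrFun h1 1
  have h4 := Real.Angle.cos_sin_inj h2 h3
  rw [Real.Angle.angle_eq_iff_two_pi_dvd_sub] at h4
  obtain ⟨k, hk⟩ := h4
  have hk' : (t : ℝ) - t' = k := by
    have : 2 * Real.pi * ((t : ℝ) - t') = 2 * Real.pi * k := by linarith
    exact mul_left_cancel₀ (by positivity) this
  have b1 := t.2.1
  have b2 := t.2.2
  have b3 := t'.2.1
  have b4 := t'.2.2
  have k1 : (k : ℝ) ≤ 1 := by linarith
  have k2 : (-1 : ℝ) ≤ k := by linarith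
  have k1' : k ≤ 1 := by exact_mod_cast k1
  have k2' : -1 ≤ k := by exact_mod_cast k2
  have k3 : k = -1 ∨ k = 0 ∨ k = 1 := by omega
  rcases k3 with rfl | rfl | rfl
  · right; left
    constructor
    · apply Subtype.ext
      show (t : ℝ) = 0
      push_cast at hk'
      linarith
    · apply Subtype.ext
      show (t' : ℝ) = 1
      push_cast at hk'
      linarith
  · left
    apply Subtype.ext
    push_cast at hk'
    linarith
  · right; right
    constructor
    · apply Subtype.ext
      show (t : ℝ) = 1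
      push_cast at hk'
      linarith
    · apply Subtype.ext
      show (t' : ℝ) = 0
      push_cast at hk'
      linarith

theorem cr_surj (s : S 2) : ∃ t : unitInterval, cr t = s := by
  obtain ⟨x, hx⟩ := s
  let z : ℂ := ⟨x 0, x 1⟩
  have hz : z ≠ 0 := by
    intro h
    have h0 : x 0 = 0 := congrArg Complex.re h
    have h1 : x 1 = 0 := congrArg Complex.im h
    have hx0 : x = 0 := by
      funext i; fin_cases i
      · exact h0
      · exact h1
    rw [hx0, mem_sphere_zero_iff_norm, norm_zero] at hx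
    exact zero_ne_one hx
  let r : ℝ := z.arg / (2 * Real.pi)
  refine ⟨⟨Int.fract r, Int.fract_nonneg r, (Int.fract_lt_one r).le⟩, ?_⟩
  have hcs : cs (Int.fract r) = ‖z‖⁻¹ • x := by
    have h1 : 2 * Real.pi * Int.fract r = z.arg - (⌊r⌋ : ℝ) * (2 * Real.pi) := by
      have : Int.fract r = r - ⌊r⌋ := rfl
      rw [this]
      simp only [r]
      field_simp
    funext i
    fin_cases i
    · show Real.cos (2 * Real.pi * Int.fract r) = ‖z‖⁻¹ * x 0
      rw [h1, Real.cos_sub_int_mul_two_pi, Complex.cos_arg hz, div_eq_inv_mul]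
    · show Real.sin (2 * Real.pi * Int.fract r) = ‖z‖⁻¹ * x 1
      rw [h1, Real.sin_sub_int_mul_two_pi, Complex.sin_arg, div_eq_inv_mul]
  symm
  refine rad_unique _ ?_
  have hx1 : ‖x‖ = 1 := mem_sphere_zero_iff_norm.1 hx
  show cs (Int.fract r) = ‖cs (Int.fract r)‖ • x
  rw [hcs, norm_smul, hx1, mul_one, norm_inv, norm_norm]

/-- the closed path around the square -/
noncomputable def cpath : Path (cr 0) (cr 0) where
  toFun t := cr t
  continuous_toFun := continuous_cr.comp continuous_subtype_val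
  source' := rfl
  target' := by
    show cr 1 = cr 0
    have : cs 1 = cs 0 := by
      funext i; fin_cases i
      · show Real.cos (2 * Real.pi * 1) = Real.cos (2 * Real.pi * 0)
        simp
      · show Real.sin (2 * Real.pi * 1) = Real.sin (2 * Real.pi * 0)
        simp
    unfold cr
    congr 1

theorem cpath_apply (t : unitInterval) : cpath t = cr t := rfl

/-- a map of the circle extends to the square if its loop is null-homotopic -/
theorem fill_circle {W : Type*} [TopologicalSpace W] (f : C(S 2, W))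
    (h : Path.Homotopic (cpath.map f.continuous) (Path.refl _)) :
    ∃ g : C(D 2, W), ∀ s, g (sd 2 s) = f s := by
  obtain ⟨H⟩ := h
  let q : C(unitInterval × unitInterval, S 2 × unitInterval) :=
    ⟨fun p => (cr p.1, p.2), (continuous_cr.comp (continuous_subtype_val.comp continuous_fst)).prodMk
      continuous_snd⟩
  have hqs : Function.Surjective q := by
    rintro ⟨s, t⟩
    obtain ⟨r, hr⟩ := cr_surj s
    exact ⟨(r, t), Prod.ext hr rfl⟩
  have hq : IsQuotientMap q := (q.continuous.isClosedMap.isQuotientMap q.continuous hqs)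
  let H' : C(unitInterval × unitInterval, W) := ⟨fun p => H (p.2, p.1), by fun_prop⟩
  have hH : ∀ a b, q a = q b → H' a = H' b := by
    rintro ⟨a1, a2⟩ ⟨b1, b2⟩ hab
    have h1 : cr a1 = cr b1 := congrArg Prod.fst hab
    have h2 : a2 = b2 := congrArg Prod.snd hab
    subst h2
    show H (a2, a1) = H (a2, b1)
    rcases cr_inj h1 with rfl | ⟨rfl, rfl⟩ | ⟨rfl, rfl⟩
    · rfl
    · rw [H.source, H.target]
    · rw [H.source, H.target]
  let K : C(S 2 × unitInterval, W) := hq.lift H' hH
  have hK : ∀ a, K (q a) = H' a := fun a => by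
    have := hq.lift_comp H' hH
    exact congrArg (fun k : C(unitInterval × unitInterval, W) => k a) this
  refine (fill_of_homotopy K (ContinuousMap.const _ (f (cr 0))) ?_).imp fun g hg s => ?_
  · intro s
    obtain ⟨r, rfl⟩ := cr_surj s
    have : ((cr r, 1) : S 2 × unitInterval) = q (r, 1) := rfl
    rw [this, hK]
    show H (1, r) = _
    rw [H.apply_one]
    rfl
  · rw [hg s]
    obtain ⟨r, rfl⟩ := cr_surj s
    have : ((cr r, 0) : S 2 × unitInterval) = q (r, 0) := rfl
    rw [this, hK]
    show H (0, r) = _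
    rw [H.apply_zero]
    rfl

end Crest.Agent.R185.Base
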