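import Crest.Agent.R185.Base3

/-!
# Row 185, BASE, part 4: `JF` in degrees `≤ 2` and the null-homotopy of the 1-skeleton
-/

set_option autoImplicit false
set_option linter.unusedSectionVars false

open Set Topology Metric
open Crest.Agent.R185.Att Crest.Agent.R185.Bld

namespace Crest.Agent.R185.Base

section cx

variable {V : Type} {K : Cx V} {W : Type*} [TopologicalSpace W] {φ : C(K.R, W)} {w : W}

include w in
/-- circles are filled -/
theorem Triv.fill2 (T : Triv φ w) (f : C(S 2, K.R)) : ∃ g : C(D 2, W), ∀ s, g (sd 2 s) = φ (f s) := by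
  refine fill_circle (φ.comp f) ?_
  have h := T.loop (cpath.map f.continuous)
  rw [← Path.Homotopic.Quotient.mk_map, ← Path.Homotopic.Quotient.mk_refl,
    Path.Homotopic.Quotient.eq] at h
  exact h

include w in
/-- pairs of points are joined -/
theorem Triv.joined (T : Triv φ w) (p : K.R) : Joined w (φ p) := by
  obtain ⟨v, hv⟩ := p.exists_pos
  obtain ⟨γ, -⟩ := Path.Homotopic.Quotient.mk_surjective (T.Qv v p hv)
  exact ⟨γ⟩

/-- two points of `S 1` are filled if joined -/
theorem fill_pair {W : Type*} [TopologicalSpace W] (f : C(S 1, W)) (h : ∀ s t, Joined (f s) (f t)) :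
    ∃ g : C(D 1, W), ∀ s, g (sd 1 s) = f s := by
  have hm : ‖(fun _ => -1 : Fin 1 → ℝ)‖ = 1 := by simp
  have hp : ‖(fun _ => 1 : Fin 1 → ℝ)‖ = 1 := by simp
  let a : S 1 := ⟨fun _ => -1, mem_sphere_zero_iff_norm.2 hm⟩
  let b : S 1 := ⟨fun _ => 1, mem_sphere_zero_iff_norm.2 hp⟩
  obtain ⟨γ⟩ := h a b
  refine ⟨⟨fun x => γ.extend ((x.1 0 + 1) / 2), ?_⟩, fun s => ?_⟩
  · refine γ.continuous_extend.comp ?_
    have : Continuous fun x : D 1 => (x : Fin 1 → ℝ) 0 := (continuous_apply 0).comp continuous_subtype_val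
    exact (this.add continuous_const).div_const 2
  · have hs : ‖(s : Fin 1 → ℝ)‖ = 1 := s.norm_eq
    have hs' : |(s : Fin 1 → ℝ) 0| = 1 := by
      have : (s : Fin 1 → ℝ) = fun _ => (s : Fin 1 → ℝ) 0 := by
        funext i; fin_cases i; rfl
      rw [this] at hs
      simpa using hs
    rcases (abs_eq zero_le_one).1 hs' with h1 | h1
    · have hsb : s = b := by
        apply Subtype.ext; funext i; fin_cases i; exact h1
      subst hsb
      show γ.extend ((1 + 1) / 2) = f b
      norm_num
    · have hsa : s = a := by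
        apply Subtype.ext; funext i; fin_cases i; exact h1
      subst hsa
      show γ.extend ((-1 + 1) / 2) = f a
      norm_num

end cx

section grp

variable {G : Type} [Group G]

/-- **BASE**: `JF` for `n ≤ 2` for a finitely presented group. -/
theorem jf_base (hG : Group.IsFinitelyPresented G) (F : Finset G) (L : ℕ) :
    ∃ (F' : Finset G) (L' : ℕ), F ⊆ F' ∧ L ≤ L' ∧
      (∀ n ≤ 2, ∀ k, ∀ f : C(S n, MJ F L k), ∃ g : C(D n, MJ F' L' L'),
        ∀ s, (g (sd n s)).m = (f s).m) ∧
      (∀ p q : MJ F' L' L', (∃ k, ∃ p' q' : MJ F L k, p'.m = p.m ∧ q'.m = q.m) → Joined p q) := by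
  obtain ⟨F', hF, hsub, w, hT⟩ := exists_triv G hG F L
  refine ⟨F', L + 3, hF, by omega, ?_, ?_⟩
  · intro n hn k f
    obtain ⟨T⟩ := hT k
    interval_cases n
    · have : IsEmpty (S 0) := by
        constructor
        rintro ⟨x, hx⟩
        rw [mem_sphere_zero_iff_norm] at hx
        have hx0 : x = 0 := Subsingleton.elim _ _
        rw [hx0, norm_zero] at hx
        exact zero_ne_one hx
      exact ⟨ContinuousMap.const _ w, fun s => isEmptyElim s⟩
    · obtain ⟨g, hg⟩ := fill_pair ((inc (hsub k)).comp f) (fun s t => (T.joined (f s)).symm.trans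
        (T.joined (f t)))
      exact ⟨g, fun s => by rw [hg s]; rfl⟩
    · obtain ⟨g, hg⟩ := T.fill2 f
      exact ⟨g, fun s => by rw [hg s]; rfl⟩
  · rintro p q ⟨k, p', q', hp, hq⟩
    obtain ⟨T⟩ := hT k
    have h1 : inc (hsub k) p' = p := Cx.R.ext_m hp
    have h2 : inc (hsub k) q' = q := Cx.R.ext_m hq
    rw [← h1, ← h2]
    exact (T.joined p').symm.trans (T.joined q')

end grp

local notation "I" => unitInterval

/-- Filling a box with prescribed side, bottom and top. -/
theorem box_fill' {W W' : Type*} [TopologicalSpace W] [TopologicalSpace W'] {n : ℕ} (j : C(W, W'))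
    (hW : ∀ v : C(S (n + 1), W), ∃ g : C(D (n + 1), W'), ∀ s, g (sd (n + 1) s) = j (v s))
    (u : C(S n × I, W)) (a b : C(D n, W)) (ha : ∀ s, u (s, 0) = a (sd n s))
    (hb : ∀ s, u (s, 1) = b (sd n s)) :
    ∃ e : C(D n × I, W'), (∀ s t, e (sd n s, t) = j (u (s, t))) ∧ (∀ x, e (x, 0) = j (a x)) ∧
      ∀ x, e (x, 1) = j (b x) := by
  classical
  let v : S (n + 1) → W := fun y =>
    if h : ‖(tl n (sd _ y) : Fin n → ℝ)‖ = 1 then
      u (⟨tl n (sd _ y), mem_sphere_zero_iff_norm.2 h⟩, tau n (sd _ y))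
    else if tau n (sd _ y) = 0 then a (tl n (sd _ y)) else b (tl n (sd _ y))
  let A : Fin 3 → Set (S (n + 1)) := ![{y | ‖(tl n (sd _ y) : Fin n → ℝ)‖ = 1},
    {y | tau n (sd _ y) = 0}, {y | tau n (sd _ y) = 1}]
  have hv0 : ∀ y ∈ A 0, ∀ s : S n, (s : Fin n → ℝ) = tl n (sd _ y) →
      v y = u (s, tau n (sd _ y)) := by
    intro y hy s hs
    have hy' : ‖(tl n (sd _ y) : Fin n → ℝ)‖ = 1 := hy
    simp only [v]
    rw [dif_pos hy']
    congr 2
    exact Subtype.ext hs.symm
  have hv1 : ∀ y ∈ A 1, v y = a (tl n (sd _ y)) := by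
    intro y hy
    have hy' : tau n (sd _ y) = 0 := hy
    simp only [v]
    split_ifs with h
    · rw [hy', ha]; rfl
    · rfl
  have hv2 : ∀ y ∈ A 2, v y = b (tl n (sd _ y)) := by
    intro y hy
    have hy' : tau n (sd _ y) = 1 := hy
    simp only [v]
    split_ifs with h h2
    · rw [hy', hb]; rfl
    · rw [hy'] at h2; exact absurd h2 one_ne_zero
    · rfl
  have hvc : Continuous v := by
    refine (locallyFinite_of_finite A).continuous ?_ ?_ ?_
    · rw [eq_univ_iff_forall]
      intro y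
      rw [mem_iUnion]
      rcases sphere_cases y with h | h | h
      · exact ⟨0, h⟩
      · exact ⟨1, h⟩
      · exact ⟨2, h⟩
    · have hc1 : Continuous fun y : S (n + 1) => ‖(tl n (sd _ y) : Fin n → ℝ)‖ :=
        (continuous_subtype_val.comp ((tl n).continuous.comp (sd (n + 1)).continuous)).norm
      have hc2 : Continuous fun y : S (n + 1) => tau n (sd _ y) :=
        (tau n).continuous.comp (sd (n + 1)).continuous
      intro i
      fin_cases i
      · exact isClosed_eq hc1 continuous_const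
      · exact isClosed_eq hc2 continuous_const
      · exact isClosed_eq hc2 continuous_const
    · intro i
      fin_cases i
      · rw [continuousOn_iff_continuous_domRestrict]
        let w : A 0 → S n × I := fun y =>
          (⟨tl n (sd _ y.1), mem_sphere_zero_iff_norm.2 y.2⟩, tau n (sd _ y.1))
        have hw : Continuous w := by
          refine Continuous.prodMk (Continuous.subtype_mk ?_ _) ?_
          · exact continuous_subtype_val.comp
              ((tl n).continuous.comp ((sd (n + 1)).continuous.comp continuous_subtype_val))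
          · exact (tau n).continuous.comp ((sd (n + 1)).continuous.comp continuous_subtype_val)
        have : (A 0).domRestrict v = u ∘ w := by
          funext y
          exact hv0 y.1 y.2 _ rfl
        show Continuous ((A 0).domRestrict v)
        rw [this]
        exact u.continuous.comp hw
      · have hc : Continuous fun y : S (n + 1) => a (tl n (sd _ y)) :=
          a.continuous.comp ((tl n).continuous.comp (sd (n + 1)).continuous)
        exact hc.continuousOn.congr fun y hy => hv1 y hy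
      · have hc : Continuous fun y : S (n + 1) => b (tl n (sd _ y)) :=
          b.continuous.comp ((tl n).continuous.comp (sd (n + 1)).continuous)
        exact hc.continuousOn.congr fun y hy => hv2 y hy
  obtain ⟨g, hg⟩ := hW ⟨v, hvc⟩
  have hgv : ∀ (p : D n × I) (h : ‖(p.1 : Fin n → ℝ)‖ = 1 ∨ p.2 = 0 ∨ p.2 = 1),
      g (box n p) = j (v ⟨box n p, mem_sphere_zero_iff_norm.2 (box_mem_sphere p h)⟩) := by
    intro p h
    exact hg ⟨box n p, mem_sphere_zero_iff_norm.2 (box_mem_sphere p h)⟩
  have hsd : ∀ (p : D n × I) (h : ‖(p.1 : Fin n → ℝ)‖ = 1 ∨ p.2 = 0 ∨ p.2 = 1),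
      sd (n + 1) ⟨box n p, mem_sphere_zero_iff_norm.2 (box_mem_sphere p h)⟩ = box n p :=
    fun p h => rfl
  refine ⟨g.comp (box n), ?_, ?_, ?_⟩
  · intro s t
    have h : ‖((sd n s, t) : D n × I).1.1‖ = 1 ∨ t = 0 ∨ t = 1 := Or.inl s.norm_eq
    show g (box n (sd n s, t)) = _
    rw [hgv (sd n s, t) h, hv0 _ ?_ s ?_]
    · rw [hsd (sd n s, t) h, tau_box]
    · show ‖(tl n (sd _ _) : Fin n → ℝ)‖ = 1
      rw [hsd (sd n s, t) h, tl_box]; exact s.norm_eq
    · rw [hsd (sd n s, t) h, tl_box]; rfl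
  · intro x
    have h : ‖(x : Fin n → ℝ)‖ = 1 ∨ (0 : I) = 0 ∨ (0 : I) = 1 := Or.inr (Or.inl rfl)
    show g (box n (x, 0)) = _
    rw [hgv (x, 0) h, hv1 _ ?_, hsd (x, 0) h, tl_box]
    show tau n (sd _ _) = 0
    rw [hsd (x, 0) h, tau_box]
  · intro x
    have h : ‖(x : Fin n → ℝ)‖ = 1 ∨ (1 : I) = 0 ∨ (1 : I) = 1 := Or.inr (Or.inr rfl)
    show g (box n (x, 1)) = _
    rw [hgv (x, 1) h, hv2 _ ?_, hsd (x, 1) h, tl_box]
    show tau n (sd _ _) = 1
    rw [hsd (x, 1) h, tau_box]


end Crest.Agent.R185.Base
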