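import Crest.Agent.R185.Base4

/-!
# Row 185, BASE, part 5: `TN₁`: the 1-skeleton of the Milnor model of a finitely presented group is
null-homotopic in the model at a larger scale.
-/

set_option autoImplicit false
set_option linter.unusedSectionVars false

open Set Topology Metric
open Crest.Agent.R185.Att Crest.Agent.R185.Bld

namespace Crest.Agent.R185.Base

local notation "I" => unitInterval

section cx

variable {V : Type} {K : Cx V}

theorem eq_vert {p : K.R} {v : V} (hv : {v} ∈ K.s) (h : p.m.support ⊆ {v}) : p = Cx.vert v hv := by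
  classical
  have h1 := p.sum_eq h
  rw [Finset.sum_singleton] at h1
  apply Cx.R.ext
  intro x
  show p x = (Finsupp.single v (1 : ℝ)) x
  by_cases hx : x = v
  · subst hx; simp [h1]
  · rw [Finsupp.single_eq_of_ne hx]
    by_contra h2
    exact hx (Finset.mem_singleton.1 (h (Cx.R.mem_support.2 h2)))

/-- the coordinate `2 p(b) - 1` -/
noncomputable def psi (b : V) (p : K.R) : D 1 := ⟨fun _ => 2 * p b - 1, by
  rw [mem_closedBall_zero_iff, pi_norm_le_iff_of_nonneg zero_le_one]
  intro i
  rw [Real.norm_eq_abs, abs_le]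
  constructor <;> linarith [p.nn b, p.le_one b]⟩

theorem continuous_psi (b : V) : Continuous (psi b : K.R → D 1) := by
  apply Continuous.subtype_mk
  refine continuous_pi fun _ => ?_
  exact (continuous_const.mul (Cx.continuous_eval b)).sub continuous_const

theorem tau_psi (b : V) (p : K.R) : ((tau 0 (psi b p) : I) : ℝ) = p b := by
  show (2 * p b - 1 + 1) / 2 = p b
  ring

theorem mix_psi {a b : V} (hab : a ≠ b) (ha : {a} ∈ K.s) (hb : {b} ∈ K.s) {p : K.R}
    (hp : ∀ x ∈ p.m.support, x = a ∨ x = b)
    (h : ∀ t : I, ((1 - (t : ℝ)) • (Cx.vert a ha : K.R).m + (t : ℝ) • (Cx.vert b hb : K.R).m).support ∈ K.s) :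
    segm (Cx.vert a ha) (Cx.vert b hb) h (tau 0 (psi b p)) = p := by
  classical
  have hs : p.m.support ⊆ {a, b} := fun x hx => by
    rw [Finset.mem_insert, Finset.mem_singleton]; exact hp x hx
  have h1 := p.sum_eq hs
  rw [Finset.sum_pair hab] at h1
  apply Cx.R.ext
  intro x
  show Cx.mix (tau 0 (psi b p)) (Cx.vert a ha) (Cx.vert b hb) _ x = p x
  rw [Cx.mix_apply, tau_psi]
  show (1 - p b) * (Finsupp.single a (1 : ℝ)) x + p b * (Finsupp.single b (1 : ℝ)) x = p x
  by_cases hxa : x = a
  · subst hxa
    rw [Finsupp.single_eq_same, Finsupp.single_eq_of_ne hab]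
    linarith
  · by_cases hxb : x = b
    · subst hxb
      rw [Finsupp.single_eq_same, Finsupp.single_eq_of_ne (Ne.symm hab)]
      linarith
    · rw [Finsupp.single_eq_of_ne hxa, Finsupp.single_eq_of_ne hxb]
      have : p x = 0 := by
        by_contra h2
        rcases hp x (Cx.R.mem_support.2 h2) with h3 | h3
        · exact hxa h3
        · exact hxb h3
      rw [this]; ring

/-- maps out of `K.R × I` are glued along the closed faces -/
theorem continuous_of_face_prod {X W : Type*} [TopologicalSpace X] [TopologicalSpace W]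
    {f : K.R × X → W} (h : ∀ σ ∈ K.s, ContinuousOn f (K.face σ ×ˢ univ)) : Continuous f := by
  have h1 : LocallyFinite fun σ : K.s => (Prod.fst : K.R × X → K.R) ⁻¹' K.face σ.1 :=
    Cx.locallyFinite_face.preimage_continuous continuous_fst
  refine h1.continuous ?_ (fun σ => (Cx.isClosed_face σ.1).preimage continuous_fst) fun σ => ?_
  · rw [← preimage_iUnion, Cx.iUnion_face, preimage_univ]
  · have : (Prod.fst : K.R × X → K.R) ⁻¹' K.face σ.1 = K.face σ.1 ×ˢ univ := by
      ext p; simp
    rw [this]
    exact h σ.1 σ.2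

end cx

section grp

variable {G : Type} [Group G]

/-- the inclusion of the 1-skeleton is null-homotopic at a larger scale -/
theorem tn1 (hG : Group.IsFinitelyPresented G) (F : Finset G) (L : ℕ) :
    ∃ (F' : Finset G) (L' : ℕ), F ⊆ F' ∧ L ≤ L' ∧ ∃ (w : MJ F' L' L') (H : C(MJ F L 2 × I, MJ F' L' L')),
      (∀ p, (H (p, 0)).m = p.m) ∧ ∀ p, H (p, 1) = w := by
  classical
  obtain ⟨F₁, hF₁, hsub₁, w₁, hT₁⟩ := exists_triv G hG F L
  obtain ⟨F₂, L₂, hF₂, hL₂, hJ₂, -⟩ := jf_base hG F₁ (L + 3)
  obtain ⟨T⟩ := hT₁ 2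
  have hL12 : L + 3 ≤ L₂ := hL₂
  have hsub₂ : (mil F₁ (L + 3) (L + 3)).s ⊆ (mil F₂ L₂ L₂).s := mil_mono hF₂ hL12 hL12
  let j₁ := inc (hsub₁ 2)
  let j₂ := inc hsub₂
  have hfill : ∀ v : C(S 2, MJ F₁ (L + 3) (L + 3)), ∃ g : C(D 2, MJ F₂ L₂ L₂), ∀ s,
      g (sd 2 s) = j₂ (v s) := by
    intro v
    obtain ⟨g, hg⟩ := hJ₂ 2 le_rfl (L + 3) v
    exact ⟨g, fun s => Cx.R.ext_m (hg s)⟩
  -- paths
  have hπ : ∀ p : MJ F L 2, Nonempty (Path (j₁ p) w₁) := fun p => (T.joined p).symm
  let π : ∀ v (hv : {v} ∈ (mil F L 2).s), Path (j₁ (Cx.vert v hv)) w₁ := fun v hv => (hπ _).some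
  let K := mil F L 2
  have key : ∀ σ ∈ K.s, σ.Nonempty → ∃ f : K.R × I → MJ F₂ L₂ L₂,
      ContinuousOn f (K.face σ ×ˢ univ) ∧ (∀ p ∈ K.face σ, f (p, 0) = j₂ (j₁ p)) ∧
      (∀ p ∈ K.face σ, f (p, 1) = j₂ w₁) ∧
      (∀ v (hv : {v} ∈ K.s), v ∈ σ → ∀ t, f (Cx.vert v hv, t) = j₂ (π v hv t)) := by
    intro σ hσ hne
    have hc : σ.card ≤ 2 := hσ.2.2
    have hc0 : 0 < σ.card := Finset.card_pos.2 hne
    rcases (by omega : σ.card = 1 ∨ σ.card = 2) with hc1 | hc2
    · obtain ⟨v, rfl⟩ := Finset.card_eq_one.1 hc1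
      have hp : ∀ p ∈ K.face {v}, p = Cx.vert v hσ := fun p hp => eq_vert hσ hp
      refine ⟨fun q => j₂ (π v hσ q.2), ?_, ?_, ?_, ?_⟩
      · exact (by fun_prop : Continuous fun q : K.R × I => j₂ (π v hσ q.2)).continuousOn
      · intro p hp'
        rw [hp p hp']
        show j₂ (π v hσ 0) = _
        rw [(π v hσ).source]
      · intro p hp'
        show j₂ (π v hσ 1) = _
        rw [(π v hσ).target]
      · intro v' hv' hmem t
        rw [Finset.mem_singleton] at hmem
        subst hmem
        rfl
    · obtain ⟨a, b, hab, rfl⟩ := Finset.card_eq_two.1 hc2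
      have hsa : {a} ∈ K.s := K.down hσ (by simp) (by simp)
      have hsb : {b} ∈ K.s := K.down hσ (by simp) (by simp)
      have hseg := face_join (K := K) (p := Cx.vert a hsa) (q := Cx.vert b hsb) hσ
        (vert_mem_face _ (by simp)) (vert_mem_face _ (by simp))
      let bot : C(D 1, MJ F₁ (L + 3) (L + 3)) := ⟨fun x => j₁ (segm _ _ hseg (tau 0 x)), by fun_prop⟩
      let u : C(S 1 × I, MJ F₁ (L + 3) (L + 3)) :=
        ⟨fun q => if (q.1 : Fin 1 → ℝ) 0 < 0 then π a hsa q.2 else π b hsb q.2, by
          have hS : ∀ s : S 1, |(s : Fin 1 → ℝ) 0| = 1 := by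
            intro s
            have hs : ‖(s : Fin 1 → ℝ)‖ = 1 := s.norm_eq
            have : (s : Fin 1 → ℝ) = fun _ => (s : Fin 1 → ℝ) 0 := by
              funext i; fin_cases i; rfl
            rw [this] at hs
            simpa using hs
          have hc : Continuous fun q : S 1 × I => (q.1 : Fin 1 → ℝ) 0 :=
            (continuous_apply 0).comp (continuous_subtype_val.comp continuous_fst)
          refine Continuous.if ?_ (by fun_prop) (by fun_prop)
          intro q hq
          exfalso
          have hcl : IsClopen {q : S 1 × I | (q.1 : Fin 1 → ℝ) 0 < 0} := by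
            refine ⟨?_, isOpen_lt hc continuous_const⟩
            have : {q : S 1 × I | (q.1 : Fin 1 → ℝ) 0 < 0} =
                {q : S 1 × I | (q.1 : Fin 1 → ℝ) 0 ≤ -1} := by
              ext q
              simp only [mem_ofPred_eq]
              constructor
              · intro h
                rcases (abs_eq zero_le_one).1 (hS q.1) with h1 | h1 <;> linarith
              · intro h; linarith
            rw [this]
            exact isClosed_le hc continuous_const
          rw [hcl.frontier_eq] at hq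
          exact hq⟩
      obtain ⟨e, he1, he2, he3⟩ := box_fill' j₂ hfill u bot (ContinuousMap.const _ w₁) (by
        intro s
        have hs : |(s : Fin 1 → ℝ) 0| = 1 := by
          have hs : ‖(s : Fin 1 → ℝ)‖ = 1 := s.norm_eq
          have : (s : Fin 1 → ℝ) = fun _ => (s : Fin 1 → ℝ) 0 := by
            funext i; fin_cases i; rfl
          rw [this] at hs
          simpa using hs
        show (if (s : Fin 1 → ℝ) 0 < 0 then π a hsa 0 else π b hsb 0) =
          j₁ (segm _ _ hseg (tau 0 (sd 1 s)))
        rcases (abs_eq zero_le_one).1 hs with h1 | h1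
        · have ht : tau 0 (sd 1 s) = 1 := by
            apply Subtype.ext
            show ((s : Fin 1 → ℝ) 0 + 1) / 2 = 1
            rw [h1]; norm_num
          rw [if_neg (by rw [h1]; norm_num), ht, (π b hsb).source, (segm _ _ hseg).target]
        · have ht : tau 0 (sd 1 s) = 0 := by
            apply Subtype.ext
            show ((s : Fin 1 → ℝ) 0 + 1) / 2 = 0
            rw [h1]; norm_num
          rw [if_pos (by rw [h1]; norm_num), ht, (π a hsa).source, (segm _ _ hseg).source]) (by
        intro s
        show (if (s : Fin 1 → ℝ) 0 < 0 then π a hsa 1 else π b hsb 1) = w₁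
        split_ifs
        · exact (π a hsa).target
        · exact (π b hsb).target)
      have hface : ∀ p ∈ K.face {a, b}, ∀ x ∈ p.m.support, x = a ∨ x = b := by
        intro p hp x hx
        have := hp hx
        rwa [Finset.mem_insert, Finset.mem_singleton] at this
      refine ⟨fun q => e (psi b q.1, q.2), ?_, ?_, ?_, ?_⟩
      · exact (e.continuous.comp (((continuous_psi b).comp continuous_fst).prodMk
          continuous_snd)).continuousOn
      · intro p hp
        show e (psi b p, 0) = _
        rw [he2]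
        show j₂ (j₁ (segm _ _ hseg (tau 0 (psi b p)))) = _
        rw [mix_psi hab hsa hsb (hface p hp) hseg]
      · intro p hp
        show e (psi b p, 1) = _
        rw [he3]
        rfl
      · intro v hv hmem t
        rw [Finset.mem_insert, Finset.mem_singleton] at hmem
        have hm : ‖(fun _ => -1 : Fin 1 → ℝ)‖ = 1 := by simp
        have hp : ‖(fun _ => 1 : Fin 1 → ℝ)‖ = 1 := by simp
        rcases hmem with rfl | rfl
        · have h1 : psi b (Cx.vert v hv : K.R) = sd 1 ⟨fun _ => -1, mem_sphere_zero_iff_norm.2 hm⟩ := by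
            apply Subtype.ext
            funext i
            show 2 * (Finsupp.single v (1 : ℝ)) b - 1 = -1
            rw [Finsupp.single_eq_of_ne (Ne.symm hab)]
            ring
          show e (psi b _, t) = _
          rw [h1, he1]
          show j₂ (if (-1 : ℝ) < 0 then π v hsa t else π b hsb t) = _
          rw [if_pos (by norm_num)]
        · have h1 : psi v (Cx.vert v hv : K.R) = sd 1 ⟨fun _ => 1, mem_sphere_zero_iff_norm.2 hp⟩ := by
            apply Subtype.ext
            funext i
            show 2 * (Finsupp.single v (1 : ℝ)) v - 1 = 1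
            rw [Finsupp.single_eq_same]
            ring
          show e (psi v _, t) = _
          rw [h1, he1]
          show j₂ (if (1 : ℝ) < 0 then π a hsa t else π v hsb t) = _
          rw [if_neg (by norm_num)]
  have : Nonempty (MJ F₂ L₂ L₂) := ⟨j₂ w₁⟩
  choose! f hf1 hf2 hf3 hf4 using key
  let H : K.R × I → MJ F₂ L₂ L₂ := fun q => f q.1.m.support q
  have hH : ∀ σ ∈ K.s, σ.Nonempty → ∀ q ∈ K.face σ ×ˢ (univ : Set I), H q = f σ q := by
    rintro σ hσ hne ⟨p, t⟩ ⟨hp, -⟩
    have hp' : p.m.support ⊆ σ := hp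
    by_cases h : p.m.support = σ
    · show f p.m.support (p, t) = _
      rw [h]
    · have hss : p.m.support ⊂ σ := Finset.ssubset_iff_subset_ne.2 ⟨hp', h⟩
      have h1 : p.m.support.card < σ.card := Finset.card_lt_card hss
      have h2 : 0 < p.m.support.card := Finset.card_pos.2 p.nonempty
      have h3 : σ.card ≤ 2 := hσ.2.2
      obtain ⟨v, hv⟩ := Finset.card_eq_one.1 (by omega : p.m.support.card = 1)
      have hvs : {v} ∈ K.s := hv ▸ p.mem
      have hpv : p = Cx.vert v hvs := eq_vert hvs (by rw [hv])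
      have hvσ : v ∈ σ := hp' (by rw [hv]; exact Finset.mem_singleton_self v)
      show f p.m.support (p, t) = _
      rw [hv, hpv, hf4 {v} hvs (Finset.singleton_nonempty v) v hvs (Finset.mem_singleton_self v),
        hf4 σ hσ hne v hvs hvσ]
  have hHc : Continuous H := by
    refine continuous_of_face_prod fun σ hσ => ?_
    rcases σ.eq_empty_or_nonempty with rfl | hne
    · have : K.face ∅ ×ˢ (univ : Set I) = ∅ := by
        ext ⟨p, t⟩
        simp only [mem_prod, mem_univ, and_true, mem_empty_iff_false, iff_false]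
        intro hp
        have hp' : p.m.support ⊆ ∅ := hp
        obtain ⟨v, hv⟩ := p.nonempty
        exact Finset.notMem_empty v (hp' hv)
      rw [this]
      exact continuousOn_empty _
    · exact (hf1 σ hσ hne).congr (hH σ hσ hne)
  refine ⟨F₂, L₂, hF₁.trans hF₂, by omega, j₂ w₁, ⟨H, hHc⟩, fun p => ?_, fun p => ?_⟩
  · show (f p.m.support (p, 0)).m = p.m
    rw [hf2 _ p.mem p.nonempty p Subset.rfl]
    rfl
  · show f p.m.support (p, 1) = _
    rw [hf3 _ p.mem p.nonempty p Subset.rfl]

end grp

end Crest.Agent.R185.Base
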