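import Crest.Agent.R185.BldDefs

/-!
# Row 185, BUILDER, part 1: radial extension, simplices versus cubes
-/

set_option autoImplicit false
set_option linter.unusedSectionVars false

open Set Metric Topology
open Crest.Agent.R185.Att

namespace Crest.Agent.R185.Bld

/-- homotopy extension for spheres -/
theorem fill_of_homotopy {W : Type*} [TopologicalSpace W] {n : ℕ} (H : C(S n × unitInterval, W))
    (w : C(D n, W)) (h : ∀ s, H (s, 1) = w (sd n s)) :
    ∃ g : C(D n, W), ∀ s, g (sd n s) = H (s, 0) := by
  classical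
  let A : Fin 2 → Set (D n) := ![{x | ‖(x : Fin n → ℝ)‖ ≤ 1/2}, {x | 1/2 ≤ ‖(x : Fin n → ℝ)‖}]
  have hne : ∀ x ∈ A 1, (x : Fin n → ℝ) ≠ 0 := by
    intro x hx h0
    have : (1/2 : ℝ) ≤ ‖(x : Fin n → ℝ)‖ := hx
    rw [h0, norm_zero] at this
    norm_num at this
  -- the doubled point
  let dbl : D n → D n := fun x => ret n ((2 : ℝ) • (x : Fin n → ℝ))
  have hdbl : Continuous dbl := (continuous_ret n).comp
    ((continuous_const_smul (2 : ℝ)).comp continuous_subtype_val)
  -- the homotopy parameter `2 - 2‖x‖`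
  let tt : D n → unitInterval := fun x => Set.projIcc 0 1 zero_le_one (2 - 2 * ‖(x : Fin n → ℝ)‖)
  have htt : Continuous tt := continuous_projIcc.comp
    (continuous_const.sub (continuous_const.mul (continuous_norm.comp continuous_subtype_val)))
  let g : D n → W := fun x =>
    if hx : (1/2 : ℝ) ≤ ‖(x : Fin n → ℝ)‖ then H (rad (x : Fin n → ℝ) (hne x hx), tt x)
    else w (dbl x)
  have hg1 : ∀ x (hx : x ∈ A 1), g x = H (rad (x : Fin n → ℝ) (hne x hx), tt x) := by
    intro x hx
    exact dif_pos hx
  have hg0 : ∀ x ∈ A 0, g x = w (dbl x) := by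
    intro x hx
    by_cases hx1 : (1/2 : ℝ) ≤ ‖(x : Fin n → ℝ)‖
    · have he : ‖(x : Fin n → ℝ)‖ = 1/2 := le_antisymm hx hx1
      rw [hg1 x hx1]
      have h1 : tt x = 1 := by
        simp only [tt, he]
        norm_num
      have h2 : dbl x = sd n (rad (x : Fin n → ℝ) (hne x hx1)) := by
        have h3 : (2 : ℝ) • (x : Fin n → ℝ) ∈ closedBall (0 : Fin n → ℝ) 1 := by
          rw [mem_closedBall_zero_iff, norm_smul, he]; norm_num
        simp only [dbl]
        rw [ret_of_mem h3]
        apply Subtype.ext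
        show (2 : ℝ) • (x : Fin n → ℝ) = ‖(x : Fin n → ℝ)‖⁻¹ • (x : Fin n → ℝ)
        rw [he]; norm_num
      rw [h1, h, h2]
    · exact dif_neg hx1
  have hgc : Continuous g := by
    refine (locallyFinite_of_finite A).continuous ?_ ?_ ?_
    · rw [eq_univ_iff_forall]
      intro x
      rw [mem_iUnion]
      rcases le_total ‖(x : Fin n → ℝ)‖ (1/2) with hx | hx
      · exact ⟨0, hx⟩
      · exact ⟨1, hx⟩
    · have hc : Continuous fun x : D n => ‖(x : Fin n → ℝ)‖ :=
        continuous_norm.comp continuous_subtype_val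
      intro i
      fin_cases i
      · exact isClosed_le hc continuous_const
      · exact isClosed_le continuous_const hc
    · intro i
      fin_cases i
      · exact (w.continuous.comp hdbl).continuousOn.congr fun x hx => hg0 x hx
      · rw [continuousOn_iff_continuous_domRestrict]
        have hr : Continuous fun x : A 1 => rad ((x : D n) : Fin n → ℝ) (hne x x.2) := by
          apply Continuous.subtype_mk
          have hc : Continuous fun x : A 1 => ((x : D n) : Fin n → ℝ) :=
            continuous_subtype_val.comp continuous_subtype_val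
          exact (hc.norm.inv₀ fun x => norm_ne_zero_iff.2 (hne x x.2)).smul hc
        have : (A 1).domRestrict g = fun x : A 1 =>
            H (rad ((x : D n) : Fin n → ℝ) (hne x x.2), tt x) := by
          funext x
          exact hg1 x.1 x.2
        show Continuous ((A 1).domRestrict g)
        rw [this]
        exact H.continuous.comp (hr.prodMk (htt.comp continuous_subtype_val))
  refine ⟨⟨g, hgc⟩, fun s => ?_⟩
  have hs : (sd n s) ∈ A 1 := by
    show (1/2 : ℝ) ≤ ‖((sd n s : D n) : Fin n → ℝ)‖
    rw [sd_coe, s.norm_eq]; norm_num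
  show g (sd n s) = _
  rw [hg1 _ hs]
  have h1 : tt (sd n s) = 0 := by
    simp only [tt, sd_coe, s.norm_eq]
    norm_num
  have h2 : rad ((sd n s : D n) : Fin n → ℝ) (hne _ hs) = s := by
    apply Subtype.ext
    show ‖(s : Fin n → ℝ)‖⁻¹ • (s : Fin n → ℝ) = s
    rw [s.norm_eq, inv_one, one_smul]
  rw [h1, h2]

/-! ### the corner simplex -/

/-- corner simplex in `ℝ^k` -/
def corner (k : ℕ) : Set (Fin k → ℝ) := {x | (∀ i, 0 ≤ x i) ∧ ∑ i, x i ≤ 1}

theorem isClosed_corner (k : ℕ) : IsClosed (corner k) := by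
  have : corner k = (⋂ i, {x | 0 ≤ x i}) ∩ {x | ∑ i, x i ≤ 1} := by
    ext x; simp [corner]
  rw [this]
  exact (isClosed_iInter fun i => isClosed_le continuous_const (continuous_apply i)).inter
    (isClosed_le (continuous_finsetSum _ fun i _ => continuous_apply i) continuous_const)

theorem convex_corner (k : ℕ) : Convex ℝ (corner k) := by
  intro x hx y hy a b ha hb hab
  constructor
  · intro i
    exact add_nonneg (mul_nonneg ha (hx.1 i)) (mul_nonneg hb (hy.1 i))
  · have : ∑ i, (a • x + b • y) i = a * ∑ i, x i + b * ∑ i, y i := by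
      simp [Finset.sum_add_distrib, Finset.mul_sum]
    rw [this]
    calc a * ∑ i, x i + b * ∑ i, y i ≤ a * 1 + b * 1 :=
          add_le_add (mul_le_mul_of_nonneg_left hx.2 ha) (mul_le_mul_of_nonneg_left hy.2 hb)
      _ = 1 := by rw [mul_one, mul_one, hab]

theorem bounded_corner (k : ℕ) : Bornology.IsBounded (corner k) := by
  refine (isBounded_closedBall (x := (0 : Fin k → ℝ)) (r := 1)).subset ?_
  intro x hx
  rw [mem_closedBall_zero_iff, pi_norm_le_iff_of_nonneg zero_le_one]
  intro i
  rw [Real.norm_of_nonneg (hx.1 i)]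
  exact (Finset.single_le_sum (f := x) (fun j _ => hx.1 j) (Finset.mem_univ i)).trans hx.2

theorem isOpen_int (k : ℕ) : IsOpen {x : Fin k → ℝ | (∀ i, 0 < x i) ∧ ∑ i, x i < 1} := by
  have : {x : Fin k → ℝ | (∀ i, 0 < x i) ∧ ∑ i, x i < 1} =
      (⋂ i, {x | 0 < x i}) ∩ {x | ∑ i, x i < 1} := by
    ext x; simp
  rw [this]
  exact (isOpen_iInter_of_finite fun i => isOpen_lt continuous_const (continuous_apply i)).inter
    (isOpen_lt (continuous_finsetSum _ fun i _ => continuous_apply i) continuous_const)

theorem interior_corner (k : ℕ) :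
    interior (corner k) = {x : Fin k → ℝ | (∀ i, 0 < x i) ∧ ∑ i, x i < 1} := by
  apply Subset.antisymm
  · intro x hx
    rw [mem_interior_iff_mem_nhds, Metric.mem_nhds_iff] at hx
    obtain ⟨ε, hε, hx⟩ := hx
    have hx0 : x ∈ corner k := hx (mem_ball_self hε)
    constructor
    · intro i
      by_contra hi
      have h1 : x - Pi.single i (ε / 2) ∈ ball x ε := by
        rw [mem_ball_iff_norm, sub_sub_cancel_left, norm_neg]
        rw [Pi.norm_single, Real.norm_of_nonneg (by positivity)]
        linarith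
      have h2 := (hx h1).1 i
      simp only [Pi.sub_apply, Pi.single_eq_same] at h2
      linarith
    · by_contra hi
      have hs : ∑ i, x i = 1 := le_antisymm hx0.2 (not_lt.1 hi)
      obtain ⟨i⟩ : Nonempty (Fin k) := by
        by_contra hk
        rw [not_nonempty_iff] at hk
        simp at hs
      have h1 : x + Pi.single i (ε / 2) ∈ ball x ε := by
        rw [mem_ball_iff_norm, add_sub_cancel_left]
        rw [Pi.norm_single, Real.norm_of_nonneg (by positivity)]
        linarith
      have h2 := (hx h1).2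
      have h3 : ∑ j, (x + Pi.single i (ε / 2) : Fin k → ℝ) j = ∑ j, x j + ε / 2 := by
        simp [Finset.sum_add_distrib]
      rw [h3, hs] at h2
      linarith
  · exact interior_maximal (fun x hx => ⟨fun i => (hx.1 i).le, hx.2.le⟩) (isOpen_int k)

theorem exists_corner_homeo (k : ℕ) : ∃ e : (Fin k → ℝ) ≃ₜ (Fin k → ℝ),
    (∀ x, x ∈ corner k ↔ ‖e x‖ ≤ 1) ∧
    ∀ x, (x ∈ corner k ∧ ¬ ((∀ i, 0 < x i) ∧ ∑ i, x i < 1)) ↔ ‖e x‖ = 1 := by
  have hne : (interior (corner k)).Nonempty := by
    rw [interior_corner]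
    refine ⟨fun _ => 1 / (k + 1 : ℝ), fun i => by positivity, ?_⟩
    simp only [Finset.sum_const, Finset.card_univ, Fintype.card_fin, nsmul_eq_mul]
    rw [mul_one_div, div_lt_one (by positivity)]
    linarith
  obtain ⟨e, -, he2, he3⟩ := exists_homeomorph_image_interior_closure_frontier_eq_unitBall
    (convex_corner k) hne (bounded_corner k)
  rw [(isClosed_corner k).closure_eq] at he2
  refine ⟨e, fun x => ?_, fun x => ?_⟩
  · rw [← mem_closedBall_zero_iff, ← he2]
    exact (e.injective.mem_set_image).symm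
  · rw [← mem_sphere_zero_iff_norm, ← he3, e.injective.mem_set_image, (isClosed_corner k).frontier_eq,
      interior_corner]
    rfl

/-! ### a closed simplex against the cube -/

section simplex

variable {V : Type}

/-- the finitely supported function with values `x i` at `b i.succ` and `1 - ∑ x` at `b 0` -/
noncomputable def bary {k : ℕ} (b : Fin (k + 1) → V) (x : Fin k → ℝ) : V →₀ ℝ :=
  Finsupp.single (b 0) (1 - ∑ i, x i) + ∑ i, Finsupp.single (b i.succ) (x i)

theorem bary_apply [DecidableEq V] {k : ℕ} (b : Fin (k + 1) → V) (x : Fin k → ℝ) (v : V) :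
    bary b x v = (if b 0 = v then 1 - ∑ i, x i else 0) + ∑ i, if b i.succ = v then x i else 0 := by
  simp only [bary, Finsupp.coe_add, Pi.add_apply, Finsupp.finsetSum_apply, Finsupp.single_apply]

theorem continuous_bary_apply {k : ℕ} (b : Fin (k + 1) → V) (v : V) :
    Continuous fun x : Fin k → ℝ => bary b x v := by
  classical
  simp only [bary_apply]
  refine Continuous.add ?_ (continuous_finsetSum _ fun i _ => ?_)
  · split_ifs
    · exact continuous_const.sub (continuous_finsetSum _ fun i _ => continuous_apply i)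
    · exact continuous_const
  · split_ifs
    · exact continuous_apply i
    · exact continuous_const

theorem bary_zero {k : ℕ} {b : Fin (k + 1) → V} (hb : Function.Injective b) (x : Fin k → ℝ) :
    bary b x (b 0) = 1 - ∑ i, x i := by
  classical
  rw [bary_apply, if_pos rfl]
  have : ∀ i : Fin k, (if b i.succ = b 0 then x i else 0) = 0 := fun i =>
    if_neg fun h => Fin.succ_ne_zero i (hb h)
  simp [this]

theorem bary_succ {k : ℕ} {b : Fin (k + 1) → V} (hb : Function.Injective b) (x : Fin k → ℝ)
    (i : Fin k) : bary b x (b i.succ) = x i := by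
  classical
  rw [bary_apply, if_neg fun h => Fin.succ_ne_zero i (hb h).symm]
  have : ∀ j : Fin k, (if b j.succ = b i.succ then x j else 0) = if j = i then x j else 0 := by
    intro j
    by_cases hj : j = i
    · subst hj; simp
    · rw [if_neg hj, if_neg fun h => hj (Fin.succ_injective _ (hb h))]
  simp [this]

theorem bary_support {k : ℕ} (b : Fin (k + 1) → V) (x : Fin k → ℝ) {v : V}
    (hv : bary b x v ≠ 0) : v ∈ range b := by
  classical
  by_contra h
  apply hv
  rw [bary_apply, if_neg fun h1 => h ⟨0, h1⟩]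
  simp only [zero_add]
  exact Finset.sum_eq_zero fun i _ => if_neg fun h1 => h ⟨i.succ, h1⟩

theorem bary_tot {k : ℕ} (b : Fin (k + 1) → V) (x : Fin k → ℝ) :
    ((bary b x).sum fun _ a => a) = 1 := by
  unfold bary
  rw [Finsupp.sum_add_index' (fun _ => rfl) (fun _ _ _ => rfl), Finsupp.sum_single_index rfl]
  have : ((∑ i, Finsupp.single (b i.succ) (x i)).sum fun _ a => a) = ∑ i, x i := by
    rw [← Finsupp.sum_finsetSum_index (fun _ => rfl) (fun _ _ _ => rfl)]
    simp
  rw [this]; ring

theorem bary_nonneg {k : ℕ} (b : Fin (k + 1) → V) {x : Fin k → ℝ} (hx : x ∈ corner k) (v : V) :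
    0 ≤ bary b x v := by
  classical
  rw [bary_apply]
  refine add_nonneg ?_ (Finset.sum_nonneg fun i _ => ?_)
  · split_ifs
    · linarith [hx.2]
    · exact le_rfl
  · split_ifs
    · exact hx.1 i
    · exact le_rfl

/-- **A closed `k`-simplex against the `k`-cube.**  `θ` = the boundary sphere of the simplex (with values
in any complex `K'` containing the proper faces), `ψ` = the closed simplex to the cube. -/
theorem exists_simplexData {σ : Finset V} {k : ℕ} (hc : σ.card = k + 1) (K K' : Cx V)
    (hK' : ∀ τ, τ ⊂ σ → τ.Nonempty → τ ∈ K'.s) :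
    ∃ (θ : C(S k, K'.R)) (ψ : K.R → D k), (∀ s, (θ s).m.support ⊂ σ) ∧
      ContinuousOn ψ (K.face σ) ∧
      ∀ p : K.R, p.m.support ⊂ σ → ∃ s, ψ p = sd k s ∧ (θ s).m = p.m := by
  classical
  obtain ⟨b', hb'⟩ : ∃ b : Fin (k + 1) ≃ σ, True := ⟨(Finset.equivFinOfCardEq hc).symm, trivial⟩
  let b : Fin (k + 1) → V := fun i => b' i
  have hb : Function.Injective b := Subtype.val_injective.comp b'.injective
  have hbσ : ∀ i, b i ∈ σ := fun i => (b' i).2
  have hbs : ∀ v ∈ σ, ∃ i, b i = v := fun v hv => ⟨b'.symm ⟨v, hv⟩, by simp [b]⟩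
  obtain ⟨e, he1, he2⟩ := exists_corner_homeo k
  have hsup : ∀ x, (bary b x).support ⊆ σ := by
    intro x v hv
    obtain ⟨i, rfl⟩ := bary_support b x (Finsupp.mem_support_iff.1 hv)
    exact hbσ i
  have hsupne : ∀ x, (bary b x).support.Nonempty := by
    intro x
    rw [Finset.nonempty_iff_ne_empty]
    intro h
    rw [Finsupp.support_eq_empty] at h
    have := bary_tot b x
    rw [h, Finsupp.sum_zero_index] at this
    exact zero_ne_one this
  have hproper : ∀ x, (x ∈ corner k ∧ ¬ ((∀ i, 0 < x i) ∧ ∑ i, x i < 1)) →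
      (bary b x).support ⊂ σ := by
    intro x ⟨hx, hx'⟩
    refine Finset.ssubset_iff_subset_ne.2 ⟨hsup x, fun heq => hx' ⟨fun i => ?_, ?_⟩⟩
    · have h1 : b i.succ ∈ (bary b x).support := heq ▸ hbσ _
      rw [Finsupp.mem_support_iff, bary_succ hb] at h1
      exact lt_of_le_of_ne (hx.1 i) h1.symm
    · have h1 : b 0 ∈ (bary b x).support := heq ▸ hbσ _
      rw [Finsupp.mem_support_iff, bary_zero hb] at h1
      exact lt_of_le_of_ne hx.2 fun h => h1 (by linarith)
  have hS : ∀ s : S k, e.symm s ∈ corner k ∧ ¬ ((∀ i, 0 < e.symm s i) ∧ ∑ i, e.symm s i < 1) := by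
    intro s
    rw [he2, e.apply_symm_apply]
    exact s.norm_eq
  let θ : S k → K'.R := fun s =>
    { m := bary b (e.symm s)
      nn := bary_nonneg b (hS s).1
      tot := bary_tot b _
      mem := hK' _ (hproper _ (hS s)) (hsupne _) }
  have hθ : Continuous θ := by
    rw [Cx.continuous_iff_eval]
    intro v
    exact (continuous_bary_apply b v).comp (e.symm.continuous.comp continuous_subtype_val)
  -- coordinates of a point of the closed simplex
  let co : K.R → Fin k → ℝ := fun p i => p (b i.succ)
  have hco : Continuous co := continuous_pi fun i => Cx.continuous_eval _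
  have hsumσ : ∀ p : K.R, p.m.support ⊆ σ → p (b 0) + ∑ i, co p i = 1 := by
    intro p hp
    have h1 := p.sum_eq hp
    rw [← h1, ← Finset.sum_coe_sort σ (fun v => p v), ← b'.sum_comp, Fin.sum_univ_succ]
  have hcorner : ∀ p : K.R, p.m.support ⊆ σ → co p ∈ corner k := by
    intro p hp
    refine ⟨fun i => p.nn _, ?_⟩
    linarith [hsumσ p hp, p.nn (b 0)]
  refine ⟨⟨θ, hθ⟩, fun p => ret k (e (co p)), fun s => hproper _ (hS s),
    ((continuous_ret k).comp (e.continuous.comp hco)).continuousOn, ?_⟩
  intro p hp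
  have hpσ := hp.1
  have h1 : co p ∈ corner k ∧ ¬ ((∀ i, 0 < co p i) ∧ ∑ i, co p i < 1) := by
    refine ⟨hcorner p hpσ, fun h => hp.2 fun v hv => ?_⟩
    obtain ⟨i, rfl⟩ := hbs v hv
    rw [Cx.R.mem_support']
    induction i using Fin.cases with
    | zero => linarith [hsumσ p hpσ, h.2]
    | succ i => exact h.1 i
  have h2 : ‖e (co p)‖ = 1 := (he2 _).1 h1
  refine ⟨⟨e (co p), mem_sphere_zero_iff_norm.2 h2⟩, ?_, ?_⟩
  · simp only
    rw [ret_of_mem (mem_closedBall_zero_iff.2 h2.le)]
    rfl
  · show bary b (e.symm (e (co p))) = p.m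
    rw [e.symm_apply_apply]
    ext v
    by_cases hv : v ∈ σ
    · obtain ⟨i, rfl⟩ := hbs v hv
      induction i using Fin.cases with
      | zero => rw [bary_zero hb]; show _ = p (b 0); linarith [hsumσ p hpσ]
      | succ i => rw [bary_succ hb]
    · have h3 : bary b (co p) v = 0 := by
        by_contra h
        exact hv (hsup _ (Finsupp.mem_support_iff.2 h))
      rw [h3]
      by_contra h
      exact hv (hpσ (Finsupp.mem_support_iff.2 (Ne.symm h)))

end simplex

end Crest.Agent.R185.Bld
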