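import Crest.Agent.R185.Bld1

/-!
# Row 185, BUILDER, part 2: the action on the model, extension over simplices
-/

set_option autoImplicit false
set_option linter.unusedSectionVars false

open Set Metric Topology
open Crest.Agent.R185.Att

namespace Crest.Agent.R185.Bld

noncomputable section

section action

variable {G : Type} [Group G]

/-- translate of a finite set of vertices -/
def tr (g : G) : (G × ℕ) ≃ (G × ℕ) where
  toFun a := (g * a.1, a.2)
  invFun a := (g⁻¹ * a.1, a.2)
  left_inv a := by simp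
  right_inv a := by simp

@[simp] theorem tr_apply (g : G) (a : G × ℕ) : tr g a = (g * a.1, a.2) := rfl
@[simp] theorem tr_symm_apply (g : G) (a : G × ℕ) : (tr g).symm a = (g⁻¹ * a.1, a.2) := rfl

theorem tr_mem {F : Finset G} {L k : ℕ} (g : G) {σ : Finset (G × ℕ)} (h : σ ∈ (mil F L k).s) :
    σ.map (tr g).toEmbedding ∈ (mil F L k).s := by
  refine ⟨?_, ?_, ?_⟩
  · intro a ha b hb
    obtain ⟨a', ha', rfl⟩ := Finset.mem_map.1 ha
    obtain ⟨b', hb', rfl⟩ := Finset.mem_map.1 hb
    obtain ⟨h1, h2⟩ := h.1 a' ha' b' hb'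
    simp only [Equiv.toEmbedding_apply, tr_apply]
    refine ⟨?_, fun h3 => ?_⟩
    · rw [mul_inv_rev, mul_assoc, inv_mul_cancel_left]; exact h1
    · rw [h2 h3]
  · intro a ha
    obtain ⟨a', ha', rfl⟩ := Finset.mem_map.1 ha
    exact h.2.1 a' ha'
  · rw [Finset.card_map]; exact h.2.2

variable {F : Finset G} {L k : ℕ}

/-- translate of a measure -/
def mv (g : G) (p : MJ F L k) : MJ F L k where
  m := p.m.embDomain (tr g).toEmbedding
  nn v := by
    by_cases hv : v ∈ range (tr g)
    · obtain ⟨w, rfl⟩ := hv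
      rw [← Equiv.coe_toEmbedding, Finsupp.embDomain_apply_self]; exact p.nn w
    · rw [Finsupp.embDomain_of_notMem_range _ _ _ hv]
  tot := by
    rw [Finsupp.sum_embDomain]; exact p.tot
  mem := by
    rw [Finsupp.support_embDomain]; exact tr_mem g p.mem

theorem mv_apply (g : G) (p : MJ F L k) (v : G × ℕ) : mv g p v = p (g⁻¹ * v.1, v.2) := by
  have h : v = (tr g).toEmbedding (g⁻¹ * v.1, v.2) := by simp
  show p.m.embDomain (tr g).toEmbedding v = _
  conv_lhs => rw [h]
  exact Finsupp.embDomain_apply_self _ _ _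

theorem mv_support (g : G) (p : MJ F L k) :
    (mv g p).m.support = p.m.support.map (tr g).toEmbedding := Finsupp.support_embDomain _ _

instance : MulAction G (MJ F L k) where
  smul := mv
  one_smul p := Cx.R.ext fun v => by
    show mv 1 p v = _
    rw [mv_apply]; simp
  mul_smul g h p := Cx.R.ext fun v => by
    show mv (g * h) p v = mv g (mv h p) v
    rw [mv_apply, mv_apply, mv_apply, mul_inv_rev, mul_assoc]

theorem smul_apply (g : G) (p : MJ F L k) (v : G × ℕ) : (g • p) v = p (g⁻¹ * v.1, v.2) := mv_apply g p v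

theorem smul_support (g : G) (p : MJ F L k) :
    (g • p).m.support = p.m.support.map (tr g).toEmbedding := mv_support g p

instance : ContinuousConstSMul G (MJ F L k) where
  continuous_const_smul g := by
    rw [Cx.continuous_iff_eval]
    intro v
    simp only [smul_apply]
    exact Cx.continuous_eval _

/-- inclusion of models -/
def mi {F' : Finset G} {L' k' : ℕ} (hF : F ⊆ F') (hL : L ≤ L') (hk : k ≤ k') :
    C(MJ F L k, MJ F' L' k') :=
  ⟨Cx.R.incl (mil_mono hF hL hk), Cx.continuous_incl _⟩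

@[simp] theorem mi_m {F' : Finset G} {L' k' : ℕ} (hF : F ⊆ F') (hL : L ≤ L') (hk : k ≤ k')
    (p : MJ F L k) : (mi hF hL hk p).m = p.m := rfl

theorem mi_apply {F' : Finset G} {L' k' : ℕ} (hF : F ⊆ F') (hL : L ≤ L') (hk : k ≤ k')
    (p : MJ F L k) (v : G × ℕ) : mi hF hL hk p v = p v := rfl

theorem mi_smul {F' : Finset G} {L' k' : ℕ} (hF : F ⊆ F') (hL : L ≤ L') (hk : k ≤ k')
    (g : G) (p : MJ F L k) : mi hF hL hk (g • p) = g • mi hF hL hk p :=
  Cx.R.ext fun v => by
    rw [mi_apply, smul_apply, smul_apply, mi_apply]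

/-- The bundled model. -/
def MG (F : Finset G) (L k : ℕ) : GSp G := ⟨MJ F L k⟩

/-! ### the base element of a simplex -/

/-- group element of the vertex of lowest level -/
def bs (σ : Finset (G × ℕ)) : G := by
  classical
  exact if h : σ.Nonempty then (Classical.choose (σ.exists_min_image (fun a => a.2) h)).1 else 1

theorem bs_spec {σ : Finset (G × ℕ)} (h : σ.Nonempty) :
    ∃ l, (bs σ, l) ∈ σ ∧ ∀ a ∈ σ, l ≤ a.2 := by
  classical
  have h1 := Classical.choose_spec (σ.exists_min_image (fun a => a.2) h)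
  refine ⟨(Classical.choose (σ.exists_min_image (fun a => a.2) h)).2, ?_, h1.2⟩
  unfold bs
  rw [dif_pos h]
  exact h1.1

theorem bs_unique {σ : Finset (G × ℕ)} (hσ : σ ∈ (mil F L k).s) {g : G} {l : ℕ} (h : (g, l) ∈ σ)
    (hl : ∀ a ∈ σ, l ≤ a.2) : bs σ = g := by
  obtain ⟨l', h1, h2⟩ := bs_spec ⟨_, h⟩
  have h3 : l = l' := le_antisymm (hl _ h1) (h2 _ h)
  subst h3
  exact congrArg Prod.fst ((hσ.1 _ h1 _ h).2 rfl)

theorem bs_map {σ : Finset (G × ℕ)} (hσ : σ ∈ (mil F L k).s) (hne : σ.Nonempty) (g : G) :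
    bs (σ.map (tr g).toEmbedding) = g * bs σ := by
  obtain ⟨l, h1, h2⟩ := bs_spec hne
  refine bs_unique (tr_mem g hσ) (l := l) (Finset.mem_map.2 ⟨_, h1, rfl⟩) ?_
  intro a ha
  obtain ⟨a', ha', rfl⟩ := Finset.mem_map.1 ha
  exact h2 a' ha'

/-- the simplices of maximal size with base `1` -/
def top1 (F : Finset G) (L k : ℕ) : Set (Finset (G × ℕ)) :=
  {σ | σ ∈ (mil F L (k + 1)).s ∧ σ.card = k + 1 ∧ bs σ = 1}

theorem finite_top1 (F : Finset G) (L k : ℕ) : (top1 F L k).Finite := by
  classical
  refine ((F ×ˢ Finset.range L).powerset.finite_toSet).subset ?_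
  rintro σ ⟨h1, h2, h3⟩
  simp only [SetLike.mem_coe, Finset.mem_powerset]
  have hne : σ.Nonempty := Finset.card_pos.1 (by omega)
  obtain ⟨l, h4, h5⟩ := bs_spec hne
  intro a ha
  rw [Finset.mem_product]
  refine ⟨?_, Finset.mem_range.2 (h1.2.1 a ha)⟩
  have := (h1.1 _ h4 _ ha).1
  rw [h3] at this
  simpa using this

instance (F : Finset G) (L k : ℕ) : Finite (top1 F L k) := (finite_top1 F L k).to_subtype

end action

/-! ### extension over the simplices of the next dimension -/

section extend

variable {G : Type} [Group G] {F : Finset G} {L k : ℕ}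

/-- chosen boundary sphere of a simplex with `k+1` vertices -/
theorem exists_data (σ : Finset (G × ℕ)) (hσ : σ ∈ (mil F L (k + 1)).s) (hc : σ.card = k + 1) :
    ∃ (θ : C(S k, MJ F L k)) (ψ : MJ F L (k + 1) → D k), (∀ s, (θ s).m.support ⊂ σ) ∧
      ContinuousOn ψ ((mil F L (k + 1)).face σ) ∧
      ∀ p : MJ F L (k + 1), p.m.support ⊂ σ → ∃ s, ψ p = sd k s ∧ (θ s).m = p.m := by
  refine exists_simplexData hc (mil F L (k + 1)) (mil F L k) ?_
  intro τ hτ hne
  have h1 := (mil F L (k + 1)).down hσ hτ.1 hne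
  refine ⟨h1.1, h1.2.1, ?_⟩
  have := Finset.card_lt_card hτ
  omega

/-- the boundary sphere -/
def th (σ : Finset (G × ℕ)) (hσ : σ ∈ (mil F L (k + 1)).s) (hc : σ.card = k + 1) :
    C(S k, MJ F L k) := Classical.choose (exists_data σ hσ hc)

/-- the coordinates -/
def ps (σ : Finset (G × ℕ)) (hσ : σ ∈ (mil F L (k + 1)).s) (hc : σ.card = k + 1) :
    MJ F L (k + 1) → D k := Classical.choose (Classical.choose_spec (exists_data σ hσ hc))

theorem th_ps_spec (σ : Finset (G × ℕ)) (hσ : σ ∈ (mil F L (k + 1)).s) (hc : σ.card = k + 1) :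
    (∀ s, (th σ hσ hc s).m.support ⊂ σ) ∧
      ContinuousOn (ps σ hσ hc) ((mil F L (k + 1)).face σ) ∧
      ∀ p : MJ F L (k + 1), p.m.support ⊂ σ → ∃ s, ps σ hσ hc p = sd k s ∧
        (th σ hσ hc s).m = p.m :=
  Classical.choose_spec (Classical.choose_spec (exists_data σ hσ hc))

/-- **Extension over the next simplices.**  `r` is an equivariant map on the part of the model with at
most `k` vertices per simplex, `j` an equivariant map of `G`-spaces, and the spheres `r ∘ th σ` of the
simplices with base `1` are filled after `j`; then `j ∘ r` extends equivariantly. -/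
theorem extend_r {X X' : Type} [TopologicalSpace X] [MulAction G X]
    [TopologicalSpace X'] [MulAction G X'] [ContinuousConstSMul G X']
    (r : C(MJ F L k, X)) (hr : ∀ (g : G) p, r (g • p) = g • r p)
    (j : C(X, X')) (hj : ∀ (g : G) x, j (g • x) = g • j x)
    (e : ∀ σ : top1 F L k, C(D k, X'))
    (he : ∀ (σ : top1 F L k) s, e σ (sd k s) = j (r (th σ.1 σ.2.1 σ.2.2.1 s))) :
    ∃ r' : C(MJ F L (k + 1), X'), (∀ (g : G) p, r' (g • p) = g • r' p) ∧
      ∀ p, r' (mi (Finset.Subset.refl F) le_rfl (Nat.le_succ k) p) = j (r p) := by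
  classical
  -- small points
  have hsmall : ∀ p : MJ F L (k + 1), p.m.support.card ≤ k → p.m.support ∈ (mil F L k).s :=
    fun p hp => ⟨p.mem.1, p.mem.2.1, hp⟩
  let down : ∀ p : MJ F L (k + 1), p.m.support.card ≤ k → MJ F L k := fun p hp =>
    ⟨p.m, p.nn, p.tot, hsmall p hp⟩
  have hcard : ∀ p : MJ F L (k + 1), ¬ p.m.support.card ≤ k → p.m.support.card = k + 1 :=
    fun p hp => le_antisymm p.mem.2.2 (by omega)
  -- normalised simplex of a big point
  have hnorm : ∀ σ : Finset (G × ℕ), σ ∈ (mil F L (k + 1)).s → σ.card = k + 1 →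
      σ.map (tr (bs σ)⁻¹).toEmbedding ∈ top1 F L k := by
    intro σ h1 h2
    refine ⟨tr_mem _ h1, by rw [Finset.card_map, h2], ?_⟩
    rw [bs_map h1 (Finset.card_pos.1 (by omega)), inv_mul_cancel]
  -- the value on a closed simplex
  let val : ∀ σ : Finset (G × ℕ), σ ∈ (mil F L (k + 1)).s → σ.card = k + 1 →
      MJ F L (k + 1) → X' := fun σ h1 h2 p =>
    bs σ • e ⟨_, hnorm σ h1 h2⟩ (ps _ (hnorm σ h1 h2).1 (hnorm σ h1 h2).2.1 ((bs σ)⁻¹ • p))
  let r' : MJ F L (k + 1) → X' := fun p =>
    if h : p.m.support.card ≤ k then j (r (down p h)) else val p.m.support p.mem (hcard p h) p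
  have hr1 : ∀ (p : MJ F L (k + 1)) (h : p.m.support.card ≤ k), r' p = j (r (down p h)) :=
    fun p h => dif_pos h
  have hr2 : ∀ (p : MJ F L (k + 1)) (h : ¬ p.m.support.card ≤ k),
      r' p = val p.m.support p.mem (hcard p h) p := fun p h => dif_neg h
  -- on the boundary of a closed simplex
  have hval : ∀ (σ : Finset (G × ℕ)) (h1 : σ ∈ (mil F L (k + 1)).s) (h2 : σ.card = k + 1)
      (p : MJ F L (k + 1)), p.m.support ⊆ σ → val σ h1 h2 p = r' p := by
    intro σ h1 h2 p hp
    by_cases hpc : p.m.support.card ≤ k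
    · rw [hr1 p hpc]
      have h3 : ((bs σ)⁻¹ • p).m.support ⊂ σ.map (tr (bs σ)⁻¹).toEmbedding := by
        rw [smul_support]
        refine Finset.map_ssubset_map.2 (Finset.ssubset_iff_subset_ne.2 ⟨hp, fun h => ?_⟩)
        rw [h] at hpc; omega
      obtain ⟨s, hs1, hs2⟩ := (th_ps_spec _ (hnorm σ h1 h2).1 (hnorm σ h1 h2).2.1).2.2 _ h3
      simp only [val]
      rw [hs1, he, ← hj, ← hr]
      congr 2
      apply Cx.R.ext
      intro v
      rw [smul_apply]
      have h4 : ∀ w, th _ (hnorm σ h1 h2).1 (hnorm σ h1 h2).2.1 s w = ((bs σ)⁻¹ • p) w :=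
        fun w => DFunLike.congr_fun hs2 w
      rw [h4, smul_apply]
      show p ((bs σ)⁻¹⁻¹ * ((bs σ)⁻¹ * v.1), v.2) = p v
      rw [inv_inv, mul_inv_cancel_left]
    · have h3 : p.m.support = σ := by
        refine Finset.eq_of_subset_of_card_le hp ?_
        rw [h2, hcard p hpc]
      subst h3
      exact (hr2 p hpc).symm
  have hcont : Continuous r' := by
    refine Cx.continuous_of_face fun σ hσ => ?_
    by_cases hc : σ.card ≤ k
    · -- small face
      have h1 : ∀ p ∈ (mil F L (k + 1)).face σ, p.m.support.card ≤ k := fun p hp =>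
        (Finset.card_le_card hp).trans hc
      rw [continuousOn_iff_continuous_domRestrict]
      have h2 : ((mil F L (k + 1)).face σ).domRestrict r' =
          fun p : (mil F L (k + 1)).face σ => j (r (down p.1 (h1 p.1 p.2))) := by
        funext p
        exact hr1 p.1 (h1 p.1 p.2)
      rw [h2]
      refine j.continuous.comp (r.continuous.comp ?_)
      rw [Cx.continuous_iff_eval]
      intro v
      show Continuous fun x : (mil F L (k + 1)).face σ => x.1 v
      exact (Cx.continuous_eval v).comp continuous_subtype_val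
    · have hc' : σ.card = k + 1 := le_antisymm hσ.2.2 (by omega)
      have h3 : ContinuousOn (val σ hσ hc') ((mil F L (k + 1)).face σ) := by
        refine ContinuousOn.const_smul ?_ _
        refine (e _).continuous.comp_continuousOn ?_
        refine (th_ps_spec _ (hnorm σ hσ hc').1 (hnorm σ hσ hc').2.1).2.1.comp
          (continuous_const_smul _).continuousOn ?_
        intro p hp
        show ((bs σ)⁻¹ • p).m.support ⊆ _
        rw [smul_support]
        exact Finset.map_subset_map.2 hp
      exact h3.congr fun p hp => (hval σ hσ hc' p hp).symm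
  refine ⟨⟨r', hcont⟩, ?_, ?_⟩
  · intro g p
    show r' (g • p) = g • r' p
    by_cases hpc : p.m.support.card ≤ k
    · have h1 : (g • p).m.support.card ≤ k := by rw [smul_support, Finset.card_map]; exact hpc
      rw [hr1 p hpc, hr1 _ h1, ← hj, ← hr]
      congr 2
    · have hc := hcard p hpc
      have hg : (g • p).m.support = p.m.support.map (tr g).toEmbedding := smul_support g p
      have hm := tr_mem g p.mem
      have hcm : (p.m.support.map (tr g).toEmbedding).card = k + 1 := by rw [Finset.card_map, hc]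
      rw [← hval _ hm hcm (g • p) hg.le, ← hval _ p.mem hc p (Finset.Subset.refl _)]
      simp only [val]
      have hb : bs (p.m.support.map (tr g).toEmbedding) = g * bs p.m.support :=
        bs_map p.mem p.nonempty g
      have h5 : (p.m.support.map (tr g).toEmbedding).map
          (tr (bs (p.m.support.map (tr g).toEmbedding))⁻¹).toEmbedding =
          p.m.support.map (tr (bs p.m.support)⁻¹).toEmbedding := by
        rw [hb, Finset.map_map]
        congr 1
        ext v <;> simp [mul_assoc]
      have h6 : (bs (p.m.support.map (tr g).toEmbedding))⁻¹ • g • p = (bs p.m.support)⁻¹ • p := by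
        rw [hb, mul_inv_rev, smul_smul, inv_mul_cancel_right]
      have h7 : ∀ (τ τ' : Finset (G × ℕ)) (h : τ ∈ top1 F L k) (h' : τ' ∈ top1 F L k),
          τ = τ' → ∀ q, e ⟨τ, h⟩ (ps _ h.1 h.2.1 q) = e ⟨τ', h'⟩ (ps _ h'.1 h'.2.1 q) := by
        intro τ τ' h h' heq q
        subst heq
        rfl
      rw [h6, h7 _ _ _ (hnorm p.m.support p.mem hc) h5, hb, mul_smul]
  · intro p
    have h1 : (mi (Finset.Subset.refl F) le_rfl (Nat.le_succ k) p).m.support.card ≤ k := p.mem.2.2
    show r' _ = _
    rw [hr1 _ h1]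
    rfl

/-- equivariant maps of the model to a space with fillings -/
theorem exists_r {X : Type} [TopologicalSpace X] [MulAction G X] [ContinuousConstSMul G X]
    (n : ℕ) (hX : ∀ k < n, ∀ f : C(S k, X), ∃ g : C(D k, X), ∀ s, g (sd k s) = f s)
    (F : Finset G) (L : ℕ) :
    ∃ r : C(MJ F L n, X), ∀ (g : G) p, r (g • p) = g • r p := by
  induction n with
  | zero =>
    have : ∀ p : MJ F L 0, False := by
      intro p
      have h1 := p.mem.2.2
      have h2 := Finset.card_pos.2 p.nonempty
      omega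
    refine ⟨⟨fun p => (this p).elim, ?_⟩, fun g p => (this p).elim⟩
    rw [continuous_def]
    intro U _
    convert isOpen_empty
    ext p
    exact (this p).elim
  | succ n ih =>
    obtain ⟨r, hr⟩ := ih (fun k hk => hX k (hk.trans n.lt_succ_self))
    choose e he using fun σ : top1 F L n => hX n n.lt_succ_self (r.comp (th σ.1 σ.2.1 σ.2.2.1))
    obtain ⟨r', hr', -⟩ := extend_r r hr (ContinuousMap.id X) (fun _ _ => rfl) e he
    exact ⟨r', hr'⟩

end extend

end

end Crest.Agent.R185.Bld
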