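import Crest.Agent.R185.Bld2

/-!
# Row 185, BUILDER, part 3: equivariant maps to the model; pushing into the skeleton
-/

set_option autoImplicit false
set_option linter.unusedSectionVars false

open Set Metric Topology
open Crest.Agent.R185.Att

namespace Crest.Agent.R185.Bld

noncomputable section

/-! ### the map to the model -/

section smap

variable {G : Type} [Group G]

theorem vert1_mem (F : Finset G) (h1 : (1 : G) ∈ F) (L k : ℕ) (hk : 1 ≤ k) :
    ({((1 : G), L)} : Finset (G × ℕ)) ∈ (mil F (L + 1) k).s := by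
  refine ⟨?_, ?_, ?_⟩
  · intro a ha b hb
    rw [Finset.mem_singleton] at ha hb
    subst ha; subst hb
    simpa using h1
  · intro a ha
    rw [Finset.mem_singleton] at ha
    subst ha
    exact L.lt_succ_self
  · simpa using hk

/-- enlarge the scale so that `T` becomes a simplex-wise admissible set -/
theorem exists_scale (F : Finset G) (T : Finset (G × ℕ)) :
    ∃ F' : Finset G, F ⊆ F' ∧ (1 : G) ∈ F' ∧ ∀ a ∈ T, ∀ b ∈ T, a.1⁻¹ * b.1 ∈ F' := by
  classical
  refine ⟨F ∪ {1} ∪ (T ×ˢ T).image fun p => p.1.1⁻¹ * p.2.1, ?_, ?_, ?_⟩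
  · intro g hg
    simp [hg]
  · simp
  · intro a ha b hb
    refine Finset.mem_union_right _ (Finset.mem_image.2 ⟨(a, b), ?_, rfl⟩)
    exact Finset.mem_product.2 ⟨ha, hb⟩

/-- **Coning with a new level**: an equivariant map to the model extends over attached cells. -/
theorem smap_step {n : ℕ} (X : GSp G) (c : Cells X n) {F : Finset G} {L : ℕ}
    (s : C(X.Z, MJ F L n)) (hs : ∀ (g : G) z, s (g • z) = g • s z) :
    ∃ (F' : Finset G) (L' : ℕ) (s' : C((X.att c).Z, MJ F' L' (n + 1))),
      ∀ (g : G) z, s' (g • z) = g • s' z := by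
  classical
  choose T hT using fun i : c.C => Cx.exists_support (s.comp (c.φ i))
  have : Fintype c.C := Fintype.ofFinite _
  let TT : Finset (G × ℕ) := insert ((1 : G), L) (Finset.univ.biUnion T)
  obtain ⟨F', hF, h1, hF'⟩ := exists_scale F TT
  have hle : ∀ i x, (s (c.φ i x)).m.support ⊆ TT := fun i x =>
    (hT i x).trans ((Finset.subset_biUnion_of_mem T (Finset.mem_univ i)).trans
      (Finset.subset_insert _ _))
  have hk : 1 ≤ n + 1 := by omega
  let v0 : MJ F' (L + 1) (n + 1) := Cx.vert ((1 : G), L) (vert1_mem F' h1 L (n + 1) hk)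
  have hv0 : v0.m.support = {((1 : G), L)} := Finsupp.support_single _ one_ne_zero
  have hmem : ∀ i x, (s (c.φ i x)).m.support ∪ v0.m.support ∈ (mil F' (L + 1) (n + 1)).s := by
    intro i x
    rw [hv0]
    have hp := (s (c.φ i x)).mem
    have hsub := hle i x
    refine ⟨?_, ?_, ?_⟩
    · intro a ha b hb
      have haT : a ∈ TT := by
        rcases Finset.mem_union.1 ha with h | h
        · exact hsub h
        · rw [Finset.mem_singleton.1 h]; exact Finset.mem_insert_self _ _
      have hbT : b ∈ TT := by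
        rcases Finset.mem_union.1 hb with h | h
        · exact hsub h
        · rw [Finset.mem_singleton.1 h]; exact Finset.mem_insert_self _ _
      refine ⟨hF' a haT b hbT, fun hab => ?_⟩
      rcases Finset.mem_union.1 ha with h | h
      · rcases Finset.mem_union.1 hb with h' | h'
        · exact (hp.1 a h b h').2 hab
        · have := hp.2.1 a h
          rw [Finset.mem_singleton.1 h'] at hab
          simp only at hab
          omega
      · rcases Finset.mem_union.1 hb with h' | h'
        · have := hp.2.1 b h'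
          rw [Finset.mem_singleton.1 h] at hab
          simp only at hab
          omega
        · rw [Finset.mem_singleton.1 h, Finset.mem_singleton.1 h']
    · intro a ha
      rcases Finset.mem_union.1 ha with h | h
      · exact (hp.2.1 a h).trans L.lt_succ_self
      · rw [Finset.mem_singleton.1 h]; exact L.lt_succ_self
    · exact (Finset.card_union_le _ _).trans (by
        rw [Finset.card_singleton]
        exact Nat.succ_le_succ hp.2.2)
  have hfill : ∀ i : c.C, ∃ g : C(D n, MJ F' (L + 1) (n + 1)), ∀ x, (g (sd n x)).m = (s (c.φ i x)).m := by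
    intro i
    let H : C(S n × unitInterval, MJ F' (L + 1) (n + 1)) :=
      ⟨fun p => Cx.mix p.2 (s (c.φ i p.1)) v0 (Cx.mix_support_mem _ _ _ (hmem i p.1)), by
        rw [Cx.continuous_iff_eval]
        intro v
        simp only [Cx.mix_apply]
        have h1 : Continuous fun p : S n × unitInterval => s (c.φ i p.1) v :=
          (Cx.continuous_eval v).comp (s.continuous.comp ((c.φ i).continuous.comp continuous_fst))
        have h2 : Continuous fun p : S n × unitInterval => ((p.2 : unitInterval) : ℝ) :=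
          continuous_subtype_val.comp continuous_snd
        exact ((continuous_const.sub h2).mul h1).add (h2.mul continuous_const)⟩
    obtain ⟨g, hg⟩ := fill_of_homotopy H (ContinuousMap.const _ v0) (by
      intro x
      apply Cx.R.ext
      intro v
      show (1 - ((1 : unitInterval) : ℝ)) * _ + ((1 : unitInterval) : ℝ) * _ = _
      simp)
    refine ⟨g, fun x => ?_⟩
    rw [hg]
    ext v
    show (1 - ((0 : unitInterval) : ℝ)) * _ + ((0 : unitInterval) : ℝ) * _ = _
    simp
  choose e he using hfill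
  obtain ⟨s', h1', h2', h3'⟩ := exists_glueG (φ := c.φ)
    ((mi hF (Nat.le_succ L) (Nat.le_succ n)).comp s)
    (fun (g : G) (z : X.Z) => by
      show mi hF (Nat.le_succ L) (Nat.le_succ n) (s (g • z)) = _
      rw [hs, mi_smul]; rfl)
    e (fun i x => Cx.R.ext_m (he i x))
  exact ⟨F', L + 1, s', h3'⟩

end smap

/-! ### hat functions of the Kuhn triangulation -/

section hat

variable {n : ℕ}

/-- norm of the positive part -/
def pp (u : Fin n → ℝ) : ℝ := ‖fun i => max (u i) 0‖

theorem continuous_pp : Continuous (pp : (Fin n → ℝ) → ℝ) :=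
  continuous_norm.comp (continuous_pi fun i => (continuous_apply i).max continuous_const)

theorem pp_nonneg (u : Fin n → ℝ) : 0 ≤ pp u := norm_nonneg _

theorem le_pp (u : Fin n → ℝ) (i : Fin n) : u i ≤ pp u := by
  have h := norm_le_pi_norm (fun i => max (u i) 0) i
  rw [Real.norm_of_nonneg (le_max_right _ _)] at h
  exact (le_max_left _ _).trans h

theorem pp_of_nonpos {u : Fin n → ℝ} (h : ∀ i, u i ≤ 0) : pp u = 0 := by
  unfold pp
  rw [norm_eq_zero]
  funext i
  exact max_eq_right (h i)

theorem pp_lt {u : Fin n → ℝ} {r : ℝ} (hr : 0 < r) (h : ∀ i, u i < r) : pp u < r := by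
  unfold pp
  rw [pi_norm_lt_iff hr]
  intro i
  rw [Real.norm_of_nonneg (le_max_right _ _)]
  exact max_lt (h i) hr

/-- hat function at the lattice point `v`, in the variable `y = N x` -/
def hat (v : Fin n → ℤ) (y : Fin n → ℝ) : ℝ :=
  max 0 (1 - pp (fun i => y i - v i) - pp (fun i => (v i : ℝ) - y i))

theorem continuous_hat (v : Fin n → ℤ) : Continuous (hat v) := by
  refine continuous_const.max ((continuous_const.sub ?_).sub ?_)
  · exact continuous_pp.comp (continuous_pi fun i => (continuous_apply i).sub continuous_const)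
  · exact continuous_pp.comp (continuous_pi fun i => continuous_const.sub (continuous_apply i))

theorem hat_nonneg (v : Fin n → ℤ) (y : Fin n → ℝ) : 0 ≤ hat v y := le_max_left _ _

theorem hat_pos {v : Fin n → ℤ} {y : Fin n → ℝ} (h : 0 < hat v y) (i j : Fin n) :
    (y i - v i) + ((v j : ℝ) - y j) < 1 := by
  have h1 : 0 < 1 - pp (fun i => y i - v i) - pp (fun i => (v i : ℝ) - y i) := by
    rcases lt_max_iff.1 h with h | h
    · exact absurd h (lt_irrefl _)
    · exact h
  have h2 := le_pp (fun i => y i - v i) i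
  have h3 := le_pp (fun i => (v i : ℝ) - y i) j
  linarith

theorem hat_pos1 {v : Fin n → ℤ} {y : Fin n → ℝ} (h : 0 < hat v y) (i : Fin n) :
    y i - v i < 1 ∧ (v i : ℝ) - y i < 1 := by
  have h1 : 0 < 1 - pp (fun i => y i - v i) - pp (fun i => (v i : ℝ) - y i) := by
    rcases lt_max_iff.1 h with h | h
    · exact absurd h (lt_irrefl _)
    · exact h
  have h2 := le_pp (fun i => y i - v i) i
  have h3 := le_pp (fun i => (v i : ℝ) - y i) i
  have h4 := pp_nonneg (fun i => y i - v i)
  have h5 := pp_nonneg (fun i => (v i : ℝ) - y i)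
  constructor <;> linarith

theorem exists_hat_pos (y : Fin n → ℝ) : 0 < hat (fun i => ⌊y i⌋) y := by
  unfold hat
  rw [lt_max_iff]
  right
  have h1 : pp (fun i => y i - (⌊y i⌋ : ℤ)) < 1 := pp_lt one_pos fun i => by
    linarith [Int.lt_floor_add_one (y i)]
  have h2 : pp (fun i => ((⌊y i⌋ : ℤ) : ℝ) - y i) = 0 := pp_of_nonpos fun i => by
    linarith [Int.floor_le (y i)]
  rw [h2]; linarith

/-- the lattice points with positive hat function form a chain -/
theorem hat_chain {v w : Fin n → ℤ} {y : Fin n → ℝ} (hv : 0 < hat v y) (hw : 0 < hat w y) :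
    v ≤ w ∨ w ≤ v := by
  by_contra hcon
  push Not at hcon
  obtain ⟨h1, h2⟩ := hcon
  rw [Pi.le_def] at h1 h2
  push Not at h1 h2
  obtain ⟨i, hi⟩ := h1
  obtain ⟨j, hj⟩ := h2
  have h3 := hat_pos hv j i
  have h4 := hat_pos hw i j
  have h5 : (w i : ℝ) + 1 ≤ v i := by exact_mod_cast hi
  have h6 : (v j : ℝ) + 1 ≤ w j := by exact_mod_cast hj
  linarith

theorem hat_near {v w : Fin n → ℤ} {y : Fin n → ℝ} (hv : 0 < hat v y) (hw : 0 < hat w y)
    (i : Fin n) : w i ≤ v i + 1 := by
  have h1 := (hat_pos1 hv i).1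
  have h2 := (hat_pos1 hw i).2
  have h3 : (w i : ℝ) < v i + 2 := by linarith
  have h4 : w i < v i + 2 := by exact_mod_cast h3
  omega

/-- multiplicity of the hat functions -/
theorem hat_card (A : Finset (Fin n → ℤ)) (y : Fin n → ℝ) (h : ∀ v ∈ A, 0 < hat v y) :
    A.card ≤ n + 1 := by
  classical
  rcases A.eq_empty_or_nonempty with rfl | hne
  · simp
  obtain ⟨v0, hv0, hmin⟩ := A.exists_min_image (fun v => ∑ i, v i) hne
  have hinj : Set.InjOn (fun v : Fin n → ℤ => ∑ i, v i) A := by
    intro v hv w hw hvw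
    simp only at hvw
    rcases hat_chain (h v hv) (h w hw) with h1 | h1
    · funext i
      by_contra hne'
      have h2 : ∑ i, v i < ∑ i, w i :=
        Finset.sum_lt_sum (fun i _ => h1 i) ⟨i, Finset.mem_univ i, lt_of_le_of_ne (h1 i) hne'⟩
      omega
    · funext i
      by_contra hne'
      have h2 : ∑ i, w i < ∑ i, v i :=
        Finset.sum_lt_sum (fun i _ => h1 i) ⟨i, Finset.mem_univ i, lt_of_le_of_ne (h1 i) (Ne.symm hne')⟩
      omega
  rw [← Finset.card_image_of_injOn hinj]
  have hsub : A.image (fun v : Fin n → ℤ => ∑ i, v i) ⊆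
      Finset.Icc (∑ i, v0 i) (∑ i, v0 i + n) := by
    intro m hm
    obtain ⟨v, hv, rfl⟩ := Finset.mem_image.1 hm
    rw [Finset.mem_Icc]
    refine ⟨hmin v hv, ?_⟩
    calc ∑ i, v i ≤ ∑ i, (v0 i + 1) := Finset.sum_le_sum fun i _ => hat_near (h v0 hv0) (h v hv) i
      _ = ∑ i, v0 i + n := by simp [Finset.sum_add_distrib]
  refine (Finset.card_le_card hsub).trans ?_
  rw [Int.card_Icc]
  omega

/-- **Pushing into the skeleton**: a map of the `n`-cube to a complex can be replaced by one with values
in the `n`-skeleton, with smaller supports. -/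
theorem push_skel {V : Type} {K K' : Cx V} (β : C(D n, K.R))
    (hK' : ∀ τ ∈ K.s, τ.card ≤ n + 1 → τ ∈ K'.s) :
    ∃ lam : C(D n, K'.R), ∀ x, (lam x).m.support ⊆ (β x).m.support := by
  classical
  -- Lebesgue number
  obtain ⟨δ, hδ, hleb⟩ := lebesgue_number_lemma_of_metric (isCompact_univ (X := D n))
    (c := fun v : V => {x : D n | 0 < β x v})
    (fun v => (Cx.isOpen_star v).preimage β.continuous) (fun x _ => by
      obtain ⟨v, hv⟩ := (β x).exists_pos
      exact mem_iUnion.2 ⟨v, hv⟩)
  obtain ⟨N, hN⟩ := exists_nat_gt (2 / δ)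
  have hN0 : (0 : ℝ) < N := lt_trans (by positivity) hN
  have hNδ : 2 / (N : ℝ) < δ := by
    rw [div_lt_iff₀ hN0]
    rw [div_lt_iff₀ hδ] at hN
    linarith
  let yy : D n → Fin n → ℝ := fun x => (N : ℝ) • (x : Fin n → ℝ)
  have hyy : Continuous yy := (continuous_const_smul (N : ℝ)).comp continuous_subtype_val
  have hw : ∀ v : Fin n → ℤ, ∃ w : V, ∀ x : D n, 0 < hat v (yy x) → 0 < β x w := by
    intro v
    by_cases hex : ∃ x : D n, 0 < hat v (yy x)
    · obtain ⟨x0, hx0⟩ := hex
      obtain ⟨w, hw⟩ := hleb x0 (mem_univ _)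
      refine ⟨w, fun x hx => ?_⟩
      refine hw ?_
      rw [mem_ball, Subtype.dist_eq, dist_pi_lt_iff hδ]
      intro i
      rw [Real.dist_eq, abs_lt]
      have h1 := hat_pos1 hx i
      have h2 := hat_pos1 hx0 i
      simp only [yy, Pi.smul_apply, smul_eq_mul] at h1 h2
      have h3 : (N : ℝ) * ((x : Fin n → ℝ) i - (x0 : Fin n → ℝ) i) < 2 := by linarith
      have h4 : -2 < (N : ℝ) * ((x : Fin n → ℝ) i - (x0 : Fin n → ℝ) i) := by linarith
      constructor
      · have : -(2 / (N : ℝ)) < (x : Fin n → ℝ) i - (x0 : Fin n → ℝ) i := by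
          rw [neg_lt_iff_pos_add, ← sub_lt_iff_lt_add'] 
          rw [zero_sub, neg_lt_iff_pos_add]
          by_contra hcon
          push Not at hcon
          have h5 : (N : ℝ) * ((x : Fin n → ℝ) i - (x0 : Fin n → ℝ) i) ≤ (N : ℝ) * (-(2 / N)) :=
            mul_le_mul_of_nonneg_left (by linarith) hN0.le
          rw [mul_neg, mul_div_cancel₀ _ hN0.ne'] at h5
          linarith
        linarith
      · have : (x : Fin n → ℝ) i - (x0 : Fin n → ℝ) i < 2 / (N : ℝ) := by
          rw [lt_div_iff₀ hN0]; linarith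
        linarith
    · obtain ⟨w, -⟩ := (β ⟨0, by simp⟩).exists_pos
      exact ⟨w, fun x hx => absurd ⟨x, hx⟩ hex⟩
  choose w hw using hw
  -- the relevant lattice points
  let Lt : Finset (Fin n → ℤ) := Fintype.piFinset fun _ => Finset.Icc (-(N : ℤ) - 1) (N + 1)
  have hLt : ∀ (v : Fin n → ℤ) (x : D n), 0 < hat v (yy x) → v ∈ Lt := by
    intro v x hx
    rw [Fintype.mem_piFinset]
    intro i
    have h1 := hat_pos1 hx i
    simp only [yy, Pi.smul_apply, smul_eq_mul] at h1
    have h2 := (norm_le_pi_norm (x : Fin n → ℝ) i).trans x.norm_le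
    rw [Real.norm_eq_abs, abs_le] at h2
    have h3 : (N : ℝ) * (x : Fin n → ℝ) i ≤ N := by nlinarith
    have h4 : -(N : ℝ) ≤ (N : ℝ) * (x : Fin n → ℝ) i := by nlinarith
    rw [Finset.mem_Icc]
    constructor
    · have : (-(N : ℝ) - 1) < v i + 0 := by linarith [h1.1]
      have : (-(N : ℤ) - 1 : ℤ) < v i := by exact_mod_cast (by linarith : (-(N : ℝ) - 1) < v i)
      omega
    · have : (v i : ℝ) < N + 1 := by linarith [h1.2]
      have : v i < (N : ℤ) + 1 := by exact_mod_cast this
      omega
  let tot : D n → ℝ := fun x => ∑ v ∈ Lt, hat v (yy x)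
  have htotc : Continuous tot := continuous_finsetSum _ fun v _ => (continuous_hat v).comp hyy
  have htot : ∀ x, 0 < tot x := by
    intro x
    refine Finset.sum_pos' (fun v _ => hat_nonneg _ _) ⟨_, hLt _ x (exists_hat_pos (yy x)),
      exists_hat_pos (yy x)⟩
  let mu : D n → V →₀ ℝ := fun x => ∑ v ∈ Lt, Finsupp.single (w v) (hat v (yy x) / tot x)
  have hmu : ∀ x u, mu x u = ∑ v ∈ Lt, if w v = u then hat v (yy x) / tot x else 0 := by
    intro x u
    simp only [mu, Finsupp.finsetSum_apply, Finsupp.single_apply]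
  have hsup : ∀ x u, mu x u ≠ 0 → ∃ v ∈ Lt, 0 < hat v (yy x) ∧ w v = u := by
    intro x u hu
    rw [hmu] at hu
    obtain ⟨v, hv, hv'⟩ := Finset.exists_ne_zero_of_sum_ne_zero hu
    by_cases h1 : w v = u
    · refine ⟨v, hv, lt_of_le_of_ne (hat_nonneg _ _) fun h2 => hv' ?_, h1⟩
      rw [← h2, zero_div]; simp
    · exact absurd (if_neg h1) hv'
  have htotmu : ∀ x, ((mu x).sum fun _ a => a) = 1 := by
    intro x
    simp only [mu]
    rw [← Finsupp.sum_finsetSum_index (fun _ => rfl) (fun _ _ _ => rfl)]
    simp only [Finsupp.sum_single_index]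
    rw [← Finset.sum_div, div_self (htot x).ne']
  have hsub : ∀ x, (mu x).support ⊆ (β x).m.support := by
    intro x u hu
    obtain ⟨v, -, h1, rfl⟩ := hsup x u (Finsupp.mem_support_iff.1 hu)
    exact Cx.R.mem_support'.2 (hw v x h1)
  have hcard : ∀ x, (mu x).support.card ≤ n + 1 := by
    intro x
    have h1 : (mu x).support ⊆ (Lt.filter fun v => 0 < hat v (yy x)).image w := by
      intro u hu
      obtain ⟨v, h1, h2, h3⟩ := hsup x u (Finsupp.mem_support_iff.1 hu)
      exact Finset.mem_image.2 ⟨v, Finset.mem_filter.2 ⟨h1, h2⟩, h3⟩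
    refine (Finset.card_le_card h1).trans (Finset.card_image_le.trans ?_)
    exact hat_card _ (yy x) fun v hv => (Finset.mem_filter.1 hv).2
  have hne : ∀ x, (mu x).support.Nonempty := by
    intro x
    rw [Finset.nonempty_iff_ne_empty]
    intro h
    rw [Finsupp.support_eq_empty] at h
    have := htotmu x
    rw [h, Finsupp.sum_zero_index] at this
    exact zero_ne_one this
  let lam : D n → K'.R := fun x =>
    { m := mu x
      nn := fun u => by
        rw [hmu]
        refine Finset.sum_nonneg fun v _ => ?_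
        split_ifs
        · exact div_nonneg (hat_nonneg _ _) (htot x).le
        · exact le_rfl
      tot := htotmu x
      mem := hK' _ (K.down (β x).mem (hsub x) (hne x)) (hcard x) }
  refine ⟨⟨lam, ?_⟩, hsub⟩
  rw [Cx.continuous_iff_eval]
  intro u
  have : (fun x => lam x u) = fun x => ∑ v ∈ Lt, if w v = u then hat v (yy x) / tot x else 0 := by
    funext x
    exact hmu x u
  rw [this]
  refine continuous_finsetSum _ fun v _ => ?_
  split_ifs
  · exact ((continuous_hat v).comp hyy).div htotc fun x => (htot x).ne'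
  · exact continuous_const

end hat

/-- fillings can be pushed into the skeleton, keeping the boundary -/
theorem fill_skel {G : Type} [Group G] {n : ℕ} {F F' : Finset G} {L L' : ℕ}
    (f : C(S n, MJ F L n)) (β : C(D n, MJ F' L' L')) (h : ∀ s, (β (sd n s)).m = (f s).m) :
    ∃ g : C(D n, MJ F' L' (n + 1)), ∀ s, (g (sd n s)).m = (f s).m := by
  classical
  obtain ⟨lam, hlam⟩ := push_skel (K' := mil F' L' (n + 1)) β
    (fun τ hτ hc => ⟨hτ.1, hτ.2.1, hc⟩)
  have hmem : ∀ s, (f s).m.support ∪ (lam (sd n s)).m.support ∈ (mil F' L' (n + 1)).s := by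
    intro s
    have h1 : (f s).m.support ∪ (lam (sd n s)).m.support = (f s).m.support := by
      apply Finset.union_eq_left.2
      rw [← h s]; exact hlam _
    rw [h1]
    have h2 := (β (sd n s)).mem
    rw [h s] at h2
    exact ⟨h2.1, h2.2.1, (f s).mem.2.2.trans (Nat.le_succ n)⟩
  let H : C(S n × unitInterval, MJ F' L' (n + 1)) :=
    ⟨fun p => Cx.mix p.2 (f p.1) (lam (sd n p.1)) (Cx.mix_support_mem _ _ _ (hmem p.1)), by
      rw [Cx.continuous_iff_eval]
      intro v
      simp only [Cx.mix_apply]
      have h1 : Continuous fun p : S n × unitInterval => f p.1 v :=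
        (Cx.continuous_eval v).comp (f.continuous.comp continuous_fst)
      have h2 : Continuous fun p : S n × unitInterval => ((p.2 : unitInterval) : ℝ) :=
        continuous_subtype_val.comp continuous_snd
      have h3 : Continuous fun p : S n × unitInterval => lam (sd n p.1) v :=
        (Cx.continuous_eval v).comp (lam.continuous.comp ((sd n).continuous.comp continuous_fst))
      exact ((continuous_const.sub h2).mul h1).add (h2.mul h3)⟩
  obtain ⟨g, hg⟩ := fill_of_homotopy H lam (by
    intro x
    apply Cx.R.ext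
    intro v
    show (1 - ((1 : unitInterval) : ℝ)) * _ + ((1 : unitInterval) : ℝ) * _ = _
    simp)
  refine ⟨g, fun x => ?_⟩
  rw [hg]
  ext v
  show (1 - ((0 : unitInterval) : ℝ)) * _ + ((0 : unitInterval) : ℝ) * _ = _
  simp

end

end Crest.Agent.R185.Bld
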