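import Crest.Agent.R185.Att2

/-!
# Row 185, block T3: cellular approximation, one stage

`avoid_zero`: a continuous map `ℝ^k → ℝ^m`, `k < m`, can be moved by less than `ε` off the origin.
`push_down`: for `K` compact, embedded in `ℝ^k`, `k < m`, every `f : C(K, GAtt G φ)` is homotopic
rel `{y | f y ∈ range inZ}` to a map into `Z`.
-/

set_option autoImplicit false
set_option linter.unusedSectionVars false

open Set Metric Topology
open scoped unitInterval Manifold ContDiff

namespace Crest.Agent.R185.Cell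
open Crest.Agent.R185.Att

/-- small perturbation off the origin -/
theorem avoid_zero {k m : ℕ} {t : Set (Fin k → ℝ)} (ht : dimH t < m)
    (U : C(Fin k → ℝ, Fin m → ℝ)) {ε : ℝ} (hε : 0 < ε) :
    ∃ g : C(Fin k → ℝ, Fin m → ℝ), (∀ x, ‖g x - U x‖ < ε) ∧ ∀ x ∈ t, g x ≠ 0 := by
  obtain ⟨g, hg⟩ := exists_contMDiffMap_forall_mem_convex_of_local_const (n := 1)
    𝓘(ℝ, Fin k → ℝ) (t := fun x => ball (U x) (ε / 2)) (fun x => convex_ball _ _) (by
      intro x
      refine ⟨U x, ?_⟩
      have h1 : ∀ᶠ y in 𝓝 x, dist (U y) (U x) < ε / 2 :=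
        (U.continuous.continuousAt (x := x)).eventually (ball_mem_nhds _ (half_pos hε))
      filter_upwards [h1] with y hy
      rwa [mem_ball, dist_comm])
  have hgc : ContDiff ℝ 1 g := g.contMDiff.contDiff
  have hd : Dense (g '' t)ᶜ := hgc.contDiffOn.dense_compl_image_of_dimH_lt_finrank convex_univ
    (subset_univ t) (by simpa using ht)
  obtain ⟨z, hz1, hz2⟩ := hd.exists_mem_open (isOpen_ball (x := (0 : Fin m → ℝ)) (ε := ε / 2))
    ⟨0, mem_ball_self (half_pos hε)⟩
  refine ⟨⟨fun x => g x - z, hgc.continuous.sub continuous_const⟩, fun x => ?_, fun x hx h => ?_⟩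
  · have h1 : ‖g x - U x‖ < ε / 2 := by
      have := hg x
      rwa [mem_ball, dist_eq_norm] at this
    have h2 : ‖z‖ < ε / 2 := mem_ball_zero_iff.1 hz2
    calc ‖(g x - z) - U x‖ = ‖(g x - U x) - z‖ := by congr 1; abel
      _ ≤ ‖g x - U x‖ + ‖z‖ := norm_sub_le _ _
      _ < ε := by linarith
  · exact hz1 ⟨x, hx, sub_eq_zero.1 h⟩

section

variable {G : Type} [Group G] {Z : Type} [TopologicalSpace Z] [MulAction G Z]
  [ContinuousConstSMul G Z] {m : ℕ} {C : Type} {φ : C → C(S m, Z)}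

/-- radius: `1` on `Z`, the norm in the open cells -/
noncomputable def nu (p : GAtt G φ) : ℝ := Sum.elim (fun _ => 1) (fun q => ‖(q.2.2 : Fin m → ℝ)‖) p

@[simp] theorem nu_inZ (z : Z) : nu (inZ φ z : GAtt G φ) = 1 := rfl
@[simp] theorem nu_inB (g : G) (c : C) (x : B m) : nu (inB φ g c x) = ‖(x : Fin m → ℝ)‖ := rfl

theorem nu_chr (g : G) (c : C) (x : D m) : nu (chr φ g c x) = ‖(x : Fin m → ℝ)‖ := by
  induction x using D.cases' with
  | hB x => rw [chr_bd]; rfl
  | hS x => rw [chr_sd, nu_inZ, sd_coe, x.norm_eq]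

theorem continuous_nu : Continuous (nu : GAtt G φ → ℝ) := by
  rw [Att.continuous_iff]
  refine ⟨continuous_const, fun g c => ?_⟩
  have : (nu ∘ chr φ g c) = fun x : D m => ‖(x : Fin m → ℝ)‖ := funext fun x => nu_chr g c x
  rw [this]
  exact continuous_norm.comp continuous_subtype_val

theorem nu_eq_one {p : GAtt G φ} : nu p = 1 ↔ p ∈ range (inZ φ) := by
  induction p using GAtt.cases' with
  | hZ z => simp
  | hB g c x =>
    rw [nu_inB]
    constructor
    · intro h; exact absurd h (ne_of_lt x.norm_lt)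
    · rintro ⟨z, hz⟩; exact absurd hz inZ_ne_inB

theorem nu_lt_one {p : GAtt G φ} : nu p < 1 ↔ ∃ g c x, p = inB φ g c x := by
  induction p using GAtt.cases' with
  | hZ z => simp
  | hB g c x =>
    rw [nu_inB]
    exact ⟨fun _ => ⟨g, c, x, rfl⟩, fun _ => x.norm_lt⟩

theorem nu_nonneg (p : GAtt G φ) : 0 ≤ nu p := by
  induction p using GAtt.cases' with
  | hZ z => simp
  | hB g c x => exact norm_nonneg _

/-- the cell index of a point (junk on `Z`) -/
def idx (p : GAtt G φ) : Option (G × C) := Sum.elim (fun _ => none) (fun q => some (q.1, q.2.1)) p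

/-- the coordinate of a point in an open cell (junk on `Z`) -/
def coo (p : GAtt G φ) : Fin m → ℝ := Sum.elim (fun _ => 0) (fun q => (q.2.2 : Fin m → ℝ)) p

@[simp] theorem idx_inB (g : G) (c : C) (x : B m) : idx (inB φ g c x) = some (g, c) := rfl
@[simp] theorem coo_inB (g : G) (c : C) (x : B m) : coo (inB φ g c x) = (x : Fin m → ℝ) := rfl

theorem coo_continuousAt {p : GAtt G φ} (hp : nu p < 1) : ContinuousAt (coo : GAtt G φ → _) p := by
  obtain ⟨g, c, x, rfl⟩ := nu_lt_one.1 hp
  rw [ContinuousAt, Filter.tendsto_def]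
  intro V hV
  rw [coo_inB] at hV
  obtain ⟨W, hWV, hW, hxW⟩ := _root_.mem_nhds_iff.1 hV
  have h1 : IsOpen (inB φ g c '' (Subtype.val ⁻¹' W : Set (B m))) :=
    isOpen_inB_image (hW.preimage continuous_subtype_val)
  refine Filter.mem_of_superset (h1.mem_nhds ⟨x, hxW, rfl⟩) ?_
  rintro _ ⟨y, hy, rfl⟩
  exact hWV hy

theorem idx_eventually {p : GAtt G φ} (hp : nu p < 1) : ∀ᶠ q in 𝓝 p, idx q = idx p := by
  obtain ⟨g, c, x, rfl⟩ := nu_lt_one.1 hp
  have h1 : IsOpen (inB φ g c '' (univ : Set (B m))) := isOpen_inB_image isOpen_univ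
  filter_upwards [h1.mem_nhds ⟨x, trivial, rfl⟩]
  rintro _ ⟨y, -, rfl⟩
  rfl

theorem continuous_inB (g : G) (c : C) : Continuous (inB φ g c) := by
  have : (inB φ g c : B m → GAtt G φ) = chr φ g c ∘ bd m := by
    funext x; exact (chr_bd g c x).symm
  rw [this]
  exact (continuous_chr g c).comp (bd m).continuous

/-- replace the coordinate of a point in an open cell -/
noncomputable def repl (p : GAtt G φ) (x : Fin m → ℝ) : GAtt G φ := by
  classical
  exact Sum.elim (fun z => inZ φ z)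
    (fun q => if h : ‖x‖ < 1 then inB φ q.1 q.2.1 ⟨x, mem_ball_zero_iff.2 h⟩ else inB φ q.1 q.2.1 q.2.2) p

theorem repl_inB (g : G) (c : C) (y : B m) {x : Fin m → ℝ} (h : ‖x‖ < 1) :
    repl (inB φ g c y) x = inB φ g c ⟨x, mem_ball_zero_iff.2 h⟩ := by
  show dite _ _ _ = _
  exact dif_pos h

theorem repl_coo (p : GAtt G φ) : repl p (coo p) = p := by
  induction p using GAtt.cases' with
  | hZ z => rfl
  | hB g c x => rw [coo_inB, repl_inB g c x x.norm_lt]

theorem nu_repl {p : GAtt G φ} (hp : nu p < 1) {x : Fin m → ℝ} (h : ‖x‖ < 1) :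
    nu (repl p x) = ‖x‖ := by
  obtain ⟨g, c, y, rfl⟩ := nu_lt_one.1 hp
  rw [repl_inB g c y h, nu_inB]

/-- continuity of the replacement along a map -/
theorem repl_continuousAt {T : Type*} [TopologicalSpace T] {a : T → GAtt G φ} {u : T → Fin m → ℝ}
    {t : T} (ha : ContinuousAt a t) (hu : ContinuousAt u t) (hp : nu (a t) < 1) (hx : ‖u t‖ < 1) :
    ContinuousAt (fun s => repl (a s) (u s)) t := by
  obtain ⟨g, c, y, hy⟩ := nu_lt_one.1 hp
  have e1 : ∀ᶠ s in 𝓝 t, ∃ y', a s = inB φ g c y' := by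
    have h1 : IsOpen (inB φ g c '' (univ : Set (B m))) := isOpen_inB_image isOpen_univ
    have h2 : inB φ g c '' univ ∈ 𝓝 (a t) := by rw [hy]; exact h1.mem_nhds ⟨y, trivial, rfl⟩
    filter_upwards [ha h2]
    rintro s ⟨y', -, hy'⟩
    exact ⟨y', hy'.symm⟩
  have e2 : ∀ᶠ s in 𝓝 t, ‖u s‖ < 1 := hu.norm.eventually (Iio_mem_nhds hx)
  -- a globally defined comparison map
  have hch : ContinuousAt (fun s => chr φ g c ⟨(max 1 ‖u s‖)⁻¹ • u s, by
      rw [mem_closedBall_zero_iff, norm_smul, norm_inv, Real.norm_of_nonneg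
        (le_trans zero_le_one (le_max_left _ _))]
      rw [inv_mul_le_one₀ (lt_of_lt_of_le zero_lt_one (le_max_left _ _))]
      exact le_max_right _ _⟩) t := by
    refine (continuous_chr g c).continuousAt.comp ?_
    refine IsInducing.subtypeVal.continuousAt_iff.2 ?_
    refine ContinuousAt.smul (f := fun s => (max 1 ‖u s‖)⁻¹) ?_ hu
    refine ContinuousAt.inv₀ (continuousAt_const.max hu.norm) ?_
    exact ne_of_gt (lt_of_lt_of_le zero_lt_one (le_max_left _ _))
  refine hch.congr ?_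
  filter_upwards [e1, e2] with s hs1 hs2
  obtain ⟨y', hy'⟩ := hs1
  rw [hy', repl_inB g c y' hs2, ← chr_bd]
  congr 1
  apply Subtype.ext
  simp [max_eq_left hs2.le]

/-! ### step 1: avoid the centres -/

/-- cut-off -/
noncomputable def lam (r : ℝ) : ℝ := max 0 (min 1 (3 - 4 * r))

theorem continuous_lam : Continuous lam := by unfold lam; fun_prop

theorem lam_nonneg (r : ℝ) : 0 ≤ lam r := le_max_left _ _
theorem lam_le_one (r : ℝ) : lam r ≤ 1 := max_le zero_le_one (min_le_left _ _)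
theorem lam_eq_one {r : ℝ} (h : r ≤ 1 / 2) : lam r = 1 := by
  unfold lam
  rw [min_eq_left (by linarith), max_eq_right zero_le_one]
theorem lam_eq_zero {r : ℝ} (h : 3 / 4 ≤ r) : lam r = 0 := by
  unfold lam
  rw [max_eq_left]
  exact (min_le_right _ _).trans (by linarith)

theorem norm_coo {p : GAtt G φ} (hp : nu p < 1) : ‖coo p‖ = nu p := by
  obtain ⟨g, c, x, rfl⟩ := nu_lt_one.1 hp
  rfl

theorem repl_of_nu {p : GAtt G φ} (hp : nu p = 1) (x : Fin m → ℝ) : repl p x = p := by
  obtain ⟨z, rfl⟩ := nu_eq_one.1 hp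
  rfl

theorem nu_le_one (p : GAtt G φ) : nu p ≤ 1 := by
  induction p using GAtt.cases' with
  | hZ z => simp
  | hB g c x => exact x.norm_lt.le

theorem avoid_centres {k : ℕ} {K : Type*} [TopologicalSpace K] [CompactSpace K]
    {e : K → (Fin k → ℝ)} (he : IsClosedEmbedding e) (hK : dimH (range e) < m)
    (f : C(K, GAtt G φ)) :
    ∃ f₁ : C(K, GAtt G φ), (∀ y, 0 < nu (f₁ y)) ∧
      Nonempty (ContinuousMap.HomotopyRel f f₁ {y | f y ∈ range (inZ φ)}) := by
  -- the compact part where we modify `f`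
  let A : Set K := {y | nu (f y) ≤ 3 / 4}
  have hA : IsClosed A := isClosed_le (continuous_nu.comp f.continuous) continuous_const
  have hlt : ∀ y ∈ A, nu (f y) < 1 := fun y hy => lt_of_le_of_lt hy (by norm_num)
  let u : C(A, Fin m → ℝ) := ⟨fun y => coo (f y), by
    rw [continuous_iff_continuousAt]
    intro y
    exact ContinuousAt.comp (g := coo) (f := fun y : A => f y) (coo_continuousAt (hlt y y.2))
      (f.continuous.comp continuous_subtype_val).continuousAt⟩
  have heA : IsClosedEmbedding (fun y : A => e y) := he.comp hA.isClosedEmbedding_subtypeVal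
  obtain ⟨U, hU⟩ := u.exists_extension heA
  have hU' : ∀ y (hy : y ∈ A), U (e y) = coo (f y) := fun y hy =>
    congrArg (fun w : C(A, Fin m → ℝ) => w ⟨y, hy⟩) hU
  obtain ⟨g, hg1, hg2⟩ := avoid_zero hK U (ε := 1 / 8) (by norm_num)
  -- the new coordinate
  let v : I × K → Fin m → ℝ := fun q =>
    coo (f q.2) + ((q.1 : ℝ) * lam (nu (f q.2))) • (g (e q.2) - coo (f q.2))
  have hv0 : ∀ q : I × K, 3 / 4 ≤ nu (f q.2) → v q = coo (f q.2) := by
    intro q hq
    simp only [v, lam_eq_zero hq, mul_zero, zero_smul, add_zero]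
  have hdist : ∀ q : I × K, q.2 ∈ A → ‖v q - coo (f q.2)‖ ≤ 1 / 8 := by
    intro q hq
    simp only [v, add_sub_cancel_left, norm_smul]
    have h1 : ‖g (e q.2) - coo (f q.2)‖ ≤ 1 / 8 := by rw [← hU' q.2 hq]; exact (hg1 _).le
    have h2 : ‖(q.1 : ℝ) * lam (nu (f q.2))‖ ≤ 1 := by
      rw [Real.norm_of_nonneg (mul_nonneg q.1.2.1 (lam_nonneg _))]
      exact mul_le_one₀ q.1.2.2 (lam_nonneg _) (lam_le_one _)
    calc _ ≤ 1 * (1 / 8) := mul_le_mul h2 h1 (norm_nonneg _) zero_le_one
      _ = 1 / 8 := one_mul _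
  have hv1 : ∀ q : I × K, nu (f q.2) < 1 → ‖v q‖ < 1 := by
    intro q hq
    by_cases h : nu (f q.2) ≤ 3 / 4
    · have h1 := hdist q h
      have h2 : ‖coo (f q.2)‖ ≤ 3 / 4 := by rw [norm_coo hq]; exact h
      calc ‖v q‖ = ‖(v q - coo (f q.2)) + coo (f q.2)‖ := by rw [sub_add_cancel]
        _ ≤ ‖v q - coo (f q.2)‖ + ‖coo (f q.2)‖ := norm_add_le _ _
        _ < 1 := by linarith
    · rw [hv0 q (not_le.1 h).le, norm_coo hq]; exact hq
  let F : I × K → GAtt G φ := fun q => repl (f q.2) (v q)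
  have hF : Continuous F := by
    rw [continuous_iff_continuousAt]
    intro q
    by_cases h : nu (f q.2) < 1
    · have hc : ContinuousAt (fun q : I × K => coo (f q.2)) q :=
        ContinuousAt.comp (g := coo) (f := fun q : I × K => f q.2) (coo_continuousAt h)
          (f.continuous.comp continuous_snd).continuousAt
      have hl : ContinuousAt (fun q : I × K => lam (nu (f q.2))) q :=
        (continuous_lam.comp (continuous_nu.comp (f.continuous.comp continuous_snd))).continuousAt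
      have hge : ContinuousAt (fun q : I × K => g (e q.2)) q :=
        (g.continuous.comp (he.continuous.comp continuous_snd)).continuousAt
      have ht : ContinuousAt (fun q : I × K => (q.1 : ℝ)) q :=
        (continuous_subtype_val.comp continuous_fst).continuousAt
      refine repl_continuousAt (a := fun q : I × K => f q.2) (u := v)
        (f.continuous.comp continuous_snd).continuousAt ?_ h (hv1 q h)
      exact hc.add ((ht.mul hl).smul (hge.sub hc))
    · have h34 : 3 / 4 < nu (f q.2) := lt_of_lt_of_le (by norm_num) (not_lt.1 h)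
      have he : ∀ᶠ q' in 𝓝 q, 3 / 4 < nu (f q'.2) :=
        (continuous_nu.comp (f.continuous.comp continuous_snd)).continuousAt.eventually
          (Ioi_mem_nhds h34)
      have hf : ContinuousAt (fun q' : I × K => f q'.2) q :=
        (f.continuous.comp continuous_snd).continuousAt
      refine hf.congr ?_
      filter_upwards [he] with q' hq'
      show f q'.2 = repl (f q'.2) (v q')
      rw [hv0 q' hq'.le, repl_coo]
  refine ⟨⟨fun y => F (1, y), hF.comp (by fun_prop)⟩, ?_, ⟨⟨⟨⟨F, hF⟩, ?_, ?_⟩, ?_⟩⟩⟩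
  · intro y
    show 0 < nu (repl (f y) (v (1, y)))
    rcases lt_or_eq_of_le (nu_le_one (f y)) with h | h
    · rw [nu_repl h (hv1 (1, y) h)]
      by_cases h12 : nu (f y) ≤ 1 / 2
      · have : v (1, y) = g (e y) := by
          simp only [v, lam_eq_one h12, mul_one, Icc.coe_one, one_smul]
          abel
        rw [this]
        exact norm_pos_iff.2 (hg2 _ ⟨y, rfl⟩)
      · by_cases h34 : nu (f y) ≤ 3 / 4
        · have h1 := hdist (1, y) h34
          have h2 : ‖coo (f y)‖ = nu (f y) := norm_coo h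
          have h3 : ‖coo (f y)‖ ≤ ‖v (1, y)‖ + ‖v (1, y) - coo (f y)‖ := by
            calc ‖coo (f y)‖ = ‖v (1, y) - (v (1, y) - coo (f y))‖ := by rw [sub_sub_cancel]
              _ ≤ _ := norm_sub_le _ _
          linarith
        · rw [hv0 (1, y) (not_le.1 h34).le, norm_coo h]
          linarith
    · rw [repl_of_nu h, h]; exact zero_lt_one
  · intro y
    show repl (f y) (v (0, y)) = f y
    have : v (0, y) = coo (f y) := by simp [v]
    rw [this, repl_coo]
  · intro y; rfl
  · intro t y hy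
    exact repl_of_nu (nu_eq_one.2 hy) _

/-! ### step 2: push radially -/

/-- the radial scaling of the ball -/
noncomputable def scl (ε : ℝ) (t : I) (x : D m) : D m :=
  ⟨((1 - (t : ℝ)) + t * (max ε ‖(x : Fin m → ℝ)‖)⁻¹) • (x : Fin m → ℝ), by
    have hx := x.norm_le
    have hm0 : 0 ≤ (max ε ‖(x : Fin m → ℝ)‖)⁻¹ :=
      inv_nonneg.2 ((norm_nonneg _).trans (le_max_right _ _))
    have h1 : (max ε ‖(x : Fin m → ℝ)‖)⁻¹ * ‖(x : Fin m → ℝ)‖ ≤ 1 := by
      rcases (norm_nonneg (x : Fin m → ℝ)).eq_or_lt with h | h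
      · rw [← h, mul_zero]; exact zero_le_one
      · rw [inv_mul_le_one₀ (lt_of_lt_of_le h (le_max_right _ _))]
        exact le_max_right _ _
    rw [mem_closedBall_zero_iff, norm_smul, Real.norm_of_nonneg (add_nonneg
      (sub_nonneg.2 t.2.2) (mul_nonneg t.2.1 hm0)), add_mul, mul_assoc]
    have ht0 := t.2.1
    have ht1 := t.2.2
    nlinarith [mul_le_mul_of_nonneg_left hx (sub_nonneg.2 ht1),
      mul_le_mul_of_nonneg_left h1 ht0]⟩

theorem continuous_scl {ε : ℝ} (hε : 0 < ε) :
    Continuous (fun q : D m × I => scl ε q.2 q.1) := by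
  refine Continuous.subtype_mk ?_ _
  have h1 : Continuous fun q : D m × I => max ε ‖(q.1 : Fin m → ℝ)‖ := by fun_prop
  have h2 : ∀ q : D m × I, max ε ‖(q.1 : Fin m → ℝ)‖ ≠ 0 := fun q =>
    ne_of_gt (lt_of_lt_of_le hε (le_max_left _ _))
  have h3 := h1.inv₀ h2
  fun_prop

theorem scl_zero (ε : ℝ) (x : D m) : scl ε 0 x = x := by
  apply Subtype.ext; simp [scl]

theorem scl_sd {ε : ℝ} (hε : ε ≤ 1) (t : I) (x : S m) : scl ε t (sd m x) = sd m x := by
  apply Subtype.ext
  simp [scl, x.norm_eq, max_eq_right hε]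

theorem norm_scl_one {ε : ℝ} (hε : 0 < ε) {x : D m} (hx : ε ≤ ‖(x : Fin m → ℝ)‖) :
    ‖((scl ε 1 x : D m) : Fin m → ℝ)‖ = 1 := by
  have h : 0 < ‖(x : Fin m → ℝ)‖ := hε.trans_le hx
  simp only [scl, Icc.coe_one, sub_self, one_mul, zero_add, max_eq_right hx, norm_smul, norm_inv,
    norm_norm]
  exact inv_mul_cancel₀ h.ne'

/-- the radial push -/
noncomputable def psh (φ : C → C(S m, Z)) (ε : ℝ) (p : GAtt G φ) (t : I) : GAtt G φ :=
  Sum.elim (fun z => inZ φ z) (fun q => chr φ q.1 q.2.1 (scl ε t (bd m q.2.2))) p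

theorem psh_inZ (ε : ℝ) (z : Z) (t : I) : psh φ ε (inZ φ z : GAtt G φ) t = inZ φ z := rfl

theorem psh_chr {ε : ℝ} (hε : ε ≤ 1) (g : G) (c : C) (x : D m) (t : I) :
    psh φ ε (chr φ g c x) t = chr φ g c (scl ε t x) := by
  induction x using D.cases' with
  | hB x => rw [chr_bd]; rfl
  | hS x => rw [scl_sd hε, chr_sd, psh_inZ]

theorem continuous_psh {ε : ℝ} (hε : 0 < ε) (hε1 : ε ≤ 1) :
    Continuous (fun q : GAtt G φ × I => psh φ ε q.1 q.2) := by
  rw [continuous_prod_iff]
  constructor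
  · exact continuous_inZ.comp continuous_fst
  · intro g c
    have : (fun p : D m × I => psh φ ε (chr φ g c p.1) p.2) =
        chr φ g c ∘ (fun q : D m × I => scl ε q.2 q.1) := by
      funext p; exact psh_chr hε1 g c p.1 p.2
    rw [this]
    exact (continuous_chr g c).comp (continuous_scl hε)

theorem psh_zero (ε : ℝ) (p : GAtt G φ) : psh φ ε p 0 = p := by
  induction p using GAtt.cases' with
  | hZ z => rfl
  | hB g c x =>
    show chr φ g c (scl ε 0 (bd m x)) = _
    rw [scl_zero, chr_bd]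

theorem psh_one {ε : ℝ} (hε : 0 < ε) {p : GAtt G φ} (hp : ε ≤ nu p) :
    psh φ ε p 1 ∈ range (inZ φ) := by
  induction p using GAtt.cases' with
  | hZ z => exact ⟨z, rfl⟩
  | hB g c x =>
    show chr φ g c (scl ε 1 (bd m x)) ∈ _
    rw [← nu_eq_one, nu_chr]
    exact norm_scl_one hε hp

theorem continuous_psh_comp {ε : ℝ} (hε : 0 < ε) (hε1 : ε ≤ 1) {K : Type*} [TopologicalSpace K]
    (f₁ : C(K, GAtt G φ)) : Continuous (fun q : I × K => psh φ ε (f₁ q.2) q.1) := by
  have hg : Continuous (fun q : I × K => (f₁ q.2, q.1)) :=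
    (f₁.continuous.comp continuous_snd).prodMk continuous_fst
  have h := (continuous_psh (φ := φ) (G := G) hε hε1).comp hg
  exact h

/-- **cellular approximation, one stage.**  `K` compact, embedded in some `ℝ^k` as a set of
Hausdorff dimension `< m`: maps `K → GAtt` (cells of dimension `m`) are homotopic, rel the preimage
of the old space, to maps into the old space. -/
theorem push_down {k : ℕ} {K : Type*} [TopologicalSpace K] [CompactSpace K]
    {e : K → (Fin k → ℝ)} (he : IsClosedEmbedding e) (hK : dimH (range e) < m)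
    (f : C(K, GAtt G φ)) :
    ∃ f' : C(K, Z), Nonempty (ContinuousMap.HomotopyRel f
      ((⟨inZ φ, continuous_inZ⟩ : C(Z, GAtt G φ)).comp f') {y | f y ∈ range (inZ φ)}) := by
  obtain ⟨f₁, h1, ⟨H1⟩⟩ := avoid_centres he hK f
  -- a lower bound for the radius
  obtain ⟨ε, hε0, hε1, hε⟩ : ∃ ε : ℝ, 0 < ε ∧ ε ≤ 1 ∧ ∀ y, ε ≤ nu (f₁ y) := by
    rcases isEmpty_or_nonempty K with hK | hK
    · exact ⟨1, zero_lt_one, le_rfl, fun y => (hK.false y).elim⟩
    · obtain ⟨y, hy⟩ := isCompact_univ.exists_isMinOn univ_nonempty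
        (continuous_nu.comp f₁.continuous).continuousOn
      exact ⟨nu (f₁ y), h1 y, nu_le_one _, fun z => hy.2 (mem_univ z)⟩
  let H2 : I × K → GAtt G φ := fun q => psh φ ε (f₁ q.2) q.1
  have hH2 : Continuous H2 := continuous_psh_comp hε0 hε1 f₁
  have hr : ∀ y, H2 (1, y) ∈ range (inZ φ) := fun y => psh_one hε0 (hε y)
  have hemb : IsClosedEmbedding (inZ φ : Z → GAtt G φ) := isClosedEmbedding_inZ
  choose z hz using hr
  have hzc : Continuous z := by
    rw [hemb.isEmbedding.continuous_iff]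
    have : (inZ φ ∘ z) = fun y => H2 (1, y) := funext hz
    rw [this]
    exact hH2.comp (by fun_prop)
  let f' : C(K, Z) := ⟨z, hzc⟩
  let j : C(Z, GAtt G φ) := ⟨inZ φ, continuous_inZ⟩
  have hfix : ∀ (t : I) (y : K), y ∈ {y | f y ∈ range (inZ φ)} → H2 (t, y) = f₁ y := by
    intro t y hy
    have h2 : f₁ y = f y := by
      rw [← H1.eq_snd 1 hy]
      exact H1.eq_fst 1 hy
    show psh φ ε (f₁ y) t = f₁ y
    rw [h2]
    obtain ⟨w, hw⟩ := hy
    rw [← hw]
    exact psh_inZ ε w t
  let Hh : ContinuousMap.Homotopy f₁ (j.comp f') :=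
    { toFun := H2
      continuous_toFun := hH2
      map_zero_left := fun y => psh_zero ε _
      map_one_left := fun y => (hz y).symm }
  let Hr : ContinuousMap.HomotopyRel f₁ (j.comp f') {y | f y ∈ range (inZ φ)} :=
    { toHomotopy := Hh
      prop' := fun t y hy => hfix t y hy }
  exact ⟨f', ⟨H1.trans Hr⟩⟩

/-! ### dimension of balls and spheres -/

theorem dimH_range_D {k d : ℕ} (h : k < d) :
    dimH (range (Subtype.val : D k → (Fin k → ℝ))) < d := by
  refine lt_of_le_of_lt (dimH_mono (subset_univ _)) ?_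
  rw [Real.dimH_univ_pi_fin]
  exact_mod_cast h

theorem lipschitz_insertNth {k : ℕ} (i : Fin (k + 1)) (s : ℝ) :
    LipschitzWith 1 (fun x : Fin k → ℝ => (Fin.insertNth (α := fun _ => ℝ) i s x)) := by
  refine LipschitzWith.of_dist_le_mul fun x y => ?_
  rw [NNReal.coe_one, one_mul, dist_pi_le_iff dist_nonneg]
  intro j
  refine Fin.succAboveCases i ?_ (fun l => ?_) j
  · simp
  · simpa using dist_le_pi_dist x y l

theorem dimH_sphere_lt {k d : ℕ} (h : k ≤ d) (hd : 0 < d) :
    dimH (sphere (0 : Fin k → ℝ) 1) < d := by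
  cases k with
  | zero =>
    have : sphere (0 : Fin 0 → ℝ) 1 = ∅ := by
      ext x
      have hx : ‖x‖ = 0 := by rw [Subsingleton.elim x 0, norm_zero]
      rw [mem_sphere_zero_iff_norm, hx]
      simp
    rw [this, dimH_empty]
    exact_mod_cast hd
  | succ k =>
    have hsub : sphere (0 : Fin (k + 1) → ℝ) 1 ⊆ ⋃ q : Fin (k + 1) × Bool,
        range (fun x : Fin k → ℝ =>
          (Fin.insertNth (α := fun _ => ℝ) q.1 (if q.2 then 1 else -1) x)) := by
      intro x hx
      have hx1 : ‖x‖ = 1 := mem_sphere_zero_iff_norm.1 hx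
      have : ∃ i, ‖x i‖ = 1 := by
        by_contra hcon
        push Not at hcon
        have h2 : ∀ i, ‖x i‖ < 1 := fun i =>
          lt_of_le_of_ne (hx1 ▸ norm_le_pi_norm x i) (hcon i)
        have := (pi_norm_lt_iff zero_lt_one).2 h2
        linarith
      obtain ⟨i, hi⟩ := this
      have hx' : x = Fin.insertNth (α := fun _ => ℝ) i (x i) (fun j => x (i.succAbove j)) := by
        funext j
        refine Fin.succAboveCases i ?_ (fun l => ?_) j <;> simp
      rw [Real.norm_eq_abs, abs_eq zero_le_one] at hi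
      rcases hi with hi | hi
      · exact mem_iUnion.2 ⟨(i, true), _, by rw [if_pos rfl]; conv_rhs => rw [hx', hi]⟩
      · exact mem_iUnion.2 ⟨(i, false), _, by rw [if_neg Bool.false_ne_true]; conv_rhs => rw [hx', hi]⟩
    refine lt_of_le_of_lt (dimH_mono hsub) ?_
    rw [dimH_iUnion]
    refine lt_of_le_of_lt (iSup_le fun q => (lipschitz_insertNth q.1 _).dimH_range_le) ?_
    rw [Real.dimH_univ_pi_fin]
    exact_mod_cast h

/-- discs rel everything already in the old space -/
theorem push_disc {k d : ℕ} (hkd : k < d) {C : Type} {φ : C → C(S d, Z)} (f : C(D k, GAtt G φ)) :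
    ∃ f' : C(D k, Z), Nonempty (ContinuousMap.HomotopyRel f
      ((⟨inZ φ, continuous_inZ⟩ : C(Z, GAtt G φ)).comp f') {y | f y ∈ range (inZ φ)}) :=
  push_down isClosed_closedBall.isClosedEmbedding_subtypeVal (dimH_range_D hkd) f

/-- spheres `S k = ∂ D k`, `k ≤ d` -/
theorem push_sphere {k d : ℕ} (hkd : k ≤ d) {C : Type} {φ : C → C(S d, Z)} (f : C(S k, GAtt G φ)) :
    ∃ f' : C(S k, Z), Nonempty (ContinuousMap.HomotopyRel f
      ((⟨inZ φ, continuous_inZ⟩ : C(Z, GAtt G φ)).comp f') {y | f y ∈ range (inZ φ)}) := by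
  rcases Nat.eq_zero_or_pos d with rfl | hd
  · obtain rfl : k = 0 := Nat.le_zero.1 hkd
    have hE : IsEmpty (S 0) := ⟨fun x => by
      have := x.norm_eq
      rw [Subsingleton.elim (x : Fin 0 → ℝ) 0, norm_zero] at this
      exact zero_ne_one this⟩
    refine ⟨⟨fun x => (hE.false x).elim, ?_⟩, ⟨?_⟩⟩
    · exact continuous_iff_continuousAt.2 fun x => (hE.false x).elim
    · have : f = (⟨inZ φ, continuous_inZ⟩ : C(Z, GAtt G φ)).comp
          ⟨fun x => (hE.false x).elim, continuous_iff_continuousAt.2 fun x => (hE.false x).elim⟩ :=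
        ContinuousMap.ext fun x => (hE.false x).elim
      exact this ▸ ContinuousMap.HomotopyRel.refl f _
  · refine push_down (e := Subtype.val) isClosed_sphere.isClosedEmbedding_subtypeVal ?_ f
    rw [Subtype.range_val]
    exact dimH_sphere_lt hkd hd

/-- the form wanted by the builder -/
theorem compress {k d : ℕ} (hkd : k ≤ d) {C : Type} {φ : C → C(S d, Z)} (α : C(S k, GAtt G φ)) :
    ∃ β : C(S k, Z), ContinuousMap.Homotopic α
      ((⟨inZ φ, continuous_inZ⟩ : C(Z, GAtt G φ)).comp β) := by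
  obtain ⟨β, ⟨H⟩⟩ := push_sphere hkd α
  exact ⟨β, ⟨H.toHomotopy⟩⟩

end

end Crest.Agent.R185.Cell
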