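import Crest.Agent.R185.Bld3
import Crest.Agent.R185.Cell1

/-!
# Row 185, BUILDER, part 4: the construction of the classifying complex
-/

set_option autoImplicit false
set_option linter.unusedSectionVars false

open Set Metric Topology
open Crest.Agent.R185.Att
open Crest.Agent.R197 (OrbSep)

namespace Crest.Agent.R185.Bld

local notation "I" => unitInterval

/-- the boundary sphere of a box, and what its fillings give -/
theorem box_sphere {W : Type*} [TopologicalSpace W] {n : ℕ}
    (u : C(S n × I, W)) (a b : C(D n, W)) (ha : ∀ s, u (s, 0) = a (sd n s))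
    (hb : ∀ s, u (s, 1) = b (sd n s)) :
    ∃ v : C(S (n + 1), W), ∀ {W' : Type} [TopologicalSpace W'] (j : C(W, W')) (g : C(D (n + 1), W')),
      (∀ y, g (sd (n + 1) y) = j (v y)) →
      ∃ e : C(D n × I, W'), (∀ s t, e (sd n s, t) = j (u (s, t))) ∧ (∀ x, e (x, 0) = j (a x)) ∧
        ∀ x, e (x, 1) = j (b x) := by
  classical
  let v : S (n + 1) → W := fun y =>
    if h : ‖(tl n (sd _ y) : Fin n → ℝ)‖ = 1 then
      u (⟨tl n (sd _ y), mem_sphere_zero_iff_norm.2 h⟩, tau n (sd _ y))
    else if tau n (sd _ y) = 0 then a (tl n (sd _ y)) else b (tl n (sd _ y))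
  let A : Fin 3 → Set (S (n + 1)) := ![{y | ‖(tl n (sd _ y) : Fin n → ℝ)‖ = 1},
    {y | tau n (sd _ y) = 0}, {y | tau n (sd _ y) = 1}]
  have hv0 : ∀ y ∈ A 0, ∀ s : S n, (s : Fin n → ℝ) = tl n (sd _ y) →
      v y = u (s, tau n (sd _ y)) := by
    intro y hy s hs
    have hy' : ‖(tl n (sd _ y) : Fin n → ℝ)‖ = 1 := hy
    simp only [v]
    rw [dif_pos hy']
    congr 2
    exact Subtype.ext hs.symm
  have hv1 : ∀ y ∈ A 1, v y = a (tl n (sd _ y)) := by
    intro y hy
    have hy' : tau n (sd _ y) = 0 := hy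
    simp only [v]
    split_ifs with h
    · rw [hy', ha]; rfl
    · rfl
  have hv2 : ∀ y ∈ A 2, v y = b (tl n (sd _ y)) := by
    intro y hy
    have hy' : tau n (sd _ y) = 1 := hy
    simp only [v]
    split_ifs with h h2
    · rw [hy', hb]; rfl
    · rw [hy'] at h2; exact absurd h2 one_ne_zero
    · rfl
  have hvc : Continuous v := by
    refine (locallyFinite_of_finite A).continuous ?_ ?_ ?_
    · rw [eq_univ_iff_forall]
      intro y
      rw [mem_iUnion]
      rcases sphere_cases y with h | h | h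
      · exact ⟨0, h⟩
      · exact ⟨1, h⟩
      · exact ⟨2, h⟩
    · have hc1 : Continuous fun y : S (n + 1) => ‖(tl n (sd _ y) : Fin n → ℝ)‖ :=
        (continuous_subtype_val.comp ((tl n).continuous.comp (sd (n + 1)).continuous)).norm
      have hc2 : Continuous fun y : S (n + 1) => tau n (sd _ y) :=
        (tau n).continuous.comp (sd (n + 1)).continuous
      intro i
      fin_cases i
      · exact isClosed_eq hc1 continuous_const
      · exact isClosed_eq hc2 continuous_const
      · exact isClosed_eq hc2 continuous_const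
    · intro i
      fin_cases i
      · rw [continuousOn_iff_continuous_domRestrict]
        let w : A 0 → S n × I := fun y =>
          (⟨tl n (sd _ y.1), mem_sphere_zero_iff_norm.2 y.2⟩, tau n (sd _ y.1))
        have hw : Continuous w := by
          refine Continuous.prodMk (Continuous.subtype_mk ?_ _) ?_
          · exact continuous_subtype_val.comp
              ((tl n).continuous.comp ((sd (n + 1)).continuous.comp continuous_subtype_val))
          · exact (tau n).continuous.comp ((sd (n + 1)).continuous.comp continuous_subtype_val)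
        have : (A 0).domRestrict v = u ∘ w := by
          funext y
          exact hv0 y.1 y.2 _ rfl
        show Continuous ((A 0).domRestrict v)
        rw [this]
        exact u.continuous.comp hw
      · have hc : Continuous fun y : S (n + 1) => a (tl n (sd _ y)) :=
          a.continuous.comp ((tl n).continuous.comp (sd (n + 1)).continuous)
        exact hc.continuousOn.congr fun y hy => hv1 y hy
      · have hc : Continuous fun y : S (n + 1) => b (tl n (sd _ y)) :=
          b.continuous.comp ((tl n).continuous.comp (sd (n + 1)).continuous)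
        exact hc.continuousOn.congr fun y hy => hv2 y hy
  refine ⟨⟨v, hvc⟩, fun {W'} _ j g hg => ?_⟩
  have hgv : ∀ (p : D n × I) (h : ‖(p.1 : Fin n → ℝ)‖ = 1 ∨ p.2 = 0 ∨ p.2 = 1),
      g (box n p) = j (v ⟨box n p, mem_sphere_zero_iff_norm.2 (box_mem_sphere p h)⟩) := by
    intro p h
    exact hg ⟨box n p, mem_sphere_zero_iff_norm.2 (box_mem_sphere p h)⟩
  have hsd : ∀ (p : D n × I) (h : ‖(p.1 : Fin n → ℝ)‖ = 1 ∨ p.2 = 0 ∨ p.2 = 1),
      sd (n + 1) ⟨box n p, mem_sphere_zero_iff_norm.2 (box_mem_sphere p h)⟩ = box n p :=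
    fun p h => rfl
  refine ⟨g.comp (box n), ?_, ?_, ?_⟩
  · intro s t
    have h : ‖((sd n s, t) : D n × I).1.1‖ = 1 ∨ t = 0 ∨ t = 1 := Or.inl s.norm_eq
    show g (box n (sd n s, t)) = _
    rw [hgv (sd n s, t) h, hv0 _ ?_ s ?_]
    · rw [hsd (sd n s, t) h, tau_box]
    · show ‖(tl n (sd _ _) : Fin n → ℝ)‖ = 1
      rw [hsd (sd n s, t) h, tl_box]; exact s.norm_eq
    · rw [hsd (sd n s, t) h, tl_box]; rfl
  · intro x
    have h : ‖(x : Fin n → ℝ)‖ = 1 ∨ (0 : I) = 0 ∨ (0 : I) = 1 := Or.inr (Or.inl rfl)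
    show g (box n (x, 0)) = _
    rw [hgv (x, 0) h, hv1 _ ?_, hsd (x, 0) h, tl_box]
    show tau n (sd _ _) = 0
    rw [hsd (x, 0) h, tau_box]
  · intro x
    have h : ‖(x : Fin n → ℝ)‖ = 1 ∨ (1 : I) = 0 ∨ (1 : I) = 1 := Or.inr (Or.inr rfl)
    show g (box n (x, 1)) = _
    rw [hgv (x, 1) h, hv2 _ ?_, hsd (x, 1) h, tl_box]
    show tau n (sd _ _) = 1
    rw [hsd (x, 1) h, tau_box]

/-- homotopic maps of a sphere extend simultaneously -/
theorem ext_of_homotopic {W : Type*} [TopologicalSpace W] {m : ℕ} {α β : C(S m, W)}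
    (h : ContinuousMap.Homotopic α β) (hβ : ∃ g : C(D m, W), ∀ s, g (sd m s) = β s) :
    ∃ g : C(D m, W), ∀ s, g (sd m s) = α s := by
  obtain ⟨H⟩ := h
  obtain ⟨w, hw⟩ := hβ
  obtain ⟨g, hg⟩ := fill_of_homotopy
    ⟨fun p : S m × I => H (p.2, p.1), H.continuous.comp continuous_swap⟩ w (fun s => by
      show H (1, s) = _
      rw [H.apply_one, hw])
  exact ⟨g, fun s => (hg s).trans (H.apply_zero s)⟩

section hom

variable {G : Type} [Group G]

/-- inclusion of a `G`-space in an attachment -/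
def ai {X : GSp G} {m : ℕ} (c : Cells X m) : C(X.Z, (X.att c).Z) := ⟨inZ c.φ, continuous_inZ⟩

/-- characteristic maps of an attachment -/
noncomputable def ac {X : GSp G} {m : ℕ} (c : Cells X m) (g : G) (i : c.C) : C(D m, (X.att c).Z) :=
  ⟨chr c.φ g i, continuous_chr g i⟩

theorem ac_sd {X : GSp G} {m : ℕ} (c : Cells X m) (g : G) (i : c.C) (x : S m) :
    ac c g i (sd m x) = ai c (g • c.φ i x) := chr_sd g i x

theorem ac_sd1 {X : GSp G} {m : ℕ} (c : Cells X m) (i : c.C) (x : S m) :
    ac c 1 i (sd m x) = ai c (c.φ i x) := by rw [ac_sd, one_smul]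

theorem smul_ac {X : GSp G} {m : ℕ} (c : Cells X m) (g h : G) (i : c.C) (x : D m) :
    g • ac c h i x = ac c (g * h) i x := smul_chr g h i x

theorem ac_eq {X : GSp G} {m : ℕ} (c : Cells X m) (g : G) (i : c.C) (x : D m) :
    ac c g i x = g • ac c 1 i x := by rw [smul_ac, mul_one]

theorem ai_smul {X : GSp G} {m : ℕ} (c : Cells X m) (g : G) (z : X.Z) :
    ai c (g • z) = g • ai c z := rfl

@[elab_as_elim] theorem att_cases {X : GSp G} {m : ℕ} {c : Cells X m}
    {motive : (X.att c).Z → Prop} (hZ : ∀ z, motive (ai c z))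
    (hB : ∀ g i x, motive (ac c g i x)) (p : (X.att c).Z) : motive p :=
  GAtt.cases' (φ := c.φ) (motive := motive) hZ (fun g i x => by
    have := hB g i (bd m x)
    have e : ac c g i (bd m x) = inB c.φ g i x := chr_bd g i x
    rw [e] at this; exact this) p

theorem att_glueG {X : GSp G} {m : ℕ} (c : Cells X m) {W : Type*} [TopologicalSpace W]
    [MulAction G W] [ContinuousConstSMul G W] (f : C(X.Z, W))
    (hf : ∀ (g : G) z, f (g • z) = g • f z) (e : c.C → C(D m, W))
    (h : ∀ i s, e i (sd m s) = f (c.φ i s)) :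
    ∃ F : C((X.att c).Z, W), (∀ z, F (ai c z) = f z) ∧ (∀ g i x, F (ac c g i x) = g • e i x) ∧
      ∀ (g : G) p, F (g • p) = g • F p :=
  exists_glueG (φ := c.φ) f hf e h

/-- any two equivariant maps to a space with fillings are equivariantly homotopic -/
def HomP (n : ℕ) (X : GSp G) : Prop :=
  ∀ W : GSp G, Fill n W.Z → ∀ a b : C(X.Z, W.Z), (∀ (g : G) z, a (g • z) = g • a z) →
    (∀ (g : G) z, b (g • z) = g • b z) →
    ∃ h : C(X.Z, C(I, W.Z)), (∀ (g : G) z, h (g • z) = g • h z) ∧
      ∀ z, h z 0 = a z ∧ h z 1 = b z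

theorem homP_emp : HomP 0 (GSp.emp G) := by
  intro W _ a b _ _
  refine ⟨⟨fun z => Empty.elim z, ?_⟩, fun g z => Empty.elim z, fun z => Empty.elim z⟩
  rw [continuous_def]; intro U _
  convert isOpen_empty
  ext z; exact Empty.elim z

theorem homP_step {n : ℕ} {X : GSp G} (h : HomP n X) (c : Cells X n) : HomP (n + 1) (X.att c) := by
  intro W hW a b ha hb
  obtain ⟨h0, h0e, h0h⟩ := h W (hW.mono (Nat.le_succ n)) (a.comp (ai c)) (b.comp (ai c))
    (fun g z => ha g (ai c z)) (fun g z => hb g (ai c z))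
  have h1 : ∀ i : c.C, ∃ e : C(D n × I, W.Z),
      (∀ s t, e (sd n s, t) = h0 (c.φ i s) t) ∧ (∀ x, e (x, 0) = a (ac c 1 i x)) ∧
      ∀ x, e (x, 1) = b (ac c 1 i x) := by
    intro i
    have hcont : Continuous fun s : S n => h0 (c.φ i s) := h0.continuous.comp (c.φ i).continuous
    obtain ⟨e, he1, he2, he3⟩ := box_fill hW
      ((⟨fun s : S n => h0 (c.φ i s), hcont⟩ : C(S n, C(I, W.Z))).uncurry)
      (a.comp (ac c 1 i)) (b.comp (ac c 1 i))
      (fun s => by
        show h0 (c.φ i s) 0 = a (ac c 1 i (sd n s))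
        rw [(h0h _).1, ac_sd1]; rfl)
      (fun s => by
        show h0 (c.φ i s) 1 = b (ac c 1 i (sd n s))
        rw [(h0h _).2, ac_sd1]; rfl)
    exact ⟨e, he1, he2, he3⟩
  choose e he1 he2 he3 using h1
  obtain ⟨H, hH1, hH2, hH3⟩ := att_glueG c h0 h0e (fun i => (e i).curry) (by
    intro i s
    ext t
    exact he1 i s t)
  refine ⟨H, hH3, ?_⟩
  intro z
  induction z using att_cases with
  | hZ z =>
    rw [hH1]
    exact h0h z
  | hB g i x =>
    rw [hH2]
    have e2 : a (ac c g i x) = g • a (ac c 1 i x) := by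
      rw [ac_eq c g i x]; exact ha g _
    have e3 : b (ac c g i x) = g • b (ac c 1 i x) := by
      rw [ac_eq c g i x]; exact hb g _
    constructor
    · refine Eq.trans ?_ e2.symm
      rw [← he2]; rfl
    · refine Eq.trans ?_ e3.symm
      rw [← he3]; rfl

end hom

section step

variable {G : Type} [Group G]

/-- **The inductive step.** -/
theorem build_step (hJ : JF G) {n : ℕ} (X₀ : GSp G) (c : Cells X₀ n)
    (hFill : Fill n (X₀.att c).Z) (hHom : HomP n X₀) (hsep : OrbSep G (X₀.att c).Z)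
    (hs : ∃ (F : Finset G) (L : ℕ) (s : C((X₀.att c).Z, MJ F L (n + 1))),
      ∀ (g : G) z, s (g • z) = g • s z) :
    ∃ d : Cells (X₀.att c) (n + 1), Fill (n + 1) ((X₀.att c).att d).Z ∧
      HomP (n + 1) (X₀.att c) ∧ OrbSep G ((X₀.att c).att d).Z ∧
      ∃ (F : Finset G) (L : ℕ) (s : C(((X₀.att c).att d).Z, MJ F L (n + 2))),
        ∀ (g : G) z, s (g • z) = g • s z := by
  classical
  obtain ⟨F, L, s, hs⟩ := hs
  obtain ⟨F', L', hJ'⟩ := hJ (n + 1) F L
  let F'' := F ∪ F'
  let L'' := max L L'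
  have hF1 : F ⊆ F'' := Finset.subset_union_left
  have hF2 : F' ⊆ F'' := Finset.subset_union_right
  obtain ⟨r, hr⟩ := exists_r (X := (X₀.att c).Z) (n + 1)
    (fun k hk => hFill k (Nat.lt_succ_iff.1 hk)) F'' L''
  let s'' : C((X₀.att c).Z, MJ F'' L'' (n + 1)) := (mi hF1 (le_max_left L L') le_rfl).comp s
  have hs'' : ∀ (g : G) z, s'' (g • z) = g • s'' z := by
    intro g z
    show mi hF1 (le_max_left L L') le_rfl (s (g • z)) = _
    rw [hs, mi_smul]; rfl
  let R : C((X₀.att c).Z, (X₀.att c).Z) := r.comp s''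
  have hR : ∀ (g : G) z, R (g • z) = g • R z := by
    intro g z
    show r (s'' (g • z)) = _
    rw [hs'', hr]; rfl
  -- the homotopy on `X₀`
  obtain ⟨h0, h0e, h0h⟩ := hHom (X₀.att c) hFill (ai c) (R.comp (ai c)) (fun g z => rfl)
    (fun g z => hR g (ai c z))
  -- the spheres over the `n`-cells
  have hbox : ∀ i : c.C, ∃ v : C(S (n + 1), (X₀.att c).Z), ∀ {W' : Type} [TopologicalSpace W']
      (j : C((X₀.att c).Z, W')) (g : C(D (n + 1), W')), (∀ y, g (sd (n + 1) y) = j (v y)) →
      ∃ e : C(D n × I, W'), (∀ x t, e (sd n x, t) = j (h0 (c.φ i x) t)) ∧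
        (∀ x, e (x, 0) = j (ac c 1 i x)) ∧ ∀ x, e (x, 1) = j (R (ac c 1 i x)) := by
    intro i
    have hcont : Continuous fun s : S n => h0 (c.φ i s) := h0.continuous.comp (c.φ i).continuous
    exact box_sphere ((⟨fun s : S n => h0 (c.φ i s), hcont⟩ : C(S n, C(I, (X₀.att c).Z))).uncurry)
      (ac c 1 i) (R.comp (ac c 1 i))
      (fun s => by
        show h0 (c.φ i s) 0 = ac c 1 i (sd n s)
        rw [(h0h _).1, ac_sd1])
      (fun s => by
        show h0 (c.φ i s) 1 = R (ac c 1 i (sd n s))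
        rw [(h0h _).2, ac_sd1]; rfl)
  choose v hv using hbox
  -- the new cells
  let d : Cells (X₀.att c) (n + 1) :=
    { C := top1 F'' L'' (n + 1) ⊕ c.C
      φ := Sum.elim (fun σ => r.comp (th σ.1 σ.2.1 σ.2.2.1)) v }
  refine ⟨d, ?_, homP_step hHom c, orbSep (φ := d.φ) hsep, smap_step (X₀.att c) d s hs⟩
  have hj : ∀ (g : G) z, ai d (g • z) = g • ai d z := fun g z => rfl
  -- extension of `r`
  obtain ⟨r', -, hr'⟩ := extend_r (X' := ((X₀.att c).att d).Z) r hr (ai d) hj
    (fun σ => ac d 1 (Sum.inl σ)) (fun σ x => ac_sd1 d (Sum.inl σ) x)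
  -- the homotopy `j ≃ j R`
  have hcell : ∀ i : c.C, ∃ e : C(D n × I, ((X₀.att c).att d).Z),
      (∀ x t, e (sd n x, t) = ai d (h0 (c.φ i x) t)) ∧
      (∀ x, e (x, 0) = ai d (ac c 1 i x)) ∧ ∀ x, e (x, 1) = ai d (R (ac c 1 i x)) := by
    intro i
    exact hv i (ai d) (ac d 1 (Sum.inr i)) (fun y => ac_sd1 d (Sum.inr i) y)
  choose e he1 he2 he3 using hcell
  let jh0 : C(X₀.Z, C(I, ((X₀.att c).att d).Z)) := ⟨fun z => (ai d).comp (h0 z),
    (ContinuousMap.continuous_postcomp (ai d)).comp h0.continuous⟩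
  obtain ⟨H, hH1, hH2, -⟩ := att_glueG c jh0
    (fun (g : G) z => by
      ext t
      show ai d (h0 (g • z) t) = g • ai d (h0 z t)
      rw [h0e]; rfl)
    (fun i => (e i).curry) (by
      intro i x
      ext t
      exact he1 i x t)
  have hHh : ∀ z : (X₀.att c).Z, H z 0 = ai d z ∧ H z 1 = ai d (R z) := by
    intro z
    induction z using att_cases with
    | hZ z =>
      rw [hH1]
      exact ⟨congrArg (ai d) (h0h z).1, congrArg (ai d) (h0h z).2⟩
    | hB g i x =>
      rw [hH2]
      have e2 : ai d (ac c g i x) = g • ai d (ac c 1 i x) := by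
        rw [ac_eq c g i x]; exact hj g _
      have e3 : ai d (R (ac c g i x)) = g • ai d (R (ac c 1 i x)) := by
        rw [ac_eq c g i x]
        exact (congrArg (ai d) (hR g _)).trans (hj g _)
      constructor
      · refine Eq.trans ?_ e2.symm
        rw [← he2]; rfl
      · refine Eq.trans ?_ e3.symm
        rw [← he3]; rfl
  -- fillings
  intro m hm α
  have : T2Space (X₀.att c).Z := t2_of_orbSep hsep
  obtain ⟨β, hβ⟩ := Crest.Agent.R185.Cell.compress (Z := (X₀.att c).Z) (φ := d.φ) hm α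
  refine ext_of_homotopic hβ ?_
  rcases Nat.lt_or_ge m (n + 1) with hmn | hmn
  · obtain ⟨w, hw⟩ := hFill m (Nat.lt_succ_iff.1 hmn) β
    exact ⟨(ai d).comp w, fun x => congrArg (ai d) (hw x)⟩
  · have hmn' : m = n + 1 := le_antisymm hm hmn
    subst hmn'
    -- homotopy from `jβ` to `jRβ`
    have hhom : ContinuousMap.Homotopic ((ai d).comp β) ((ai d).comp (R.comp β)) := by
      refine ⟨⟨⟨fun p => H (β p.2) p.1, ?_⟩, fun x => (hHh (β x)).1, fun x => (hHh (β x)).2⟩⟩
      have h1 : Continuous fun p : I × S (n + 1) => (H (β p.2), p.1) :=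
        (H.continuous.comp (β.continuous.comp continuous_snd)).prodMk continuous_fst
      exact ContinuousEval.continuous_eval.comp h1
    refine ext_of_homotopic hhom ?_
    obtain ⟨g1, hg1⟩ := hJ' (s.comp β)
    obtain ⟨g2, hg2⟩ := fill_skel (s.comp β) g1 hg1
    refine ⟨r'.comp ((mi hF2 (le_max_right L L') le_rfl).comp g2), fun x => ?_⟩
    show r' (mi hF2 (le_max_right L L') le_rfl (g2 (sd (n + 1) x))) = ai d (R (β x))
    have h1 : mi hF2 (le_max_right L L') le_rfl (g2 (sd (n + 1) x)) =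
        mi (Finset.Subset.refl F'') le_rfl (Nat.le_succ (n + 1)) (s'' (β x)) :=
      Cx.R.ext_m (hg2 x)
    rw [h1, hr']
    rfl

end step

section final

variable {G : Type} [Group G]

/-- the inductive property of the stages -/
def PP (G : Type) [Group G] : ℕ → GSp G → Prop
  | 0, X => X = GSp.emp G
  | n + 1, X => ∃ (X₀ : GSp G) (c : Cells X₀ n), X = X₀.att c ∧ Fill n X.Z ∧ HomP n X₀ ∧
      OrbSep G X.Z ∧ ∃ (F : Finset G) (L : ℕ) (s : C(X.Z, MJ F L (n + 1))),
        ∀ (g : G) z, s (g • z) = g • s z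

theorem pp_zero : ∃ c : Cells (GSp.emp G) 0, PP G 1 ((GSp.emp G).att c) := by
  let c : Cells (GSp.emp G) 0 := ⟨Unit, fun _ => ⟨fun s => absurd s.norm_eq (by
    have : (s : Fin 0 → ℝ) = 0 := Subsingleton.elim _ _
    rw [this, norm_zero]; exact zero_ne_one), by
      rw [continuous_def]; intro U _
      convert isOpen_empty
      ext s
      exact absurd s.norm_eq (by
        have : (s : Fin 0 → ℝ) = 0 := Subsingleton.elim _ _
        rw [this, norm_zero]; exact zero_ne_one)⟩⟩
  refine ⟨c, GSp.emp G, c, rfl, ?_, homP_emp, ?_, ?_⟩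
  · intro m hm f
    obtain rfl := Nat.le_zero.1 hm
    refine ⟨ContinuousMap.const _ (chr c.φ 1 () ⟨0, by simp⟩), fun s => absurd s.norm_eq (by
        have : (s : Fin 0 → ℝ) = 0 := Subsingleton.elim _ _
        rw [this, norm_zero]; exact zero_ne_one)⟩
  · exact orbSep (φ := c.φ) (fun z => Empty.elim z)
  · let s0 : C((GSp.emp G).Z, MJ (∅ : Finset G) 0 0) := ⟨fun z => Empty.elim z, by
      rw [continuous_def]; intro U _
      convert isOpen_empty
      ext z; exact Empty.elim z⟩
    exact smap_step (GSp.emp G) c s0 (fun g z => Empty.elim z)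

theorem pp_step (hJ : JF G) (n : ℕ) (X : GSp G) (hX : PP G n X) :
    ∃ c : Cells X n, PP G (n + 1) (X.att c) := by
  cases n with
  | zero =>
    have : X = GSp.emp G := hX
    subst this
    exact pp_zero
  | succ n =>
    obtain ⟨X₀, c, rfl, h1, h2, h3, h4⟩ := hX
    obtain ⟨d, hd1, hd2, hd3, hd4⟩ := build_step hJ X₀ c h1 h2 h3 h4
    exact ⟨d, X₀.att c, d, rfl, hd1, hd2, hd3, hd4⟩

/-- **The builder.** -/
theorem build : BuildTarget := by
  intro G _ hJ
  classical
  let F : ∀ (m : ℕ) (X : GSp G), Cells X m := fun m X =>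
    if h : PP G m X then Classical.choose (pp_step hJ m X h) else Cells.none X m
  have hP : ∀ n, PP G n (tower F n) := by
    intro n
    induction n with
    | zero => rfl
    | succ n ih =>
      have h1 : F n (tower F n) = Classical.choose (pp_step hJ n (tower F n) ih) := dif_pos ih
      show PP G (n + 1) ((tower F n).att (F n (tower F n)))
      rw [h1]
      exact Classical.choose_spec (pp_step hJ n (tower F n) ih)
  refine final_of_stages F fun N m f => ?_
  obtain ⟨-, -, -, hfill, -⟩ := hP (max N m + 1)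
  obtain ⟨i, hi, -⟩ := exists_inc F (show N ≤ max N m + 1 by omega)
  obtain ⟨g, hg⟩ := hfill m (le_max_right N m) (i.comp f)
  exact ⟨max N m + 1, by omega, g, fun s => by rw [hg]; exact hi _⟩

end final

end Crest.Agent.R185.Bld
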