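import Crest.Agent.R185.Att4

/-!
# Row 185, BUILDER, definitions

`Cx V`: locally finite abstract simplicial complexes; `K.R` = its realisation (finitely supported
probability measures on the vertices, supported on a simplex) with the *pointwise* topology.
`rips F` : the Rips complex of a group `G` for a finite set `F`; `P F = (rips F).R`.
`CC k φ`, `CCG k G`: coarse fillings (`m ≤ k` refers to spheres `S m`, the boundary of the `m`-cube, so
`CC (n+1)` is "coarsely `n`-connected").
-/

set_option autoImplicit false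
set_option linter.unusedSectionVars false

open Set Metric Topology
open Crest.Agent.R185.Att

namespace Crest.Agent.R185.Bld

/-- locally finite abstract simplicial complex on the vertex set `V` -/
structure Cx (V : Type) where
  s : Set (Finset V)
  down : ∀ {σ τ : Finset V}, σ ∈ s → τ ⊆ σ → τ.Nonempty → τ ∈ s
  lf : ∀ v, {w | ∃ σ ∈ s, v ∈ σ ∧ w ∈ σ}.Finite

/-- realisation -/
structure Cx.R {V : Type} (K : Cx V) : Type where
  m : V →₀ ℝ
  nn : ∀ v, 0 ≤ m v
  tot : (m.sum fun _ a => a) = 1
  mem : m.support ∈ K.s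

namespace Cx

variable {V : Type} {K : Cx V}

instance : CoeFun K.R (fun _ => V → ℝ) := ⟨fun p => p.m⟩

instance : TopologicalSpace K.R := TopologicalSpace.induced (fun p v => p v) inferInstance

theorem R.ext_m {p q : K.R} (h : p.m = q.m) : p = q := by
  cases p; cases q; cases h; rfl

theorem R.ext {p q : K.R} (h : ∀ v, p v = q v) : p = q := R.ext_m (Finsupp.ext h)

theorem R.mem_support {p : K.R} {v : V} : v ∈ p.m.support ↔ p v ≠ 0 := Finsupp.mem_support_iff
theorem R.mem_support' {p : K.R} {v : V} : v ∈ p.m.support ↔ 0 < p v := by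
  rw [R.mem_support]; exact ⟨fun h => lt_of_le_of_ne (p.nn v) h.symm, fun h => h.ne'⟩

theorem R.sum_eq (p : K.R) {T : Finset V} (h : p.m.support ⊆ T) : ∑ v ∈ T, p v = 1 := by
  have h1 := p.tot
  rw [Finsupp.sum_of_support_subset _ h _ (fun _ _ => rfl)] at h1
  exact h1

theorem R.nonempty (p : K.R) : p.m.support.Nonempty := by
  rw [Finset.nonempty_iff_ne_empty]
  intro h
  have h1 := p.sum_eq (T := ∅) (by rw [h])
  simp at h1

theorem R.exists_pos (p : K.R) : ∃ v, 0 < p v := by
  obtain ⟨v, hv⟩ := p.nonempty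
  exact ⟨v, R.mem_support'.1 hv⟩

theorem R.le_one (p : K.R) (v : V) : p v ≤ 1 := by
  classical
  have h := p.sum_eq (Finset.subset_insert v p.m.support)
  have h2 := Finset.single_le_sum (f := fun v => p v) (fun w _ => p.nn w)
    (Finset.mem_insert_self v p.m.support)
  exact h2.trans h.le

theorem continuous_eval (v : V) : Continuous fun p : K.R => p v :=
  (continuous_apply v).comp continuous_induced_dom

theorem continuous_iff_eval {X : Type*} [TopologicalSpace X] {f : X → K.R} :
    Continuous f ↔ ∀ v, Continuous fun x => f x v := by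
  rw [continuous_induced_rng, continuous_pi_iff]
  rfl

instance : T2Space K.R := by
  refine T2Space.of_injective_continuous (f := fun (p : K.R) v => p v) ?_ continuous_induced_dom
  intro p q h
  exact R.ext fun v => congrFun h v

/-- the vertices adjacent to `v` -/
noncomputable def nb (K : Cx V) (v : V) : Finset V := (K.lf v).toFinset

theorem mem_nb {v w : V} : w ∈ K.nb v ↔ ∃ σ ∈ K.s, v ∈ σ ∧ w ∈ σ := by simp [nb]

theorem support_subset_nb {p : K.R} {v : V} (h : 0 < p v) : p.m.support ⊆ K.nb v := by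
  intro w hw
  exact mem_nb.2 ⟨p.m.support, p.mem, R.mem_support'.2 h, hw⟩

theorem isOpen_star (v : V) : IsOpen {p : K.R | 0 < p v} :=
  isOpen_lt continuous_const (continuous_eval v)

/-- a map out of the realisation is continuous if it is so on the open stars -/
theorem continuous_of_star {W : Type*} [TopologicalSpace W] {f : K.R → W}
    (h : ∀ v, ContinuousOn f {p | 0 < p v}) : Continuous f := by
  rw [continuous_iff_continuousAt]
  intro p
  obtain ⟨v, hv⟩ := p.exists_pos
  exact (h v).continuousAt ((isOpen_star v).mem_nhds hv)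

/-- closed faces -/
def face (K : Cx V) (σ : Finset V) : Set K.R := {p | p.m.support ⊆ σ}

theorem isClosed_face (σ : Finset V) : IsClosed (K.face σ) := by
  have : K.face σ = ⋂ v ∈ {v | v ∉ σ}, {p : K.R | p v = 0} := by
    ext p
    simp only [mem_iInter]
    constructor
    · intro h v hv
      by_contra hne
      exact hv (h (R.mem_support.2 hne))
    · intro h v hv
      by_contra hne
      exact R.mem_support.1 hv (h v hne)
  rw [this]
  exact isClosed_biInter fun v _ => isClosed_eq (continuous_eval v) continuous_const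

theorem locallyFinite_face : LocallyFinite fun σ : K.s => K.face σ.1 := by
  classical
  intro p
  obtain ⟨v, hv⟩ := p.exists_pos
  refine ⟨{q | 0 < q v}, (isOpen_star v).mem_nhds hv, ?_⟩
  refine ((K.nb v).powerset.finite_toSet.preimage (Subtype.val_injective.injOn)).subset ?_
  rintro σ ⟨q, hq1, hq2⟩
  simp only [mem_preimage, SetLike.mem_coe, Finset.mem_powerset]
  intro w hw
  exact mem_nb.2 ⟨σ.1, σ.2, hq1 (R.mem_support'.2 hq2), hw⟩

theorem iUnion_face : ⋃ σ : K.s, K.face σ.1 = univ := by
  rw [eq_univ_iff_forall]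
  intro p
  exact mem_iUnion.2 ⟨⟨p.m.support, p.mem⟩, Subset.rfl⟩

/-- a map out of the realisation is continuous if it is so on the closed simplices -/
theorem continuous_of_face {W : Type*} [TopologicalSpace W] {f : K.R → W}
    (h : ∀ σ ∈ K.s, ContinuousOn f (K.face σ)) : Continuous f :=
  locallyFinite_face.continuous iUnion_face (fun σ => isClosed_face σ.1) fun σ => h σ.1 σ.2

/-- maps from compact spaces have values in a finite subcomplex -/
theorem exists_support {A : Type*} [TopologicalSpace A] [CompactSpace A] (f : C(A, K.R)) :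
    ∃ T : Finset V, ∀ a, (f a).m.support ⊆ T := by
  classical
  obtain ⟨t, ht⟩ := isCompact_univ.elim_finite_subcover (fun v => {a : A | 0 < f a v})
    (fun v => (isOpen_star v).preimage f.continuous) (fun a _ => by
      obtain ⟨v, hv⟩ := (f a).exists_pos
      exact mem_iUnion.2 ⟨v, hv⟩)
  refine ⟨t.biUnion K.nb, fun a => ?_⟩
  obtain ⟨v, hv⟩ := mem_iUnion.1 (ht (mem_univ a))
  obtain ⟨hvt, hv⟩ := mem_iUnion.1 hv
  exact (support_subset_nb hv).trans (Finset.subset_biUnion_of_mem K.nb hvt)

/-- a vertex -/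
noncomputable def vert (v : V) (h : {v} ∈ K.s) : K.R where
  m := Finsupp.single v 1
  nn w := by
    classical
    rw [Finsupp.single_apply]; split_ifs <;> norm_num
  tot := by rw [Finsupp.sum_single_index rfl]
  mem := by rw [Finsupp.support_single _ one_ne_zero]; exact h

theorem mix_tot {K' : Cx V} (t : unitInterval) (p : K.R) (q : K'.R) :
    ((1 - (t : ℝ)) • p.m + (t : ℝ) • q.m).sum (fun _ a => a) = 1 := by
  rw [Finsupp.sum_add_index' (fun _ => rfl) (fun _ _ _ => rfl),
    Finsupp.sum_smul_index' (fun _ => rfl), Finsupp.sum_smul_index' (fun _ => rfl)]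
  simp only [smul_eq_mul]
  rw [← Finsupp.mul_sum, ← Finsupp.mul_sum, p.tot, q.tot]
  ring

/-- convex combination -/
noncomputable def mix {K' : Cx V} (t : unitInterval) (p : K.R) (q : K'.R) {K'' : Cx V}
    (h : ((1 - (t : ℝ)) • p.m + (t : ℝ) • q.m).support ∈ K''.s) : K''.R where
  m := (1 - (t : ℝ)) • p.m + (t : ℝ) • q.m
  nn w := by
    simp only [Finsupp.coe_add, Finsupp.coe_smul, Pi.add_apply, Pi.smul_apply, smul_eq_mul]
    exact add_nonneg (mul_nonneg (by linarith [t.2.2]) (p.nn w)) (mul_nonneg t.2.1 (q.nn w))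
  tot := mix_tot t p q
  mem := h

theorem mix_apply {K' : Cx V} (t : unitInterval) (p : K.R) (q : K'.R) {K'' : Cx V}
    (h : ((1 - (t : ℝ)) • p.m + (t : ℝ) • q.m).support ∈ K''.s) (v : V) :
    mix t p q h v = (1 - (t : ℝ)) * p v + t * q v := rfl

theorem mix_support_subset [DecidableEq V] {K' : Cx V} (t : unitInterval) (p : K.R) (q : K'.R) :
    ((1 - (t : ℝ)) • p.m + (t : ℝ) • q.m).support ⊆ p.m.support ∪ q.m.support :=
  Finsupp.support_add.trans (Finset.union_subset_union Finsupp.support_smul Finsupp.support_smul)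

theorem mix_support_mem [DecidableEq V] {K' : Cx V} (t : unitInterval) (p : K.R) (q : K'.R)
    {K'' : Cx V} (h : p.m.support ∪ q.m.support ∈ K''.s) :
    ((1 - (t : ℝ)) • p.m + (t : ℝ) • q.m).support ∈ K''.s := by
  refine K''.down h (mix_support_subset t p q) ?_
  -- the total mass is one
  by_contra hne
  rw [Finset.not_nonempty_iff_eq_empty, Finsupp.support_eq_empty] at hne
  have h1 := mix_tot t p q
  rw [hne, Finsupp.sum_zero_index] at h1
  exact zero_ne_one h1

/-- inclusion of complexes -/
def R.incl {K K' : Cx V} (h : K.s ⊆ K'.s) (p : K.R) : K'.R := ⟨p.m, p.nn, p.tot, h p.mem⟩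

@[simp] theorem R.incl_m {K K' : Cx V} (h : K.s ⊆ K'.s) (p : K.R) : (p.incl h).m = p.m := rfl

theorem continuous_incl {K K' : Cx V} (h : K.s ⊆ K'.s) : Continuous (R.incl h) :=
  continuous_iff_eval.2 fun v => continuous_eval v

end Cx

/-! ### Rips complexes and coarse fillings -/

section rips

variable {G : Type} [Group G]

/-- Rips complex: finite sets with all quotients in `F` -/
def rips (F : Finset G) : Cx G where
  s := {σ | ∀ g ∈ σ, ∀ h ∈ σ, g⁻¹ * h ∈ F}
  down := fun hσ hτ _ g hg h hh => hσ g (hτ hg) h (hτ hh)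
  lf := by
    intro v
    refine (F.finite_toSet.image fun f => v * f).subset ?_
    rintro w ⟨σ, hσ, hv, hw⟩
    exact ⟨v⁻¹ * w, hσ v hv w hw, mul_inv_cancel_left v w⟩

/-- finitely supported probability measures with quotients of the support in `F` -/
abbrev P (F : Finset G) : Type := (rips F).R

/-- coarse filling for a homomorphism -/
def CC {H : Type} [Group H] (k : ℕ) (φ : H →* G) : Prop :=
  ∀ F : Finset H, ∃ F' : Finset G, ∀ m ≤ k, ∀ f : C(S m, P F), ∃ g : C(D m, P F'),
    ∀ s, (g (sd m s)).m = Finsupp.mapDomain φ (f s).m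

/-- coarse filling for a group -/
def CCG (k : ℕ) (G : Type) [Group G] : Prop :=
  ∀ F : Finset G, ∃ F' : Finset G, ∀ m ≤ k, ∀ f : C(S m, P F), ∃ g : C(D m, P F'),
    ∀ s, (g (sd m s)).m = (f s).m

theorem CCG_iff_id (k : ℕ) : CCG k G ↔ CC k (MonoidHom.id G) := by
  unfold CCG CC
  simp only [MonoidHom.coe_id, Finsupp.mapDomain_id]

/-! ### the Milnor model with levels -/

/-- `mil F L k`: vertices `(g, l)`, `l < L`; a simplex has at most `k` vertices, at pairwise different
levels, with all quotients in `F` -/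
def mil (F : Finset G) (L k : ℕ) : Cx (G × ℕ) where
  s := {σ | (∀ a ∈ σ, ∀ b ∈ σ, a.1⁻¹ * b.1 ∈ F ∧ (a.2 = b.2 → a = b)) ∧ (∀ a ∈ σ, a.2 < L) ∧
    σ.card ≤ k}
  down := fun hσ hτ _ => ⟨fun a ha b hb => hσ.1 a (hτ ha) b (hτ hb), fun a ha => hσ.2.1 a (hτ ha),
    (Finset.card_le_card hτ).trans hσ.2.2⟩
  lf := by
    rintro ⟨g, l⟩
    refine (((F.finite_toSet.image fun f => g * f).prod (finite_Iio L))).subset ?_
    rintro ⟨h, l'⟩ ⟨σ, hσ, hv, hw⟩
    exact ⟨⟨g⁻¹ * h, (hσ.1 _ hv _ hw).1, mul_inv_cancel_left g h⟩, hσ.2.1 _ hw⟩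

/-- the model of the free contractible complex -/
abbrev MJ (F : Finset G) (L k : ℕ) : Type := (mil F L k).R

theorem mil_mono {F F' : Finset G} {L L' k k' : ℕ} (hF : F ⊆ F') (hL : L ≤ L') (hk : k ≤ k') :
    (mil F L k).s ⊆ (mil F' L' k').s :=
  fun _ h => ⟨fun a ha b hb => ⟨hF (h.1 a ha b hb).1, (h.1 a ha b hb).2⟩,
    fun a ha => (h.2.1 a ha).trans_le hL, h.2.2.trans hk⟩

/-- **Hypothesis of the builder** (bounded fillings in the model): spheres `S n` (of dimension `n-1`) in
the part of the model of scale `(F, L)` of dimension `≤ n-1` are filled at scale `(F', L')`. -/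
def JF (G : Type) [Group G] : Prop :=
  ∀ (n : ℕ) (F : Finset G) (L : ℕ), ∃ (F' : Finset G) (L' : ℕ), ∀ f : C(S n, MJ F L n),
    ∃ g : C(D n, MJ F' L' L'), ∀ s, (g (sd n s)).m = (f s).m

/-- **Target of the builder.** -/
def BuildTarget : Prop := ∀ (G : Type) [Group G], JF G →
  Crest.Topology.HasFiniteTypeClassifyingComplex G

/-- coarse fillings in the Rips complexes give bounded fillings in the model (colouring) -/
def ColourTarget : Prop := ∀ (G : Type) [Group G], (∀ k, CCG k G) → JF G

end rips

end Crest.Agent.R185.Bld
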