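import Crest.Agent.R185.Re2
import Mathlib.Logic.Relation

/-!
# R185, block WIT (a): clocked stack machines as systems of partial affine letters

A *letter* (`Rl Q K`) acts partially on configurations `Q × (K → ℤ)`: it pops prescribed digits
(base `b`) from some stacks and pushes digits on some stacks.
-/

set_option autoImplicit false

namespace Crest.Agent.R185.Clk

open Relation

/-- A letter of a stack system: from state `src` to state `tgt`; on the stack `k` it pops the
digit `d` if `pop k = some d`, and pushes the digit `d` if `push k = some d`. -/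
@[ext] structure Rl (Q K : Type) where
  src : Q
  tgt : Q
  pop : K → Option ℕ
  push : K → Option ℕ

/-- configurations -/
abbrev Cf (Q K : Type) := Q × (K → ℤ)

variable {Q K R : Type}

/-- the digits popped by a letter, as a vector -/
def Rl.popv (y : Rl Q K) (k : K) : ℤ := ((y.pop k).getD 0 : ℕ)

/-- the digits pushed by a letter, as a vector -/
def Rl.pushv (y : Rl Q K) (k : K) : ℤ := ((y.push k).getD 0 : ℕ)

/-- applicability -/
def Rl.Ok (b : ℕ) (y : Rl Q K) (c : Cf Q K) : Prop :=
  c.1 = y.src ∧ ∀ k d, y.pop k = some d → c.2 k % b = d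

/-- new content of one stack -/
def Rl.upd (b : ℕ) (y : Rl Q K) (k : K) (n : ℤ) : ℤ :=
  let m := if (y.pop k).isSome then n / b else n
  match y.push k with
  | none => m
  | some d => d + b * m

/-- the result (meaningful if the letter is applicable) -/
def Rl.res (b : ℕ) (y : Rl Q K) (c : Cf Q K) : Cf Q K :=
  (y.tgt, fun k => y.upd b k (c.2 k))

/-- reverse letter -/
def Rl.inv (y : Rl Q K) : Rl Q K := ⟨y.tgt, y.src, y.push, y.pop⟩

@[simp] theorem Rl.inv_inv (y : Rl Q K) : y.inv.inv = y := rfl

/-- A well formed letter: no stack is both popped and pushed and all digits are `< b - 1`. -/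
structure Rl.WF (b : ℕ) (y : Rl Q K) : Prop where
  disj : ∀ k, y.pop k = none ∨ y.push k = none
  pop_lt : ∀ k d, y.pop k = some d → d + 1 < b
  push_lt : ∀ k d, y.push k = some d → d + 1 < b

theorem Rl.WF.inv {b : ℕ} {y : Rl Q K} (h : y.WF b) : y.inv.WF b :=
  ⟨fun k => (h.disj k).symm, h.push_lt, h.pop_lt⟩

theorem Rl.upd_none {b : ℕ} {y : Rl Q K} {k : K} (h1 : y.pop k = none) (h2 : y.push k = none)
    (n : ℤ) : y.upd b k n = n := by
  simp [Rl.upd, h1, h2]

theorem Rl.upd_pop {b : ℕ} {y : Rl Q K} {k : K} {d : ℕ} (h1 : y.pop k = some d)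
    (h2 : y.push k = none) (n : ℤ) : y.upd b k n = n / b := by
  simp [Rl.upd, h1, h2]

theorem Rl.upd_push {b : ℕ} {y : Rl Q K} {k : K} {d : ℕ} (h1 : y.pop k = none)
    (h2 : y.push k = some d) (n : ℤ) : y.upd b k n = d + b * n := by
  simp [Rl.upd, h1, h2]

theorem Rl.inv_res {b : ℕ} {y : Rl Q K} (hy : y.WF b) {c : Cf Q K} (h : y.Ok b c) :
    y.inv.Ok b (y.res b c) ∧ y.inv.res b (y.res b c) = c := by
  obtain ⟨q, s⟩ := c
  have hq : q = y.src := h.1
  have key : ∀ k, (∀ d, y.push k = some d → y.upd b k (s k) % b = d) ∧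
      y.inv.upd b k (y.upd b k (s k)) = s k := by
    intro k
    rcases hp : y.pop k with _ | d
    · rcases hq : y.push k with _ | e
      · refine ⟨by simp, ?_⟩
        rw [Rl.upd_none hp hq]
        exact Rl.upd_none (y := y.inv) hq hp _
      · rw [Rl.upd_push hp hq]
        have he : (e : ℤ) < b := by have := hy.push_lt k e hq; omega
        have he0 : (0 : ℤ) ≤ e := by positivity
        refine ⟨?_, ?_⟩
        · intro d hd
          cases hd
          rw [Int.add_mul_emod_self_left, Int.emod_eq_of_lt he0 he]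
        · rw [Rl.upd_pop (y := y.inv) (d := e) hq hp]
          rw [Int.add_mul_ediv_left _ _ (by omega), Int.ediv_eq_zero_of_lt he0 he, zero_add]
    · have hq : y.push k = none := by
        rcases hy.disj k with h1 | h1
        · rw [hp] at h1; cases h1
        · exact h1
      refine ⟨by simp [hq], ?_⟩
      rw [Rl.upd_pop hp hq, Rl.upd_push (y := y.inv) (d := d) hq hp]
      have := h.2 k d hp
      have h2 := Int.emod_add_mul_ediv (s k) b
      simp only at this
      rw [this] at h2
      exact h2
  refine ⟨⟨rfl, fun k d hd => (key k).1 d hd⟩, ?_⟩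
  refine Prod.ext ?_ ?_
  · exact hq.symm
  · funext k
    exact (key k).2

theorem Rl.res_inj {b : ℕ} {y : Rl Q K} (hy : y.WF b) {c c' : Cf Q K} (h : y.Ok b c)
    (h' : y.Ok b c') (e : y.res b c = y.res b c') : c = c' := by
  rw [← (Rl.inv_res hy h).2, e, (Rl.inv_res hy h').2]

/-! ### systems -/

/-- one step of a system of letters -/
def Stp (b : ℕ) (rule : R → Rl Q K) (c c' : Cf Q K) : Prop :=
  ∃ r, (rule r).Ok b c ∧ (rule r).res b c = c'

/-- determinism: at most one letter is applicable -/
def Det (b : ℕ) (rule : R → Rl Q K) : Prop :=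
  ∀ r r' c, (rule r).Ok b c → (rule r').Ok b c → r = r'

section det
variable {b : ℕ} {rule : R → Rl Q K}

theorem Stp.det (hd : Det b rule) {c c₁ c₂ : Cf Q K} (h₁ : Stp b rule c c₁)
    (h₂ : Stp b rule c c₂) : c₁ = c₂ := by
  obtain ⟨r, h1, rfl⟩ := h₁
  obtain ⟨r', h2, rfl⟩ := h₂
  rw [hd r r' c h1 h2]

/-- connectedness by letters and inverse letters -/
def Conn (b : ℕ) (rule : R → Rl Q K) : Cf Q K → Cf Q K → Prop := EqvGen (Stp b rule)

/-- Church--Rosser: connected configurations have a common successor. -/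
theorem Conn.join (hd : Det b rule) {c c' : Cf Q K} (h : Conn b rule c c') :
    ∃ d, ReflTransGen (Stp b rule) c d ∧ ReflTransGen (Stp b rule) c' d := by
  have h1 : Join (ReflTransGen (Stp b rule)) c c' := by
    induction h with
    | rel x y h => exact ⟨y, ReflTransGen.single h, ReflTransGen.refl⟩
    | refl x => exact ⟨x, ReflTransGen.refl, ReflTransGen.refl⟩
    | symm x y _ ih =>
      obtain ⟨u, h1, h2⟩ := ih
      exact ⟨u, h2, h1⟩
    | trans x y z _ _ ih1 ih2 =>
      obtain ⟨u, hxu, hyu⟩ := ih1
      obtain ⟨v, hyv, hzv⟩ := ih2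
      rcases ReflTransGen.total_of_right_unique
        (r := Stp b rule) (fun _ _ _ h1 h2 => Stp.det hd h1 h2) hyu hyv with h | h
      · exact ⟨v, hxu.trans h, hzv⟩
      · exact ⟨u, hxu, hzv.trans h⟩
  exact h1

theorem Conn.of_reach {c c' : Cf Q K} (h : ReflTransGen (Stp b rule) c c') :
    Conn b rule c c' := by
  induction h with
  | refl => exact EqvGen.refl _
  | tail _ h ih => exact EqvGen.trans _ _ _ ih (EqvGen.rel _ _ h)

/-- a configuration connected to a stuck one reaches it -/
theorem Conn.reach_of_stuck (hd : Det b rule) {c h : Cf Q K} (hc : Conn b rule c h)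
    (hs : ∀ d, ¬ Stp b rule h d) : ReflTransGen (Stp b rule) c h := by
  obtain ⟨d, h1, h2⟩ := hc.join hd
  rcases ReflTransGen.cases_head h2 with h3 | ⟨e, h3, _⟩
  · rwa [h3]
  · exact absurd h3 (hs e)

end det

end Crest.Agent.R185.Clk
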