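import Crest.Agent.R185.Clk1

/-!
# R185, block WIT (a), part 2: the clocked and erasing version of a micro-step stack machine
-/

set_option autoImplicit false

namespace Crest.Agent.R185.Clk

open Relation StateTransition Turing Function Crest.Agent.R185.Comp

/-! ### digit encodings of lists -/

/-- encoding of a list of digits, top of the stack = head = least significant digit -/
def enc (b : ℕ) : List ℕ → ℤ
  | [] => 0
  | d :: l => d + b * enc b l

@[simp] theorem enc_nil (b : ℕ) : enc b [] = 0 := rfl
@[simp] theorem enc_cons (b d : ℕ) (l : List ℕ) : enc b (d :: l) = d + b * enc b l := rfl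

theorem enc_nonneg (b : ℕ) (l : List ℕ) : 0 ≤ enc b l := by
  induction l with
  | nil => simp
  | cons d l ih => rw [enc_cons]; positivity

theorem enc_cons_emod {b d : ℕ} (h : d < b) (l : List ℕ) : enc b (d :: l) % b = d := by
  rw [enc_cons, Int.add_mul_emod_self_left, Int.emod_eq_of_lt (by positivity) (by omega)]

theorem enc_cons_ediv {b d : ℕ} (h : d < b) (l : List ℕ) : enc b (d :: l) / b = enc b l := by
  rw [enc_cons, Int.add_mul_ediv_left _ _ (by omega), Int.ediv_eq_zero_of_lt (by positivity)
    (by omega), zero_add]

theorem enc_inj {b : ℕ} {l l' : List ℕ} (h : ∀ d ∈ l, 0 < d ∧ d < b) (h' : ∀ d ∈ l', 0 < d ∧ d < b)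
    (e : enc b l = enc b l') : l = l' := by
  induction l generalizing l' with
  | nil =>
    cases l' with
    | nil => rfl
    | cons d l' =>
      have h1 := enc_cons_emod (h' d (by simp)).2 l'
      rw [← e] at h1
      have := (h' d (by simp)).1
      simp at h1
      omega
  | cons d l ih =>
    cases l' with
    | nil =>
      have h1 := enc_cons_emod (h d (by simp)).2 l
      rw [e] at h1
      have := (h d (by simp)).1
      simp at h1
      omega
    | cons d' l' =>
      have h1 := enc_cons_emod (h d (by simp)).2 l
      have h2 := enc_cons_ediv (h d (by simp)).2 l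
      rw [e, enc_cons_emod (h' d' (by simp)).2] at h1
      rw [e, enc_cons_ediv (h' d' (by simp)).2] at h2
      have h3 : d = d' := by exact_mod_cast h1.symm
      rw [h3, ih (fun x hx => h x (by simp [hx])) (fun x hx => h' x (by simp [hx])) h2.symm]

/-! ### the compiled machine -/

variable {Q K A : Type}

/-- the stacks of the compiled machine: `none` is the archive, `some none` the clock -/
abbrev K1 (K : Type) := Option (Option K)

/-- digits for a finite alphabet -/
noncomputable def dig (A : Type) [Finite A] (a : A) : ℕ := (Finite.equivFin A a).val + 1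

theorem dig_pos [Finite A] (a : A) : 0 < dig A a := Nat.succ_pos _

theorem dig_le [Finite A] (a : A) : dig A a ≤ Nat.card A := (Finite.equivFin A a).2

theorem dig_inj [Finite A] {a a' : A} (h : dig A a = dig A a') : a = a' := by
  have : (Finite.equivFin A a).val = (Finite.equivFin A a').val := by
    unfold dig at h; omega
  exact (Finite.equivFin A).injective (Fin.ext this)

/-- digit of an optional letter, `0` for `none` -/
noncomputable def digo [Finite A] : Option A → ℕ
  | none => 0
  | some a => dig A a

theorem digo_le [Finite A] (o : Option A) : digo o ≤ Nat.card A := by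
  cases o with
  | none => simp [digo]
  | some a => exact dig_le a

theorem digo_inj [Finite A] {o o' : Option A} (h : digo o = digo o') : o = o' := by
  cases o <;> cases o' <;> simp only [digo] at h
  · rfl
  · have := dig_pos (A := A) ‹_›; omega
  · have := dig_pos (A := A) ‹_›; omega
  · rw [dig_inj h]

/-- which pairs `(q, o)` carry a letter -/
def Val (ins : Q → Ins Q K A) (qa : Q) (x : Q × Option A) : Prop :=
  match ins x.1 with
  | .goto _ => x.2 = none
  | .push _ _ _ => x.2 = none
  | .pop _ _ => True
  | .halt => x.1 = qa ∧ x.2 = none

/-- the type of letters of the compiled machine; `n` is the number of stacks, `m` the number of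
erasable digits (including `0`) -/
abbrev Let (ins : Q → Ins Q K A) (qa : Q) (n m : ℕ) := {x : Q × Option A // Val ins qa x} ⊕ (Fin n × Fin m)

section compile
variable [DecidableEq K] [Finite A]

/-- the letter of `(q, o)` -/
noncomputable def let0 (ins : Q → Ins Q K A) (n : ℕ) (x : Q × Option A) :
    Rl (Q ⊕ Fin (n + 1)) (K1 K) :=
  match ins x.1 with
  | .goto q' => ⟨.inl x.1, .inl q', update (fun _ => none) (some none) (some 1), fun _ => none⟩
  | .push k a q' => ⟨.inl x.1, .inl q', update (fun _ => none) (some none) (some 1),
      update (fun _ => none) (some (some k)) (some (dig A a))⟩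
  | .pop k f => ⟨.inl x.1, .inl (f x.2),
      update (update (fun _ => none) (some none) (some 1)) (some (some k)) (some (digo x.2)),
      fun _ => none⟩
  | .halt => ⟨.inl x.1, .inr 0, fun _ => none, fun _ => none⟩

/-- the erasing letters -/
def let1 {n : ℕ} (e : K1 K ≃ Fin n) (m : ℕ) (x : Fin n × Fin m) : Rl (Q ⊕ Fin (n + 1)) (K1 K) :=
  ⟨.inr x.1.castSucc, if x.2.val = 0 then .inr x.1.succ else .inr x.1.castSucc,
    update (fun _ => none) (e.symm x.1) (some x.2.val), fun _ => none⟩

/-- all letters -/
noncomputable def lets (ins : Q → Ins Q K A) (qa : Q) {n : ℕ} (e : K1 K ≃ Fin n) (m : ℕ) :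
    Let ins qa n m → Rl (Q ⊕ Fin (n + 1)) (K1 K)
  | .inl x => let0 ins n x.1
  | .inr x => let1 e m x

variable (ins : Q → Ins Q K A) (qa : Q) {n : ℕ} (e : K1 K ≃ Fin n)

theorem let0_src (x : Q × Option A) : (let0 ins n x).src = .inl x.1 := by
  unfold let0; cases ins x.1 <;> rfl

theorem lets_wf {b : ℕ} (hb : Nat.card A + 3 ≤ b) (r : Let ins qa n (b - 1)) :
    (lets ins qa e (b - 1) r).WF b := by
  have h1b : 1 + 1 < b := by omega
  rcases r with ⟨x, hx⟩ | ⟨i, d⟩
  · show (let0 ins n x).WF b
    unfold let0
    cases ins x.1 with
    | goto q' =>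
      refine ⟨fun k => .inr rfl, fun k d h => ?_, fun k d h => by cases h⟩
      by_cases hk : k = some none
      · subst hk; simp at h; omega
      · simp [update_of_ne hk] at h
    | push k0 a q' =>
      refine ⟨fun k => ?_, fun k d h => ?_, fun k d h => ?_⟩
      · by_cases hk : k = some none
        · subst hk; right; simp
        · left; simp [update_of_ne hk]
      · by_cases hk : k = some none
        · subst hk; simp at h; omega
        · simp [update_of_ne hk] at h
      · by_cases hk : k = some (some k0)
        · subst hk; simp at h; have := dig_le (A := A) a; omega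
        · simp [update_of_ne hk] at h
    | pop k0 f =>
      refine ⟨fun k => .inr rfl, fun k d h => ?_, fun k d h => by cases h⟩
      by_cases hk : k = some (some k0)
      · subst hk; simp at h; have := digo_le x.2; omega
      · by_cases hk2 : k = some none
        · subst hk2; simp [update_of_ne hk] at h; omega
        · simp [update_of_ne hk, update_of_ne hk2] at h
    | halt => exact ⟨fun k => .inr rfl, fun k d h => (by cases h), fun k d h => (by cases h)⟩
  · refine ⟨fun k => .inr rfl, fun k d' h => ?_, fun k d h => by cases h⟩
    by_cases hk : k = e.symm i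
    · subst hk
      simp [lets, let1] at h
      have := d.2
      omega
    · simp [lets, let1, update_of_ne hk] at h

theorem lets_det (b : ℕ) : Det b (lets ins qa e (b - 1)) := by
  rintro (⟨x, hx⟩ | ⟨i, d⟩) (⟨x', hx'⟩ | ⟨i', d'⟩) c h h'
  · have h1 : c.1 = .inl x.1 := h.1.trans (let0_src ins x)
    have h2 : c.1 = .inl x'.1 := h'.1.trans (let0_src ins x')
    have h3 : x.1 = x'.1 := by rw [h1] at h2; exact Sum.inl.inj h2
    have h4 : x.2 = x'.2 := by
      cases hi : ins x.1 with
      | goto q => 
        have a1 : x.2 = none := by simpa [Val, hi] using hx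
        have a2 : x'.2 = none := by simpa [Val, ← h3, hi] using hx'
        rw [a1, a2]
      | push k a q => 
        have a1 : x.2 = none := by simpa [Val, hi] using hx
        have a2 : x'.2 = none := by simpa [Val, ← h3, hi] using hx'
        rw [a1, a2]
      | halt => 
        have a1 : x.1 = qa ∧ x.2 = none := by simpa [Val, hi] using hx
        have a2 : x'.1 = qa ∧ x'.2 = none := by
          have := hx'
          simp only [Val, ← h3, hi] at this
          exact ⟨h3 ▸ this.1, this.2⟩
        rw [a1.2, a2.2]
      | pop k f => 
        have b1 := h.2 (some (some k)) (digo x.2) (by simp [lets, let0, hi])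
        have b2 := h'.2 (some (some k)) (digo x'.2) (by simp [lets, let0, ← h3, hi])
        rw [b1] at b2
        exact digo_inj (by exact_mod_cast b2)
    have : x = x' := Prod.ext h3 h4
    subst this
    rfl
  · have h1 : c.1 = .inl x.1 := h.1.trans (let0_src ins x)
    have h2 : c.1 = .inr i'.castSucc := h'.1
    rw [h1] at h2; cases h2
  · have h1 : c.1 = .inl x'.1 := h'.1.trans (let0_src ins x')
    have h2 : c.1 = .inr i.castSucc := h.1
    rw [h1] at h2; cases h2
  · have h1 : c.1 = .inr i.castSucc := h.1
    have h2 : c.1 = .inr i'.castSucc := h'.1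
    have h3 : i = i' := by
      rw [h1] at h2
      exact Fin.castSucc_injective _ (Sum.inr.inj h2)
    subst h3
    have b1 := h.2 (e.symm i) d.val (by simp [lets, let1])
    have b2 := h'.2 (e.symm i) d'.val (by simp [lets, let1])
    rw [b1] at b2
    have : d = d' := Fin.ext (by exact_mod_cast b2)
    rw [this]

end compile

end Crest.Agent.R185.Clk
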