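import Crest.Agent.R185.Clk2

/-!
# R185, block WIT (a), part 3: simulation, acceptance, archive
-/

set_option autoImplicit false

namespace Crest.Agent.R185.Clk

open Relation StateTransition Turing Function Crest.Agent.R185.Comp

variable {Q K A : Type} [DecidableEq K] [Finite A]
variable (ins : Q → Ins Q K A) (qa : Q) {n : ℕ} (e : K1 K ≃ Fin n) (b : ℕ)

/-- the configuration of the compiled machine in the simulation phase: archive `x`, clock `t` -/
noncomputable def cfg (n : ℕ) (q : Q) (S : K → List A) (x : ℤ) (t : ℕ) :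
    Cf (Q ⊕ Fin (n + 1)) (K1 K) :=
  (.inl q, fun k => match k with
    | none => x
    | some none => enc b (List.replicate t 1)
    | some (some k) => enc b ((S k).map (dig A)))

/-- the steps of the compiled machine -/
abbrev St : Cf (Q ⊕ Fin (n + 1)) (K1 K) → Cf (Q ⊕ Fin (n + 1)) (K1 K) → Prop :=
  Stp b (lets ins qa e (b - 1))

theorem enc_tick_emod (hb : 3 ≤ b) (t : ℕ) : enc b (List.replicate (t + 1) 1) % b = 1 := by
  rw [List.replicate_succ]
  exact_mod_cast enc_cons_emod (b := b) (d := 1) (by omega) _

theorem enc_tick_ediv (hb : 3 ≤ b) (t : ℕ) :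
    enc b (List.replicate (t + 1) 1) / b = enc b (List.replicate t 1) := by
  rw [List.replicate_succ]
  exact enc_cons_ediv (b := b) (d := 1) (by omega) _

theorem enc_map_emod (hb : Nat.card A + 3 ≤ b) (l : List A) :
    enc b (l.map (dig A)) % b = digo l.head? := by
  cases l with
  | nil => simp [digo]
  | cons a l =>
    simp only [List.map_cons, List.head?_cons, digo]
    exact enc_cons_emod (by have := dig_le (A := A) a; omega) _

theorem enc_map_ediv (hb : Nat.card A + 3 ≤ b) (l : List A) :
    enc b (l.map (dig A)) / b = enc b (l.tail.map (dig A)) := by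
  cases l with
  | nil => simp
  | cons a l =>
    simp only [List.map_cons, List.tail_cons]
    exact enc_cons_ediv (by have := dig_le (A := A) a; omega) _

/-- One step of the machine is one step of the compiled machine, for one tick. -/
theorem sim_step (hb : Nat.card A + 3 ≤ b) {q q' : Q} {S S' : K → List A}
    (h : step ins (q, S) = some (q', S')) (x : ℤ) (t : ℕ) :
    St ins qa e b (cfg b n q S x (t + 1)) (cfg b n q' S' x t) := by
  have h3 : 3 ≤ b := by omega
  cases hi : ins q with
  | goto q1 =>
    rw [step_goto ins hi] at h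
    cases h
    refine ⟨.inl ⟨(q, none), by simp [Val, hi]⟩, ⟨?_, ?_⟩, ?_⟩
    · simp [lets, let0, hi, cfg]
    · intro k d hk
      simp only [lets, let0, hi] at hk
      by_cases hk1 : k = some none
      · subst hk1
        simp at hk
        subst hk
        exact_mod_cast enc_tick_emod b h3 t
      · simp [update_of_ne hk1] at hk
    · refine Prod.ext (by simp [Rl.res, lets, let0, hi, cfg]) ?_
      funext k
      simp only [Rl.res, lets, let0, hi, cfg]
      rcases k with _ | _ | k
      · rw [Rl.upd_none]
        · simp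
        · rfl
      · rw [Rl.upd_pop (d := 1)]
        · exact enc_tick_ediv b h3 t
        · simp
        · rfl
      · rw [Rl.upd_none]
        · simp
        · rfl
  | push k0 a q1 =>
    rw [step_push ins hi] at h
    cases h
    refine ⟨.inl ⟨(q, none), by simp [Val, hi]⟩, ⟨?_, ?_⟩, ?_⟩
    · simp [lets, let0, hi, cfg]
    · intro k d hk
      simp only [lets, let0, hi] at hk
      by_cases hk1 : k = some none
      · subst hk1
        simp at hk
        subst hk
        exact_mod_cast enc_tick_emod b h3 t
      · simp [update_of_ne hk1] at hk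
    · refine Prod.ext (by simp [Rl.res, lets, let0, hi, cfg]) ?_
      funext k
      simp only [Rl.res, lets, let0, hi, cfg]
      rcases k with _ | _ | k
      · rw [Rl.upd_none]
        · simp
        · simp
      · rw [Rl.upd_pop (d := 1)]
        · exact enc_tick_ediv b h3 t
        · simp
        · simp
      · by_cases hk : k = k0
        · subst hk
          rw [Rl.upd_push (d := dig A a)]
          · simp
          · simp
          · simp
        · rw [Rl.upd_none]
          · simp [update_of_ne hk]
          · simp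
          · simp [hk]
  | pop k0 f =>
    rw [step_pop ins hi] at h
    cases h
    refine ⟨.inl ⟨(q, (S k0).head?), by simp [Val, hi]⟩, ⟨?_, ?_⟩, ?_⟩
    · simp [lets, let0, hi, cfg]
    · intro k d hk
      simp only [lets, let0, hi] at hk
      by_cases hk0 : k = some (some k0)
      · subst hk0
        simp at hk
        subst hk
        exact enc_map_emod b hb _
      · rw [update_of_ne hk0] at hk
        by_cases hk1 : k = some none
        · subst hk1
          simp at hk
          subst hk
          exact_mod_cast enc_tick_emod b h3 t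
        · simp [update_of_ne hk1] at hk
    · refine Prod.ext (by simp [Rl.res, lets, let0, hi, cfg]) ?_
      funext k
      simp only [Rl.res, lets, let0, hi, cfg]
      rcases k with _ | _ | k
      · rw [Rl.upd_none]
        · simp
        · simp
      · rw [Rl.upd_pop (d := 1)]
        · exact enc_tick_ediv b h3 t
        · simp
        · simp
      · by_cases hk : k = k0
        · subst hk
          rw [Rl.upd_pop (d := digo (S k).head?)]
          · simp [enc_map_ediv b hb]
          · simp
          · simp
        · rw [Rl.upd_none]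
          · simp [update_of_ne hk]
          · simp [update_of_ne (show (some (some k) : K1 K) ≠ some (some k0) by simpa using hk)]
          · simp
  | halt => rw [step_halt ins hi] at h; cases h

/-- entering the erasing phase -/
theorem acc_step (hqa : ins qa = .halt) (S : K → List A) (x : ℤ) (t : ℕ) :
    St ins qa e b (cfg b n qa S x t) (.inr 0, (cfg b n qa S x t).2) := by
  refine ⟨.inl ⟨(qa, none), by simp [Val, hqa]⟩, ⟨?_, ?_⟩, ?_⟩
  · simp [lets, let0, hqa, cfg]
  · intro k d hk
    simp [lets, let0, hqa] at hk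
  · refine Prod.ext (by simp [Rl.res, lets, let0, hqa]) ?_
    funext k
    simp only [Rl.res, lets, let0, hqa]
    exact Rl.upd_none rfl rfl _

/-- all steps out of a simulation configuration -/
theorem step_cases (hb : Nat.card A + 3 ≤ b) {q : Q} {S : K → List A} {x : ℤ} {t : ℕ}
    {d : Cf (Q ⊕ Fin (n + 1)) (K1 K)} (h : St ins qa e b (cfg b n q S x t) d) :
    (∃ t' q' S', t = t' + 1 ∧ step ins (q, S) = some (q', S') ∧ d = cfg b n q' S' x t') ∨
      (q = qa ∧ ins q = .halt ∧ d = (.inr 0, (cfg b n q S x t).2)) := by
  have h3 : 3 ≤ b := by omega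
  by_cases hh : ins q = .halt
  · right
    obtain ⟨r, hr, rfl⟩ := h
    rcases r with ⟨y, hy⟩ | ⟨i, j⟩
    · have h1 : (.inl q : Q ⊕ Fin (n + 1)) = .inl y.1 := hr.1.trans (let0_src ins y)
      have h2 := Sum.inl.inj h1
      have h3 : y.1 = qa ∧ y.2 = none := by simpa [Val, ← h2, hh] using hy
      refine ⟨h2.trans h3.1, hh, ?_⟩
      refine Prod.ext (by simp [Rl.res, lets, let0, ← h2, hh]) ?_
      funext k
      simp only [Rl.res, lets, let0, ← h2, hh]
      exact Rl.upd_none rfl rfl _
    · have h1 : (.inl q : Q ⊕ Fin (n + 1)) = .inr i.castSucc := hr.1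
      cases h1
  · left
    -- the clock is not empty
    have ht : t ≠ 0 := by
      rintro rfl
      obtain ⟨r, hr, rfl⟩ := h
      rcases r with ⟨y, hy⟩ | ⟨i, j⟩
      · have h1 : (.inl q : Q ⊕ Fin (n + 1)) = .inl y.1 := hr.1.trans (let0_src ins y)
        have h2 := Sum.inl.inj h1
        have h4 : (let0 ins n y).pop (some none) = some 1 := by
          unfold let0
          rw [← h2]
          cases hi : ins q with
          | goto q' => simp
          | push k a q' => simp
          | pop k f => simp
          | halt => exact absurd hi hh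
        have h5 := hr.2 (some none) 1 h4
        simp [cfg] at h5
      · have h1 : (.inl q : Q ⊕ Fin (n + 1)) = .inr i.castSucc := hr.1
        cases h1
    obtain ⟨t', rfl⟩ := Nat.exists_eq_succ_of_ne_zero ht
    cases hs : step ins (q, S) with
    | none => exact absurd ((step_eq_none ins).1 hs) hh
    | some c =>
      obtain ⟨q', S'⟩ := c
      refine ⟨t', q', S', rfl, rfl, ?_⟩
      exact Stp.det (lets_det ins qa e b) h (sim_step ins qa e b hb hs x t')

/-- the final configuration -/
def hlt (n : ℕ) : Cf (Q ⊕ Fin (n + 1)) (K1 K) := (.inr (Fin.last n), fun _ => 0)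

theorem hlt_stuck (d : Cf (Q ⊕ Fin (n + 1)) (K1 K)) : ¬ St ins qa e b (hlt n) d := by
  rintro ⟨r, hr, _⟩
  rcases r with ⟨y, hy⟩ | ⟨i, j⟩
  · have h1 : (.inr (Fin.last n) : Q ⊕ Fin (n + 1)) = .inl y.1 := hr.1.trans (let0_src ins y)
    cases h1
  · have h1 : (.inr (Fin.last n) : Q ⊕ Fin (n + 1)) = .inr i.castSucc := hr.1
    have := Sum.inr.inj h1
    have h2 := congrArg Fin.val this
    simp at h2
    have := i.2
    omega

/-- one erasing step -/
theorem er_step (i : Fin n) (s : K1 K → ℤ) (d : ℕ) (hd : d < b - 1)
    (h : s (e.symm i) % b = d) :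
    St ins qa e b (.inr i.castSucc, s)
      ((if d = 0 then .inr i.succ else .inr i.castSucc), update s (e.symm i) (s (e.symm i) / b)) := by
  refine ⟨.inr (i, ⟨d, hd⟩), ⟨rfl, ?_⟩, ?_⟩
  · intro k d' hk
    by_cases hk1 : k = e.symm i
    · subst hk1
      simp [lets, let1] at hk
      subst hk
      exact h
    · simp [lets, let1, update_of_ne hk1] at hk
  · refine Prod.ext (by simp [Rl.res, lets, let1]) ?_
    funext k
    simp only [Rl.res, lets, let1]
    by_cases hk1 : k = e.symm i
    · subst hk1
      rw [Rl.upd_pop (d := d)]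
      · simp
      · simp
      · rfl
    · rw [Rl.upd_none, update_of_ne hk1]
      · simp [update_of_ne hk1]
      · rfl

/-- erasing one stack containing a list of positive digits -/
theorem er_list (i : Fin n) (hb : 3 ≤ b) (l : List ℕ) (hl : ∀ d ∈ l, 0 < d ∧ d < b - 1)
    (s : K1 K → ℤ) (h : s (e.symm i) = enc b l) :
    ReflTransGen (St ins qa e b) (.inr i.castSucc, s) (.inr i.succ, update s (e.symm i) 0) := by
  induction l generalizing s with
  | nil =>
    have h1 := er_step ins qa e b i s 0 (by omega) (by rw [h]; simp)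
    rw [h] at h1
    simpa using ReflTransGen.single h1
  | cons d l ih =>
    have hd := hl d (by simp)
    have h1 := er_step ins qa e b i s d hd.2 (by rw [h]; exact enc_cons_emod (by omega) _)
    rw [if_neg (by omega), h, enc_cons_ediv (by omega)] at h1
    have h2 := ih (fun x hx => hl x (by simp [hx])) (update s (e.symm i) (enc b l)) (by simp)
    rw [update_idem] at h2
    exact ReflTransGen.head h1 h2

/-- contents which are lists of positive digits -/
def Lst (b : ℕ) (s : K1 K → ℤ) : Prop :=
  ∀ k, ∃ l : List ℕ, (∀ d ∈ l, 0 < d ∧ d < b - 1) ∧ s k = enc b l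

/-- erasing everything -/
theorem er_all (hb : 3 ≤ b) (j : ℕ) (hj : j ≤ n) (s : K1 K → ℤ) (hs : Lst b s) :
    ∃ s', ReflTransGen (St ins qa e b) (.inr 0, s) (.inr ⟨j, by omega⟩, s') ∧ Lst b s' ∧
      ∀ i : Fin n, i.val < j → s' (e.symm i) = 0 := by
  induction j with
  | zero => exact ⟨s, ReflTransGen.refl, hs, fun i hi => absurd hi (Nat.not_lt_zero _)⟩
  | succ j ih =>
    obtain ⟨s', h1, h2, h3⟩ := ih (by omega)
    obtain ⟨l, hl, hl2⟩ := h2 (e.symm ⟨j, by omega⟩)
    have h4 := er_list ins qa e b ⟨j, by omega⟩ hb l hl s' hl2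
    refine ⟨_, h1.trans h4, ?_, ?_⟩
    · intro k
      by_cases hk : k = e.symm ⟨j, by omega⟩
      · subst hk
        exact ⟨[], by simp, by simp⟩
      · obtain ⟨l', h5, h6⟩ := h2 k
        exact ⟨l', h5, by rw [update_of_ne hk]; exact h6⟩
    · intro i hi
      by_cases hij : i.val = j
      · have : i = ⟨j, by omega⟩ := Fin.ext hij
        rw [this, update_self]
      · rw [update_of_ne]
        · exact h3 i (by omega)
        · intro h
          have := e.symm.injective h
          exact hij (congrArg Fin.val this)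

theorem er_halt (hb : 3 ≤ b) (s : K1 K → ℤ) (hs : Lst b s) :
    ReflTransGen (St ins qa e b) (.inr 0, s) (hlt n) := by
  obtain ⟨s', h1, -, h3⟩ := er_all ins qa e b hb n le_rfl s hs
  have : s' = fun _ => 0 := by
    funext k
    have := h3 (e k) (e k).2
    simpa using this
  rw [this] at h1
  exact h1

omit [DecidableEq K] in
theorem cfg_lst (hb : Nat.card A + 3 ≤ b) (q : Q) (S : K → List A) (x : ℤ) (t : ℕ)
    (hx : ∃ l : List ℕ, (∀ d ∈ l, 0 < d ∧ d < b - 1) ∧ x = enc b l) :
    Lst b (cfg b n q S x t).2 := by
  intro k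
  rcases k with _ | _ | k
  · exact hx
  · refine ⟨List.replicate t 1, fun d hd => ?_, rfl⟩
    have := (List.mem_replicate.1 hd).2
    omega
  · refine ⟨(S k).map (dig A), fun d hd => ?_, rfl⟩
    obtain ⟨a, -, rfl⟩ := List.mem_map.1 hd
    have h1 := dig_pos (A := A) a
    have h2 := dig_le (A := A) a
    omega

/-- **Forward orbits of simulation configurations.** -/
theorem orbit (hb : Nat.card A + 3 ≤ b) {q : Q} {S : K → List A} {x : ℤ} {t : ℕ}
    (hx : ∃ l : List ℕ, (∀ d ∈ l, 0 < d ∧ d < b - 1) ∧ x = enc b l)
    {d : Cf (Q ⊕ Fin (n + 1)) (K1 K)} (h : ReflTransGen (St ins qa e b) (cfg b n q S x t) d) :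
    (∃ q' S' t', d = cfg b n q' S' x t' ∧ Reaches (step ins) (q, S) (q', S')) ∨
      ((∃ S', Reaches (step ins) (q, S) (qa, S')) ∧
        ReflTransGen (St ins qa e b) (cfg b n q S x t) (hlt n)) := by
  induction h with
  | refl => exact .inl ⟨q, S, t, rfl, ReflTransGen.refl⟩
  | tail h1 h2 ih =>
    rcases ih with ⟨q', S', t', rfl, h3⟩ | h3
    · rcases step_cases ins qa e b hb h2 with ⟨t'', q'', S'', rfl, h4, rfl⟩ | ⟨rfl, h4, rfl⟩
      · exact .inl ⟨q'', S'', t'', rfl, h3.tail h4⟩
      · refine .inr ⟨⟨S', h3⟩, ?_⟩
        exact (h1.tail h2).trans (er_halt ins q' e b (by omega) _ (cfg_lst b hb _ _ _ _ hx))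
    · exact .inr h3

/-- **Acceptance.** -/
theorem halts_of_reaches (hb : Nat.card A + 3 ≤ b) (hqa : ins qa = .halt) {q : Q} {S S' : K → List A}
    (h : Reaches (step ins) (q, S) (qa, S')) :
    ∃ t, ∀ (x : ℤ), (∃ l : List ℕ, (∀ d ∈ l, 0 < d ∧ d < b - 1) ∧ x = enc b l) →
      ReflTransGen (St ins qa e b) (cfg b n q S x t) (hlt n) := by
  have key : ∀ c : Q × (K → List A), Reaches (step ins) c (qa, S') →
      ∃ t, ∀ x : ℤ, ReflTransGen (St ins qa e b) (cfg b n c.1 c.2 x t) (cfg b n qa S' x 0) := by
    intro c hc
    induction hc using ReflTransGen.head_induction_on with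
    | refl => exact ⟨0, fun x => ReflTransGen.refl⟩
    | head h1 _ ih =>
      obtain ⟨t, ht⟩ := ih
      exact ⟨t + 1, fun x => ReflTransGen.head (sim_step ins qa e b hb h1 x t) (ht x)⟩
  obtain ⟨t, ht⟩ := key _ h
  refine ⟨t, fun x hx => ?_⟩
  refine (ht x).trans (ReflTransGen.head (acc_step ins qa e b hqa S' x 0) ?_)
  exact er_halt ins qa e b (by omega) _ (cfg_lst b hb _ _ _ _ hx)

/-- the simulation phase -/
def Pre (c : Cf (Q ⊕ Fin (n + 1)) (K1 K)) : Prop := ∃ q, c.1 = .inl q

theorem pre_of_step {c d : Cf (Q ⊕ Fin (n + 1)) (K1 K)} (h : St ins qa e b c d) (hd : Pre d) :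
    Pre c ∧ c.2 none = d.2 none := by
  obtain ⟨r, hr, rfl⟩ := h
  rcases r with ⟨y, hy⟩ | ⟨i, j⟩
  · refine ⟨⟨y.1, hr.1.trans (let0_src ins y)⟩, ?_⟩
    show _ = (let0 ins n y).upd b none (c.2 none)
    rw [Rl.upd_none]
    · unfold let0
      cases ins y.1 <;> simp
    · unfold let0
      cases ins y.1 <;> simp
  · obtain ⟨q, hq⟩ := hd
    simp only [Rl.res, lets, let1] at hq
    split_ifs at hq

theorem pre_of_reach {c d : Cf (Q ⊕ Fin (n + 1)) (K1 K)} (h : ReflTransGen (St ins qa e b) c d)
    (hd : Pre d) : Pre c ∧ c.2 none = d.2 none := by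
  induction h using ReflTransGen.head_induction_on with
  | refl => exact ⟨hd, rfl⟩
  | head h1 _ ih =>
    obtain ⟨h2, h3⟩ := pre_of_step ins qa e b h1 ih.1
    exact ⟨h2, h3.trans ih.2⟩

/-- **The archive**: if the start configuration does not halt, then every configuration connected
to it has the same archive. -/
theorem archive (hb : Nat.card A + 3 ≤ b) {q : Q} {S : K → List A} {x : ℤ} {t : ℕ}
    (hx : ∃ l : List ℕ, (∀ d ∈ l, 0 < d ∧ d < b - 1) ∧ x = enc b l)
    (hn : ¬ ReflTransGen (St ins qa e b) (cfg b n q S x t) (hlt n))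
    {c : Cf (Q ⊕ Fin (n + 1)) (K1 K)}
    (hc : Conn b (lets ins qa e (b - 1)) c (cfg b n q S x t)) : Pre c ∧ c.2 none = x := by
  obtain ⟨d, h1, h2⟩ := hc.join (lets_det ins qa e b)
  rcases orbit ins qa e b hb hx h2 with ⟨q', S', t', rfl, -⟩ | h3
  · exact pre_of_reach ins qa e b h1 ⟨q', rfl⟩
  · exact absurd h3.2 hn

/-! ### termination of every configuration -/

theorem natAbs_div_lt {b : ℕ} (hb : 3 ≤ b) {m : ℤ} {d : ℕ} (h : m % b = d) (hd : 0 < d)
    (hd2 : d < b - 1) : (m / b).natAbs < m.natAbs := by
  have h1 := Int.emod_add_mul_ediv m b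
  rw [h] at h1
  set k := m / b
  have hb' : (3 : ℤ) ≤ b := by exact_mod_cast hb
  have hd' : (0 : ℤ) < d := by exact_mod_cast hd
  have hd2' : (d : ℤ) + 2 ≤ b := by omega
  rcases le_or_gt 0 k with hk | hk
  · have h2 : k ≤ b * k := by nlinarith
    omega
  · have h2 : (b : ℤ) * (k + 1) ≤ 3 * (k + 1) := by nlinarith
    have h3 : m = d + b * k := h1.symm
    have h4 : m ≤ k - 1 := by nlinarith
    omega

theorem natAbs_div_le {b : ℕ} (hb : 3 ≤ b) {m : ℤ} (h : m % b = 0) :
    (m / b).natAbs ≤ m.natAbs := by
  have h1 := Int.emod_add_mul_ediv m b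
  rw [h] at h1
  set k := m / b
  have hb' : (3 : ℤ) ≤ b := by exact_mod_cast hb
  rcases le_or_gt 0 k with hk | hk
  · have h2 : k ≤ b * k := by nlinarith
    omega
  · have h2 : (b : ℤ) * k ≤ k := by nlinarith
    omega

/-- a configuration whose orbit ends -/
def Fine (c : Cf (Q ⊕ Fin (n + 1)) (K1 K)) : Prop :=
  ∃ d, ReflTransGen (St ins qa e b) c d ∧ ∀ d', ¬ St ins qa e b d d'

theorem fine_of_steps {c : Cf (Q ⊕ Fin (n + 1)) (K1 K)}
    (h : ∀ d, St ins qa e b c d → Fine ins qa e b d) : Fine ins qa e b c := by
  by_cases h1 : ∃ d, St ins qa e b c d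
  · obtain ⟨d, hd⟩ := h1
    obtain ⟨f, h2, h3⟩ := h d hd
    exact ⟨f, ReflTransGen.head hd h2, h3⟩
  · push Not at h1
    exact ⟨c, ReflTransGen.refl, h1⟩

theorem fine_er (hb : 3 ≤ b) : ∀ (j : ℕ) (i : Fin (n + 1)), n = i.val + j → ∀ s,
    Fine ins qa e b (.inr i, s) := by
  intro j
  induction j with
  | zero =>
    intro i hi s
    refine fine_of_steps ins qa e b fun d hd => ?_
    exfalso
    obtain ⟨r, hr, _⟩ := hd
    rcases r with ⟨y, hy⟩ | ⟨i', j⟩
    · have h1 : (.inr i : Q ⊕ Fin (n + 1)) = .inl y.1 := hr.1.trans (let0_src ins y)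
      cases h1
    · have h1 : (.inr i : Q ⊕ Fin (n + 1)) = .inr i'.castSucc := hr.1
      have := Sum.inr.inj h1
      subst this
      have := i'.2
      simp at hi
      omega
  | succ j ih =>
    intro i hi
    have key : ∀ (N : ℕ) (s : K1 K → ℤ), (s (e.symm ⟨i.val, by omega⟩)).natAbs = N →
        Fine ins qa e b (.inr i, s) := by
      intro N
      induction N using Nat.strong_induction_on with
      | _ N ihN =>
        intro s hs
        refine fine_of_steps ins qa e b fun d hd => ?_
        obtain ⟨r, hr, rfl⟩ := hd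
        rcases r with ⟨y, hy⟩ | ⟨i', m⟩
        · have h1 : (.inr i : Q ⊕ Fin (n + 1)) = .inl y.1 := hr.1.trans (let0_src ins y)
          cases h1
        · have h1 : (.inr i : Q ⊕ Fin (n + 1)) = .inr i'.castSucc := hr.1
          have h1' := Sum.inr.inj h1
          subst h1'
          have hi' : (⟨(i'.castSucc).val, by omega⟩ : Fin n) = i' := Fin.ext rfl
          rw [hi'] at hs
          by_cases hm : m.val = 0
          · have : ((lets ins qa e (b - 1) (.inr (i', m))).res b (.inr i'.castSucc, s)).1 =
                .inr i'.succ := by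
              simp [Rl.res, lets, let1, hm]
            rw [show (lets ins qa e (b - 1) (.inr (i', m))).res b (.inr i'.castSucc, s) =
              (.inr i'.succ, ((lets ins qa e (b - 1) (.inr (i', m))).res b
                (.inr i'.castSucc, s)).2) from Prod.ext this rfl]
            exact ih i'.succ (by simp at hi ⊢; omega) _
          · have h3 : ((lets ins qa e (b - 1) (.inr (i', m))).res b (.inr i'.castSucc, s)).1 =
                .inr i'.castSucc := by
              simp [Rl.res, lets, let1, hm]
            rw [show (lets ins qa e (b - 1) (.inr (i', m))).res b (.inr i'.castSucc, s) =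
              (.inr i'.castSucc, ((lets ins qa e (b - 1) (.inr (i', m))).res b
                (.inr i'.castSucc, s)).2) from Prod.ext h3 rfl]
            have h4 := hr.2 (e.symm i') m.val (by simp [lets, let1])
            have h5 : ((lets ins qa e (b - 1) (.inr (i', m))).res b (.inr i'.castSucc, s)).2
                (e.symm i') = s (e.symm i') / b := by
              simp only [Rl.res]
              rw [Rl.upd_pop (d := m.val)]
              · simp [lets, let1]
              · rfl
            refine ihN _ ?_ _ rfl
            rw [hi', h5, ← hs]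
            exact natAbs_div_lt hb h4 (Nat.pos_of_ne_zero hm) m.2
    exact fun s => key _ s rfl

/-- **Every configuration has a finite orbit.** -/
theorem fine (hb : 3 ≤ b) (c : Cf (Q ⊕ Fin (n + 1)) (K1 K)) : Fine ins qa e b c := by
  obtain ⟨q | i, s⟩ := c
  · have key : ∀ (N : ℕ) (q : Q) (s : K1 K → ℤ), (s (some none)).natAbs = N →
        Fine ins qa e b (.inl q, s) := by
      intro N
      induction N using Nat.strong_induction_on with
      | _ N ihN =>
        intro q s hs
        refine fine_of_steps ins qa e b fun d hd => ?_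
        obtain ⟨r, hr, rfl⟩ := hd
        rcases r with ⟨y, hy⟩ | ⟨i', m⟩
        · have h1 : (.inl q : Q ⊕ Fin (n + 1)) = .inl y.1 := hr.1.trans (let0_src ins y)
          have h2 := Sum.inl.inj h1
          subst h2
          by_cases hh : ins y.1 = .halt
          · have : ((lets ins qa e (b - 1) (.inl ⟨y, hy⟩)).res b (.inl y.1, s)).1 = .inr 0 := by
              simp [Rl.res, lets, let0, hh]
            rw [show (lets ins qa e (b - 1) (.inl ⟨y, hy⟩)).res b (.inl y.1, s) = (.inr 0,
              ((lets ins qa e (b - 1) (.inl ⟨y, hy⟩)).res b (.inl y.1, s)).2) from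
              Prod.ext this rfl]
            exact fine_er ins qa e b hb n 0 (by simp) _
          · have h4 : (let0 ins n y).pop (some none) = some 1 ∧ (let0 ins n y).push (some none) =
                none ∧ ∃ q', (let0 ins n y).tgt = .inl q' := by
              unfold let0
              cases hi : ins y.1 with
              | goto q' => simp
              | push k a q' => simp
              | pop k f => simp
              | halt => exact absurd hi hh
            obtain ⟨h4, h5, q', h6⟩ := h4
            rw [show (lets ins qa e (b - 1) (.inl ⟨y, hy⟩)).res b (.inl y.1, s) = (.inl q',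
              ((lets ins qa e (b - 1) (.inl ⟨y, hy⟩)).res b (.inl y.1, s)).2) from
              Prod.ext h6 rfl]
            refine ihN _ ?_ _ _ rfl
            have h7 := hr.2 (some none) 1 h4
            have h8 : ((lets ins qa e (b - 1) (.inl ⟨y, hy⟩)).res b (.inl y.1, s)).2 (some none) =
                s (some none) / b := by
              show (let0 ins n y).upd b (some none) (s (some none)) = _
              rw [Rl.upd_pop h4 h5]
            rw [h8, ← hs]
            exact natAbs_div_lt hb h7 one_pos (by omega)
        · have h1 : (.inl q : Q ⊕ Fin (n + 1)) = .inr i'.castSucc := hr.1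
          cases h1
    exact key _ q s rfl
  · exact fine_er ins qa e b hb (n - i.val) i (by have := i.2; omega) s

end Crest.Agent.R185.Clk
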