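import Crest.Agent.R185.Clk3

/-!
# R185, block WIT (a), part 4: systems of pure pop letters

* `Pop`: a letter which only pops digits (the pushes are the inverses of such letters);
* `split`: every system of letters `Rl` becomes a system of pop letters, with one more state for
  every letter, and connectedness is the same;
* `PConn.map_iff`: transport along equivalences.
-/

set_option autoImplicit false

namespace Crest.Agent.R185.Clk

open Relation Function

variable {Q K R Q' K' R' : Type}

/-- A pure pop letter: it leads from the state `src` to the state `tgt` and pops the digit `a` from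
the stack `k` if `dg k = some a`; the other stacks are untouched. -/
@[ext] structure Pop (Q K : Type) where
  src : Q
  tgt : Q
  dg : K → Option ℕ

/-- the content of a stack before popping the digit `o`, if `z` is the content after popping -/
def aff (b : ℕ) (o : Option ℕ) (z : ℤ) : ℤ :=
  match o with
  | none => z
  | some a => a + b * z

@[simp] theorem aff_none (b : ℕ) (z : ℤ) : aff b none z = z := rfl
@[simp] theorem aff_some (b a : ℕ) (z : ℤ) : aff b (some a) z = a + b * z := rfl

/-- the partial injection of a pop letter -/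
def Pop.Stp (b : ℕ) (p : Pop Q K) (c c' : Cf Q K) : Prop :=
  c.1 = p.src ∧ c'.1 = p.tgt ∧ ∀ k, c.2 k = aff b (p.dg k) (c'.2 k)

/-- one step of a system of pop letters -/
def PStp (b : ℕ) (rule : R → Pop Q K) (c c' : Cf Q K) : Prop := ∃ r, (rule r).Stp b c c'

/-- connectedness in a system of pop letters -/
def PConn (b : ℕ) (rule : R → Pop Q K) : Cf Q K → Cf Q K → Prop := EqvGen (PStp b rule)

/-! ### splitting -/

/-- the pop letters of a system: `inl r` are the pops of the letter `r`, `inr r` the inverses of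
the pushes of the letter `r` -/
def split (rule : R → Rl Q K) : R ⊕ R → Pop (Q ⊕ R) K
  | .inl r => ⟨.inl (rule r).src, .inr r, (rule r).pop⟩
  | .inr r => ⟨.inl (rule r).tgt, .inr r, (rule r).push⟩

/-- old configurations as new configurations -/
def lft (c : Cf Q K) : Cf (Q ⊕ R) K := (.inl c.1, c.2)

/-- the retraction onto the old configurations -/
def ret (b : ℕ) (rule : R → Rl Q K) (c : Cf (Q ⊕ R) K) : Cf Q K :=
  match c.1 with
  | .inl q => (q, c.2)
  | .inr r => ((rule r).src, fun k => aff b ((rule r).pop k) (c.2 k))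

@[simp] theorem ret_lft (b : ℕ) (rule : R → Rl Q K) (c : Cf Q K) : ret b rule (lft c) = c := rfl

theorem emod_aff {b d : ℕ} (h : d < b) (z : ℤ) : ((d : ℤ) + b * z) % b = d := by
  rw [Int.add_mul_emod_self_left, Int.emod_eq_of_lt (by positivity) (by omega)]

theorem ediv_aff {b d : ℕ} (h : d < b) (z : ℤ) : ((d : ℤ) + b * z) / b = z := by
  rw [Int.add_mul_ediv_left _ _ (by omega), Int.ediv_eq_zero_of_lt (by positivity)
    (by omega), zero_add]

theorem ret_step {b : ℕ} {rule : R → Rl Q K} (hw : ∀ r, (rule r).WF b) {c c' : Cf (Q ⊕ R) K}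
    (h : PStp b (split rule) c c') : Conn b rule (ret b rule c) (ret b rule c') := by
  obtain ⟨r | r, h1, h2, h3⟩ := h
  · obtain ⟨q, s⟩ := c
    obtain ⟨q', s'⟩ := c'
    simp only [split] at h1 h2 h3
    subst h1 h2
    have : ret b rule (Sum.inl (rule r).src, s) = ret b rule (Sum.inr r, s') := by
      simp only [ret]
      refine Prod.ext rfl ?_
      funext k
      exact h3 k
    rw [this]
    exact EqvGen.refl _
  · obtain ⟨q, s⟩ := c
    obtain ⟨q', s'⟩ := c'
    simp only [split] at h1 h2 h3
    subst h1 h2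
    refine EqvGen.symm _ _ (EqvGen.rel _ _ ⟨r, ⟨rfl, ?_⟩, ?_⟩)
    · intro k d hd
      simp only [ret, hd, aff_some]
      exact emod_aff (by have := (hw r).pop_lt k d hd; omega) _
    · simp only [ret, Rl.res]
      refine Prod.ext rfl ?_
      funext k
      simp only
      rw [h3 k]
      rcases hp : (rule r).pop k with _ | d
      · rcases hq : (rule r).push k with _ | d'
        · rw [Rl.upd_none hp hq]
        · rw [Rl.upd_push hp hq]; rfl
      · have hq : (rule r).push k = none := by
          rcases (hw r).disj k with h4 | h4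
          · rw [hp] at h4; cases h4
          · exact h4
        rw [Rl.upd_pop hp hq, hq, aff_some, aff_none]
        exact ediv_aff (by have := (hw r).pop_lt k d hp; omega) _

theorem ret_conn {b : ℕ} {rule : R → Rl Q K} (hw : ∀ r, (rule r).WF b) {c c' : Cf (Q ⊕ R) K}
    (h : PConn b (split rule) c c') : Conn b rule (ret b rule c) (ret b rule c') := by
  induction h with
  | rel x y h => exact ret_step hw h
  | refl x => exact EqvGen.refl _
  | symm x y _ ih => exact EqvGen.symm _ _ ih
  | trans x y z _ _ ih1 ih2 => exact EqvGen.trans _ _ _ ih1 ih2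

theorem lft_step {b : ℕ} {rule : R → Rl Q K} (hw : ∀ r, (rule r).WF b) {c c' : Cf Q K}
    (h : Stp b rule c c') : PConn b (split rule) (lft c) (lft c') := by
  obtain ⟨r, h1, rfl⟩ := h
  obtain ⟨q, s⟩ := c
  have hq : q = (rule r).src := h1.1
  subst hq
  -- the middle configuration
  have key : ∀ k, ∃ z, s k = aff b ((rule r).pop k) z ∧
      (rule r).upd b k (s k) = aff b ((rule r).push k) z := by
    intro k
    rcases hp : (rule r).pop k with _ | d
    · refine ⟨s k, rfl, ?_⟩
      rcases hq : (rule r).push k with _ | d'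
      · rw [Rl.upd_none hp hq]; rfl
      · rw [Rl.upd_push hp hq]; rfl
    · have hq : (rule r).push k = none := by
        rcases (hw r).disj k with h4 | h4
        · rw [hp] at h4; cases h4
        · exact h4
      refine ⟨s k / b, ?_, ?_⟩
      · have h5 := h1.2 k d hp
        have h6 := Int.emod_add_mul_ediv (s k) b
        simp only at h5
        rw [h5] at h6
        exact h6.symm
      · rw [Rl.upd_pop hp hq, hq, aff_none]
  choose z hz1 hz2 using key
  refine EqvGen.trans _ ((.inr r, z) : Cf (Q ⊕ R) K) _ (EqvGen.rel _ _ ⟨.inl r, rfl, rfl, hz1⟩)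
    (EqvGen.symm _ _ (EqvGen.rel _ _ ⟨.inr r, rfl, rfl, fun k => ?_⟩))
  exact hz2 k

theorem lft_conn {b : ℕ} {rule : R → Rl Q K} (hw : ∀ r, (rule r).WF b) {c c' : Cf Q K}
    (h : Conn b rule c c') : PConn b (split rule) (lft c) (lft c') := by
  induction h with
  | rel x y h => exact lft_step hw h
  | refl x => exact EqvGen.refl _
  | symm x y _ ih => exact EqvGen.symm _ _ ih
  | trans x y z _ _ ih1 ih2 => exact EqvGen.trans _ _ _ ih1 ih2

theorem conn_iff {b : ℕ} {rule : R → Rl Q K} (hw : ∀ r, (rule r).WF b) {c c' : Cf Q K} :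
    PConn b (split rule) (lft c) (lft c') ↔ Conn b rule c c' :=
  ⟨fun h => ret_conn hw h, lft_conn hw⟩

/-- a new configuration is connected to its retraction -/
theorem conn_ret {b : ℕ} {rule : R → Rl Q K} (c : Cf (Q ⊕ R) K) :
    PConn b (split rule) (lft (ret b rule c)) c := by
  obtain ⟨q | r, s⟩ := c
  · exact EqvGen.refl _
  · exact EqvGen.rel _ _ ⟨.inl r, rfl, rfl, fun k => rfl⟩

theorem conn_iff' {b : ℕ} {rule : R → Rl Q K} (hw : ∀ r, (rule r).WF b) {c : Cf (Q ⊕ R) K}
    {c' : Cf Q K} : PConn b (split rule) c (lft c') ↔ Conn b rule (ret b rule c) c' := by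
  constructor
  · intro h
    have := ret_conn hw h
    rwa [ret_lft] at this
  · intro h
    exact EqvGen.trans _ _ _ (EqvGen.symm _ _ (conn_ret c)) (lft_conn hw h)

/-! ### transport -/

/-- transport of a pop letter along equivalences -/
def Pop.map (f : Q ≃ Q') (g : K ≃ K') (p : Pop Q K) : Pop Q' K' :=
  ⟨f p.src, f p.tgt, fun k => p.dg (g.symm k)⟩

/-- transport of a configuration -/
def cmap (f : Q ≃ Q') (g : K ≃ K') : Cf Q K ≃ Cf Q' K' :=
  f.prodCongr (g.arrowCongr (Equiv.refl ℤ))

@[simp] theorem cmap_fst (f : Q ≃ Q') (g : K ≃ K') (c : Cf Q K) : (cmap f g c).1 = f c.1 := rfl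
@[simp] theorem cmap_snd (f : Q ≃ Q') (g : K ≃ K') (c : Cf Q K) (k : K') :
    (cmap f g c).2 k = c.2 (g.symm k) := rfl

theorem Pop.map_stp {f : Q ≃ Q'} {g : K ≃ K'} {b : ℕ} {p : Pop Q K} {c c' : Cf Q K} :
    (p.map f g).Stp b (cmap f g c) (cmap f g c') ↔ p.Stp b c c' := by
  unfold Pop.Stp Pop.map
  simp only [cmap_fst, cmap_snd, EmbeddingLike.apply_eq_iff_eq]
  refine and_congr_right fun _ => and_congr_right fun _ => ⟨fun h k => ?_, fun h k => h _⟩
  simpa using h (g k)

theorem PStp.map_iff {f : Q ≃ Q'} {g : K ≃ K'} {h : R' ≃ R} {b : ℕ} {rule : R → Pop Q K}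
    {c c' : Cf Q K} : PStp b (fun r => (rule (h r)).map f g) (cmap f g c) (cmap f g c') ↔
      PStp b rule c c' := by
  constructor
  · rintro ⟨r, hr⟩
    exact ⟨h r, Pop.map_stp.1 hr⟩
  · rintro ⟨r, hr⟩
    refine ⟨h.symm r, Pop.map_stp.2 ?_⟩
    rwa [Equiv.apply_symm_apply]

theorem PConn.map_iff {f : Q ≃ Q'} {g : K ≃ K'} {h : R' ≃ R} {b : ℕ} {rule : R → Pop Q K}
    {c c' : Cf Q K} : PConn b (fun r => (rule (h r)).map f g) (cmap f g c) (cmap f g c') ↔
      PConn b rule c c' := by
  constructor
  · intro hc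
    have key : ∀ x y, PConn b (fun r => (rule (h r)).map f g) x y →
        PConn b rule ((cmap f g).symm x) ((cmap f g).symm y) := by
      intro x y hxy
      induction hxy with
      | rel x y hxy =>
        refine EqvGen.rel _ _ ((PStp.map_iff (f := f) (g := g) (h := h)).1 ?_)
        rwa [Equiv.apply_symm_apply, Equiv.apply_symm_apply]
      | refl x => exact EqvGen.refl _
      | symm x y _ ih => exact EqvGen.symm _ _ ih
      | trans x y z _ _ ih1 ih2 => exact EqvGen.trans _ _ _ ih1 ih2
    simpa using key _ _ hc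
  · intro hc
    induction hc with
    | rel x y hxy => exact EqvGen.rel _ _ (PStp.map_iff.2 hxy)
    | refl x => exact EqvGen.refl _
    | symm x y _ ih => exact EqvGen.symm _ _ ih
    | trans x y z _ _ ih1 ih2 => exact EqvGen.trans _ _ _ ih1 ih2

end Crest.Agent.R185.Clk
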