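import Crest.Agent.R185.Re1

/-!
# R185, tool "computability without algorithms", part 2

* computable list operations with merely computable step functions;
* `exists_alg`: recursion on a rank with tables;
* `exists_alg_re`: the same with a positive and a negative r.e. certificate;
* `exists_univ_mach_re`: ONE machine; for every r.e. specification `ρ e w b` there is an `e` such
  that the machine started with the text `none ^ e ++ w` answers according to `ρ e w`.
-/

set_option autoImplicit false

namespace Crest.Agent.R185.Re

open Crest.Agent.R292 Encodable

variable {α β γ δ : Type*} [Primcodable α] [Primcodable β] [Primcodable γ] [Primcodable δ]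

/-! ### computable list operations -/

theorem computable_foldl {f : α → List β} {g : α → γ} {h : α → γ × β → γ}
    (hf : Computable f) (hg : Computable g) (hh : Computable₂ h) :
    Computable fun a => (f a).foldl (fun s b => h a (s, b)) (g a) := by
  let st : α → ℕ × γ → γ := fun a p =>
    Option.casesOn (f a)[p.1]? p.2 (fun b => h a (p.2, b))
  have hst : Computable₂ st := by
    refine Computable.option_casesOn (o := fun x : α × ℕ × γ => (f x.1)[x.2.1]?)
      (f := fun x : α × ℕ × γ => x.2.2)
      (g := fun (x : α × ℕ × γ) (b : β) => h x.1 (x.2.2, b)) ?_ ?_ ?_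
    · exact Computable.list_getElem?.comp (hf.comp Computable.fst)
        (Computable.fst.comp Computable.snd)
    · exact Computable.snd.comp Computable.snd
    · exact hh.comp (Computable.fst.comp Computable.fst)
        ((Computable.snd.comp (Computable.snd.comp Computable.fst)).pair Computable.snd)
  have h1 := Computable.nat_rec (f := fun a => (f a).length) (g := g) (h := st)
    (Computable.list_length.comp hf) hg hst
  refine h1.of_eq fun a => ?_
  have key : ∀ n ≤ (f a).length, (Nat.rec (motive := fun _ => γ) (g a)
      (fun y IH => st a (y, IH)) n : γ) = ((f a).take n).foldl (fun s b => h a (s, b)) (g a) := by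
    intro n
    induction n with
    | zero => intro _; simp
    | succ n ih =>
      intro hn
      have hn' : n < (f a).length := hn
      have h2 : st a (n, ((f a).take n).foldl (fun s b => h a (s, b)) (g a)) =
          ((f a).take (n + 1)).foldl (fun s b => h a (s, b)) (g a) := by
        simp only [st]
        rw [List.getElem?_eq_getElem hn', List.take_succ_eq_append_getElem hn',
          List.foldl_append]
        rfl
      change st a (n, Nat.rec (motive := fun _ => γ) (g a) (fun y IH => st a (y, IH)) n) = _
      rw [ih hn'.le, h2]
  rw [key _ le_rfl, List.take_length]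

theorem computable_map {f : α → List β} {g : α → β → γ} (hf : Computable f)
    (hg : Computable₂ g) : Computable fun a => (f a).map (g a) := by
  have h := computable_foldl (f := f) (g := fun _ => ([] : List γ))
    (h := fun a (p : List γ × β) => p.1 ++ [g a p.2]) hf (Computable.const _) ?_
  · refine h.of_eq fun a => ?_
    have key : ∀ (l : List β) (s : List γ), l.foldl (fun s b => s ++ [g a b]) s =
        s ++ l.map (g a) := by
      intro l
      induction l with
      | nil => intro s; simp
      | cons b l ih => intro s; rw [List.foldl_cons, ih]; simp
    simpa using key (f a) []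
  · refine Computable.list_concat.comp (Computable.fst.comp Computable.snd) ?_
    exact hg.comp Computable.fst (Computable.snd.comp Computable.snd)

theorem computable_flatMap {f : α → List β} {g : α → β → List γ} (hf : Computable f)
    (hg : Computable₂ g) : Computable fun a => (f a).flatMap (g a) := by
  have h := computable_foldl (f := f) (g := fun _ => ([] : List γ))
    (h := fun a (p : List γ × β) => p.1 ++ g a p.2) hf (Computable.const _) ?_
  · refine h.of_eq fun a => ?_
    have key : ∀ (l : List β) (s : List γ), l.foldl (fun s b => s ++ g a b) s =
        s ++ l.flatMap (g a) := by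
      intro l
      induction l with
      | nil => intro s; simp
      | cons b l ih => intro s; rw [List.foldl_cons, ih]; simp
    simpa using key (f a) []
  · exact Computable.list_append.comp (Computable.fst.comp Computable.snd)
      (hg.comp Computable.fst (Computable.snd.comp Computable.snd))

theorem computable_filterMap {f : α → List β} {g : α → β → Option γ} (hf : Computable f)
    (hg : Computable₂ g) : Computable fun a => (f a).filterMap (g a) := by
  have h1 : Primrec fun o : Option γ => o.toList := by
    refine (Primrec.option_casesOn (o := fun o : Option γ => o) (f := fun _ => ([] : List γ))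
      (g := fun (_ : Option γ) (c : γ) => [c]) Primrec.id (Primrec.const _)
      (Primrec.list_cons.comp Primrec.snd (Primrec.const _)).to₂).of_eq fun o => ?_
    cases o <;> rfl
  have h := computable_flatMap (f := f) (g := fun a b => (g a b).toList) hf
    (h1.to_comp.comp hg).to₂
  refine h.of_eq fun a => ?_
  induction f a with
  | nil => rfl
  | cons b l ih =>
    rw [List.flatMap_cons, ih, List.filterMap_cons]
    cases g a b <;> rfl

theorem computable_filter {f : α → List β} {g : α → β → Bool} (hf : Computable f)
    (hg : Computable₂ g) : Computable fun a => (f a).filter (g a) := by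
  have h := computable_filterMap (f := f) (g := fun a b => bif g a b then some b else none) hf
    (Computable.cond hg (Computable.option_some.comp Computable.snd) (Computable.const none)).to₂
  refine h.of_eq fun a => ?_
  induction f a with
  | nil => rfl
  | cons b l ih =>
    rw [List.filterMap_cons, List.filter_cons, ih]
    cases g a b <;> rfl

theorem computable_foldr {f : α → List β} {g : α → γ} {h : α → β × γ → γ}
    (hf : Computable f) (hg : Computable g) (hh : Computable₂ h) :
    Computable fun a => (f a).foldr (fun b s => h a (b, s)) (g a) := by
  have h1 := computable_foldl (f := fun a => (f a).reverse) (g := g)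
    (h := fun a (p : γ × β) => h a (p.2, p.1)) (Computable.list_reverse.comp hf) hg ?_
  · refine h1.of_eq fun a => ?_
    rw [List.foldl_reverse]
  · exact hh.comp Computable.fst ((Computable.snd.comp Computable.snd).pair
      (Computable.fst.comp Computable.snd))

theorem computable_all {f : α → List β} {g : α → β → Bool} (hf : Computable f)
    (hg : Computable₂ g) : Computable fun a => (f a).all (g a) := by
  have h := computable_foldr (f := f) (g := fun _ => true)
    (h := fun a (p : β × Bool) => g a p.1 && p.2) hf (Computable.const _)
    (Primrec.and.to_comp.comp (hg.comp Computable.fst (Computable.fst.comp Computable.snd))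
      (Computable.snd.comp Computable.snd)).to₂
  refine h.of_eq fun a => ?_
  induction f a with
  | nil => rfl
  | cons b l ih => rw [List.foldr_cons, ih, List.all_cons]

theorem computable_any {f : α → List β} {g : α → β → Bool} (hf : Computable f)
    (hg : Computable₂ g) : Computable fun a => (f a).any (g a) := by
  have h := computable_foldr (f := f) (g := fun _ => false)
    (h := fun a (p : β × Bool) => g a p.1 || p.2) hf (Computable.const _)
    (Primrec.or.to_comp.comp (hg.comp Computable.fst (Computable.fst.comp Computable.snd))
      (Computable.snd.comp Computable.snd)).to₂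
  refine h.of_eq fun a => ?_
  induction f a with
  | nil => rfl
  | cons b l ih => rw [List.foldr_cons, ih, List.any_cons]

theorem computable_iterate {f : α → ℕ} {g : α → β} {h : α → β → β} (hf : Computable f)
    (hg : Computable g) (hh : Computable₂ h) : Computable fun a => (h a)^[f a] (g a) := by
  have h1 := Computable.nat_rec (f := f) (g := g) (h := fun a (p : ℕ × β) => h a p.2) hf hg
    (hh.comp Computable.fst (Computable.snd.comp Computable.snd)).to₂
  refine h1.of_eq fun a => ?_
  induction f a with
  | zero => rfl
  | succ n ih => rw [Function.iterate_succ_apply', ← ih]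

/-- a total computable decision from two complementary r.e. predicates -/
theorem exists_bool {p q : α → Prop} (hp : REPred p) (hq : REPred q) (h : ∀ a, q a ↔ ¬ p a) :
    ∃ f : α → Bool, Computable f ∧ ∀ a, f a = true ↔ p a := by
  have h1 : ComputablePred p := ComputablePred.computable_iff_re_compl_re'.2
    ⟨hp, hq.of_eq h⟩
  obtain ⟨f, hf, rfl⟩ := ComputablePred.computable_iff.1 h1
  exact ⟨f, hf, fun a => Iff.rfl⟩

/-! ### recursion on a rank with tables -/

section tab
variable {W : Type*} [Primcodable W]

/-- the table of the function `f` on the list `l` -/
def tab {W : Type*} {δ : Type*} (f : W → δ) (l : List W) : List (W × δ) := l.map fun v => (v, f v)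

theorem mem_tab {W δ : Type*} {f : W → δ} {l : List W} {x : W × δ} :
    x ∈ tab f l ↔ x.1 ∈ l ∧ x.2 = f x.1 := by
  obtain ⟨v, d⟩ := x
  simp only [tab, List.mem_map, Prod.mk.injEq]
  constructor
  · rintro ⟨w, hw, rfl, rfl⟩
    exact ⟨hw, rfl⟩
  · rintro ⟨h1, h2⟩
    exact ⟨v, h1, rfl, h2.symm⟩

/-- **Recursion on a rank.** `L n` lists elements of rank `< n`. -/
theorem exists_alg {ρ : W → ℕ} (hρ : Computable ρ) {L : ℕ → List W} (hL : Computable L)
    (hLρ : ∀ n, ∀ w ∈ L n, ρ w < n) {Φ : γ × List (W × δ) × W → δ} (hΦ : Computable Φ) :
    ∃ Alg : γ → W → δ, Computable₂ Alg ∧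
      ∀ e w, Alg e w = Φ (e, tab (Alg e) (L (ρ w)), w) := by
  -- the lists of the tables
  let stp : γ → ℕ × List (List (W × δ)) → List (List (W × δ)) := fun e p =>
    p.2 ++ [(L p.1).map fun v => (v, Φ (e, (p.2[ρ v]?).getD [], v))]
  let H : γ → ℕ → List (List (W × δ)) := fun e n =>
    Nat.rec (motive := fun _ => List (List (W × δ))) [] (fun y IH => stp e (y, IH)) n
  have hget : Computable fun z : (γ × ℕ × List (List (W × δ))) × W =>
      ((z.1.2.2)[ρ z.2]?).getD [] := by
    refine (Computable.option_getD (f := fun z : (γ × ℕ × List (List (W × δ))) × W =>
      (z.1.2.2)[ρ z.2]?) (g := fun _ => []) ?_ (Computable.const _))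
    exact Computable.list_getElem?.comp (Computable.snd.comp (Computable.snd.comp Computable.fst))
      (hρ.comp Computable.snd)
  have hstp : Computable₂ stp := by
    refine Computable.list_concat.comp (Computable.snd.comp Computable.snd) ?_
    refine computable_map (f := fun x : γ × ℕ × List (List (W × δ)) => L x.2.1)
      (g := fun (x : γ × ℕ × List (List (W × δ))) (v : W) =>
        (v, Φ (x.1, ((x.2.2)[ρ v]?).getD [], v))) (hL.comp (Computable.fst.comp Computable.snd)) ?_
    refine Computable.pair Computable.snd ?_
    exact hΦ.comp ((Computable.fst.comp Computable.fst).pair (hget.pair Computable.snd))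
  have hH : Computable₂ H :=
    (Computable.nat_rec (f := fun x : γ × ℕ => x.2) (g := fun _ => []) (h := fun x p => stp x.1 p)
      Computable.snd (Computable.const _)
      (hstp.comp (Computable.fst.comp Computable.fst) Computable.snd).to₂).to₂
  have hHs : ∀ e n, H e (n + 1) = H e n ++
      [(L n).map fun v => (v, Φ (e, ((H e n)[ρ v]?).getD [], v))] := fun e n => rfl
  have hlen : ∀ e n, (H e n).length = n := by
    intro e n
    induction n with
    | zero => rfl
    | succ n ih => rw [hHs, List.length_append, ih]; rfl
  let T : γ → ℕ → List (W × δ) := fun e n =>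
    (L n).map fun v => (v, Φ (e, ((H e n)[ρ v]?).getD [], v))
  have hget2 : ∀ e n m, n < m → (H e m)[n]? = some (T e n) := by
    intro e n m
    induction m with
    | zero => intro h; omega
    | succ m ih =>
      intro h
      rw [hHs]
      by_cases hnm : n < m
      · rw [List.getElem?_append_left (by rw [hlen]; exact hnm)]
        exact ih hnm
      · have : n = m := by omega
        subst this
        rw [List.getElem?_append_right (by rw [hlen]), hlen]
        simp [T]
  let Alg : γ → W → δ := fun e w => Φ (e, ((H e (ρ w + 1))[ρ w]?).getD [], w)
  have hAlg : ∀ e w, Alg e w = Φ (e, T e (ρ w), w) := by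
    intro e w
    simp only [Alg]
    rw [hget2 e _ _ (Nat.lt_succ_self _)]
    rfl
  refine ⟨Alg, ?_, fun e w => ?_⟩
  · refine (hΦ.comp (Computable.fst.pair (Computable.pair (Computable.option_getD
      (f := fun z : γ × W => (H z.1 (ρ z.2 + 1))[ρ z.2]?) (g := fun _ => []) ?_
      (Computable.const _)) Computable.snd))).to₂
    refine Computable.list_getElem?.comp ?_ (hρ.comp Computable.snd)
    exact hH.comp Computable.fst (Computable.succ.comp (hρ.comp Computable.snd))
  · rw [hAlg]
    congr 3
    refine List.map_congr_left fun v hv => ?_
    rw [hAlg, hget2 e _ _ (hLρ _ v hv)]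
    rfl

/-- the value of a table at a point -/
def look {W : Type*} [DecidableEq W] (τ : List (W × Bool)) (v : W) : Bool :=
  τ.foldr (fun x r => bif decide (x.1 = v) then x.2 else r) false

theorem look_tab {W : Type*} [DecidableEq W] (f : W → Bool) (l : List W) {v : W} (hv : v ∈ l) :
    look (tab f l) v = f v := by
  induction l with
  | nil => simp at hv
  | cons w l ih =>
    simp only [look, tab, List.map_cons, List.foldr_cons]
    by_cases h : w = v
    · simp [h]
    · rw [decide_eq_false h, cond_false]
      rcases List.mem_cons.1 hv with rfl | hv
      · exact absurd rfl h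
      · exact ih hv

theorem computable_look [DecidableEq W] : Computable₂ (look (W := W)) := by
  have h : Computable fun x : List (W × Bool) × W => x.1.foldr
      (fun (b : W × Bool) (s : Bool) => bif decide (b.1 = x.2) then b.2 else s) false := by
    refine computable_foldr (f := fun x : List (W × Bool) × W => x.1) (g := fun _ => false)
      (h := fun (x : List (W × Bool) × W) (p : (W × Bool) × Bool) =>
        bif decide (p.1.1 = x.2) then p.1.2 else p.2) Computable.fst (Computable.const _) ?_
    refine Computable.cond ?_ ?_ ?_
    · have := (Primrec.eq (α := W)).decide.to_comp.comp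
        (Computable.fst.comp (Computable.fst.comp (Computable.snd (α := List (W × Bool) × W)
          (β := (W × Bool) × Bool)))) (Computable.snd.comp (Computable.fst (α :=
          List (W × Bool) × W) (β := (W × Bool) × Bool)))
      exact this.of_eq fun x => by congr
    · exact Computable.snd.comp (Computable.fst.comp Computable.snd)
    · exact Computable.snd.comp Computable.snd
  exact h

/-- **Recursion on a rank with certificates.** `P (e, τ, w)`, `N (e, τ, w)` are the positive and
the negative certificates, which may look up the values of the function on smaller elements in the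
table `τ`. -/
theorem exists_alg_re {ρ : W → ℕ} (hρ : Computable ρ) {L : ℕ → List W} (hL : Computable L)
    (hLρ : ∀ n, ∀ w ∈ L n, ρ w < n) {P N : γ × List (W × Bool) × W → Prop} (hP : REPred P)
    (hN : REPred N) (h : ∀ (e : γ) (f : W → Bool) (w : W),
      N (e, tab f (L (ρ w)), w) ↔ ¬ P (e, tab f (L (ρ w)), w)) :
    ∃ Alg : γ → W → Bool, Computable₂ Alg ∧
      ∀ e w, Alg e w = true ↔ P (e, tab (Alg e) (L (ρ w)), w) := by
  classical
  -- normalised tables
  let nrm : γ × List (W × Bool) × W → γ × List (W × Bool) × W := fun x =>
    (x.1, tab (look x.2.1) (L (ρ x.2.2)), x.2.2)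
  have hnrm : Computable nrm := by
    refine Computable.fst.pair (Computable.pair ?_ (Computable.snd.comp Computable.snd))
    refine computable_map (f := fun x : γ × List (W × Bool) × W => L (ρ x.2.2))
      (g := fun (x : γ × List (W × Bool) × W) (v : W) => (v, look x.2.1 v))
      (hL.comp (hρ.comp (Computable.snd.comp Computable.snd))) ?_
    exact Computable.snd.pair (computable_look.comp (Computable.fst.comp (Computable.snd.comp
      Computable.fst)) Computable.snd)
  obtain ⟨Φ, hΦ, hΦe⟩ := exists_bool (re_comp hP hnrm) (re_comp hN hnrm)
    (fun x => h x.1 (look x.2.1) x.2.2)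
  obtain ⟨Alg, hA, hAe⟩ := exists_alg hρ hL hLρ hΦ
  refine ⟨Alg, hA, fun e w => ?_⟩
  rw [hAe, hΦe]
  have : nrm (e, tab (Alg e) (L (ρ w)), w) = (e, tab (Alg e) (L (ρ w)), w) := by
    simp only [nrm]
    congr 2
    exact List.map_congr_left fun v hv => by rw [look_tab _ _ hv]
  rw [this]

end tab

/-! ### the words of length `< n` over a finite alphabet -/

section words
variable {A : Type*} [Finite A] [Primcodable A]

/-- the letters -/
noncomputable def letters (A : Type*) [Finite A] : List A := (Fintype.ofFinite A).elems.toList

omit [Primcodable A] in
theorem mem_letters (a : A) : a ∈ letters A := by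
  unfold letters
  rw [Finset.mem_toList]
  exact (Fintype.ofFinite A).complete a

/-- the words of length `n` -/
noncomputable def words (A : Type*) [Finite A] : ℕ → List (List A)
  | 0 => [[]]
  | n + 1 => (words A n).flatMap fun w => (letters A).map fun a => a :: w

omit [Primcodable A] in
theorem mem_words {n : ℕ} {w : List A} : w ∈ words A n ↔ w.length = n := by
  induction n generalizing w with
  | zero => simp [words]
  | succ n ih =>
    simp only [words, List.mem_flatMap, List.mem_map]
    constructor
    · rintro ⟨v, hv, a, -, rfl⟩
      simp [ih.1 hv]
    · intro h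
      obtain ⟨a, v, rfl⟩ : ∃ a v, w = a :: v := by
        cases w with
        | nil => simp at h
        | cons a v => exact ⟨a, v, rfl⟩
      exact ⟨v, ih.2 (by simpa using h), a, mem_letters a, rfl⟩

theorem computable_words : Computable (words A) := by
  have h : Computable fun n : ℕ => (Nat.rec (motive := fun _ => List (List A)) [[]]
      (fun _ IH => IH.flatMap fun w => (letters A).map fun a => a :: w) n : List (List A)) := by
    refine Computable.nat_rec (f := fun n : ℕ => n) (g := fun _ => [[]])
      (h := fun (_ : ℕ) (p : ℕ × List (List A)) =>
        p.2.flatMap fun w => (letters A).map fun a => a :: w) Computable.id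
        (Computable.const _) ?_
    refine computable_flatMap (f := fun x : ℕ × ℕ × List (List A) => x.2.2)
      (g := fun _ w => (letters A).map fun a => a :: w) (Computable.snd.comp Computable.snd) ?_
    refine (computable_map (f := fun _ : (ℕ × ℕ × List (List A)) × List A => letters A)
      (g := fun x a => a :: x.2) (Computable.const _) ?_).to₂
    exact Computable.list_cons.comp Computable.snd (Computable.snd.comp Computable.fst)
  refine h.of_eq fun n => ?_
  induction n with
  | zero => rfl
  | succ n ih => rw [words, ← ih]

/-- the words of length `< n` -/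
noncomputable def wordsLT (A : Type*) [Finite A] (n : ℕ) : List (List A) :=
  (List.range n).flatMap (words A)

omit [Primcodable A] in
theorem mem_wordsLT {n : ℕ} {w : List A} : w ∈ wordsLT A n ↔ w.length < n := by
  simp [wordsLT, mem_words]

theorem computable_wordsLT : Computable (wordsLT A) :=
  computable_flatMap (f := fun n : ℕ => List.range n) (g := fun _ m => words A m)
    Primrec.list_range.to_comp (computable_words.comp Computable.snd).to₂

/-- **Recursion on the length of words with certificates.** -/
theorem exists_alg_words {P N : γ × List (List A × Bool) × List A → Prop} (hP : REPred P)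
    (hN : REPred N) (h : ∀ (e : γ) (f : List A → Bool) (w : List A),
      N (e, tab f (wordsLT A w.length), w) ↔ ¬ P (e, tab f (wordsLT A w.length), w)) :
    ∃ Alg : γ → List A → Bool, Computable₂ Alg ∧
      ∀ e w, Alg e w = true ↔ P (e, tab (Alg e) (wordsLT A w.length), w) :=
  exists_alg_re (ρ := List.length) Computable.list_length computable_wordsLT
    (fun _ _ hw => mem_wordsLT.1 hw) hP hN h

end words

/-! ### The universal machine, relational version -/

section mach
open StateTransition Turing Turing.PartrecToTM2 Crest.Agent.R185.Comp

/-- **The universal machine, relational version.** There is one machine such that for every r.e.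
relation `ρ e w b` there is an `e` such that all answers `b` of the machine started with the text
`none ^ e ++ w` satisfy `ρ e w b`, and if some `b` satisfies it then the machine answers. -/
theorem exists_univ_mach_re (A : Type) [Finite A] [Primcodable A] :
    ∃ (Q : Type) (_ : Finite Q) (ins : Q → Ins Q (Option K') (Γ' ⊕ Option A)) (q0 : Q)
      (qb : Bool → Q), Function.Injective qb ∧ (∀ q, ins q = .halt ↔ ∃ b, q = qb b) ∧
      (REPred fun x : ℕ × List A × Bool => ∃ S, (qb x.2.2, S) ∈
        eval (step ins) (q0, liftS ((text x.1 x.2.1).map .inr) (fun _ => []))) ∧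
      ∀ ρ : ℕ → List A → Bool → Prop, (REPred fun x : ℕ × List A × Bool => ρ x.1 x.2.1 x.2.2) →
        ∃ e : ℕ,
        (∀ w b S, (qb b, S) ∈
          eval (step ins) (q0, liftS ((text e w).map .inr) (fun _ => [])) → ρ e w b) ∧
        ∀ w, (∃ b, ρ e w b) → ∃ b S, (qb b, S) ∈
          eval (step ins) (q0, liftS ((text e w).map .inr) (fun _ => [])) := by
  -- the universal function
  let U : List (Option A) →. Bool := fun l =>
    ((Nat.Partrec.Code.eval (Denumerable.ofNat Nat.Partrec.Code (textE l))
      (encode (textW l)))).map fun n => decide (n = 1)
  have hU : Partrec U := by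
    have h1 : Partrec fun l : List (Option A) =>
        (Nat.Partrec.Code.eval (Denumerable.ofNat Nat.Partrec.Code (textE l))
          (encode (textW l))) :=
      Nat.Partrec.Code.eval_part.comp
        ((Computable.ofNat _).comp textE_primrec.to_comp)
        (Computable.encode.comp textW_primrec.to_comp)
    have h2 : Primrec₂ fun (_ : List (Option A)) (n : ℕ) => decide (n = 1) :=
      ((Primrec.eq (α := ℕ)).comp Primrec.snd (Primrec.const 1)).decide.to₂
    exact h1.map h2.to_comp
  obtain ⟨Q, hQ, ins, q0, qb, hqb, hh, hev⟩ := exists_mach U hU
  have hans : ∀ e w b, (∃ S, (qb b, S) ∈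
      eval (step ins) (q0, liftS ((text e w).map .inr) (fun _ => []))) ↔ b ∈ U (text e w) := by
    intro e w b
    constructor
    · rintro ⟨S, hS⟩
      have h1 : qb b ∈ (eval (step ins) (q0,
          liftS ((text e w).map .inr) (fun _ => []))).map Prod.fst := Part.mem_map Prod.fst hS
      rw [hev, Part.mem_map_iff] at h1
      obtain ⟨b', hb', h2⟩ := h1
      rwa [hqb h2] at hb'
    · intro hb
      have h1 : qb b ∈ (eval (step ins) (q0,
          liftS ((text e w).map .inr) (fun _ => []))).map Prod.fst := by
        rw [hev]
        exact Part.mem_map qb hb
      rw [Part.mem_map_iff] at h1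
      obtain ⟨⟨q, S⟩, h3, h4⟩ := h1
      exact ⟨S, by rw [← h4]; exact h3⟩
  have htext : Computable fun x : ℕ × List A × Bool => text x.1 x.2.1 := by
    have h1 : Primrec fun n : ℕ => List.replicate n (none : Option A) := by
      refine (Primrec.list_map (f := fun n : ℕ => List.range n) (g := fun _ _ => (none : Option A))
        Primrec.list_range (Primrec.const _).to₂).of_eq fun n => ?_
      simp [List.map_const']
    have h2 : Primrec fun w : List A => w.map some :=
      Primrec.list_map Primrec.id (Primrec.option_some.comp Primrec.snd).to₂
    exact (Primrec.list_append.comp (h1.comp Primrec.fst)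
      (h2.comp (Primrec.fst.comp Primrec.snd))).to_comp
  refine ⟨Q, hQ, ins, q0, qb, hqb, hh, ?_, fun ρ hρ => ?_⟩
  · have h1 : REPred fun x : ℕ × List A × Bool => x.2.2 ∈ U (text x.1 x.2.1) :=
      re_comp (f := fun x : ℕ × List A × Bool => (text x.1 x.2.1, x.2.2)) (re_mem_partrec hU)
        (htext.pair (Computable.snd.comp Computable.snd))
    exact h1.of_eq fun x => (hans _ _ _).symm
  · obtain ⟨f, hf, hf1, hf2⟩ := exists_unif (α := ℕ × List A) (β := Bool)
      (p := fun x b => ρ x.1 x.2 b)
      (re_comp (f := fun x : (ℕ × List A) × Bool => (x.1.1, x.1.2, x.2)) hρ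
        ((Computable.fst.comp Computable.fst).pair ((Computable.snd.comp Computable.fst).pair
          Computable.snd)))
    -- the family of partial functions for Kleene's theorem
    have hg : Partrec₂ fun (c : Nat.Partrec.Code) (n : ℕ) =>
        ((decode n : Option (List A)) : Part (List A)).bind fun w =>
          (f (encode c, w)).map fun b => cond b 1 0 := by
      have h1 : Partrec fun p : Nat.Partrec.Code × ℕ => ((decode p.2 : Option (List A)) :
        Part (List A)) := (Computable.decode.comp Computable.snd).ofOption
      have h2 : Partrec₂ fun (p : Nat.Partrec.Code × ℕ) (w : List A) =>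
          (f (encode p.1, w)).map fun b => cond b 1 0 := by
        have h3 : Partrec fun x : (Nat.Partrec.Code × ℕ) × List A => f (encode x.1.1, x.2) :=
          hf.comp ((Computable.encode.comp (Computable.fst.comp Computable.fst)).pair
            Computable.snd)
        have h4 : Computable₂ fun (_ : (Nat.Partrec.Code × ℕ) × List A) (b : Bool) =>
            cond b 1 0 :=
          (Computable.cond Computable.snd (Computable.const 1) (Computable.const 0)).to₂
        exact (h3.map h4).to₂
      exact (h1.bind h2).to₂
    obtain ⟨c, hc⟩ := Nat.Partrec.Code.fixed_point₂ hg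
    have h1 : ∀ w b, b ∈ U (text (encode c) w) ↔ b ∈ f (encode c, w) := by
      intro w b
      simp only [U, textE_text, textW_text, Denumerable.ofNat_encode, hc, encodek, Part.coe_some,
        Part.bind_some, Part.map_map, Part.mem_map_iff, Function.comp]
      constructor
      · rintro ⟨b', hb', rfl⟩
        cases b' <;> simpa using hb'
      · intro hb
        exact ⟨b, hb, by cases b <;> rfl⟩
    refine ⟨encode c, fun w b S hS => ?_, fun w hw => ?_⟩
    · exact hf1 (encode c, w) b ((h1 w b).1 ((hans _ _ _).1 ⟨S, hS⟩))
    · have h2 := hf2 (encode c, w) hw
      rw [Part.dom_iff_mem] at h2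
      obtain ⟨b, hb⟩ := h2
      exact ⟨b, (hans _ _ _).2 ((h1 w b).2 hb)⟩

end mach

end Crest.Agent.R185.Re
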