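import Crest.Agent.R185.Clk4
import Crest.Agent.R185.Re2

/-!
# R185, block WIT (a), part 5: computability of the affine letters and decidability tools
-/

set_option autoImplicit false

namespace Crest.Agent.R185.Clk

open Relation Function Crest.Agent.R292 Crest.Agent.R185.Re

/-! ### integers -/

theorem primrec_toSum : Primrec Equiv.intEquivNatSumNat := by
  rw [← Primrec.encode_iff]
  refine (Primrec.encode (α := ℤ)).of_eq fun z => ?_
  cases z with
  | ofNat n => rfl
  | negSucc n => rfl

theorem primrec_ofSum : Primrec Equiv.intEquivNatSumNat.symm := by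
  rw [← Primrec.encode_iff]
  refine (Primrec.encode (α := ℕ ⊕ ℕ)).of_eq fun z => ?_
  cases z with
  | inl n => rfl
  | inr n => rfl

theorem primrec_intOfNat : Primrec Int.ofNat :=
  (primrec_ofSum.comp Primrec.sumInl).of_eq fun _ => rfl

theorem primrec_natCast : Primrec (fun n : ℕ => (n : ℤ)) := primrec_intOfNat

theorem primrec_negSucc : Primrec Int.negSucc :=
  (primrec_ofSum.comp Primrec.sumInr).of_eq fun _ => rfl

theorem primrec_subNatNat : Primrec₂ Int.subNatNat := by
  have h : Primrec₂ fun (m n : ℕ) => if m < n then Int.negSucc (n - m - 1) else Int.ofNat (m - n) := by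
    refine Primrec.ite (PrimrecRel.comp Primrec.nat_lt Primrec.fst Primrec.snd) ?_ ?_
    · refine primrec_negSucc.comp ?_
      exact Primrec.nat_sub.comp (Primrec.nat_sub.comp Primrec.snd Primrec.fst) (Primrec.const 1)
    · refine primrec_intOfNat.comp ?_
      exact Primrec.nat_sub.comp Primrec.fst Primrec.snd
  refine h.of_eq fun m n => ?_
  rw [Int.subNatNat_eq_coe]
  split_ifs with h1
  · rw [Int.negSucc_eq]
    omega
  · simp only [Int.ofNat_eq_natCast]
    omega

theorem primrec_affine (b : ℕ) : Primrec₂ fun (a : ℕ) (z : ℤ) => (a : ℤ) + b * z := by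
  have h : Primrec₂ fun (a : ℕ) (z : ℤ) => (Equiv.intEquivNatSumNat z).casesOn (motive := fun _ => ℤ)
      (fun n => Int.ofNat (a + b * n)) (fun n => Int.subNatNat a (b * (n + 1))) := by
    refine Primrec.sumCasesOn (primrec_toSum.comp Primrec.snd) ?_ ?_
    · have h1 : Primrec fun x : (ℕ × ℤ) × ℕ => x.1.1 + b * x.2 :=
        Primrec.nat_add.comp (Primrec.fst.comp Primrec.fst)
          (Primrec.nat_mul.comp (Primrec.const b) Primrec.snd)
      exact (primrec_intOfNat.comp h1).to₂
    · have h1 : Primrec fun x : (ℕ × ℤ) × ℕ => b * (x.2 + 1) :=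
        Primrec.nat_mul.comp (Primrec.const b) (Primrec.succ.comp Primrec.snd)
      have h2 : Primrec fun x : (ℕ × ℤ) × ℕ => x.1.1 := Primrec.fst.comp Primrec.fst
      exact (primrec_subNatNat.comp h2 h1).to₂
  refine h.of_eq fun a z => ?_
  cases z with
  | ofNat n =>
    show Int.ofNat (a + b * n) = _
    simp
  | negSucc n =>
    show Int.subNatNat a (b * (n + 1)) = _
    rw [Int.subNatNat_eq_coe, Int.negSucc_eq]
    push_cast
    ring

theorem primrec_aff (b : ℕ) : Primrec₂ (aff b) := by
  have h : Primrec₂ fun (o : Option ℕ) (z : ℤ) => (o.casesOn (motive := fun _ => ℤ) z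
      (fun a => (a : ℤ) + b * z)) := by
    refine Primrec.option_casesOn Primrec.fst Primrec.snd ?_
    exact ((primrec_affine b).comp Primrec.snd (Primrec.snd.comp Primrec.fst)).to₂
  refine h.of_eq fun o z => ?_
  cases o <;> rfl

theorem primrec_enc (b : ℕ) : Primrec (enc b) := by
  have h := Primrec.list_foldr (f := fun l : List ℕ => l) (g := fun _ : List ℕ => (0 : ℤ))
    (h := fun _ (x : ℕ × ℤ) => (x.1 : ℤ) + b * x.2) Primrec.id (Primrec.const 0)
    (((primrec_affine b).comp (Primrec.fst.comp Primrec.snd) (Primrec.snd.comp Primrec.snd)).to₂)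
  refine h.of_eq fun l => ?_
  induction l with
  | nil => rfl
  | cons d l ih =>
    simp only [List.foldr_cons, enc_cons]
    rw [ih]

/-! ### equivalence closures -/

/-- The equivalence closure of an r.e. relation is r.e. -/
theorem re_eqvGen {α : Type} [Primcodable α] {S : α → α → Prop}
    (hS : REPred fun x : α × α => S x.1 x.2) : REPred fun x : α × α => EqvGen S x.1 x.2 := by
  have h1 : REPred fun x : α × List α × α => x.2.2 = x.1 ∨
      ∃ c ∈ x.2.1, S c x.2.2 ∨ S x.2.2 c := by
    refine re_or ?_ ?_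
    · exact re_eq (Computable.snd.comp Computable.snd) Computable.fst
    · refine re_ex_mem (p := fun (x : α × List α × α) (c : α) => S c x.2.2 ∨ S x.2.2 c) ?_
        (Computable.fst.comp Computable.snd)
      refine re_or ?_ ?_
      · exact re_comp (f := fun x : (α × List α × α) × α => (x.2, x.1.2.2)) hS
          (Computable.snd.pair (Computable.snd.comp (Computable.snd.comp Computable.fst)))
      · exact re_comp (f := fun x : (α × List α × α) × α => (x.1.2.2, x.2)) hS
          ((Computable.snd.comp (Computable.snd.comp Computable.fst)).pair Computable.snd)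
  have h2 := re_der (R := fun (x : α) (l : List α) (a : α) => a = x ∨
      ∃ c ∈ l, S c a ∨ S a c) h1
  refine h2.of_eq fun x => ?_
  obtain ⟨x, a⟩ := x
  simp only
  constructor
  · intro h
    induction h with
    | mk l a h hl ih =>
      rcases h with rfl | ⟨c, hc, h⟩
      · exact EqvGen.refl _
      · refine EqvGen.trans _ _ _ (ih c hc) ?_
        rcases h with h | h
        · exact EqvGen.rel _ _ h
        · exact EqvGen.symm _ _ (EqvGen.rel _ _ h)
  · intro h
    -- both directions at once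
    have key : ∀ u v, EqvGen S u v → ∀ w, (Der (fun (l : List α) (a : α) => a = w ∨
        ∃ c ∈ l, S c a ∨ S a c) u ↔ Der (fun (l : List α) (a : α) => a = w ∨
        ∃ c ∈ l, S c a ∨ S a c) v) := by
      intro u v huv
      induction huv with
      | rel u v h =>
        intro w
        constructor
        · intro hu
          exact Der.mk [u] v (.inr ⟨u, by simp, .inl h⟩) (by simpa using hu)
        · intro hv
          exact Der.mk [v] u (.inr ⟨v, by simp, .inr h⟩) (by simpa using hv)
      | refl u => exact fun w => Iff.rfl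
      | symm u v _ ih => exact fun w => (ih w).symm
      | trans u v z _ _ ih1 ih2 => exact fun w => (ih1 w).trans (ih2 w)
    exact (key x a h x).1 (Der.mk [] x (.inl rfl) (by simp))

/-! ### decidability for pop systems on finite types -/

section
variable {nQ nK nR : ℕ}

/-- the configuration before a pop -/
def back (b : ℕ) (rule : Fin nR → Pop (Fin nQ) (Fin nK)) (x : Fin nR × (Fin nK → ℤ)) :
    Fin nK → ℤ := fun k => aff b ((rule x.1).dg k) (x.2 k)

theorem primrec_back (b : ℕ) (rule : Fin nR → Pop (Fin nQ) (Fin nK)) :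
    Primrec (back b rule) := by
  have h0 : Primrec₂ fun (x : Fin nR × (Fin nK → ℤ)) (k : Fin nK) =>
      aff b ((rule x.1).dg k) (x.2 k) := by
    have h1 : Primrec fun y : Fin nR × Fin nK => (rule y.1).dg y.2 := Primrec.dom_finite _
    have h2 : Primrec fun y : (Fin nR × (Fin nK → ℤ)) × Fin nK => (rule y.1.1).dg y.2 :=
      h1.comp ((Primrec.fst.comp Primrec.fst).pair Primrec.snd)
    have h3 : Primrec fun y : (Fin nR × (Fin nK → ℤ)) × Fin nK => y.1.2 y.2 :=
      Primrec.fin_app.comp (Primrec.snd.comp Primrec.fst) Primrec.snd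
    exact ((primrec_aff b).comp h2 h3).to₂
  exact Primrec.fin_curry.2 h0

/-- a configuration before a pop, with its state -/
def backc (b : ℕ) (rule : Fin nR → Pop (Fin nQ) (Fin nK)) (x : Cf (Fin nQ) (Fin nK) × Fin nR) :
    Cf (Fin nQ) (Fin nK) := ((rule x.2).src, back b rule (x.2, x.1.2))

theorem primrec_backc (b : ℕ) (rule : Fin nR → Pop (Fin nQ) (Fin nK)) :
    Primrec (backc b rule) := by
  refine Primrec.pair ?_ ?_
  · exact (Primrec.dom_finite fun r : Fin nR => (rule r).src).comp Primrec.snd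
  · exact (primrec_back b rule).comp (Primrec.snd.pair (Primrec.snd.comp Primrec.fst))

/-- the step relation of a pop system is r.e. (even decidable) -/
theorem re_pstp (b : ℕ) (rule : Fin nR → Pop (Fin nQ) (Fin nK)) :
    REPred fun x : Cf (Fin nQ) (Fin nK) × Cf (Fin nQ) (Fin nK) => PStp b rule x.1 x.2 := by
  have e1 : Computable fun y : (Cf (Fin nQ) (Fin nK) × Cf (Fin nQ) (Fin nK)) × Fin nR => y.1.1 :=
    Computable.fst.comp Computable.fst
  have e2 : Computable fun y : (Cf (Fin nQ) (Fin nK) × Cf (Fin nQ) (Fin nK)) × Fin nR =>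
      backc b rule (y.1.2, y.2) :=
    (primrec_backc b rule).to_comp.comp ((Computable.snd.comp Computable.fst).pair Computable.snd)
  have e3 : Computable fun y : (Cf (Fin nQ) (Fin nK) × Cf (Fin nQ) (Fin nK)) × Fin nR =>
      y.1.2.1 := Computable.fst.comp (Computable.snd.comp Computable.fst)
  have e4 : Computable fun y : (Cf (Fin nQ) (Fin nK) × Cf (Fin nQ) (Fin nK)) × Fin nR =>
      (rule y.2).tgt := (Primrec.dom_finite fun r : Fin nR => (rule r).tgt).to_comp.comp
        Computable.snd
  have h1 : REPred fun y : (Cf (Fin nQ) (Fin nK) × Cf (Fin nQ) (Fin nK)) × Fin nR =>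
      y.1.1 = backc b rule (y.1.2, y.2) ∧ y.1.2.1 = (rule y.2).tgt :=
    re_and (re_eq e1 e2) (re_eq e3 e4)
  refine (re_ex h1).of_eq fun x => ?_
  unfold PStp
  refine exists_congr fun r => ?_
  unfold Pop.Stp
  constructor
  · rintro ⟨h2, h3⟩
    simp only at h2 h3
    refine ⟨by rw [h2]; rfl, h3, fun k => by rw [h2]; rfl⟩
  · rintro ⟨h2, h3, h4⟩
    exact ⟨Prod.ext h2 (funext h4), h3⟩

theorem re_pconn (b : ℕ) (rule : Fin nR → Pop (Fin nQ) (Fin nK)) :
    REPred fun x : Cf (Fin nQ) (Fin nK) × Cf (Fin nQ) (Fin nK) => PConn b rule x.1 x.2 :=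
  re_eqvGen (re_pstp b rule)

/-- a pop letter is not applicable -/
def Pop.Not (b : ℕ) (p : Pop (Fin nQ) (Fin nK)) (c : Cf (Fin nQ) (Fin nK)) : Prop :=
  c.1 ≠ p.src ∨ ∃ k d, p.dg k = some d ∧ c.2 k % b ≠ d

theorem not_aux {b : ℕ} (hb : 0 < b) (rule : Fin nR → Pop (Fin nQ) (Fin nK))
    (x : Cf (Fin nQ) (Fin nK) × Fin nR) :
    (∃ y : (Fin nK × ℕ) × (Fin b × ℤ), ((rule x.2).dg y.1.1 = some y.1.2 ∧
        (y.2.1 : ℕ) ≠ y.1.2) ∧ x.1.2 y.1.1 = ((y.2.1 : ℕ) : ℤ) + b * y.2.2) ↔
      ∃ k d, (rule x.2).dg k = some d ∧ x.1.2 k % b ≠ d := by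
  constructor
  · rintro ⟨⟨⟨k, d⟩, a, z⟩, ⟨h2, h3⟩, h4⟩
    refine ⟨k, d, h2, ?_⟩
    simp only at h4
    rw [h4, emod_aff a.2]
    exact_mod_cast h3
  · rintro ⟨k, d, h2, h3⟩
    have h4 : 0 ≤ x.1.2 k % b := Int.emod_nonneg _ (by omega)
    have h5 : x.1.2 k % b < b := Int.emod_lt_of_pos _ (by omega)
    have h6 : ((x.1.2 k % b).toNat : ℤ) = x.1.2 k % b := Int.toNat_of_nonneg h4
    refine ⟨((k, d), ⟨(x.1.2 k % b).toNat, by omega⟩, x.1.2 k / b), ⟨h2, ?_⟩, ?_⟩
    · simp only
      intro h7
      apply h3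
      rw [← h6, h7]
    · simp only
      rw [h6]
      exact (Int.emod_add_mul_ediv _ _).symm

section aux
variable (b : ℕ) (rule : Fin nR → Pop (Fin nQ) (Fin nK))

/-- the data for the search of a wrong digit -/
abbrev Dat (nQ nK nR b : ℕ) := (Cf (Fin nQ) (Fin nK) × Fin nR) × ((Fin nK × ℕ) × (Fin b × ℤ))

theorem f1 : Computable fun y : Dat nQ nK nR b => (rule y.1.2).dg y.2.1.1 := by
  have h1 : Primrec fun z : Fin nR × Fin nK => (rule z.1).dg z.2 := Primrec.dom_finite _
  have h2 : Primrec fun y : Dat nQ nK nR b => (y.1.2, y.2.1.1) :=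
    (Primrec.snd.comp Primrec.fst).pair (Primrec.fst.comp (Primrec.fst.comp Primrec.snd))
  exact (h1.comp h2).to_comp

theorem f2 : Computable fun y : Dat nQ nK nR b => some y.2.1.2 :=
  Computable.option_some.comp (Computable.snd.comp (Computable.fst.comp Computable.snd))

theorem f3 : Computable fun y : Dat nQ nK nR b => (y.2.2.1 : ℕ) := by
  have h1 : Computable fun y : Dat nQ nK nR b => y.2.2.1 :=
    Computable.fst.comp (Computable.snd.comp Computable.snd)
  exact (Primrec.fin_val (n := b)).to_comp.comp h1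

theorem f4 : Computable fun y : Dat nQ nK nR b => y.2.1.2 :=
  Computable.snd.comp (Computable.fst.comp Computable.snd)

theorem f5 : Computable fun y : Dat nQ nK nR b => y.1.1.2 y.2.1.1 := by
  have h1 : Computable fun y : Dat nQ nK nR b => y.1.1.2 :=
    Computable.snd.comp (Computable.fst.comp Computable.fst)
  have h2 : Computable fun y : Dat nQ nK nR b => y.2.1.1 :=
    Computable.fst.comp (Computable.fst.comp Computable.snd)
  exact Computable.fin_app.comp h1 h2

theorem f6 : Computable fun y : Dat nQ nK nR b => ((y.2.2.1 : ℕ) : ℤ) + b * y.2.2.2 := by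
  have h1 : Computable fun y : Dat nQ nK nR b => y.2.2.2 :=
    Computable.snd.comp (Computable.snd.comp Computable.snd)
  exact (primrec_affine b).to_comp.comp (f3 b) h1

end aux

theorem re_not {b : ℕ} (hb : 0 < b) (rule : Fin nR → Pop (Fin nQ) (Fin nK)) :
    REPred fun x : Cf (Fin nQ) (Fin nK) × Fin nR => (rule x.2).Not b x.1 := by
  have e1 : Computable fun x : Cf (Fin nQ) (Fin nK) × Fin nR => x.1.1 :=
    Computable.fst.comp Computable.fst
  have e2 : Computable fun x : Cf (Fin nQ) (Fin nK) × Fin nR => (rule x.2).src :=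
    (Primrec.dom_finite fun r : Fin nR => (rule r).src).to_comp.comp Computable.snd
  have h0 : REPred fun x : Cf (Fin nQ) (Fin nK) × Fin nR => x.1.1 ≠ (rule x.2).src := re_ne e1 e2
  have h1 : REPred fun y : Dat nQ nK nR b =>
      ((rule y.1.2).dg y.2.1.1 = some y.2.1.2 ∧ (y.2.2.1 : ℕ) ≠ y.2.1.2) ∧
        y.1.1.2 y.2.1.1 = ((y.2.2.1 : ℕ) : ℤ) + b * y.2.2.2 :=
    re_and (re_and (re_eq (f1 b rule) (f2 b)) (re_ne (f3 b) (f4 b))) (re_eq (f5 b) (f6 b))
  have h2 : REPred fun x : Cf (Fin nQ) (Fin nK) × Fin nR =>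
      ∃ k d, (rule x.2).dg k = some d ∧ x.1.2 k % b ≠ d := by
    have h3 := re_ex h1
    exact h3.of_eq (not_aux hb rule)
  exact re_or h0 h2

end

end Crest.Agent.R185.Clk
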