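import Crest.Agent.R185.Clk5

/-!
# R185, block WIT (a), part 6: the universal machine
-/

set_option autoImplicit false

namespace Crest.Agent.R185.Clk

open Relation StateTransition Turing Function Crest.Agent.R185.Comp Encodable
open Turing.PartrecToTM2 Crest.Agent.R292 Crest.Agent.R185.Re

/-! ### the universal machine with the text at the bottom -/

/-- the text `w ++ none ^ e` -/
def text' {A : Type} (e : ℕ) (w : List A) : List (Option A) := w.map some ++ List.replicate e none

theorem textE_text' {A : Type} (e : ℕ) (w : List A) : textE (text' e w) = e := by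
  have h1 : (w.map some).filter (fun o : Option A => o.isNone) = [] := by
    rw [List.filter_eq_nil_iff]
    intro a ha
    rw [List.mem_map] at ha
    obtain ⟨b, -, rfl⟩ := ha
    simp
  have h2 : (List.replicate e (none : Option A)).filter (fun o : Option A => o.isNone) =
      List.replicate e none := by
    rw [List.filter_eq_self]
    intro a ha
    rw [List.eq_of_mem_replicate ha]
    rfl
  unfold textE text'
  rw [List.filter_append, h1, h2]
  simp

theorem textW_text' {A : Type} (e : ℕ) (w : List A) : textW (text' e w) = w := by
  have h2 : (List.replicate e (none : Option A)).filterMap id = [] := by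
    rw [List.filterMap_eq_nil_iff]
    intro a ha
    rw [List.eq_of_mem_replicate ha]
    rfl
  have h1 : (w.map some).filterMap id = w := by
    rw [List.filterMap_map]
    simp
  unfold textW text'
  rw [List.filterMap_append, h1, h2]
  simp

/-- **The universal machine**, text version `w ++ none ^ e`. -/
theorem exists_univ_mach' (A : Type) [Finite A] [Primcodable A] :
    ∃ (Q : Type) (_ : Finite Q) (ins : Q → Ins Q (Option K') (Γ' ⊕ Option A)) (q0 : Q)
      (qb : Bool → Q), Injective qb ∧ (∀ q, ins q = .halt ↔ ∃ b, q = qb b) ∧
      ∀ Alg : ℕ → List A → Bool, Computable₂ Alg → ∃ e : ℕ, ∀ w : List A, ∃ S,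
        (qb (Alg e w), S) ∈ eval (step ins) (q0, liftS ((text' e w).map .inr) (fun _ => [])) := by
  -- the universal function
  let U : List (Option A) →. Bool := fun l =>
    ((Nat.Partrec.Code.eval (Denumerable.ofNat Nat.Partrec.Code (textE l))
      (encode (textW l)))).map fun n => decide (n = 1)
  have hU : Partrec U := by
    have h1 : Partrec fun l : List (Option A) =>
        (Nat.Partrec.Code.eval (Denumerable.ofNat Nat.Partrec.Code (textE l))
          (encode (textW l))) :=
      Nat.Partrec.Code.eval_part.comp
        ((Computable.ofNat _).comp textE_primrec.to_comp)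
        (Computable.encode.comp textW_primrec.to_comp)
    have h2 : Primrec₂ fun (_ : List (Option A)) (n : ℕ) => decide (n = 1) :=
      ((Primrec.eq (α := ℕ)).comp Primrec.snd (Primrec.const 1)).decide.to₂
    exact h1.map h2.to_comp
  obtain ⟨Q, hQ, ins, q0, qb, hqb, hh, hev⟩ := exists_mach U hU
  refine ⟨Q, hQ, ins, q0, qb, hqb, hh, fun Alg hAlg => ?_⟩
  -- the family of partial functions for Kleene's theorem
  have hg : Partrec₂ fun (c : Nat.Partrec.Code) (n : ℕ) =>
      ((decode n : Option (List A)) : Part (List A)).map fun w => cond (Alg (encode c) w) 1 0 := by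
    have h1 : Partrec fun p : Nat.Partrec.Code × ℕ => ((decode p.2 : Option (List A)) :
      Part (List A)) := (Computable.decode.comp Computable.snd).ofOption
    have h2 : Computable₂ fun (p : Nat.Partrec.Code × ℕ) (w : List A) => Alg (encode p.1) w :=
      (hAlg.comp (Computable.encode.comp (Computable.fst.comp Computable.fst))
        Computable.snd).to₂
    have h3 : Computable₂ fun (p : Nat.Partrec.Code × ℕ) (w : List A) =>
        cond (Alg (encode p.1) w) 1 0 :=
      (Computable.cond h2 (Computable.const 1) (Computable.const 0)).to₂
    exact (h1.map h3).to₂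
  obtain ⟨c, hc⟩ := Nat.Partrec.Code.fixed_point₂ hg
  refine ⟨encode c, fun w => ?_⟩
  have h1 : U (text' (encode c) w) = Part.some (Alg (encode c) w) := by
    simp only [U, textE_text', textW_text', Denumerable.ofNat_encode, hc, encodek, Part.coe_some,
      Part.map_some]
    cases Alg (encode c) w <;> rfl
  have h2 : qb (Alg (encode c) w) ∈ (eval (step ins) (q0,
      liftS ((text' (encode c) w).map .inr) (fun _ => []))).map Prod.fst := by
    rw [hev, h1]
    exact Part.mem_map qb (Part.mem_some _)
  rw [Part.mem_map_iff] at h2
  obtain ⟨⟨q, S⟩, h3, h4⟩ := h2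
  refine ⟨S, ?_⟩
  rw [← h4]
  exact h3

/-! ### terminal configurations of the split system -/

section term

variable {Q K A : Type} [DecidableEq K] [Finite A]
variable (ins : Q → Ins Q K A) (qa : Q) {n : ℕ} (e : K1 K ≃ Fin n) (b : ℕ)

/-- every configuration is connected to a terminal one -/
theorem term_exists (hb : Nat.card A + 3 ≤ b)
    (c : Cf ((Q ⊕ Fin (n + 1)) ⊕ Let ins qa n (b - 1)) (K1 K)) :
    ∃ d : Cf (Q ⊕ Fin (n + 1)) (K1 K), PConn b (split (lets ins qa e (b - 1))) c (lft d) ∧
      ∀ d', ¬ St ins qa e b d d' := by
  obtain ⟨d, h1, h2⟩ := fine ins qa e b (by omega) (ret b (lets ins qa e (b - 1)) c)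
  exact ⟨d, (conn_iff' (lets_wf ins qa e hb)).2 (Conn.of_reach h1), h2⟩

/-- connected terminal configurations are equal -/
theorem term_unique (hb : Nat.card A + 3 ≤ b) {d d' : Cf (Q ⊕ Fin (n + 1)) (K1 K)}
    (h : PConn b (split (lets ins qa e (b - 1))) (lft d) (lft d'))
    (hd : ∀ x, ¬ St ins qa e b d x) (hd' : ∀ x, ¬ St ins qa e b d' x) : d = d' := by
  have h1 := (conn_iff (lets_wf ins qa e hb)).1 h
  have h2 := Conn.reach_of_stuck (lets_det ins qa e b) h1 hd'
  rcases ReflTransGen.cases_head h2 with h3 | ⟨x, h3, _⟩
  · exact h3
  · exact absurd h3 (hd x)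

end term

/-! ### start configurations -/

section start

variable {A : Type}

/-- the stacks of the universal machine at the start -/
def stk (e : ℕ) (w : List (Option A)) : Option K' → List (Γ' ⊕ Option A) :=
  liftS ((text' e (w.filterMap id)).map .inr) (fun _ => [])

/-- number of ticks -/
def tk (w : List (Option A)) : ℕ := (w.filter fun o => o.isNone).length

theorem stk_none (e : ℕ) (w : List (Option A)) : stk e (none :: w) = stk e w := rfl

theorem stk_some (e : ℕ) (a : A) (w : List (Option A)) :
    stk e (some a :: w) = update (stk e w) none (.inr (some a) :: stk e w none) := by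
  funext k
  cases k with
  | none => simp [stk, liftS, text']
  | some k => simp [stk, liftS]

theorem tk_none (w : List (Option A)) : tk (none :: w) = tk w + 1 := by simp [tk]
theorem tk_some (a : A) (w : List (Option A)) : tk (some a :: w) = tk w := by simp [tk]

variable [Finite A] {Q : Type} (b n : ℕ)

/-- the start configuration -/
noncomputable def strt (q0 : Q) (e : ℕ) (w : List (Option A)) :
    Cf (Q ⊕ Fin (n + 1)) (K1 (Option K')) :=
  cfg b n q0 (stk e w) (enc b (w.map (dig (Option A)))) (tk w)

/-- the inverse input letters -/
noncomputable def inpp {S : Type} (q : S) (o : Option A) : Pop S (K1 (Option K')) where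
  src := q
  tgt := q
  dg := fun k => match k, o with
    | none, o => some (dig (Option A) o)
    | some none, none => some 1
    | some none, some _ => none
    | some (some none), some a => some (dig (Γ' ⊕ Option A) (.inr (some a)))
    | some (some _), _ => none

theorem strt_cons (q0 : Q) (e : ℕ) (o : Option A) (w : List (Option A)) (k : K1 (Option K')) :
    (strt b n q0 e (o :: w)).2 k =
      aff b ((inpp (Sum.inl q0 : Q ⊕ Fin (n + 1)) o).dg k) ((strt b n q0 e w).2 k) := by
  rcases k with _ | _ | _ | k
  · simp [strt, cfg, inpp]
  · cases o with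
    | none => simp [strt, cfg, inpp, tk_none, List.replicate_succ]
    | some a => simp [strt, cfg, inpp, tk_some]
  · cases o with
    | none => simp [strt, cfg, inpp, stk_none]
    | some a => simp [strt, cfg, inpp, stk_some]
  · cases o with
    | none => simp [strt, cfg, inpp, stk_none]
    | some a => simp [strt, cfg, inpp, stk_some]

end start

end Crest.Agent.R185.Clk
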