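import Crest.Agent.R185.Clk6

/-!
# R185, block WIT (a), part 7: the clocked universal machine, final form
-/

set_option autoImplicit false

namespace Crest.Agent.R185.Clk

open Relation StateTransition Turing Function Crest.Agent.R185.Comp Encodable
open Turing.PartrecToTM2 Crest.Agent.R292 Crest.Agent.R185.Re

/-- A clocked universal machine with archive for the alphabet `A`. The input letters are
`Option A`, where `none` is the tick. -/
structure UM (A : Type) [Primcodable A] where
  nQ : ℕ
  nK : ℕ
  nR : ℕ
  b : ℕ
  hb : 2 ≤ b
  /-- the rules, all of them pops -/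
  rule : Fin nR → Pop (Fin nQ) (Fin nK)
  rule_lt : ∀ r k d, (rule r).dg k = some d → d < b
  /-- the inverses of the input letters -/
  inp : Option A → Pop (Fin nQ) (Fin nK)
  inp_lt : ∀ o k d, (inp o).dg k = some d → d < b
  qin : Fin nQ
  qh : Fin nQ
  /-- the archive -/
  I : Fin nK
  inp_src : ∀ o, (inp o).src = qin
  inp_tgt : ∀ o, (inp o).tgt = qin
  da : Option A → ℕ
  da_inj : Function.Injective da
  da_pos : ∀ o, 0 < da o
  inp_I : ∀ o, (inp o).dg I = some (da o)
  start : ℕ → List (Option A) → Fin nK → ℤ
  start_cons : ∀ e o w, (inp o).Stp b (qin, start e (o :: w)) (qin, start e w)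
  start_I : ∀ e w, start e w I = enc b (w.map da)
  start_comp : Computable fun x : ℕ × List (Option A) => start x.1 x.2
  /-- if the start configuration is rejected, then its component never touches the archive -/
  archive : ∀ e w, ¬ PConn b rule (qin, start e w) (qh, fun _ => 0) →
    ∀ c, PConn b rule (qin, start e w) c → c.2 I = start e w I
  /-- halting is decidable, for all configurations -/
  dec : ComputablePred fun c : Cf (Fin nQ) (Fin nK) => PConn b rule c (qh, fun _ => 0)
  kleene : ∀ Alg : ℕ → List A → Bool, Computable₂ Alg → ∃ e, ∀ w : List A,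
    (∃ w1 : List (Option A), w1.filterMap id = w ∧
      PConn b rule (qin, start e w1) (qh, fun _ => 0)) ↔ Alg e w = true

section

variable {A : Type} [Finite A] [Primcodable A]
variable {Q : Type} (ins : Q → Ins Q (Option K') (Γ' ⊕ Option A)) (q0 qa : Q)
variable {n : ℕ} (e : K1 (Option K') ≃ Fin n) (b : ℕ)

/-- the letters of the compiled machine -/
noncomputable abbrev Lt := lets ins qa e (b - 1)

omit [Primcodable A] in
theorem sum_digits (w : List (Option A)) (hb : Nat.card (Option A) + 3 ≤ b) :
    ∃ l : List ℕ, (∀ d ∈ l, 0 < d ∧ d < b - 1) ∧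
      enc b (w.map (dig (Option A))) = enc b l := by
  refine ⟨w.map (dig (Option A)), fun d hd => ?_, rfl⟩
  obtain ⟨a, -, rfl⟩ := List.mem_map.1 hd
  have h1 := dig_pos (A := Option A) a
  have h2 := dig_le (A := Option A) a
  omega

/-- acceptance in the compiled machine -/
theorem acc_iff {qb : Bool → Q} (hqb : Injective qb)
    (hh : ∀ q, ins q = .halt ↔ ∃ b, q = qb b)
    (hb1 : Nat.card (Γ' ⊕ Option A) + 3 ≤ b) (hb2 : Nat.card (Option A) + 3 ≤ b)
    {ex : ℕ} {w : List A} {β : Bool} {S : Option K' → List (Γ' ⊕ Option A)}
    (hS : (qb β, S) ∈ eval (step ins) (q0, liftS ((text' ex w).map .inr) (fun _ => []))) :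
    (∃ w1 : List (Option A), w1.filterMap id = w ∧
      PConn b (split (lets ins (qb true) e (b - 1))) (lft (strt b n q0 ex w1)) (lft (hlt n))) ↔
      β = true := by
  constructor
  · rintro ⟨w1, hw1, h⟩
    have h1 := (conn_iff (lets_wf ins (qb true) e hb1)).1 h
    have h2 := Conn.reach_of_stuck (lets_det ins (qb true) e b) h1 (hlt_stuck ins (qb true) e b)
    rcases orbit ins (qb true) e b hb1 (sum_digits b w1 hb2) h2 with ⟨q', S', t', h3, -⟩ |
      ⟨⟨S', h3⟩, -⟩
    · have := congrArg Prod.fst h3
      simp [hlt, cfg] at this
    · have h4 : (qb true, S') ∈ eval (step ins)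
          (q0, liftS ((text' ex w).map .inr) (fun _ => [])) := by
        refine mem_eval.2 ⟨?_, ?_⟩
        · rw [stk, hw1] at h3
          exact h3
        · exact (step_eq_none ins).2 ((hh _).2 ⟨true, rfl⟩)
      have h5 := Part.mem_unique hS h4
      exact hqb (congrArg Prod.fst h5)
  · rintro rfl
    have h1 := (mem_eval.1 hS).1
    obtain ⟨t, ht⟩ := halts_of_reaches (n := n) ins (qb true) e b hb1 ((hh _).2 ⟨true, rfl⟩) h1
    refine ⟨List.replicate t none ++ w.map some, ?_, ?_⟩
    · rw [List.filterMap_append, List.filterMap_map]
      have : (List.replicate t (none : Option A)).filterMap id = [] := by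
        rw [List.filterMap_eq_nil_iff]
        intro a ha
        rw [List.eq_of_mem_replicate ha]
        rfl
      rw [this]
      simp
    · have h2 := ht (enc b ((List.replicate t none ++ w.map some).map (dig (Option A))))
        (sum_digits b _ hb2)
      refine lft_conn (lets_wf ins (qb true) e hb1) (Conn.of_reach ?_)
      have h3 : stk ex (List.replicate t none ++ w.map some) =
          liftS ((text' ex w).map .inr) (fun _ => []) := by
        unfold stk
        rw [List.filterMap_append, List.filterMap_map]
        have : (List.replicate t (none : Option A)).filterMap id = [] := by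
          rw [List.filterMap_eq_nil_iff]
          intro a ha
          rw [List.eq_of_mem_replicate ha]
          rfl
        rw [this]
        simp
      have h4 : tk (List.replicate t none ++ w.map some) = t := by
        unfold tk
        rw [List.filter_append]
        have h5 : (w.map some).filter (fun o : Option A => o.isNone) = [] := by
          rw [List.filter_eq_nil_iff]
          intro a ha
          rw [List.mem_map] at ha
          obtain ⟨b, -, rfl⟩ := ha
          simp
        have h6 : (List.replicate t (none : Option A)).filter (fun o : Option A => o.isNone) =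
            List.replicate t none := by
          rw [List.filter_eq_self]
          intro a ha
          rw [List.eq_of_mem_replicate ha]
          rfl
        rw [h5, h6]
        simp
      unfold strt
      rw [h3, h4]
      exact h2

/-- the archive is untouched in the components of rejected start configurations -/
theorem arch {ins : Q → Ins Q (Option K') (Γ' ⊕ Option A)}
    (hb1 : Nat.card (Γ' ⊕ Option A) + 3 ≤ b) (hb2 : Nat.card (Option A) + 3 ≤ b)
    {ex : ℕ} {w : List (Option A)}
    (hn : ¬ PConn b (split (lets ins qa e (b - 1))) (lft (strt b n q0 ex w)) (lft (hlt n)))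
    {c : Cf ((Q ⊕ Fin (n + 1)) ⊕ Let ins qa n (b - 1)) (K1 (Option K'))}
    (hc : PConn b (split (lets ins qa e (b - 1))) (lft (strt b n q0 ex w)) c) :
    c.2 none = (strt b n q0 ex w).2 none := by
  have h1 := (conn_iff' (lets_wf ins qa e hb1)).1 (EqvGen.symm _ _ hc)
  have h2 : ¬ ReflTransGen (St ins qa e b) (strt b n q0 ex w) (hlt n) := fun h =>
    hn (lft_conn (lets_wf ins qa e hb1) (Conn.of_reach h))
  have h3 := archive ins qa e b hb1 (sum_digits b w hb2) h2 h1
  obtain ⟨q | r, s⟩ := c
  · exact h3.2
  · obtain ⟨⟨q, hq⟩, h4⟩ := h3
    simp only [ret] at hq h4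
    have h5 : (lets ins qa e (b - 1) r).pop none = none := by
      rcases r with ⟨y, hy⟩ | ⟨i, j⟩
      · show (let0 ins n y).pop none = none
        unfold let0
        cases ins y.1 <;> simp
      · simp [lets, let1] at hq
    rw [h5, aff_none] at h4
    exact h4

end

end Crest.Agent.R185.Clk
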