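import Crest.Agent.R185.Clk7

/-!
# R185, block WIT (a), part 8: existence of the clocked universal machine
-/

set_option autoImplicit false

namespace Crest.Agent.R185.Clk

open Relation StateTransition Turing Function Crest.Agent.R185.Comp Encodable
open Turing.PartrecToTM2 Crest.Agent.R292 Crest.Agent.R185.Re

section comp
variable {A : Type} [Finite A] [Primcodable A] (b : ℕ)

theorem primrec_arch : Primrec fun x : ℕ × List (Option A) =>
    enc b (x.2.map (dig (Option A))) := by
  have h1 : Primrec (dig (Option A)) := Primrec.dom_finite _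
  have h2 : Primrec fun x : ℕ × List (Option A) => x.2.map (dig (Option A)) :=
    Primrec.list_map Primrec.snd (h1.comp Primrec.snd).to₂
  exact (primrec_enc b).comp h2

omit [Finite A] in
theorem primrec_clock : Primrec fun x : ℕ × List (Option A) =>
    enc b (List.replicate (tk x.2) 1) := by
  have h1 : Primrec fun x : ℕ × List (Option A) =>
      (List.range (textE x.2)).map fun _ => (1 : ℕ) :=
    Primrec.list_map (Primrec.list_range.comp (textE_primrec.comp Primrec.snd))
      (Primrec.const 1).to₂
  refine ((primrec_enc b).comp h1).of_eq fun x => ?_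
  rw [List.map_const']
  rw [List.length_range]
  rfl

theorem primrec_text : Primrec fun x : ℕ × List (Option A) =>
    enc b ((stk x.1 x.2 none).map (dig (Γ' ⊕ Option A))) := by
  have h0 : Primrec fun a : A => dig (Γ' ⊕ Option A) (.inr (some a)) := Primrec.dom_finite _
  have h1 : Primrec fun x : ℕ × List (Option A) =>
      (textW x.2).map fun a => dig (Γ' ⊕ Option A) (.inr (some a)) :=
    Primrec.list_map (textW_primrec.comp Primrec.snd) (h0.comp Primrec.snd).to₂
  have h2 : Primrec fun x : ℕ × List (Option A) =>
      (List.range x.1).map fun _ => dig (Γ' ⊕ Option A) (.inr none) :=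
    Primrec.list_map (Primrec.list_range.comp Primrec.fst) (Primrec.const _).to₂
  refine ((primrec_enc b).comp (Primrec.list_append.comp h1 h2)).of_eq fun x => ?_
  rw [List.map_const', List.length_range]
  congr 1
  simp [stk, liftS, text', textW, Function.comp_def]

theorem primrec_strt {Q : Type} (n : ℕ) (q0 : Q) (k : K1 (Option K')) :
    Primrec fun x : ℕ × List (Option A) => (strt b n q0 x.1 x.2).2 k := by
  rcases k with _ | _ | _ | k
  · exact primrec_arch b
  · exact primrec_clock b
  · exact primrec_text b
  · exact (Primrec.const (enc b [])).of_eq fun x => by simp [strt, cfg, stk, liftS]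

end comp

section dec

variable {A : Type} [Finite A] {Q : Type}
variable (ins : Q → Ins Q (Option K') (Γ' ⊕ Option A)) (qa : Q)
variable {n : ℕ} (e : K1 (Option K') ≃ Fin n) (b : ℕ) {nQ nR : ℕ}
variable (f : (Q ⊕ Fin (n + 1)) ⊕ Let ins qa n (b - 1) ≃ Fin nQ)
variable (h : Fin nR ≃ Let ins qa n (b - 1) ⊕ Let ins qa n (b - 1))

/-- the rules of the final machine -/
noncomputable def frule (r : Fin nR) : Pop (Fin nQ) (Fin n) :=
  (split (lets ins qa e (b - 1)) (h r)).map f e

/-- terminal configurations -/
def Term (d : Cf (Fin nQ) (Fin n)) : Prop :=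
  (f.symm d.1).isLeft = true ∧ ∀ r ∈ List.finRange nR, (h r).isRight = true ∨
    (frule ins qa e b f h r).Not b d

theorem re_term (hb : 0 < b) : REPred (Term ins qa e b f h) := by
  have e1 : Computable fun d : Cf (Fin nQ) (Fin n) => (f.symm d.1).isLeft :=
    (Primrec.dom_finite fun q : Fin nQ => (f.symm q).isLeft).to_comp.comp Computable.fst
  have e2 : Computable fun x : Cf (Fin nQ) (Fin n) × Fin nR => (h x.2).isRight :=
    (Primrec.dom_finite fun r : Fin nR => (h r).isRight).to_comp.comp Computable.snd
  have h1 : REPred fun x : Cf (Fin nQ) (Fin n) × Fin nR => (h x.2).isRight = true :=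
    re_of_computable e2 fun _ => Iff.rfl
  have h2 : REPred fun x : Cf (Fin nQ) (Fin n) × Fin nR => (frule ins qa e b f h x.2).Not b x.1 :=
    re_not hb (frule ins qa e b f h)
  have h3 : REPred fun x : Cf (Fin nQ) (Fin n) × Fin nR => (h x.2).isRight = true ∨
      (frule ins qa e b f h x.2).Not b x.1 := re_or h1 h2
  have h4 : REPred fun d : Cf (Fin nQ) (Fin n) => ∀ r ∈ List.finRange nR,
      (h r).isRight = true ∨ (frule ins qa e b f h r).Not b d :=
    re_all_mem₂ (p := fun (d : Cf (Fin nQ) (Fin n)) (r : Fin nR) => (h r).isRight = true ∨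
      (frule ins qa e b f h r).Not b d) h3 (Computable.const _)
  have h5 : REPred fun d : Cf (Fin nQ) (Fin n) => (f.symm d.1).isLeft = true :=
    re_of_computable e1 fun _ => Iff.rfl
  exact re_and h5 h4

theorem term_iff (d : Cf (Q ⊕ Fin (n + 1)) (K1 (Option K'))) :
    Term ins qa e b f h (cmap f e (lft d)) ↔ ∀ x, ¬ St ins qa e b d x := by
  constructor
  · rintro ⟨-, h2⟩ x ⟨r, h3, -⟩
    rcases h2 (h.symm (.inl r)) (List.mem_finRange _) with h4 | h4
    · simp at h4
    · rw [frule, Equiv.apply_symm_apply] at h4
      rcases h4 with h4 | ⟨k, d', h4, h5⟩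
      · apply h4
        show f (.inl d.1) = f (.inl (lets ins qa e (b - 1) r).src)
        rw [h3.1]
      · exact h5 (h3.2 _ _ h4)
  · intro hd
    refine ⟨by simp [lft], fun r _ => ?_⟩
    rcases hr : h r with r0 | r0
    · right
      have h1 : ¬ (lets ins qa e (b - 1) r0).Ok b d := fun h1 => hd _ ⟨r0, h1, rfl⟩
      by_cases h2 : d.1 = (lets ins qa e (b - 1) r0).src
      · right
        by_contra h3
        apply h1
        refine ⟨h2, fun k d' hk => ?_⟩
        by_contra h4
        apply h3
        refine ⟨e k, d', ?_, ?_⟩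
        · rw [frule, hr]
          show (lets ins qa e (b - 1) r0).pop (e.symm (e k)) = _
          rw [Equiv.symm_apply_apply, hk]
        · show (d.2 (e.symm (e k))) % b ≠ _
          rw [Equiv.symm_apply_apply]
          exact h4
      · left
        intro h3
        rw [frule, hr] at h3
        have h4 : f (.inl d.1) = f (.inl (lets ins qa e (b - 1) r0).src) := h3
        exact h2 (Sum.inl.inj (f.injective h4))
    · left
      rfl

/-- halting is decidable -/
theorem dec_halt (hb : Nat.card (Γ' ⊕ Option A) + 3 ≤ b) :
    ComputablePred fun c : Cf (Fin nQ) (Fin n) =>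
      PConn b (frule ins qa e b f h) c (cmap f e (lft (hlt n))) := by
  have h1 : REPred fun c : Cf (Fin nQ) (Fin n) =>
      PConn b (frule ins qa e b f h) c (cmap f e (lft (hlt n))) :=
    re_comp (re_pconn b (frule ins qa e b f h)) (Computable.id.pair (Computable.const _))
  have h2 : REPred fun c : Cf (Fin nQ) (Fin n) =>
      ∃ d : Cf (Fin nQ) (Fin n), (Term ins qa e b f h d ∧ d ≠ cmap f e (lft (hlt n))) ∧
        PConn b (frule ins qa e b f h) c d := by
    refine re_ex₂ (p := fun (c d : Cf (Fin nQ) (Fin n)) => (Term ins qa e b f h d ∧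
      d ≠ cmap f e (lft (hlt n))) ∧ PConn b (frule ins qa e b f h) c d) ?_
    refine re_and (re_and ?_ ?_) (re_pconn b (frule ins qa e b f h))
    · exact re_comp (re_term ins qa e b f h (by omega)) Computable.snd
    · exact re_ne Computable.snd (Computable.const _)
  have h3 : ∀ c : Cf (Fin nQ) (Fin n), (∃ d : Cf (Fin nQ) (Fin n), (Term ins qa e b f h d ∧
      d ≠ cmap f e (lft (hlt n))) ∧ PConn b (frule ins qa e b f h) c d) ↔
      ¬ PConn b (frule ins qa e b f h) c (cmap f e (lft (hlt n))) := by
    intro c
    obtain ⟨c, rfl⟩ := (cmap f e).surjective c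
    constructor
    · rintro ⟨d, ⟨hd1, hd2⟩, hd3⟩ hc
      obtain ⟨d, rfl⟩ := (cmap f e).surjective d
      have h4 : d.1.isLeft = true := by
        have := hd1.1
        rwa [cmap_fst, Equiv.symm_apply_apply] at this
      obtain ⟨q | r, s⟩ := d
      · have h5 : PConn b (frule ins qa e b f h) (cmap f e (lft (q, s)))
            (cmap f e (lft (hlt n))) := EqvGen.trans _ _ _ (EqvGen.symm _ _ hd3) hc
        have h6 := PConn.map_iff.1 h5
        have h7 := term_unique ins qa e b hb h6 ((term_iff ins qa e b f h (q, s)).1 hd1)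
          (hlt_stuck ins qa e b)
        apply hd2
        rw [← h7]
        rfl
      · cases h4
    · intro hc
      obtain ⟨d, h4, h5⟩ := term_exists ins qa e b hb c
      have h6 : PConn b (frule ins qa e b f h) (cmap f e c) (cmap f e (lft d)) :=
        PConn.map_iff.2 h4
      exact ⟨cmap f e (lft d), ⟨(term_iff ins qa e b f h d).2 h5, fun h7 => hc (h7 ▸ h6)⟩, h6⟩
  obtain ⟨g, hg, hg2⟩ := exists_bool h1 h2 h3
  exact ComputablePred.computable_iff.2 ⟨g, hg, funext fun a => propext (hg2 a).symm⟩

end dec

instance : Finite K' := by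
  let g : K' → Fin 4 := fun k => match k with
    | .main => 0
    | .rev => 1
    | .aux => 2
    | .stack => 3
  refine Finite.of_injective g ?_
  intro k k'
  cases k <;> cases k' <;> simp [g]

theorem inpp_lt {A S : Type} [Finite A] (q : S) (o : Option A) (k : K1 (Option K')) (d : ℕ)
    (h1 : (inpp q o).dg k = some d) :
    d < Nat.card (Γ' ⊕ Option A) + Nat.card (Option A) + 3 := by
  have h2 := dig_le (A := Option A)
  have h3 := dig_le (A := Γ' ⊕ Option A)
  rcases k with _ | _ | _ | k
  · simp [inpp] at h1
    have := h2 o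
    omega
  · cases o with
    | none => simp [inpp] at h1; omega
    | some a => simp [inpp] at h1
  · cases o with
    | none => simp [inpp] at h1
    | some a => simp [inpp] at h1; have := h3 (.inr (some a)); omega
  · cases o with
    | none => simp [inpp] at h1
    | some a => simp [inpp] at h1

/-- **The clocked universal machine exists.** -/
theorem exists_um (A : Type) [Finite A] [Primcodable A] : Nonempty (UM A) := by
  classical
  obtain ⟨Q, hQ, ins, q0, qb, hqb, hh, hkl⟩ := exists_univ_mach' A
  let b : ℕ := Nat.card (Γ' ⊕ Option A) + Nat.card (Option A) + 3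
  have hb1 : Nat.card (Γ' ⊕ Option A) + 3 ≤ b := by omega
  have hb2 : Nat.card (Option A) + 3 ≤ b := by omega
  let n : ℕ := Nat.card (K1 (Option K'))
  let e : K1 (Option K') ≃ Fin n := Finite.equivFin _
  have hv : Finite {x : Q × Option (Γ' ⊕ Option A) // Val ins (qb true) x} := inferInstance
  let f : (Q ⊕ Fin (n + 1)) ⊕ Let ins (qb true) n (b - 1) ≃
    Fin (Nat.card ((Q ⊕ Fin (n + 1)) ⊕ Let ins (qb true) n (b - 1))) := Finite.equivFin _
  let h : Fin (Nat.card (Let ins (qb true) n (b - 1) ⊕ Let ins (qb true) n (b - 1))) ≃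
    Let ins (qb true) n (b - 1) ⊕ Let ins (qb true) n (b - 1) := (Finite.equivFin _).symm
  have hw := lets_wf ins (qb true) e hb1
  exact ⟨{
    nQ := _
    nK := n
    nR := _
    b := b
    hb := by omega
    rule := frule ins (qb true) e b f h
    rule_lt := fun r k d hd => by
      have h1 : (split (lets ins (qb true) e (b - 1)) (h r)).dg (e.symm k) = some d := hd
      rcases hr : h r with r0 | r0
      · rw [hr] at h1
        have := (hw r0).pop_lt _ _ h1
        omega
      · rw [hr] at h1
        have := (hw r0).push_lt _ _ h1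
        omega
    inp := fun o => (inpp (Sum.inl (Sum.inl q0)) o).map f e
    inp_lt := fun o k d hd =>
      inpp_lt (Sum.inl (Sum.inl q0) : (Q ⊕ Fin (n + 1)) ⊕ Let ins (qb true) n (b - 1)) o
        (e.symm k) d hd
    qin := f (.inl (.inl q0))
    qh := f (.inl (.inr (Fin.last n)))
    I := e none
    inp_src := fun o => rfl
    inp_tgt := fun o => rfl
    da := dig (Option A)
    da_inj := fun _ _ => dig_inj
    da_pos := dig_pos
    inp_I := fun o => by
      show (inpp (Sum.inl (Sum.inl q0) : (Q ⊕ Fin (n + 1)) ⊕ Let ins (qb true) n (b - 1))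
        o).dg (e.symm (e none)) = _
      rw [Equiv.symm_apply_apply]
      rfl
    start := fun ex w => (cmap f e (lft (strt b n q0 ex w))).2
    start_cons := fun ex o w => by
      refine ⟨rfl, rfl, fun k => ?_⟩
      exact strt_cons b n q0 ex o w (e.symm k)
    start_I := fun ex w => by
      show (strt b n q0 ex w).2 (e.symm (e none)) = _
      rw [Equiv.symm_apply_apply]
      rfl
    start_comp := by
      have h1 : Primrec₂ fun (x : ℕ × List (Option A)) (k : Fin n) =>
          (strt b n q0 x.1 x.2).2 (e.symm k) := by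
        have h2 : Primrec₂ fun (k : Fin n) (x : ℕ × List (Option A)) =>
            (strt b n q0 x.1 x.2).2 (e.symm k) :=
          Primrec.fin_curry₁.2 fun k => primrec_strt b n q0 (e.symm k)
        exact h2.comp Primrec.snd Primrec.fst
      exact (Primrec.fin_curry.2 h1).to_comp
    archive := fun ex w hn c hc => by
      obtain ⟨c, rfl⟩ := (cmap f e).surjective c
      have h1 : ¬ PConn b (split (lets ins (qb true) e (b - 1))) (lft (strt b n q0 ex w))
          (lft (hlt n)) := fun h2 => hn (PConn.map_iff.2 h2)
      have h2 : PConn b (split (lets ins (qb true) e (b - 1))) (lft (strt b n q0 ex w)) c :=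
        PConn.map_iff.1 hc
      have h3 := arch q0 (qb true) e b hb1 hb2 h1 h2
      show c.2 (e.symm (e none)) = (strt b n q0 ex w).2 (e.symm (e none))
      rw [Equiv.symm_apply_apply]
      exact h3
    dec := dec_halt ins (qb true) e b f h hb1
    kleene := fun Alg hAlg => by
      obtain ⟨ex, hex⟩ := hkl Alg hAlg
      refine ⟨ex, fun w => ?_⟩
      obtain ⟨S, hS⟩ := hex w
      rw [← acc_iff ins q0 e b hqb hh hb1 hb2 hS]
      refine exists_congr fun w1 => and_congr_right fun _ => ?_
      exact PConn.map_iff (f := f) (g := e) (h := h) (c := lft (strt b n q0 ex w1))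
        (c' := lft (hlt n)) }⟩

end Crest.Agent.R185.Clk
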