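import Mathlib.Computability.TuringMachine.ToPartrec
import Mathlib.Computability.RE
import Mathlib.Data.Set.Finite.Lattice
import Mathlib.Data.Finite.Prod

/-!
# R185, block COMP, part 1: micro-step stack machines and flattening of `Turing.TM2`

A *micro-step stack machine* has a set of states `Q`, a set of stacks `K`, a stack alphabet `A`, and
one instruction per state: `goto`, `push`, `pop` (branching on the popped symbol, `none` if the stack
is empty; popping an empty stack leaves it empty) or `halt`.
-/

set_option autoImplicit false

namespace Crest.Agent.R185.Comp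

open StateTransition Turing Function Relation

/-- Instructions of micro-step stack machines. -/
inductive Ins (Q K A : Type)
  | goto (q : Q)
  | push (k : K) (a : A) (q : Q)
  | pop (k : K) (f : Option A → Q)
  | halt

variable {Q Q' K K' A A' : Type}

/-- the possible successor states of an instruction -/
def Ins.succ : Ins Q K A → Set Q
  | .goto q => {q}
  | .push _ _ q => {q}
  | .pop _ f => Set.range f
  | .halt => ∅

/-- One step of a micro-step machine. -/
def step [DecidableEq K] (ins : Q → Ins Q K A) (c : Q × (K → List A)) :
    Option (Q × (K → List A)) :=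
  match ins c.1 with
  | .goto q => some (q, c.2)
  | .push k a q => some (q, update c.2 k (a :: c.2 k))
  | .pop k f => some (f (c.2 k).head?, update c.2 k (c.2 k).tail)
  | .halt => none

section step
variable [DecidableEq K] (ins : Q → Ins Q K A)

theorem step_goto {q q' : Q} (h : ins q = .goto q') (S : K → List A) :
    step ins (q, S) = some (q', S) := by
  simp [step, h]

theorem step_push {q q' : Q} {k : K} {a : A} (h : ins q = .push k a q') (S : K → List A) :
    step ins (q, S) = some (q', update S k (a :: S k)) := by
  simp [step, h]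

theorem step_pop {q : Q} {k : K} {f : Option A → Q} (h : ins q = .pop k f) (S : K → List A) :
    step ins (q, S) = some (f (S k).head?, update S k (S k).tail) := by
  simp [step, h]

theorem step_halt {q : Q} (h : ins q = .halt) (S : K → List A) :
    step ins (q, S) = none := by
  simp [step, h]

theorem step_eq_none {c : Q × (K → List A)} : step ins c = none ↔ ins c.1 = .halt := by
  unfold step
  cases ins c.1 <;> simp

end step

/-! ### Flattening `TM2` -/

section flatten

variable {Λ σ : Type}

/-- the branching function used for `peek` -/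
def peekF (k : K) (f : σ → Option A → σ) (q : TM2.Stmt (fun _ : K => A) Λ σ) (v : σ) :
    Option A → Option (TM2.Stmt (fun _ : K => A) Λ σ × σ)
  | none => some (q, f v none)
  | some a => some (.push k (fun _ => a) q, f v (some a))

/-- The micro-step machine of a `TM2` machine. -/
def fins (M : Λ → TM2.Stmt (fun _ : K => A) Λ σ) :
    Option (TM2.Stmt (fun _ : K => A) Λ σ × σ) →
      Ins (Option (TM2.Stmt (fun _ : K => A) Λ σ × σ)) K A
  | none => .halt
  | some (.push k f q, v) => .push k (f v) (some (q, v))
  | some (.peek k f q, v) => .pop k (peekF k f q v)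
  | some (.pop k f q, v) => .pop k fun o => some (q, f v o)
  | some (.load a q, v) => .goto (some (q, a v))
  | some (.branch f q₁ q₂, v) => .goto (some (cond (f v) q₁ q₂, v))
  | some (.goto l, v) => .goto (some (M (l v), v))
  | some (.halt, _) => .goto none

/-- Translation of configurations. -/
def ftr (M : Λ → TM2.Stmt (fun _ : K => A) Λ σ) :
    TM2.Cfg (fun _ : K => A) Λ σ → Option (TM2.Stmt (fun _ : K => A) Λ σ × σ) × (K → List A)
  | ⟨some l, v, S⟩ => (some (M l, v), S)
  | ⟨none, _, S⟩ => (none, S)

variable [DecidableEq K]

theorem fins_aux (M : Λ → TM2.Stmt (fun _ : K => A) Λ σ) (q : TM2.Stmt (fun _ : K => A) Λ σ) :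
    ∀ (v : σ) (S : K → List A),
      Reaches₁ (step (fins M)) (some (q, v), S) (ftr M (TM2.stepAux q v S)) := by
  induction q with
  | push k f q ih =>
    intro v S
    refine TransGen.head (b := (some (q, v), update S k (f v :: S k))) ?_ (ih _ _)
    exact step_push _ rfl _
  | peek k f q ih =>
    intro v S
    cases hS : S k with
    | nil =>
      have hv : update S k ([] : List A) = S := by rw [← hS, update_eq_self]
      refine TransGen.head (b := (some (q, f v none), S)) ?_ ?_
      · have := step_pop (fins M)
          (show fins M (some (.peek k f q, v)) = .pop k (peekF k f q v) from rfl) S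
        rw [this, hS]
        simp [hv, peekF]
      · have := ih (f v (S k).head?) S
        rw [hS] at this
        simp only [TM2.stepAux, hS]
        exact this
    | cons a L =>
      refine TransGen.head (b := (some (.push k (fun _ => a) q, f v (some a)), update S k L)) ?_ ?_
      · have := step_pop (fins M)
          (show fins M (some (.peek k f q, v)) = .pop k (peekF k f q v) from rfl) S
        rw [this, hS]
        simp [peekF]
      · refine TransGen.head (b := (some (q, f v (some a)), S)) ?_ ?_
        · have := step_push (fins M) (q := some (.push k (fun _ => a) q, f v (some a))) rfl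
            (update S k L)
          rw [this]
          simp only [update_self, update_idem, Option.mem_def, Option.some.injEq, Prod.mk.injEq,
            true_and]
          rw [← hS, update_eq_self]
        · have := ih (f v (S k).head?) S
          rw [hS] at this
          simp only [TM2.stepAux, hS]
          exact this
  | pop k f q ih =>
    intro v S
    refine TransGen.head (b := (some (q, f v (S k).head?), update S k (S k).tail)) ?_ (ih _ _)
    exact step_pop (fins M)
      (show fins M (some (.pop k f q, v)) = .pop k (fun o => some (q, f v o)) from rfl) S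
  | load a q ih =>
    intro v S
    refine TransGen.head (b := (some (q, a v), S)) ?_ (ih _ _)
    exact step_goto _ rfl _
  | branch f q₁ q₂ ih₁ ih₂ =>
    intro v S
    refine TransGen.head (b := (some (cond (f v) q₁ q₂, v), S)) ?_ ?_
    · exact step_goto _ rfl _
    · simp only [TM2.stepAux]
      cases f v
      · exact ih₂ _ _
      · exact ih₁ _ _
  | goto l =>
    intro v S
    exact TransGen.single (step_goto _ rfl _)
  | halt =>
    intro v S
    exact TransGen.single (step_goto _ rfl _)

theorem fins_respects (M : Λ → TM2.Stmt (fun _ : K => A) Λ σ) :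
    Respects (TM2.step M) (step (fins M)) (fun a b => ftr M a = b) := by
  rw [fun_respects]
  rintro ⟨l, v, S⟩
  cases l with
  | none =>
    simp only [TM2.step, FRespects]
    exact step_halt _ rfl _
  | some l =>
    simp only [TM2.step, FRespects]
    exact fins_aux M (M l) v S

/-! ### Finite closed sets of states -/

/-- substatements, including the push-back statements used for `peek` -/
def subs : TM2.Stmt (fun _ : K => A) Λ σ → Set (TM2.Stmt (fun _ : K => A) Λ σ)
  | Q@(.push _ _ q) => insert Q (subs q)
  | Q@(.peek k _ q) => insert Q (subs q ∪ Set.range fun a => TM2.Stmt.push k (fun _ => a) q)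
  | Q@(.pop _ _ q) => insert Q (subs q)
  | Q@(.load _ q) => insert Q (subs q)
  | Q@(.branch _ q₁ q₂) => insert Q (subs q₁ ∪ subs q₂)
  | Q@(.goto _) => {Q}
  | Q@.halt => {Q}

omit [DecidableEq K] in
theorem self_mem_subs (q : TM2.Stmt (fun _ : K => A) Λ σ) : q ∈ subs q := by
  cases q <;> simp [subs]

omit [DecidableEq K] in
theorem subs_finite [Finite A] (q : TM2.Stmt (fun _ : K => A) Λ σ) : (subs q).Finite := by
  induction q with
  | push k f q ih => exact ih.insert _
  | peek k f q ih => exact (ih.union (Set.finite_range _)).insert _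
  | pop k f q ih => exact ih.insert _
  | load a q ih => exact ih.insert _
  | branch f q₁ q₂ ih₁ ih₂ => exact (ih₁.union ih₂).insert _
  | goto l => exact Set.finite_singleton _
  | halt => exact Set.finite_singleton _

/-- the target set: `none`, or a pair with first component in the given set -/
def optSet (R : Set (TM2.Stmt (fun _ : K => A) Λ σ)) :
    Set (Option (TM2.Stmt (fun _ : K => A) Λ σ × σ)) :=
  {x | ∀ q v, x = some (q, v) → q ∈ R}

omit [DecidableEq K] in
theorem subs_succ (M : Λ → TM2.Stmt (fun _ : K => A) Λ σ) (S : Finset Λ)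
    (s : TM2.Stmt (fun _ : K => A) Λ σ) (hs : TM2.SupportsStmt S s) :
    ∀ q ∈ subs s, ∀ v, (fins M (some (q, v))).succ ⊆ optSet (subs s ∪ {q | ∃ l ∈ S, q = M l}) := by
  have mono : ∀ {R R' : Set (TM2.Stmt (fun _ : K => A) Λ σ)}, R ⊆ R' → optSet R ⊆ optSet R' :=
    fun h x hx q v e => h (hx q v e)
  have self : ∀ q : TM2.Stmt (fun _ : K => A) Λ σ, q ∈ subs q := self_mem_subs
  induction s with
  | push k f q ih =>
    rintro q' (rfl | h) v
    · rintro x rfl q' v' e
      cases e
      exact Or.inl (Or.inr (self _))
    · exact (ih hs q' h v).trans (mono (Set.union_subset_union_left _ (Set.subset_insert _ _)))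
  | peek k f q ih =>
    rintro q' (rfl | h | ⟨a, rfl⟩) v
    · rintro x ⟨o, rfl⟩ q' v' e
      cases o with
      | none =>
        cases e
        exact Or.inl (Or.inr (Or.inl (self _)))
      | some a =>
        cases e
        exact Or.inl (Or.inr (Or.inr ⟨a, rfl⟩))
    · refine (ih hs q' h v).trans (mono (Set.union_subset_union_left _ ?_))
      exact fun x hx => Or.inr (Or.inl hx)
    · rintro x rfl q' v' e
      cases e
      exact Or.inl (Or.inr (Or.inl (self _)))
  | pop k f q ih =>
    rintro q' (rfl | h) v
    · rintro x ⟨o, rfl⟩ q' v' e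
      cases e
      exact Or.inl (Or.inr (self _))
    · exact (ih hs q' h v).trans (mono (Set.union_subset_union_left _ (Set.subset_insert _ _)))
  | load a q ih =>
    rintro q' (rfl | h) v
    · rintro x rfl q' v' e
      cases e
      exact Or.inl (Or.inr (self _))
    · exact (ih hs q' h v).trans (mono (Set.union_subset_union_left _ (Set.subset_insert _ _)))
  | branch f q₁ q₂ ih₁ ih₂ =>
    rintro q' (rfl | h | h) v
    · rintro x rfl q' v' e
      simp only [Option.some.injEq, Prod.mk.injEq] at e
      obtain ⟨rfl, rfl⟩ := e
      cases f v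
      · exact Or.inl (Or.inr (Or.inr (self _)))
      · exact Or.inl (Or.inr (Or.inl (self _)))
    · refine (ih₁ hs.1 q' h v).trans (mono (Set.union_subset_union_left _ ?_))
      exact fun x hx => Or.inr (Or.inl hx)
    · refine (ih₂ hs.2 q' h v).trans (mono (Set.union_subset_union_left _ ?_))
      exact fun x hx => Or.inr (Or.inr hx)
  | goto l =>
    rintro q' rfl v
    rintro x rfl q' v' e
    cases e
    exact Or.inr ⟨_, hs v, rfl⟩
  | halt =>
    rintro q' rfl v
    rintro x rfl q' v' e
    cases e

/-- All states of the flattened machine over a set of labels. -/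
def fstates (M : Λ → TM2.Stmt (fun _ : K => A) Λ σ) (S : Finset Λ) :
    Set (Option (TM2.Stmt (fun _ : K => A) Λ σ × σ)) :=
  optSet {q | ∃ l ∈ S, q ∈ subs (M l)}

omit [DecidableEq K] in
theorem fstates_finite [Finite A] [Finite σ] (M : Λ → TM2.Stmt (fun _ : K => A) Λ σ)
    (S : Finset Λ) : (fstates M S).Finite := by
  have h1 : {q | ∃ l ∈ S, q ∈ subs (M l)}.Finite := by
    have : {q | ∃ l ∈ S, q ∈ subs (M l)} = ⋃ l ∈ S, subs (M l) := by
      ext q; simp
    rw [this]
    exact S.finite_toSet.biUnion fun l _ => subs_finite _
  have h2 : fstates M S ⊆ insert none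
      (some '' ({q | ∃ l ∈ S, q ∈ subs (M l)} ×ˢ (Set.univ : Set σ))) := by
    rintro (_ | ⟨q, v⟩) hx
    · exact Or.inl rfl
    · exact Or.inr ⟨(q, v), ⟨hx q v rfl, trivial⟩, rfl⟩
  exact (((h1.prod Set.finite_univ).image _).insert _).subset h2

omit [DecidableEq K] in
theorem fstates_closed (M : Λ → TM2.Stmt (fun _ : K => A) Λ σ) (S : Finset Λ)
    (hS : ∀ l ∈ S, TM2.SupportsStmt S (M l)) :
    ∀ x ∈ fstates M S, (fins M x).succ ⊆ fstates M S := by
  rintro (_ | ⟨q, v⟩) hx
  · rintro x hx
    cases hx
  · obtain ⟨l, hl, hq⟩ := hx q v rfl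
    refine (subs_succ M S (M l) (hS l hl) q hq v).trans ?_
    intro x hx q' v' e
    rcases hx q' v' e with h | ⟨l', hl', rfl⟩
    · exact ⟨l, hl, h⟩
    · exact ⟨l', hl', self_mem_subs _⟩

omit [DecidableEq K] in
theorem none_mem_fstates (M : Λ → TM2.Stmt (fun _ : K => A) Λ σ) (S : Finset Λ) :
    none ∈ fstates M S := fun _ _ e => by cases e

omit [DecidableEq K] in
theorem some_mem_fstates (M : Λ → TM2.Stmt (fun _ : K => A) Λ σ) (S : Finset Λ) {l : Λ}
    (hl : l ∈ S) (v : σ) : some (M l, v) ∈ fstates M S := by
  intro q v' e
  cases e
  exact ⟨l, hl, self_mem_subs _⟩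

end flatten

/-! ### Restriction to a closed set of states -/

/-- restrict an instruction to a set of states containing its successors -/
def Ins.restrict (R : Set Q) : (i : Ins Q K A) → i.succ ⊆ R → Ins R K A
  | .goto q, h => .goto ⟨q, h rfl⟩
  | .push k a q, h => .push k a ⟨q, h rfl⟩
  | .pop k f, h => .pop k fun o => ⟨f o, h ⟨o, rfl⟩⟩
  | .halt, _ => .halt

/-- the restricted machine -/
def rins (ins : Q → Ins Q K A) (R : Set Q) (hR : ∀ q ∈ R, (ins q).succ ⊆ R) (q : R) : Ins R K A :=
  (ins q.1).restrict R (hR q.1 q.2)

theorem rins_step [DecidableEq K] (ins : Q → Ins Q K A) (R : Set Q)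
    (hR : ∀ q ∈ R, (ins q).succ ⊆ R) (q : R) (S : K → List A) :
    step ins (q.1, S) = (step (rins ins R hR) (q, S)).map fun c => (c.1.1, c.2) := by
  have h : ∀ (i : Ins Q K A) (hi : i.succ ⊆ R), ins q.1 = i →
      rins ins R hR q = i.restrict R hi →
      step ins (q.1, S) = (step (rins ins R hR) (q, S)).map fun c => (c.1.1, c.2) := by
    intro i hi e1 e2
    cases i <;> simp [step, e1, e2, Ins.restrict]
  exact h (ins q.1) (hR q.1 q.2) rfl rfl

theorem rins_respects [DecidableEq K] (ins : Q → Ins Q K A) (R : Set Q)
    (hR : ∀ q ∈ R, (ins q).succ ⊆ R) :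
    Respects (step (rins ins R hR)) (step ins) (fun a b => (a.1.1, a.2) = b) := by
  rw [fun_respects]
  rintro ⟨q, S⟩
  have := rins_step ins R hR q S
  cases h : step (rins ins R hR) (q, S) with
  | none =>
    rw [h] at this
    simpa [FRespects] using this
  | some c =>
    rw [h] at this
    simp only [FRespects]
    exact TransGen.single this

end Crest.Agent.R185.Comp
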