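import Crest.Agent.R185.Comp1

/-!
# R185, block COMP, part 2: a finite micro-step machine for every partial recursive function

Main result `exists_code_mach`: for every `c : Turing.ToPartrec.Code` there is a micro-step stack
machine with finitely many states, four stacks (`K'`), alphabet `Γ'`, and a unique halting state `qf`,
which evaluates `c`.
-/

set_option autoImplicit false

namespace Crest.Agent.R185.Comp

open StateTransition Turing Function Relation Turing.PartrecToTM2

/-- `PartrecToTM2.halt`, with the unfolded type -/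
def haltC (v : List ℕ) : TM2.Cfg (fun _ : K' => Γ') Λ' (Option Γ') :=
  ⟨none, none, K'.elim (trList v) [] [] []⟩

/-- `PartrecToTM2.init`, with the unfolded type -/
def initC (c : ToPartrec.Code) (v : List ℕ) : TM2.Cfg (fun _ : K' => Γ') Λ' (Option Γ') :=
  ⟨some (trNormal c Cont'.halt), none, K'.elim (trList v) [] [] []⟩

theorem eval_initC (c : ToPartrec.Code) (v : List ℕ) :
    eval (TM2.step (K := K') (Γ := fun _ => Γ') tr) (initC c v) = (c.eval v).map haltC :=
  tr_eval c v

theorem exists_code_mach (c : ToPartrec.Code) :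
    ∃ (Q : Type) (_ : Finite Q) (ins : Q → Ins Q K' Γ') (q0 qf : Q),
      (∀ q, ins q = .halt ↔ q = qf) ∧
      ∀ v : List ℕ, eval (step ins) (q0, K'.elim (trList v) [] [] []) =
        (c.eval v).map fun v' => (qf, K'.elim (trList v') [] [] []) := by
  classical
  set M : Λ' → TM2.Stmt (fun _ : K' => Γ') Λ' (Option Γ') := tr with hM
  set R : Finset Λ' := codeSupp c Cont'.halt with hR
  have hsup : ∀ l ∈ R, TM2.SupportsStmt R (M l) := by
    have := (@tr_supports c Cont'.halt)
    exact this.2
  have hcl := fstates_closed (K := K') (A := Γ') M R hsup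
  have hfin := fstates_finite (K := K') (A := Γ') M R
  have hinit : trNormal c Cont'.halt ∈ R := codeSupp_self _ _ (trStmts₁_self _)
  refine ⟨fstates M R, hfin.to_subtype, rins (fins M) _ hcl,
    ⟨some (M (trNormal c Cont'.halt), none), some_mem_fstates M R hinit _⟩,
    ⟨none, none_mem_fstates M R⟩, ?_, ?_⟩
  · rintro ⟨q, hq⟩
    have h0 : ∀ (i : Ins _ K' Γ') (hi : i.succ ⊆ fstates M R),
        i.restrict (fstates M R) hi = .halt ↔ i = .halt := by
      intro i hi
      cases i <;> simp [Ins.restrict]
    unfold rins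
    rw [h0]
    rcases q with _ | ⟨q, v⟩
    · simp [fins]
    · simp only [Subtype.mk.injEq, reduceCtorEq, iff_false]
      cases q <;> simp [fins]
  · intro v
    set g : (fstates M R) × (K' → List Γ') → _ × (K' → List Γ') := fun a => (a.1.1, a.2) with hg
    set q0 : fstates M R := ⟨some (M (trNormal c Cont'.halt), none),
      some_mem_fstates M R hinit _⟩ with hq0
    have e1 : eval (step (fins M)) (g (q0, K'.elim (trList v) [] [] [])) =
        (eval (step (rins (fins M) _ hcl)) (q0, K'.elim (trList v) [] [] [])).map g :=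
      tr_eval' (step (rins (fins M) _ hcl)) (step (fins M)) g (rins_respects (fins M) _ hcl) _
    have e2 : eval (step (fins M)) (ftr M (initC c v)) =
        (eval (TM2.step M) (initC c v)).map (ftr M) :=
      tr_eval' (TM2.step M) (step (fins M)) (ftr M) (fins_respects M) _
    have e3 : ftr M (initC c v) = g (q0, K'.elim (trList v) [] [] []) := rfl
    have e5 : eval (TM2.step M) (initC c v) = (c.eval v).map haltC := eval_initC c v
    rw [e3, e1, e5] at e2
    have ginj : Injective g := by
      rintro ⟨⟨a, ha⟩, S⟩ ⟨⟨b, hb⟩, T⟩ h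
      simp only [hg, Prod.mk.injEq] at h
      obtain ⟨rfl, rfl⟩ := h
      rfl
    refine Part.ext fun x => ?_
    constructor
    · intro hx
      have h1 : g x ∈ ((c.eval v).map haltC).map (ftr M) := by
        rw [← e2]
        exact Part.mem_map _ hx
      rw [Part.mem_map_iff] at h1
      obtain ⟨y, hy, hyx⟩ := h1
      rw [Part.mem_map_iff] at hy
      obtain ⟨v', hv', rfl⟩ := hy
      rw [Part.mem_map_iff]
      refine ⟨v', hv', ?_⟩
      apply ginj
      rw [← hyx]
      rfl
    · intro hx
      rw [Part.mem_map_iff] at hx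
      obtain ⟨v', hv', rfl⟩ := hx
      have h1 : ftr M (haltC v') ∈ (eval (step (rins (fins M) _ hcl))
          (q0, K'.elim (trList v) [] [] [])).map g := by
        rw [e2]
        exact Part.mem_map _ (Part.mem_map _ hv')
      rw [Part.mem_map_iff] at h1
      obtain ⟨y, hy, hyx⟩ := h1
      have h2 : y = ((⟨none, none_mem_fstates M R⟩ : fstates M R),
          K'.elim (trList v') [] [] []) := by
        apply ginj
        rw [hyx]
        rfl
      rw [← h2]
      exact hy

/-! ### binary representation -/

theorem trNat_two_mul (n : ℕ) (hn : 1 ≤ n) : trNat (2 * n) = Γ'.bit0 :: trNat n := by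
  have h : ((2 * n : ℕ) : Num) = (n : Num).bit0 := by
    rw [← Num.bit0_of_bit0, two_mul, Nat.cast_add]
  unfold trNat
  rw [h]
  obtain ⟨m, rfl⟩ : ∃ m, n = m + 1 := ⟨n - 1, by omega⟩
  have h2 : ((m + 1 : ℕ) : Num) ≠ 0 := by
    intro h0
    have := congrArg (fun x : Num => (x : ℕ)) h0
    simp at this
  cases h3 : ((m + 1 : ℕ) : Num) with
  | zero => exact absurd h3 h2
  | pos p => rfl

theorem trNat_two_mul_add_one (n : ℕ) : trNat (2 * n + 1) = Γ'.bit1 :: trNat n := by
  have h : ((2 * n + 1 : ℕ) : Num) = (n : Num).bit1 := by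
    rw [← Num.bit1_of_bit1, two_mul, Nat.cast_add, Nat.cast_add, Nat.cast_one]
  unfold trNat
  rw [h]
  cases h3 : (n : Num) with
  | zero => rfl
  | pos p => rfl

theorem trNat_one : trNat 1 = [Γ'.bit1] := by
  have := trNat_two_mul_add_one 0
  simpa using this

end Crest.Agent.R185.Comp
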