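import Crest.Agent.R185.Comp2
import Mathlib.Tactic.Ring
import Mathlib.Tactic.Linarith

/-!
# R185, block COMP, part 3: a finite stack machine for every partial recursive `f : List A →. Bool`

`exists_mach`: finite state set, stacks `Option K'` (input stack `none`), alphabet `Γ' ⊕ A`, halting
states exactly `qb true`, `qb false`; started with the word `w` on the input stack (first letter on
top) and all other stacks empty, it halts in state `qb b` iff `b ∈ f w`.
-/

set_option autoImplicit false

namespace Crest.Agent.R185.Comp

open StateTransition Turing Function Relation Turing.PartrecToTM2 Encodable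

/-! ### coding of words by numbers -/

/-- append a letter with index `i` to the code `n` -/
def app (i n : ℕ) : ℕ := (fun m => 2 * m + 1)^[i] (2 * n)

theorem app_add_one (i n : ℕ) : app i n + 1 = 2 ^ i * (2 * n + 1) := by
  induction i with
  | zero => simp [app]
  | succ i ih =>
    have h : app (i + 1) n = 2 * app i n + 1 := by
      unfold app
      rw [iterate_succ', comp_apply]
    rw [h, pow_succ]
    calc 2 * app i n + 1 + 1 = 2 * (app i n + 1) := by ring
      _ = _ := by rw [ih]; ring

theorem le_app (i n : ℕ) : 2 * n ≤ app i n := by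
  have h := app_add_one i n
  have h1 : 1 ≤ 2 ^ i := Nat.one_le_two_pow
  nlinarith

theorem two_pow_odd_inj : ∀ (i j n m : ℕ), 2 ^ i * (2 * n + 1) = 2 ^ j * (2 * m + 1) → i = j ∧ n = m
  | 0, 0, n, m, h => by simpa using h
  | 0, j + 1, n, m, h => by
    exfalso
    rw [pow_succ, pow_zero] at h
    have : 2 ^ j * 2 * (2 * m + 1) = 2 * (2 ^ j * (2 * m + 1)) := by ring
    omega
  | i + 1, 0, n, m, h => by
    exfalso
    rw [pow_succ, pow_zero] at h
    have : 2 ^ i * 2 * (2 * n + 1) = 2 * (2 ^ i * (2 * n + 1)) := by ring
    omega
  | i + 1, j + 1, n, m, h => by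
    have h' : 2 ^ i * (2 * n + 1) = 2 ^ j * (2 * m + 1) := by
      rw [pow_succ, pow_succ] at h
      have h1 : 2 ^ i * 2 * (2 * n + 1) = 2 * (2 ^ i * (2 * n + 1)) := by ring
      have h2 : 2 ^ j * 2 * (2 * m + 1) = 2 * (2 ^ j * (2 * m + 1)) := by ring
      omega
    obtain ⟨rfl, rfl⟩ := two_pow_odd_inj i j n m h'
    exact ⟨rfl, rfl⟩

theorem app_inj {i j n m : ℕ} (h : app i n = app j m) : i = j ∧ n = m := by
  apply two_pow_odd_inj
  rw [← app_add_one, ← app_add_one, h]

theorem app_ne_one {i n : ℕ} (hn : 1 ≤ n) : app i n ≠ 1 := by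
  have := le_app i n
  omega

section encF
variable {A : Type} [Encodable A]

/-- the numerical code of a word, starting with the number `n` -/
def encF (n : ℕ) (w : List A) : ℕ := w.foldl (fun n a => app (encode a) n) n

theorem encF_nil (n : ℕ) : encF n ([] : List A) = n := rfl

theorem encF_cons (n : ℕ) (a : A) (w : List A) : encF n (a :: w) = encF (app (encode a) n) w := rfl

theorem encF_concat (n : ℕ) (a : A) (w : List A) : encF n (w ++ [a]) = app (encode a) (encF n w) := by
  simp [encF]

theorem one_le_encF (w : List A) : ∀ {n : ℕ}, 1 ≤ n → 1 ≤ encF n w := by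
  induction w with
  | nil => exact fun h => h
  | cons a w ih =>
    intro n hn
    rw [encF_cons]
    apply ih
    have := le_app (encode a) n
    omega

theorem encF_inj : ∀ {w w' : List A}, encF 1 w = encF 1 w' → w = w' := by
  intro w
  induction w using List.reverseRecOn with
  | nil =>
    intro w'
    cases w' using List.reverseRecOn with
    | nil => exact fun _ => rfl
    | append_singleton w' a =>
      intro h
      rw [encF_concat, encF_nil] at h
      exact absurd h.symm (app_ne_one (one_le_encF _ le_rfl))
  | append_singleton w a ih =>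
    intro w'
    cases w' using List.reverseRecOn with
    | nil =>
      intro h
      rw [encF_concat, encF_nil] at h
      exact absurd h (app_ne_one (one_le_encF _ le_rfl))
    | append_singleton w' a' =>
      intro h
      rw [encF_concat, encF_concat] at h
      obtain ⟨h1, h2⟩ := app_inj h
      rw [ih h2, encode_injective h1]

end encF

section computable

theorem app_primrec : Primrec₂ app := by
  have h : Primrec₂ fun (_ : ℕ × ℕ) (m : ℕ) => 2 * m + 1 :=
    (Primrec.nat_add.comp (Primrec.nat_mul.comp (Primrec.const 2) Primrec.snd) (Primrec.const 1)).to₂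
  exact (Primrec.nat_iterate Primrec.fst
    (Primrec.nat_mul.comp (Primrec.const 2) Primrec.snd) h).to₂

theorem encF_primrec {A : Type} [Primcodable A] : Primrec (encF (A := A) 1) := by
  have h : Primrec₂ fun (_ : List A) (p : ℕ × A) => app (encode p.2) p.1 :=
    (app_primrec.comp (Primrec.encode.comp (Primrec.snd.comp Primrec.snd))
      (Primrec.fst.comp Primrec.snd)).to₂
  exact Primrec.list_foldl Primrec.id (Primrec.const 1) h

variable {A : Type} [Primcodable A]

/-- search for the decoding of a code -/
def decS (n k : ℕ) : Option (List A) :=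
  ((decode k : Option (List A))).bind fun w => if encF 1 w = n then some w else none

theorem decS_computable : Computable₂ (decS (A := A)) := by
  have h1 : Primrec fun p : ℕ × ℕ => (decode p.2 : Option (List A)) :=
    Primrec.decode.comp Primrec.snd
  have h2 : Primrec₂ fun (p : ℕ × ℕ) (w : List A) => if encF 1 w = p.1 then some w else none := by
    refine Primrec.ite ?_ (Primrec.option_some.comp Primrec.snd) (Primrec.const none)
    exact Primrec.eq.comp (encF_primrec.comp Primrec.snd) (Primrec.fst.comp Primrec.fst)
  exact (Primrec.option_bind h1 h2).to₂.to_comp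

theorem mem_decS {n k : ℕ} {w : List A} (h : w ∈ decS n k) : encF 1 w = n := by
  unfold decS at h
  rw [Option.mem_def, Option.bind_eq_some_iff] at h
  obtain ⟨w', -, h⟩ := h
  split_ifs at h with h1
  · cases h
    exact h1

theorem decS_encF (w : List A) : decS (encF 1 w) (encode w) = some w := by
  simp [decS]

/-- decoding as a partial function -/
def decP (n : ℕ) : Part (List A) := Nat.rfindOpt (decS n)

theorem decP_encF (w : List A) : decP (encF 1 w) = Part.some w := by
  have hd : (decP (A := A) (encF 1 w)).Dom :=
    Nat.rfindOpt_dom.2 ⟨encode w, w, decS_encF w⟩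
  have hm := Part.get_mem hd
  obtain ⟨k, hk⟩ := Nat.rfindOpt_spec hm
  have := encF_inj (mem_decS hk)
  rw [Part.eq_some_iff]
  rwa [this] at hm

theorem decP_partrec : Partrec (decP (A := A)) :=
  Partrec.rfindOpt decS_computable

/-- For every partial recursive `f : List A →. Bool` there is a `ToPartrec.Code` evaluating it. -/
theorem exists_code_list (f : List A →. Bool) (hf : Partrec f) :
    ∃ c : ToPartrec.Code, ∀ w : List A,
      c.eval [encF 1 w] = (f w).map fun b => [cond b 1 0] := by
  have h1 : Partrec fun n : ℕ => (decP n).bind f := decP_partrec.bind (hf.comp Computable.snd).to₂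
  have h2 : Partrec fun n : ℕ => ((decP n).bind f).map fun b => cond b 1 0 := by
    refine h1.map ?_
    exact (Primrec.cond Primrec.snd (Primrec.const 1) (Primrec.const 0)).to₂.to_comp
  have h3 := (Nat.Partrec'.part_iff₁ (f := fun n : ℕ => ((decP n).bind f).map
    fun b => cond b 1 0)).2 h2
  obtain ⟨c, hc⟩ := ToPartrec.Code.exists_code h3
  refine ⟨c, fun w => ?_⟩
  have := hc (encF 1 w ::ᵥ List.Vector.nil)
  rw [show ((encF 1 w ::ᵥ List.Vector.nil : List.Vector ℕ 1)).1 = [encF 1 w] from rfl] at this
  rw [this]
  simp only [List.Vector.head_cons, decP_encF]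
  have hb' : ∀ b, b ∈ (Part.some w).bind f ↔ b ∈ f w := fun b => by rw [Part.bind_some w f]
  refine Part.ext fun x => ?_
  simp only [Part.map_eq_map, Part.mem_map_iff]
  constructor
  · rintro ⟨n, ⟨b, hb, rfl⟩, rfl⟩
    exact ⟨b, (hb' b).1 hb, rfl⟩
  · rintro ⟨b, hb, rfl⟩
    exact ⟨_, ⟨b, (hb' b).2 hb, rfl⟩, rfl⟩

end computable

end Crest.Agent.R185.Comp
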