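import Crest.Agent.R185.Comp4

/-!
# R185, block COMP, part 5: corollaries

* `exists_mach_re`: a machine halting exactly on a given r.e. set of words;
* `exists_mach_dec`: a machine deciding a given computable set of words;
* `exists_univ_mach`: ONE machine over the alphabet `Option A` which, started with the text
  `none ^ e ++ w`, decides `Alg e w`, where the family `Alg` is an arbitrary computable family and
  `e` is a Kleene fixed point depending on `Alg`; the machine does not depend on `Alg`;
* the history machine: an injective partial map.
-/

set_option autoImplicit false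

namespace Crest.Agent.R185.Comp

open StateTransition Turing Function Relation Turing.PartrecToTM2 Encodable

section
variable {A : Type} [Finite A] [Primcodable A]

/-- A machine which halts exactly on the words of an r.e. set. -/
theorem exists_mach_re (p : List A → Prop) (hp : REPred p) :
    ∃ (Q : Type) (_ : Finite Q) (ins : Q → Ins Q (Option K') (Γ' ⊕ A)) (q0 qf : Q),
      (∀ w : List A, (eval (step ins) (q0, liftS (w.map .inr) (fun _ => []))).Dom ↔ p w) ∧
      ∀ w : List A, ∀ c ∈ eval (step ins) (q0, liftS (w.map .inr) (fun _ => [])), c.1 = qf := by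
  have hf : Partrec fun w : List A => (Part.assert (p w) fun _ => Part.some ()).map
      fun _ => true := Partrec.map hp (Computable.const true).to₂
  obtain ⟨Q, hQ, ins, q0, qb, hqb, hh, hev⟩ := exists_mach _ hf
  refine ⟨Q, hQ, ins, q0, qb true, fun w => ?_, fun w c hc => ?_⟩
  · have h := congrArg Part.Dom (hev w)
    simp only [Part.map_Dom] at h
    rw [h]
    simp [Part.assert]
  · have h1 : c.1 ∈ (eval (step ins) (q0, liftS (w.map .inr) (fun _ => []))).map Prod.fst :=
      Part.mem_map _ hc
    rw [hev w, Part.mem_map_iff] at h1
    obtain ⟨b, hb, h2⟩ := h1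
    rw [Part.mem_map_iff] at hb
    obtain ⟨-, -, rfl⟩ := hb
    exact h2.symm

/-- A machine deciding a computable set of words. -/
theorem exists_mach_dec (p : List A → Prop) (hp : ComputablePred p) :
    ∃ (Q : Type) (_ : Finite Q) (ins : Q → Ins Q (Option K') (Γ' ⊕ A)) (q0 : Q) (qb : Bool → Q),
      Injective qb ∧ (∀ q, ins q = .halt ↔ ∃ b, q = qb b) ∧
      ∀ w : List A, ∃ b S, (b = true ↔ p w) ∧
        (qb b, S) ∈ eval (step ins) (q0, liftS (w.map .inr) (fun _ => [])) := by
  obtain ⟨f, hf, rfl⟩ := ComputablePred.computable_iff.1 hp
  obtain ⟨Q, hQ, ins, q0, qb, hqb, hh, hev⟩ := exists_mach (fun w => Part.some (f w)) hf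
  refine ⟨Q, hQ, ins, q0, qb, hqb, hh, fun w => ?_⟩
  have h1 : qb (f w) ∈ (eval (step ins) (q0, liftS (w.map .inr) (fun _ => []))).map Prod.fst := by
    rw [hev w]
    exact Part.mem_map qb (Part.mem_some _)
  rw [Part.mem_map_iff] at h1
  obtain ⟨⟨q, S⟩, h2, h3⟩ := h1
  refine ⟨f w, S, Iff.rfl, ?_⟩
  rw [← h3]
  exact h2

/-! ### The universal machine and Kleene's fixed point -/

/-- the text `none ^ e ++ w` -/
def text (e : ℕ) (w : List A) : List (Option A) := List.replicate e none ++ w.map some

/-- the exponent of a text -/
def textE (l : List (Option A)) : ℕ := (l.filter fun o => o.isNone).length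

/-- the word of a text -/
def textW (l : List (Option A)) : List A := l.filterMap id

omit [Finite A] [Primcodable A] in
theorem textE_text (e : ℕ) (w : List A) : textE (text e w) = e := by
  have h1 : (w.map some).filter (fun o : Option A => o.isNone) = [] := by
    rw [List.filter_eq_nil_iff]
    intro a ha
    rw [List.mem_map] at ha
    obtain ⟨b, -, rfl⟩ := ha
    simp
  have h2 : (List.replicate e (none : Option A)).filter (fun o => o.isNone) =
      List.replicate e none := by
    rw [List.filter_eq_self]
    intro a ha
    rw [List.eq_of_mem_replicate ha]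
    rfl
  unfold textE text
  rw [List.filter_append, h1, h2]
  simp

omit [Finite A] [Primcodable A] in
theorem textW_text (e : ℕ) (w : List A) : textW (text e w) = w := by
  have h2 : (List.replicate e (none : Option A)).filterMap id = [] := by
    rw [List.filterMap_eq_nil_iff]
    intro a ha
    rw [List.eq_of_mem_replicate ha]
    rfl
  have h1 : (w.map some).filterMap id = w := by
    rw [List.filterMap_map]
    simp
  unfold textW text
  rw [List.filterMap_append, h1, h2]
  simp

omit [Finite A] in
theorem textE_primrec : Primrec (textE (A := A)) := by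
  refine Primrec.list_length.comp ?_
  have h : Primrec₂ fun (_ : List (Option A)) (o : Option A) => bif o.isNone then some o else none := by
    have h1 : Primrec fun o : Option A => o.isNone := by
      have := Primrec.not.comp (Primrec.option_isSome (α := A))
      refine this.of_eq fun o => ?_
      cases o <;> rfl
    exact (Primrec.cond (h1.comp Primrec.snd) (Primrec.option_some.comp Primrec.snd)
      (Primrec.const none)).to₂
  refine (Primrec.listFilterMap Primrec.id h).of_eq fun l => ?_
  rw [← List.filterMap_eq_filter]
  congr 1
  funext o
  cases o <;> rfl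

omit [Finite A] in
theorem textW_primrec : Primrec (textW (A := A)) :=
  Primrec.listFilterMap Primrec.id Primrec.snd.to₂

/-- **The universal machine.** There is one machine such that for every computable family
`Alg : ℕ → List A → Bool` there is an `e` such that the machine started with the text
`none ^ e ++ w` halts in the state `qb (Alg e w)`. -/
theorem exists_univ_mach (A : Type) [Finite A] [Primcodable A] :
    ∃ (Q : Type) (_ : Finite Q) (ins : Q → Ins Q (Option K') (Γ' ⊕ Option A)) (q0 : Q)
      (qb : Bool → Q), Injective qb ∧ (∀ q, ins q = .halt ↔ ∃ b, q = qb b) ∧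
      ∀ Alg : ℕ → List A → Bool, Computable₂ Alg → ∃ e : ℕ, ∀ w : List A, ∃ S,
        (qb (Alg e w), S) ∈ eval (step ins) (q0, liftS ((text e w).map .inr) (fun _ => [])) := by
  -- the universal function
  let U : List (Option A) →. Bool := fun l =>
    ((Nat.Partrec.Code.eval (Denumerable.ofNat Nat.Partrec.Code (textE l))
      (encode (textW l)))).map fun n => decide (n = 1)
  have hU : Partrec U := by
    have h1 : Partrec fun l : List (Option A) =>
        (Nat.Partrec.Code.eval (Denumerable.ofNat Nat.Partrec.Code (textE l))
          (encode (textW l))) :=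
      Nat.Partrec.Code.eval_part.comp
        ((Computable.ofNat _).comp textE_primrec.to_comp)
        (Computable.encode.comp textW_primrec.to_comp)
    have h2 : Primrec₂ fun (_ : List (Option A)) (n : ℕ) => decide (n = 1) :=
      ((Primrec.eq (α := ℕ)).comp Primrec.snd (Primrec.const 1)).decide.to₂
    exact h1.map h2.to_comp
  obtain ⟨Q, hQ, ins, q0, qb, hqb, hh, hev⟩ := exists_mach U hU
  refine ⟨Q, hQ, ins, q0, qb, hqb, hh, fun Alg hAlg => ?_⟩
  -- the family of partial functions for Kleene's theorem
  have hg : Partrec₂ fun (c : Nat.Partrec.Code) (n : ℕ) =>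
      ((decode n : Option (List A)) : Part (List A)).map fun w => cond (Alg (encode c) w) 1 0 := by
    have h1 : Partrec fun p : Nat.Partrec.Code × ℕ => ((decode p.2 : Option (List A)) :
      Part (List A)) := (Computable.decode.comp Computable.snd).ofOption
    have h2 : Computable₂ fun (p : Nat.Partrec.Code × ℕ) (w : List A) => Alg (encode p.1) w :=
      (hAlg.comp (Computable.encode.comp (Computable.fst.comp Computable.fst))
        Computable.snd).to₂
    have h3 : Computable₂ fun (p : Nat.Partrec.Code × ℕ) (w : List A) =>
        cond (Alg (encode p.1) w) 1 0 :=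
      (Computable.cond h2 (Computable.const 1) (Computable.const 0)).to₂
    exact (h1.map h3).to₂
  obtain ⟨c, hc⟩ := Nat.Partrec.Code.fixed_point₂ hg
  refine ⟨encode c, fun w => ?_⟩
  have h1 : U (text (encode c) w) = Part.some (Alg (encode c) w) := by
    simp only [U, textE_text, textW_text, Denumerable.ofNat_encode, hc, encodek, Part.coe_some,
      Part.map_some]
    cases Alg (encode c) w <;> rfl
  have h2 : qb (Alg (encode c) w) ∈ (eval (step ins) (q0,
      liftS ((text (encode c) w).map .inr) (fun _ => []))).map Prod.fst := by
    rw [hev, h1]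
    exact Part.mem_map qb (Part.mem_some _)
  rw [Part.mem_map_iff] at h2
  obtain ⟨⟨q, S⟩, h3, h4⟩ := h2
  refine ⟨S, ?_⟩
  rw [← h4]
  exact h3

end

/-! ### The history machine -/

section hist

variable {Q K A : Type} [DecidableEq K]

/-- The symbol popped in a step. -/
def popped (ins : Q → Ins Q K A) (c : Q × (K → List A)) : Option A :=
  match ins c.1 with
  | .pop k _ => (c.2 k).head?
  | _ => none

/-- One step of the history machine: the state and the popped symbol are pushed on the history. -/
def hstep (ins : Q → Ins Q K A) (c : (Q × (K → List A)) × List (Q × Option A)) :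
    Option ((Q × (K → List A)) × List (Q × Option A)) :=
  (step ins c.1).map fun c' => (c', (c.1.1, popped ins c.1) :: c.2)

theorem hstep_inj (ins : Q → Ins Q K A) {c c' d : (Q × (K → List A)) × List (Q × Option A)}
    (h : hstep ins c = some d) (h' : hstep ins c' = some d) : c = c' := by
  obtain ⟨⟨q, S⟩, H⟩ := c
  obtain ⟨⟨q', S'⟩, H'⟩ := c'
  simp only [hstep, Option.map_eq_some_iff] at h h'
  obtain ⟨⟨r, R⟩, h1, rfl⟩ := h
  obtain ⟨⟨r', R'⟩, h1', h2⟩ := h'
  simp only [Prod.mk.injEq, List.cons.injEq] at h2
  obtain ⟨⟨rfl, rfl⟩, ⟨rfl, h3⟩, rfl⟩ := h2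
  simp only [Prod.mk.injEq, true_and, and_true]
  cases hi : ins q' with
  | goto q =>
    rw [step_goto ins hi] at h1 h1'
    cases h1
    cases h1'
    rfl
  | push k a q =>
    rw [step_push ins hi] at h1 h1'
    rw [Option.some.injEq, Prod.mk.injEq] at h1 h1'
    have h4 : update S k (a :: S k) = update S' k (a :: S' k) := by rw [h1.2, h1'.2]
    funext j
    by_cases hj : j = k
    · subst hj
      have := congrFun h4 j
      simpa using this
    · have := congrFun h4 j
      simpa [update_of_ne hj] using this
  | pop k f =>
    rw [step_pop ins hi] at h1 h1'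
    rw [Option.some.injEq, Prod.mk.injEq] at h1 h1'
    have h4 : update S k (S k).tail = update S' k (S' k).tail := by rw [h1.2, h1'.2]
    simp only [popped, hi] at h3
    funext j
    by_cases hj : j = k
    · subst hj
      have := congrFun h4 j
      rw [update_self, update_self] at this
      cases hS : S j with
      | nil =>
        rw [hS] at h3 this
        cases hS' : S' j with
        | nil => rfl
        | cons a L => rw [hS'] at h3; cases h3
      | cons a L =>
        rw [hS] at h3 this
        cases hS' : S' j with
        | nil => rw [hS'] at h3; cases h3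
        | cons a' L' =>
          rw [hS'] at h3 this
          simp only [List.head?_cons, Option.some.injEq, List.tail_cons] at h3 this
          rw [h3, this]
    · have := congrFun h4 j
      simpa [update_of_ne hj] using this
  | halt =>
    rw [step_halt ins hi] at h1
    cases h1

theorem hstep_eq_none (ins : Q → Ins Q K A) (c : (Q × (K → List A)) × List (Q × Option A)) :
    hstep ins c = none ↔ ins c.1.1 = .halt := by
  rw [hstep, Option.map_eq_none_iff, step_eq_none]

theorem hstep_reaches (ins : Q → Ins Q K A) {c c' : Q × (K → List A)}
    (h : Reaches (step ins) c c') (H : List (Q × Option A)) :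
    ∃ H', Reaches (hstep ins) (c, H) (c', H' ++ H) := by
  induction h with
  | refl => exact ⟨[], ReflTransGen.refl⟩
  | tail _ hbc ih =>
    obtain ⟨H', h1⟩ := ih
    rename_i b c'' _
    refine ⟨(b.1, popped ins b) :: H', h1.tail ?_⟩
    have : step ins b = some c'' := hbc
    simp [hstep, this]

theorem hstep_reaches_fst (ins : Q → Ins Q K A)
    {c c' : (Q × (K → List A)) × List (Q × Option A)}
    (h : Reaches (hstep ins) c c') : Reaches (step ins) c.1 c'.1 := by
  induction h with
  | refl => exact ReflTransGen.refl
  | tail _ hbc ih =>
    refine ih.tail ?_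
    have := hbc
    simp only [hstep, Option.mem_def, Option.map_eq_some_iff] at this
    obtain ⟨d, hd, rfl⟩ := this
    exact hd

end hist

end Crest.Agent.R185.Comp
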