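import Crest.Agent.R185.Wit1
import Crest.Agent.R185.Re2
import Crest.Agent.Lib.RatPrimrec

/-!
# R185, computability of the witness, part A: raw points of an affine rule system

`Tm S` is Primcodable; `fs`, `bs`, the letters and the evaluation of words are primitive recursive
on raw points `S.V × Tm S`.
-/

set_option autoImplicit false
set_option linter.unusedSectionVars false

namespace Crest.Agent.R185.Cw

open Crest.Agent.R185.Wit Crest.Agent.Lib.RatPrimrec

/-! ### general tools -/

section tools

variable {α β γ σ : Type*} [Primcodable α] [Primcodable β] [Primcodable γ] [Primcodable σ]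

/-- a function with a finite first argument is primitive recursive if all its sections are -/
theorem primrec₂_of_finite [Finite α] {f : α → β → σ} (h : ∀ a, Primrec (f a)) : Primrec₂ f := by
  obtain ⟨n, ⟨e⟩⟩ := Finite.exists_equiv_fin α
  have h1 : Primrec₂ fun (i : Fin n) (b : β) => f (e.symm i) b :=
    Primrec.fin_curry₁.2 fun i => h _
  have h2 : Primrec (e : α → Fin n) := Primrec.dom_finite _
  refine (h1.comp (h2.comp Primrec.fst) Primrec.snd).of_eq fun x => ?_
  simp

/-- division of an integer by a positive integer -/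
theorem primrec_ediv_pos {f g : α → ℤ} (hf : Primrec f) (hg : Primrec g) (h : ∀ a, 0 < g a) :
    Primrec fun a => f a / g a := by
  refine (primrec_int_div_nat.comp hf (primrec_toNat.comp hg)).of_eq fun a => ?_
  rw [Int.toNat_of_nonneg (h a).le]

theorem primrec_emod_pos {f g : α → ℤ} (hf : Primrec f) (hg : Primrec g) (h : ∀ a, 0 < g a) :
    Primrec fun a => f a % g a := by
  refine (primrec_int_sub.comp hf (primrec_int_mul.comp hg (primrec_ediv_pos hf hg h))).of_eq
    fun a => ?_
  rw [Int.emod_def]

end tools

variable {S : Sys}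

/-! ### codes of terms -/

/-- code of a term -/
def tcode : Tm S → Option S.Q × List (S.Lam × Option S.V)
  | .base q => (q, [])
  | .fwd l e s => ((tcode s).1, (l, some e) :: (tcode s).2)
  | .bwd l s => ((tcode s).1, (l, none) :: (tcode s).2)

/-- the term of a code -/
def tdec (q : Option S.Q) : List (S.Lam × Option S.V) → Tm S
  | [] => .base q
  | (l, some e) :: L => .fwd l e (tdec q L)
  | (l, none) :: L => .bwd l (tdec q L)

theorem tdec_tcode (s : Tm S) : tdec (tcode s).1 (tcode s).2 = s := by
  induction s with
  | base q => rfl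
  | fwd l e s ih => simp only [tcode, tdec, ih]
  | bwd l s ih => simp only [tcode, tdec, ih]

theorem tcode_tdec (q : Option S.Q) (L : List (S.Lam × Option S.V)) : tcode (tdec q L) = (q, L) := by
  induction L with
  | nil => rfl
  | cons x L ih =>
    obtain ⟨l, _ | e⟩ := x
    · simp only [tdec, tcode, ih]
    · simp only [tdec, tcode, ih]

/-- terms as lists -/
def tequiv : Tm S ≃ Option S.Q × List (S.Lam × Option S.V) where
  toFun := tcode
  invFun x := tdec x.1 x.2
  left_inv := tdec_tcode
  right_inv x := tcode_tdec x.1 x.2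

@[simp] theorem tequiv_base (q : Option S.Q) : tequiv (.base q) = (q, []) := rfl
@[simp] theorem tequiv_fwd (l : S.Lam) (e : S.V) (s : Tm S) :
    tequiv (.fwd l e s) = ((tequiv s).1, (l, some e) :: (tequiv s).2) := rfl
@[simp] theorem tequiv_bwd (l : S.Lam) (s : Tm S) :
    tequiv (.bwd l s) = ((tequiv s).1, (l, none) :: (tequiv s).2) := rfl

/-- raw points -/
abbrev Pt (S : Sys) : Type := S.V × Tm S

/-- the raw point of a point -/
def cp (p : Om S) : Pt S := (p.1, p.2.1)

theorem cp_inj : Function.Injective (cp (S := S)) := by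
  rintro ⟨c, s, hs⟩ ⟨c', s', hs'⟩ h
  simp only [cp, Prod.mk.injEq] at h
  obtain ⟨rfl, rfl⟩ := h
  rfl

section prim

variable [Primcodable S.Q] [Primcodable S.Lam]

instance instTm : Primcodable (Tm S) := Primcodable.ofEquiv _ tequiv

theorem primrec_tequiv : Primrec (tequiv (S := S)) := Primrec.of_equiv

theorem primrec_tequiv_symm : Primrec (tequiv (S := S)).symm := Primrec.of_equiv_symm

variable [Finite S.Lam]

theorem primrec_B : Primrec S.B := Primrec.dom_finite _
theorem primrec_a : Primrec S.a := Primrec.dom_finite _

theorem primrec_app {α : Type*} [Primcodable α] {n : ℕ} {f : α → Fin n → ℤ} {g : α → Fin n}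
    (hf : Primrec f) (hg : Primrec g) : Primrec fun a => f a (g a) :=
  Primrec.fin_app.comp hf hg

theorem primrec_quo : Primrec fun x : S.Lam × S.V => quo x.1 x.2 := by
  refine Primrec.fin_curry.2 ?_
  refine primrec_ediv_pos (f := fun y : (S.Lam × S.V) × Fin S.k => y.1.2 y.2)
    (g := fun y : (S.Lam × S.V) × Fin S.k => S.B y.1.1 y.2) ?_ ?_ (fun y => S.Bpos _ _)
  · exact primrec_app (Primrec.snd.comp Primrec.fst) Primrec.snd
  · exact primrec_app (primrec_B.comp (Primrec.fst.comp Primrec.fst)) Primrec.snd

theorem primrec_res : Primrec fun x : S.Lam × S.V => res x.1 x.2 := by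
  refine Primrec.fin_curry.2 ?_
  refine primrec_emod_pos (f := fun y : (S.Lam × S.V) × Fin S.k => y.1.2 y.2)
    (g := fun y : (S.Lam × S.V) × Fin S.k => S.B y.1.1 y.2) ?_ ?_ (fun y => S.Bpos _ _)
  · exact primrec_app (Primrec.snd.comp Primrec.fst) Primrec.snd
  · exact primrec_app (primrec_B.comp (Primrec.fst.comp Primrec.fst)) Primrec.snd

theorem primrec_mulB : Primrec fun x : S.Lam × S.V => mulB x.1 x.2 := by
  refine Primrec.fin_curry.2 ?_
  exact primrec_int_mul.comp (primrec_app (primrec_B.comp (Primrec.fst.comp Primrec.fst))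
    Primrec.snd) (primrec_app (Primrec.snd.comp Primrec.fst) Primrec.snd)

theorem primrec_vadd {n : ℕ} : Primrec₂ fun (v w : Fin n → ℤ) => v + w := by
  refine Primrec.fin_curry.2 ?_
  exact primrec_int_add.comp (primrec_app (Primrec.fst.comp Primrec.fst) Primrec.snd)
    (primrec_app (Primrec.snd.comp Primrec.fst) Primrec.snd)

/-- equality tests -/
theorem primrec_deq {α β : Type*} [Primcodable α] [Primcodable β] [DecidableEq β] {f g : α → β}
    (hf : Primrec f) (hg : Primrec g) : Primrec fun a => decide (f a = g a) := by
  refine ((Primrec.eq (α := β)).decide.comp hf hg).of_eq fun a => ?_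
  exact decide_eq_decide.2 Iff.rfl

/-- `fs` on codes -/
def fsC (l : S.Lam) (x : S.V × (Option S.Q × List (S.Lam × Option S.V))) :
    Option S.Q × List (S.Lam × Option S.V) :=
  List.casesOn x.2.2
    (bif decide (x.2.1 = some (S.src l)) && decide (x.1 = S.a l) then (some (S.tgt l), [])
      else (x.2.1, [(l, some x.1)]))
    (fun y t => bif decide (y.1 = l) && (decide (x.1 = 0) && !y.2.isSome) then (x.2.1, t)
      else (x.2.1, (l, some x.1) :: x.2.2))

omit [Primcodable S.Q] [Primcodable S.Lam] [Finite S.Lam] in
theorem tequiv_fs (l : S.Lam) (e : S.V) (s : Tm S) :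
    tequiv (fs l e s) = fsC l (e, tequiv s) := by
  cases s with
  | base q =>
    by_cases h : q = some (S.src l) <;> by_cases h2 : e = S.a l <;> simp [h, h2, fs, fsC]
  | fwd l' e' s' =>
    simp [fs, fsC]
  | bwd l' s' =>
    by_cases h : l' = l <;> by_cases h2 : e = 0 <;> simp [h, h2, fs, fsC]

theorem primrec_fs (l : S.Lam) : Primrec fun x : S.V × Tm S => fs l x.1 x.2 := by
  have h1 : Primrec (fsC l) := by
    unfold fsC
    refine Primrec.list_casesOn (f := fun x : S.V × (Option S.Q × List (S.Lam × Option S.V)) =>
      x.2.2) (g := fun x => bif decide (x.2.1 = some (S.src l)) && decide (x.1 = S.a l) then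
        (some (S.tgt l), []) else (x.2.1, [(l, some x.1)]))
      (h := fun x (p : (S.Lam × Option S.V) × List (S.Lam × Option S.V)) =>
        bif decide (p.1.1 = l) && (decide (x.1 = 0) && !p.1.2.isSome) then (x.2.1, p.2)
      else (x.2.1, (l, some x.1) :: x.2.2)) (Primrec.snd.comp Primrec.snd) ?_ ?_
    · refine Primrec.cond ?_ (Primrec.const _) ?_
      · exact Primrec.and.comp (primrec_deq (Primrec.fst.comp Primrec.snd) (Primrec.const _))
          (primrec_deq Primrec.fst (Primrec.const _))
      · exact (Primrec.fst.comp Primrec.snd).pair (Primrec.list_cons.comp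
          ((Primrec.const l).pair (Primrec.option_some.comp Primrec.fst)) (Primrec.const []))
    · refine Primrec.cond ?_ ?_ ?_
      · refine Primrec.and.comp (primrec_deq (Primrec.fst.comp (Primrec.fst.comp Primrec.snd))
          (Primrec.const _)) (Primrec.and.comp (primrec_deq (Primrec.fst.comp Primrec.fst)
          (Primrec.const _)) ?_)
        exact Primrec.not.comp (Primrec.option_isSome.comp (Primrec.snd.comp
          (Primrec.fst.comp Primrec.snd)))
      · exact ((Primrec.fst.comp Primrec.snd).comp Primrec.fst).pair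
          (Primrec.snd.comp Primrec.snd)
      · exact ((Primrec.fst.comp Primrec.snd).comp Primrec.fst).pair
          (Primrec.list_cons.comp ((Primrec.const l).pair (Primrec.option_some.comp
            (Primrec.fst.comp Primrec.fst))) ((Primrec.snd.comp Primrec.snd).comp Primrec.fst))
  refine (primrec_tequiv_symm.comp (h1.comp (Primrec.fst.pair
    (primrec_tequiv.comp Primrec.snd)))).of_eq fun x => ?_
  rw [← tequiv_fs, Equiv.symm_apply_apply]

/-- `bs` on codes -/
def bsC (l : S.Lam) (x : Option S.Q × List (S.Lam × Option S.V)) :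
    S.V × (Option S.Q × List (S.Lam × Option S.V)) :=
  List.casesOn x.2
    (bif decide (x.1 = some (S.tgt l)) then (S.a l, (some (S.src l), []))
      else (0, (x.1, [(l, none)])))
    (fun y t => bif decide (y.1 = l) && y.2.isSome then (y.2.getD 0, (x.1, t))
      else (0, (x.1, (l, none) :: x.2)))

omit [Primcodable S.Q] [Primcodable S.Lam] [Finite S.Lam] in
theorem tequiv_bs (l : S.Lam) (s : Tm S) :
    ((bs l s).1, tequiv (bs l s).2) = bsC l (tequiv s) := by
  cases s with
  | base q =>
    by_cases h : q = some (S.tgt l) <;> simp [h, bs, bsC]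
  | fwd l' e' s' =>
    by_cases h : l' = l <;> simp [h, bs, bsC]
  | bwd l' s' =>
    simp [bs, bsC]

theorem primrec_bs (l : S.Lam) : Primrec fun s : Tm S => bs l s := by
  have h1 : Primrec (bsC l) := by
    unfold bsC
    refine Primrec.list_casesOn (f := fun x : Option S.Q × List (S.Lam × Option S.V) =>
      x.2) (g := fun x => bif decide (x.1 = some (S.tgt l)) then
        (S.a l, (some (S.src l), [])) else (0, (x.1, [(l, none)])))
      (h := fun x (p : (S.Lam × Option S.V) × List (S.Lam × Option S.V)) =>
        bif decide (p.1.1 = l) && p.1.2.isSome then (p.1.2.getD 0, (x.1, p.2))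
      else (0, (x.1, (l, none) :: x.2))) Primrec.snd ?_ ?_
    · refine Primrec.cond ?_ (Primrec.const _) ?_
      · exact primrec_deq Primrec.fst (Primrec.const _)
      · exact (Primrec.const 0).pair (Primrec.fst.pair (Primrec.const _))
    · refine Primrec.cond ?_ ?_ ?_
      · exact Primrec.and.comp (primrec_deq (Primrec.fst.comp (Primrec.fst.comp Primrec.snd))
          (Primrec.const _)) (Primrec.option_isSome.comp (Primrec.snd.comp
          (Primrec.fst.comp Primrec.snd)))
      · exact (Primrec.option_getD.comp (Primrec.snd.comp (Primrec.fst.comp Primrec.snd))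
          (Primrec.const 0)).pair ((Primrec.fst.comp Primrec.fst).pair
          (Primrec.snd.comp Primrec.snd))
      · exact (Primrec.const 0).pair ((Primrec.fst.comp Primrec.fst).pair
          (Primrec.list_cons.comp (Primrec.const (l, none)) (Primrec.snd.comp Primrec.fst)))
  have h2 : Primrec fun x : S.V × (Option S.Q × List (S.Lam × Option S.V)) =>
      (x.1, tequiv.symm x.2) := Primrec.fst.pair (primrec_tequiv_symm.comp Primrec.snd)
  refine (h2.comp (h1.comp primrec_tequiv)).of_eq fun s => ?_
  rw [← tequiv_bs]
  simp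

end prim

/-! ### letters and words on raw points -/

/-- raw letters of `H` -/
abbrev HLr (S : Sys) : Type := Fin S.k ⊕ S.Lam ⊕ S.Q

/-- action of a letter on raw points -/
def lact (x : HLr S × Bool) (p : Pt S) : Pt S :=
  match x with
  | (.inl j, true) => (Pi.single j 1 + p.1, p.2)
  | (.inl j, false) => (-(Pi.single j 1) + p.1, p.2)
  | (.inr (.inl l), true) => (quo l p.1, fs l (res l p.1) p.2)
  | (.inr (.inl l), false) => (mulB l p.1 + (bs l p.2).1, (bs l p.2).2)
  | (.inr (.inr _), _) => p

/-- action of a word on raw points -/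
def evP (u : List (HLr S × Bool)) (p : Pt S) : Pt S := u.foldr lact p

@[simp] theorem evP_nil (p : Pt S) : evP [] p = p := rfl
@[simp] theorem evP_cons (x : HLr S × Bool) (u : List (HLr S × Bool)) (p : Pt S) :
    evP (x :: u) p = lact x (evP u p) := rfl
theorem evP_append (u v : List (HLr S × Bool)) (p : Pt S) :
    evP (u ++ v) p = evP u (evP v p) := by
  simp [evP]

section prim2

variable [Primcodable S.Q] [Primcodable S.Lam] [Finite S.Lam] [Finite S.Q]

theorem primrec_lact : Primrec₂ (lact (S := S)) := by
  refine primrec₂_of_finite fun x => ?_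
  rcases x with ⟨j | l | q, _ | _⟩
  · exact (primrec_vadd.comp (Primrec.const _) Primrec.fst).pair Primrec.snd
  · exact (primrec_vadd.comp (Primrec.const _) Primrec.fst).pair Primrec.snd
  · exact (primrec_vadd.comp (primrec_mulB.comp ((Primrec.const l).pair Primrec.fst))
      (Primrec.fst.comp ((primrec_bs l).comp Primrec.snd))).pair
      (Primrec.snd.comp ((primrec_bs l).comp Primrec.snd))
  · exact (primrec_quo.comp ((Primrec.const l).pair Primrec.fst)).pair
      ((primrec_fs l).comp ((primrec_res.comp ((Primrec.const l).pair Primrec.fst)).pair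
        Primrec.snd))
  · exact Primrec.id
  · exact Primrec.id

theorem primrec_evP : Primrec₂ (evP (S := S)) := by
  refine Primrec.list_foldr (f := fun x : List (HLr S × Bool) × Pt S => x.1)
    (g := fun x : List (HLr S × Bool) × Pt S => x.2)
    (h := fun _ (y : (HLr S × Bool) × Pt S) => lact y.1 y.2) Primrec.fst Primrec.snd ?_
  exact primrec_lact.comp (Primrec.fst.comp Primrec.snd) (Primrec.snd.comp Primrec.snd)

end prim2

end Crest.Agent.R185.Cw
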