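import Crest.Agent.R185.Wit5

/-!
# R185, block WIT, part 6: word metric on `Hg` and the linear control of levels
-/

set_option autoImplicit false
set_option linter.unusedSectionVars false

namespace Crest.Agent.R185.Wit

variable {R A : Type} [DecidableEq R] [DecidableEq A] (W : WS R A)

/-- the letters of `H`: translations by unit vectors, rules and inverse input letters, states -/
inductive HL
  | x (j : Fin W.k)
  | y (l : R ⊕ A)
  | t (q : W.Q)

variable {W}

/-- value of a letter -/
def hlv : HL W → Hg W
  | .x j => SemidirectProduct.inr (mx (S := W.toSys) (Pi.single j 1))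
  | .y l => SemidirectProduct.inr (my (S := W.toSys) l)
  | .t q => ht W q

variable (W) in
/-- value of a word -/
def hv : FreeGroup (HL W) →* Hg W := FreeGroup.lift hlv

/-- value of a list -/
def hL (s : List (HL W × Bool)) : Hg W := hv W (FreeGroup.mk s)

theorem hL_nil : hL ([] : List (HL W × Bool)) = 1 := by
  have : (FreeGroup.mk [] : FreeGroup (HL W)) = 1 := rfl
  simp [hL, this]

theorem hL_append (s s' : List (HL W × Bool)) : hL (s ++ s') = hL s * hL s' := by
  rw [hL, hL, hL, ← map_mul, FreeGroup.mul_mk]

theorem hL_true (l : HL W) : hL [(l, true)] = hlv l := by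
  have : (FreeGroup.mk [(l, true)] : FreeGroup (HL W)) = FreeGroup.of l := rfl
  rw [hL, this, hv, FreeGroup.lift_apply_of]

theorem hL_false (l : HL W) : hL [(l, false)] = (hlv l)⁻¹ := by
  have : (FreeGroup.mk [(l, false)] : FreeGroup (HL W)) = (FreeGroup.of l)⁻¹ := rfl
  rw [hL, this, hv, map_inv, FreeGroup.lift_apply_of]

theorem tperm_inv (v : W.toSys.V) : (tperm v)⁻¹ = tperm (S := W.toSys) (-v) := by
  rw [inv_eq_iff_mul_eq_one, ← tperm_add, add_neg_cancel, tperm_zero]

theorem Sm_letter {n : ℕ} {p : Om W.toSys} (hp : Sm W n p) (l : HL W × Bool) :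
    Sm W (n + 1) (act W.toSys (hL [l]).right p) := by
  obtain ⟨l, e⟩ := l
  cases e with
  | true =>
    rw [hL_true]
    cases l with
    | x j =>
      simp only [hlv, SemidirectProduct.right_inr, act_mx]
      refine hp.tperm W _ ?_
      by_cases h : W.I = j
      · subst h; simp
      · simp [Pi.single_apply, h]
    | y l =>
      simp only [hlv, SemidirectProduct.right_inr, act_my]
      exact hp.lperm W l
    | t q =>
      simp only [hlv, ht, SemidirectProduct.right_inl, map_one, Equiv.Perm.one_apply]
      exact hp.mono W (by omega)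
  | false =>
    rw [hL_false]
    cases l with
    | x j =>
      simp only [hlv, SemidirectProduct.inv_right, SemidirectProduct.right_inr, map_inv, act_mx]
      rw [tperm_inv]
      refine hp.tperm W _ ?_
      by_cases h : W.I = j
      · subst h; simp
      · simp [Pi.single_apply, h]
    | y l =>
      simp only [hlv, SemidirectProduct.inv_right, SemidirectProduct.right_inr, map_inv, act_my]
      exact hp.lperm_inv W l
    | t q =>
      simp only [hlv, ht, SemidirectProduct.inv_right, SemidirectProduct.right_inl, inv_one,
        map_one, Equiv.Perm.one_apply]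
      exact hp.mono W (by omega)

theorem Sm_word {n : ℕ} {p : Om W.toSys} (hp : Sm W n p) (s : List (HL W × Bool)) :
    Sm W (n + s.length) (act W.toSys (hL s).right p) := by
  induction s with
  | nil => simpa [hL_nil] using hp
  | cons x s ih =>
    have h1 : hL (x :: s) = hL [x] * hL s := by rw [← hL_append]; rfl
    rw [h1, SemidirectProduct.mul_right, map_mul, Equiv.Perm.mul_apply]
    have := Sm_letter ih x
    rw [List.length_cons, ← add_assoc]
    exact this

theorem Sm_cfg_word (q : W.Q) (s : List (HL W × Bool)) :
    Sm W s.length (act W.toSys (hL s).right (cfg (S := W.toSys) q 0)) := by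
  have := Sm_word (Sm_cfg_zero W q) s
  rwa [zero_add] at this

theorem norm_rA_letter (l : HL W × Bool) : (rA W (hL [l]).right).norm ≤ 1 := by
  obtain ⟨l, e⟩ := l
  have key : (rA W (hlv l).right).norm ≤ 1 := by
    cases l with
    | x j => simp [hlv]
    | y l =>
      rcases l with r | x
      · simp [hlv]
      · simp only [hlv, SemidirectProduct.right_inr, rA_inr, FreeGroup.norm_inv_eq]
        exact (FreeGroup.norm_of x).le
    | t q => simp [hlv, ht]
  cases e with
  | true => rw [hL_true]; exact key
  | false =>
    rw [hL_false, SemidirectProduct.inv_right, map_inv, FreeGroup.norm_inv_eq]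
    exact key

theorem norm_rA_word (s : List (HL W × Bool)) : (rA W (hL s).right).norm ≤ s.length := by
  induction s with
  | nil => simp [hL_nil]
  | cons x s ih =>
    have h1 : hL (x :: s) = hL [x] * hL s := by rw [← hL_append]; rfl
    rw [h1, SemidirectProduct.mul_right, map_mul]
    calc _ ≤ _ := FreeGroup.norm_mul_le _ _
      _ ≤ 1 + s.length := add_le_add (norm_rA_letter x) ih
      _ = (x :: s).length := by rw [List.length_cons]; omega

theorem wH_mul (h : Hg W) (s : List (HL W × Bool)) :
    wH W (h * hL s) = wH W h * rA W (hL s).right := by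
  rw [wH, wH, SemidirectProduct.mul_right, map_mul]

/-- **Pair lemma, part A**: the `F(A)`-parts -/
theorem norm_wH (h : Hg W) (s : List (HL W × Bool)) :
    ((wH W h)⁻¹ * wH W (h * hL s)).norm ≤ s.length := by
  rw [wH_mul, inv_mul_cancel_left]
  exact norm_rA_word s

theorem left_mul_letter (h : Hg W) (l : HL W × Bool) :
    (h * hL [l]).left = h.left ∨
      ∃ (q : W.Q) (e : Bool), (h * hL [l]).left =
        h.left * FreeGroup.mk [(act W.toSys h.right (cfg (S := W.toSys) q 0), e)] := by
  obtain ⟨l, e⟩ := l
  cases l with
  | x j =>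
    left
    cases e with
    | true => 
      rw [hL_true, SemidirectProduct.mul_left]
      simp [hlv]
    | false => 
      rw [hL_false, SemidirectProduct.mul_left]
      simp [hlv]
  | y l =>
    left
    cases e with
    | true => 
      rw [hL_true, SemidirectProduct.mul_left]
      simp [hlv]
    | false => 
      rw [hL_false, SemidirectProduct.mul_left]
      simp [hlv]
  | t q =>
    right
    refine ⟨q, e, ?_⟩
    cases e with
    | true =>
      rw [hL_true, SemidirectProduct.mul_left]
      simp only [hlv, ht, SemidirectProduct.left_inl, phi_of]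
      rfl
    | false =>
      rw [hL_false, SemidirectProduct.mul_left]
      simp only [hlv, ht, SemidirectProduct.inv_left, SemidirectProduct.left_inl,
        SemidirectProduct.right_inl, inv_one, map_one, MulAut.one_apply]
      rw [map_inv (phi W h.right), phi_of]
      rfl

/-- **Pair lemma, part C**: levels change by at most one per letter -/
theorem abs_NH_letter (g : FreeGroup A) (h : Hg W) (l : HL W × Bool) :
    |NH W g (h * hL [l]) - NH W g h| ≤ 1 := by
  unfold NH
  rcases left_mul_letter h l with h1 | ⟨q, e, h1⟩
  · rw [h1]; simp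
  · rw [h1]
    exact (exmp_mul_letter _ _ _ _).1

theorem NH_letter (g : FreeGroup A) (h : Hg W) (l : HL W × Bool)
    (hne : NH W g (h * hL [l]) ≠ NH W g h) :
    ∃ q : W.Q, act W.toSys h.right (cfg (S := W.toSys) q 0) = st W g := by
  unfold NH at hne
  rcases left_mul_letter h l with h1 | ⟨q, e, h1⟩
  · rw [h1] at hne; exact absurd rfl hne
  · rw [h1] at hne
    refine ⟨q, ?_⟩
    by_contra h2
    exact hne ((exmp_mul_letter _ _ _ _).2 h2)

theorem hL_snoc (s : List (HL W × Bool)) (l : HL W × Bool) (h : Hg W) :
    h * hL (s ++ [l]) = h * hL s * hL [l] := by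
  rw [hL_append, mul_assoc]

theorem abs_NH (g : FreeGroup A) (h : Hg W) (s : List (HL W × Bool)) :
    |NH W g (h * hL s) - NH W g h| ≤ s.length := by
  induction s using List.reverseRecOn with
  | nil => simp [hL_nil]
  | append_singleton s l ih =>
    rw [hL_snoc, List.length_append, List.length_singleton]
    push_cast
    have h1 := abs_NH_letter g (h * hL s) l
    calc |NH W g (h * hL s * hL [l]) - NH W g h|
        = |(NH W g (h * hL s * hL [l]) - NH W g (h * hL s)) + (NH W g (h * hL s) - NH W g h)| := by
          congr 1; ring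
      _ ≤ |NH W g (h * hL s * hL [l]) - NH W g (h * hL s)| + |NH W g (h * hL s) - NH W g h| :=
          abs_add_le _ _
      _ ≤ s.length + 1 := by linarith

/-- if the level at `g` changes along `s`, then `h⁻¹ • st g` is small -/
theorem Sm_of_NH_ne (g : FreeGroup A) (h : Hg W) (s : List (HL W × Bool))
    (hne : NH W g (h * hL s) ≠ NH W g h) :
    Sm W s.length (act W.toSys h.right⁻¹ (st W g)) := by
  induction s using List.reverseRecOn with
  | nil => rw [hL_nil, mul_one] at hne; exact absurd rfl hne
  | append_singleton s l ih =>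
    rw [hL_snoc] at hne
    rw [List.length_append, List.length_singleton]
    by_cases h1 : NH W g (h * hL s) = NH W g h
    · rw [← h1] at hne
      obtain ⟨q, hq⟩ := NH_letter g _ l hne
      rw [← hq, SemidirectProduct.mul_right, map_mul, Equiv.Perm.mul_apply, map_inv]
      rw [show (act W.toSys h.right)⁻¹ (act W.toSys h.right (act W.toSys (hL s).right
        (cfg (S := W.toSys) q 0))) = act W.toSys (hL s).right (cfg (S := W.toSys) q 0) from
        Equiv.symm_apply_apply _ _]
      exact (Sm_cfg_word q s).mono W (by omega)
    · exact (ih h1).mono W (by omega)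

/-- **Pair lemma, part B**: if the level at `g` changes along `s` starting from a point of `EL`,
then `w⁻¹ g` is accepted or short -/
theorem NH_pair (hW : Archive W) (g : FreeGroup A) {h : Hg W} (hh : h ∈ EL W)
    (s : List (HL W × Bool)) (hne : NH W g (h * hL s) ≠ NH W g h) :
    st W ((wH W h)⁻¹ * g) ∈ Ch W ∨ ((wH W h)⁻¹ * g).norm ≤ 3 * s.length := by
  obtain ⟨⟨p, hp⟩, -⟩ := (mem_EL_iff W).1 hh
  have h1 := Sm_of_NH_ne g h s hne
  rw [hp, mul_inv_rev, map_mul, Equiv.Perm.mul_apply, ← map_inv (ip W), act_ip_st,
    ← map_inv (iR W)] at h1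
  by_cases h2 : st W ((wH W h)⁻¹ * g) ∈ Ch W
  · exact Or.inl h2
  · exact Or.inr (star_bound W hW h2 p⁻¹ h1)

/-- start points are big -/
theorem start_bound {g : FreeGroup A} {n : ℕ} (hS : Sm W n (st W g)) : g.norm ≤ 3 * n := by
  have hroot := root_lt W _ n _ (st W g).2.2 hS.1
  have hb := W.hb
  have hroot' : |(rt (st W g)).2 W.I| < W.b ^ (2 * n) :=
    hroot.trans_le (pow_le_pow_right₀ (by omega) (by have := hS.2; omega))
  change g.toWord.length ≤ 3 * n
  by_cases hp : Pos g.toWord
  · rw [st_eq_pt, pt_pos W hp] at hroot'
    have := code_bound W hroot'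
    rw [List.length_map] at this
    omega
  · obtain ⟨v, h1, h2, h3, h4, -⟩ := pt_neg W FreeGroup.isReduced_toWord hp
    rw [← st_eq_pt] at h1 h2 h3 h4
    rw [h2] at hroot'
    have h6 := code_bound W hroot'
    have h7 := hS.2
    omega

theorem NH_one (g : FreeGroup A) : NH W g (1 : Hg W) = 0 := by
  rw [NH, SemidirectProduct.one_left, exmp_one]

/-- far `g` have level zero -/
theorem NH_far (g : FreeGroup A) (s : List (HL W × Bool)) (hne : NH W g (hL s) ≠ 0) :
    g.norm ≤ 3 * s.length := by
  have h1 : NH W g (1 * hL s) ≠ NH W g (1 : Hg W) := by rwa [one_mul, NH_one]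
  have := Sm_of_NH_ne g 1 s h1
  rw [SemidirectProduct.one_right, inv_one, map_one, Equiv.Perm.one_apply] at this
  exact start_bound this

end Crest.Agent.R185.Wit
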