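import Crest.Agent.R185.Cw459A
import Crest.Agent.R185.Wit6

/-!
# R185, computability of the witness, part B: words in the letters of `H`

`hvl W u : Hg W` is the value of a word; `Rep l f` says that the list `l` of signed raw points
represents the element `f` of the free group on the points.
-/

set_option autoImplicit false
set_option linter.unusedSectionVars false

namespace Crest.Agent.R185.Cw

open Crest.Agent.R185.Wit

variable {R A : Type} [DecidableEq R] [DecidableEq A] (W : WS R A)

/-- values of the raw letters -/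
def hlr : HLr W.toSys → Hg W
  | .inl j => SemidirectProduct.inr (mx (S := W.toSys) (Pi.single j 1))
  | .inr (.inl l) => SemidirectProduct.inr (my (S := W.toSys) l)
  | .inr (.inr q) => ht W q

/-- values of the raw words -/
def hvl (u : List (HLr W.toSys × Bool)) : Hg W := FreeGroup.lift (hlr W) (FreeGroup.mk u)

/-- value of a signed letter -/
def sgn (x : HLr W.toSys × Bool) : Hg W := cond x.2 (hlr W x.1) (hlr W x.1)⁻¹

@[simp] theorem hvl_nil : hvl W [] = 1 := by simp [hvl, FreeGroup.lift_mk]

@[simp] theorem hvl_cons (x : HLr W.toSys × Bool) (u : List (HLr W.toSys × Bool)) :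
    hvl W (x :: u) = sgn W x * hvl W u := by simp [hvl, FreeGroup.lift_mk, sgn]

theorem hvl_append (u v : List (HLr W.toSys × Bool)) : hvl W (u ++ v) = hvl W u * hvl W v := by
  simp [hvl, ← FreeGroup.mul_mk]

theorem hvl_invRev (u : List (HLr W.toSys × Bool)) : hvl W (FreeGroup.invRev u) = (hvl W u)⁻¹ := by
  simp [hvl, ← FreeGroup.inv_mk]

theorem cp_act_sgn (x : HLr W.toSys × Bool) (p : Om W.toSys) :
    cp (act W.toSys (sgn W x).right p) = lact x (cp p) := by
  rcases x with ⟨j | l | q, _ | _⟩
  · simp only [sgn, cond_false, hlr, SemidirectProduct.inv_right, SemidirectProduct.right_inr]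
    rw [map_inv, act_mx]
    rfl
  · simp only [sgn, cond_true, hlr, SemidirectProduct.right_inr]
    rw [act_mx]
    rfl
  · simp only [sgn, cond_false, hlr, SemidirectProduct.inv_right, SemidirectProduct.right_inr]
    rw [map_inv, act_my]
    rfl
  · simp only [sgn, cond_true, hlr, SemidirectProduct.right_inr]
    rw [act_my]
    rfl
  · simp only [sgn, cond_false, hlr, ht, SemidirectProduct.inv_right, SemidirectProduct.right_inl]
    simp [lact]
  · simp only [sgn, cond_true, hlr, ht, SemidirectProduct.right_inl]
    simp [lact]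

theorem cp_act_hvl (u : List (HLr W.toSys × Bool)) (p : Om W.toSys) :
    cp (act W.toSys (hvl W u).right p) = evP u (cp p) := by
  induction u with
  | nil => simp
  | cons x u ih =>
    rw [hvl_cons, SemidirectProduct.mul_right, map_mul, Equiv.Perm.mul_apply, cp_act_sgn, ih,
      evP_cons]

/-! ### representation of elements of the free group on the points -/

variable {W}

/-- the signed raw points `l` represent `f` -/
def Rep (l : List (Pt W.toSys × Bool)) (f : FreeGroup (Om W.toSys)) : Prop :=
  ∃ L : List (Om W.toSys × Bool), f = FreeGroup.mk L ∧ L.map (Prod.map cp id) = l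

theorem Rep.one : Rep (W := W) [] 1 := ⟨[], FreeGroup.one_eq_mk, rfl⟩

theorem Rep.of (ω : Om W.toSys) (b : Bool) : Rep (W := W) [(cp ω, b)]
    (cond b (FreeGroup.of ω) (FreeGroup.of ω)⁻¹) := by
  refine ⟨[(ω, b)], ?_, rfl⟩
  cases b
  · rfl
  · rfl

theorem Rep.mul {l l' : List (Pt W.toSys × Bool)} {f f' : FreeGroup (Om W.toSys)}
    (h : Rep l f) (h' : Rep l' f') : Rep (l ++ l') (f * f') := by
  obtain ⟨L, rfl, rfl⟩ := h
  obtain ⟨L', rfl, rfl⟩ := h'
  exact ⟨L ++ L', FreeGroup.mul_mk, List.map_append⟩

theorem Rep.act {l : List (Pt W.toSys × Bool)} {f : FreeGroup (Om W.toSys)} (h : Rep l f)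
    (σ : Equiv.Perm (Om W.toSys)) (τ : Pt W.toSys → Pt W.toSys) (hτ : ∀ p, cp (σ p) = τ (cp p)) :
    Rep (l.map fun y => (τ y.1, y.2)) ((fgAut σ : MulAut (FreeGroup (Om W.toSys))) f) := by
  obtain ⟨L, rfl, rfl⟩ := h
  refine ⟨L.map fun y => (σ y.1, y.2), rfl, ?_⟩
  simp only [List.map_map]
  apply List.map_congr_left
  intro y _
  simp [hτ]

theorem map_reduce {α β : Type*} [DecidableEq α] [DecidableEq β] {f : α → β}
    (hf : Function.Injective f) (L : List (α × Bool)) :
    (FreeGroup.reduce L).map (Prod.map f id) = FreeGroup.reduce (L.map (Prod.map f id)) := by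
  induction L with
  | nil => rfl
  | cons x L ih =>
    rw [List.map_cons, FreeGroup.reduce.cons, FreeGroup.reduce.cons, ← ih]
    cases h : FreeGroup.reduce L with
    | nil => rfl
    | cons y t =>
      simp only [List.map_cons, Prod.map_fst, Prod.map_snd, id_eq, hf.eq_iff]
      split_ifs
      · rfl
      · rfl

theorem Rep.reduce {l : List (Pt W.toSys × Bool)} {f : FreeGroup (Om W.toSys)} (h : Rep l f) :
    f.toWord.map (Prod.map cp id) = FreeGroup.reduce l := by
  obtain ⟨L, rfl, rfl⟩ := h
  rw [FreeGroup.toWord_mk, map_reduce cp_inj]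

theorem Rep.eq_iff {l l' : List (Pt W.toSys × Bool)} {f f' : FreeGroup (Om W.toSys)}
    (h : Rep l f) (h' : Rep l' f') : f = f' ↔ FreeGroup.reduce l = FreeGroup.reduce l' := by
  rw [← h.reduce, ← h'.reduce, ← FreeGroup.toWord_inj]
  constructor
  · intro h; rw [h]
  · intro h
    exact List.map_injective_iff.2 (cp_inj.prodMap Function.injective_id) h

theorem Rep.eq_one_iff {l : List (Pt W.toSys × Bool)} {f : FreeGroup (Om W.toSys)}
    (h : Rep l f) : f = 1 ↔ FreeGroup.reduce l = [] := by
  rw [h.eq_iff Rep.one]; rfl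

theorem Rep.mem_FC_iff {l : List (Pt W.toSys × Bool)} {f : FreeGroup (Om W.toSys)} (h : Rep l f)
    {T : Set (Om W.toSys)} {t : Pt W.toSys → Bool} (ht : ∀ ω, t (cp ω) = true ↔ ω ∈ T) :
    f ∈ FC T ↔ (FreeGroup.reduce l).all (fun y => t y.1) = true := by
  rw [← h.reduce, mem_FC, List.all_eq_true]
  constructor
  · intro h1 y hy
    obtain ⟨x, hx, rfl⟩ := List.mem_map.1 hy
    exact (ht _).2 (h1 x hx)
  · intro h1 x hx
    exact (ht _).1 (h1 _ (List.mem_map.2 ⟨x, hx, rfl⟩))

/-! ### the signed raw points of a word -/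

/-- the point of a letter -/
def tl (x : HLr W.toSys × Bool) : List (Pt W.toSys × Bool) :=
  match x with
  | (.inr (.inr q), b) => [((0, .base (some q)), b)]
  | _ => []

/-- one letter -/
def stp (x : HLr W.toSys × Bool) (acc : List (Pt W.toSys × Bool)) : List (Pt W.toSys × Bool) :=
  tl x ++ acc.map fun y => (lact x y.1, y.2)

/-- the signed raw points of a word -/
def pts (u : List (HLr W.toSys × Bool)) : List (Pt W.toSys × Bool) := u.foldr stp []

@[simp] theorem pts_nil : pts (W := W) [] = [] := rfl
@[simp] theorem pts_cons (x : HLr W.toSys × Bool) (u : List (HLr W.toSys × Bool)) :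
    pts (x :: u) = stp x (pts u) := rfl

theorem rep_tl (x : HLr W.toSys × Bool) : Rep (tl x) (sgn W x).left := by
  rcases x with ⟨j | l | q, _ | _⟩
  · simp only [tl, sgn, cond_false, hlr, SemidirectProduct.inv_left, SemidirectProduct.left_inr,
      inv_one, map_one]
    exact Rep.one
  · exact Rep.one
  · simp only [tl, sgn, cond_false, hlr, SemidirectProduct.inv_left, SemidirectProduct.left_inr,
      inv_one, map_one]
    exact Rep.one
  · exact Rep.one
  · simp only [tl, sgn, cond_false, hlr, ht, SemidirectProduct.inv_left,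
      SemidirectProduct.left_inl, SemidirectProduct.right_inl, inv_one, map_one,
      MulAut.one_apply]
    exact Rep.of (cfg (S := W.toSys) q 0) false
  · exact Rep.of (cfg (S := W.toSys) q 0) true

theorem rep_pts (u : List (HLr W.toSys × Bool)) : Rep (pts u) (hvl W u).left := by
  induction u with
  | nil => simpa using Rep.one
  | cons x u ih =>
    rw [hvl_cons, SemidirectProduct.mul_left, pts_cons]
    exact (rep_tl x).mul (ih.act _ _ (cp_act_sgn W x))

/-! ### sub-words -/

/-- rule letters -/
def isRl : HLr W.toSys × Bool → Bool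
  | (.inr (.inl (.inl _)), _) => true
  | _ => false

/-- the word of the rule letters -/
def rlW (u : List (HLr W.toSys × Bool)) : List (HLr W.toSys × Bool) := u.filter isRl

/-- input letters -/
def aL : HLr W.toSys × Bool → Option (A × Bool)
  | (.inr (.inl (.inr a)), b) => some (a, !b)
  | _ => none

/-- the word of the input letters -/
def wA (u : List (HLr W.toSys × Bool)) : List (A × Bool) := u.filterMap aL

/-- the raw letter of an input letter -/
def ipL (y : A × Bool) : HLr W.toSys × Bool := (.inr (.inl (.inr y.1)), !y.2)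

/-- the raw word of a word of input letters -/
def ipW (w : List (A × Bool)) : List (HLr W.toSys × Bool) := w.map ipL

theorem sgn_ipL (y : A × Bool) : sgn W (ipL y) = SemidirectProduct.inr (ip W (FreeGroup.mk [y])) := by
  obtain ⟨a, b⟩ := y
  cases b with
  | false =>
    have h : (FreeGroup.mk [(a, false)] : FreeGroup A) = (FreeGroup.of a)⁻¹ := rfl
    rw [h, map_inv, ip_of, inv_inv]
    rfl
  | true =>
    have h : (FreeGroup.mk [(a, true)] : FreeGroup A) = FreeGroup.of a := rfl
    rw [h, ip_of, map_inv]
    rfl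

theorem hvl_ipW (w : List (A × Bool)) :
    hvl W (ipW w) = SemidirectProduct.inr (ip W (FreeGroup.mk w)) := by
  induction w with
  | nil => simp [ipW, ← FreeGroup.one_eq_mk]
  | cons y w ih =>
    have h : (FreeGroup.mk (y :: w) : FreeGroup A) = FreeGroup.mk [y] * FreeGroup.mk w := by
      rw [FreeGroup.mul_mk]; rfl
    rw [h, map_mul, map_mul, ← ih, ← sgn_ipL]
    exact hvl_cons W _ _

theorem rA_sgn (x : HLr W.toSys × Bool) :
    rA W (sgn W x).right = FreeGroup.mk (aL x).toList := by
  rcases x with ⟨j | (r | a) | q, _ | _⟩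
  · simp only [sgn, cond_false, hlr, SemidirectProduct.inv_right, SemidirectProduct.right_inr]
    rw [map_inv, rA_mx]; rfl
  · simp only [sgn, cond_true, hlr, SemidirectProduct.right_inr]
    rw [rA_mx]; rfl
  · simp only [sgn, cond_false, hlr, SemidirectProduct.inv_right, SemidirectProduct.right_inr]
    rw [map_inv, rA_inl]; rfl
  · simp only [sgn, cond_true, hlr, SemidirectProduct.right_inr]
    rw [rA_inl]; rfl
  · simp only [sgn, cond_false, hlr, SemidirectProduct.inv_right, SemidirectProduct.right_inr]
    rw [map_inv, rA_inr, inv_inv]; rfl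
  · simp only [sgn, cond_true, hlr, SemidirectProduct.right_inr]
    rw [rA_inr]; rfl
  · simp only [sgn, cond_false, hlr, ht, SemidirectProduct.inv_right, SemidirectProduct.right_inl]
    rw [inv_one, map_one]; rfl
  · simp only [sgn, cond_true, hlr, ht, SemidirectProduct.right_inl]
    rw [map_one]; rfl

theorem wH_hvl (u : List (HLr W.toSys × Bool)) : wH W (hvl W u) = FreeGroup.mk (wA u) := by
  unfold wH
  induction u with
  | nil => simp [wA, ← FreeGroup.one_eq_mk]
  | cons x u ih =>
    rw [hvl_cons, SemidirectProduct.mul_right, map_mul, ih, rA_sgn, FreeGroup.mul_mk]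
    unfold wA
    rw [List.filterMap_cons]
    cases aL x <;> rfl

theorem iR_rR_sgn (x : HLr W.toSys × Bool) :
    iR W (rR W (sgn W x).right) = (hvl W (if isRl x then [x] else [])).right := by
  rcases x with ⟨j | (r | a) | q, _ | _⟩
  · simp only [sgn, cond_false, hlr, SemidirectProduct.inv_right, SemidirectProduct.right_inr]
    rw [map_inv, rR_mx]; simp [isRl]
  · simp only [sgn, cond_true, hlr, SemidirectProduct.right_inr]
    rw [rR_mx]; simp [isRl]
  · simp only [isRl, if_true, hvl_cons, hvl_nil, mul_one]
    simp only [sgn, cond_false, hlr, SemidirectProduct.inv_right, SemidirectProduct.right_inr]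
    rw [map_inv, rR_inl, map_inv, iR_of]
  · simp only [isRl, if_true, hvl_cons, hvl_nil, mul_one]
    simp only [sgn, cond_true, hlr, SemidirectProduct.right_inr]
    rw [rR_inl, iR_of]
  · simp only [sgn, cond_false, hlr, SemidirectProduct.inv_right, SemidirectProduct.right_inr]
    rw [map_inv, rR_inr]; simp [isRl]
  · simp only [sgn, cond_true, hlr, SemidirectProduct.right_inr]
    rw [rR_inr]; simp [isRl]
  · simp only [sgn, cond_false, hlr, ht, SemidirectProduct.inv_right, SemidirectProduct.right_inl]
    simp [isRl]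
  · simp only [sgn, cond_true, hlr, ht, SemidirectProduct.right_inl]
    simp [isRl]

theorem hvl_rlW (u : List (HLr W.toSys × Bool)) :
    (hvl W (rlW u)).right = iR W (rR W (hvl W u).right) := by
  induction u with
  | nil => simp [rlW]
  | cons x u ih =>
    rw [hvl_cons, SemidirectProduct.mul_right, map_mul, map_mul, ← ih, iR_rR_sgn]
    unfold rlW
    rw [List.filter_cons]
    split_ifs
    · rw [hvl_cons, hvl_cons, hvl_nil, mul_one, SemidirectProduct.mul_right]
    · simp

/-- the raw base point of the word problem -/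
def pt0 : Pt W.toSys := (0, .base none)

/-- equality in `M` -/
theorem right_eq_iff {u v : List (HLr W.toSys × Bool)} :
    (hvl W u).right = (hvl W v).right ↔ evP u (pt0 (W := W)) = evP v pt0 := by
  have h : (pt0 (W := W)) = cp (star (S := W.toSys)) := rfl
  rw [h, ← cp_act_hvl, ← cp_act_hvl, cp_inj.eq_iff]
  exact ⟨fun h => by rw [h], fun h => eq_of_act_star h⟩

/-! ### the word problem of `H` -/

theorem hvl_eq_one_iff {u : List (HLr W.toSys × Bool)} :
    hvl W u = 1 ↔ evP u (pt0 (W := W)) = pt0 ∧ FreeGroup.reduce (pts u) = [] := by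
  have h := right_eq_iff (W := W) (u := u) (v := [])
  rw [hvl_nil, evP_nil] at h
  rw [← h, ← (rep_pts u).eq_one_iff]
  constructor
  · intro h; rw [h]; exact ⟨rfl, rfl⟩
  · rintro ⟨h1, h2⟩
    exact SemidirectProduct.ext h2 h1

end Crest.Agent.R185.Cw
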