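import Crest.Agent.R185.Cw459B

/-!
# R185, computability of the witness, part C: Boolean tests for `Ch`, `Start`, `Ls`, `EL`, `eps`

All tests are total Boolean functions on raw data, their specifications are proved here, their
computability in the next part.
-/

set_option autoImplicit false
set_option linter.unusedSectionVars false

namespace Crest.Agent.R185.Cw

open Crest.Agent.R185.Wit

variable {R A : Type} [DecidableEq R] [DecidableEq A] {W : WS R A}

/-! ### the rule orbit of the halting configuration -/

/-- test for `Ch`, given a test `cd` for real configurations -/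
def chT (cd : W.Q × W.toSys.V → Bool) : W.toSys.V → Tm W.toSys → Bool
  | c, .base (some q) => cd (q, c)
  | _, .base none => false
  | c, .fwd (.inl r) e s => chT cd (mulB (S := W.toSys) (.inl r) c + e) s
  | _, .fwd (.inr _) _ _ => false
  | c, .bwd (.inl r) s => decide (res (S := W.toSys) (.inl r) c = 0) &&
      chT cd (quo (S := W.toSys) (.inl r) c) s
  | _, .bwd (.inr _) _ => false

/-- `cd` decides connection to the halting configuration -/
def CdOK (cd : W.Q × W.toSys.V → Bool) : Prop := ∀ c, cd c = true ↔ Cn W c (W.qh, 0)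

variable {cd : W.Q × W.toSys.V → Bool}

theorem CdOK.step (h : CdOK cd) (r : R) (c : W.toSys.V) :
    cd (W.srcR r, mulB (S := W.toSys) (.inl r) c + W.a (.inl r)) = cd (W.tgtR r, c) := by
  have h1 : Cn W (W.srcR r, mulB (S := W.toSys) (.inl r) c + W.a (.inl r)) (W.tgtR r, c) :=
    .rel _ _ (.mk r c)
  rw [Bool.eq_iff_iff, h, h]
  exact ⟨fun h2 => (h1.symm).trans _ _ _ h2, fun h2 => h1.trans _ _ _ h2⟩

theorem chT_lperm (h : CdOK cd) (r : R) (c : W.toSys.V) (s : Tm W.toSys) :
    chT cd (quo (S := W.toSys) (.inl r) c)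
      (fs (S := W.toSys) (.inl r) (res (S := W.toSys) (.inl r) c) s) = chT cd c s := by
  have key : ∀ s : Tm W.toSys, chT cd (quo (S := W.toSys) (.inl r) c)
      (.fwd (S := W.toSys) (.inl r) (res (S := W.toSys) (.inl r) c) s) = chT cd c s := by
    intro s
    rw [chT, mulB_quo_add_res]
  cases s with
  | base q =>
    simp only [fs]
    split_ifs with h1
    · obtain ⟨rfl, h2⟩ := h1
      have h3 := mulB_quo_add_res (S := W.toSys) (.inl r) c
      rw [h2] at h3
      change cd (W.tgtR r, quo (S := W.toSys) (.inl r) c) = cd (W.srcR r, c)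
      rw [← h.step]
      exact congrArg (fun x => cd (W.srcR r, x)) h3
    · exact key _
  | fwd l' e' s' =>
    simp only [fs]
    exact key _
  | bwd l' s' =>
    simp only [fs]
    split_ifs with h1
    · obtain ⟨rfl, h2⟩ := h1
      rw [chT, h2]
      simp
    · exact key _

theorem chT_iR (h : CdOK cd) (p : FreeGroup R) (ω : Om W.toSys) :
    chT cd (act W.toSys (iR W p) ω).1 (act W.toSys (iR W p) ω).2.1 = chT cd ω.1 ω.2.1 := by
  refine iR_induction (P := fun ω ω' => chT cd ω'.1 ω'.2.1 = chT cd ω.1 ω.2.1) (fun _ => rfl)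
    ?_ ?_ p ω
  · intro r ω ω' h1
    rw [← h1]
    exact chT_lperm h r _ _
  · intro r ω ω' h1
    rw [← h1]
    exact (chT_lperm h r _ _).symm

theorem act_my_mem_Ch (r : R) {ω : Om W.toSys} (h : ω ∈ Ch W) :
    lperm (S := W.toSys) (.inl r) ω ∈ Ch W := by
  have := act_iR_Ch W (FreeGroup.of r) h
  rwa [iR_of, act_my] at this

theorem act_my_inv_mem_Ch (r : R) {ω : Om W.toSys} (h : ω ∈ Ch W) :
    (lperm (S := W.toSys) (.inl r))⁻¹ ω ∈ Ch W := by
  have := act_iR_Ch W (FreeGroup.of r)⁻¹ h
  rwa [map_inv, iR_of, map_inv, act_my] at this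

theorem mem_Ch_of_chT (h : CdOK cd) (s : Tm W.toSys) : ∀ (c : W.toSys.V) (hs : Valid s),
    chT cd c s = true → ((c, ⟨s, hs⟩) : Om W.toSys) ∈ Ch W := by
  induction s with
  | base q =>
    intro c hs h1
    cases q with
    | none => simp [chT] at h1
    | some q =>
      rw [chT, h] at h1
      obtain ⟨p, hp⟩ := exists_iR_of_Cn h1.symm
      exact ⟨p, hp⟩
  | fwd l e s ih =>
    intro c hs h1
    rcases l with r | x
    · rw [chT] at h1
      have h2 := ih _ hs.1 h1
      have h3 := act_my_mem_Ch r h2
      have h4 : lperm (S := W.toSys) (.inl r) ((mulB (S := W.toSys) (.inl r) c + e, ⟨s, hs.1⟩) :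
          Om W.toSys) = (c, ⟨.fwd (.inl r) e s, hs⟩) := by
        rw [lperm_apply]
        refine Prod.ext ?_ (Subtype.ext ?_)
        · exact quo_mulB_add hs.2.1 c
        · change fs (S := W.toSys) (.inl r) (res (S := W.toSys) (.inl r)
            (mulB (S := W.toSys) (.inl r) c + e)) s = _
          rw [res_mulB_add hs.2.1]
          have := fs_bs (l := (Sum.inl r : W.toSys.Lam)) hs
          simpa [bs] using this
      rwa [h4] at h3
    · simp [chT] at h1
  | bwd l s ih =>
    intro c hs h1
    rcases l with r | x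
    · rw [chT, Bool.and_eq_true, decide_eq_true_eq] at h1
      have h2 := ih _ hs.1 h1.2
      have h3 := act_my_inv_mem_Ch r h2
      have h4 : bs (S := W.toSys) (.inl r) s = (0, .bwd (.inl r) s) := by
        have := bs_fs (l := (Sum.inl r : W.toSys.Lam)) (e := 0) hs
        simpa [fs] using this
      have h5 : (lperm (S := W.toSys) (.inl r))⁻¹ ((quo (S := W.toSys) (.inl r) c, ⟨s, hs.1⟩) :
          Om W.toSys) = (c, ⟨.bwd (.inl r) s, hs⟩) := by
        rw [lperm_symm_apply]
        refine Prod.ext ?_ (Subtype.ext ?_)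
        · simp only [h4, add_zero]
          have := mulB_quo_add_res (S := W.toSys) (.inl r) c
          rw [h1.1, add_zero] at this
          exact this
        · simp only [h4]
      rwa [h5] at h3
    · simp [chT] at h1

/-- one letter of the test -/
def chS (s : Bool × W.toSys.V) (x : W.toSys.Lam × Option W.toSys.V) : Bool × W.toSys.V :=
  match x with
  | (.inl r, some e) => (s.1, mulB (S := W.toSys) (.inl r) s.2 + e)
  | (.inl r, none) => (s.1 && decide (res (S := W.toSys) (.inl r) s.2 = 0),
      quo (S := W.toSys) (.inl r) s.2)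
  | (.inr _, _) => (false, s.2)

/-- end of the test -/
def chE (cd : W.Q × W.toSys.V → Bool) (q : Option W.Q) (s : Bool × W.toSys.V) : Bool :=
  s.1 && Option.casesOn q false (fun q => cd (q, s.2))

theorem chE_false (cd : W.Q × W.toSys.V → Bool) (q : Option W.Q) (c : W.toSys.V)
    (L : List (W.toSys.Lam × Option W.toSys.V)) : chE cd q (L.foldl chS (false, c)) = false := by
  induction L generalizing c with
  | nil => rfl
  | cons x L ih =>
    rw [List.foldl_cons]
    rcases x with ⟨r | a, _ | e⟩
    · exact ih _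
    · exact ih _
    · exact ih _
    · exact ih _

theorem chT_eq (cd : W.Q × W.toSys.V → Bool) (s : Tm W.toSys) : ∀ c : W.toSys.V,
    chT cd c s = chE cd (tequiv s).1 ((tequiv s).2.foldl chS (true, c)) := by
  induction s with
  | base q =>
    intro c
    cases q <;> rfl
  | fwd l e s ih =>
    intro c
    rcases l with r | x
    · rw [chT, ih]
      rfl
    · rw [chT, tequiv_fwd, List.foldl_cons]
      exact (chE_false cd _ _ _).symm
  | bwd l s ih =>
    intro c
    rcases l with r | x
    · rw [chT, ih, tequiv_bwd, List.foldl_cons]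
      simp only [chS, Bool.true_and]
      cases decide (res (S := W.toSys) (Sum.inl r) c = 0)
      · rw [Bool.false_and, chE_false]
      · rw [Bool.true_and]
    · rw [chT, tequiv_bwd, List.foldl_cons]
      exact (chE_false cd _ _ _).symm

/-- test for `Ch` on raw points -/
def chP (cd : W.Q × W.toSys.V → Bool) (p : Pt W.toSys) : Bool :=
  chE cd (tequiv p.2).1 ((tequiv p.2).2.foldl chS (true, p.1))

theorem chP_iff (h : CdOK cd) (ω : Om W.toSys) : chP cd (cp ω) = true ↔ ω ∈ Ch W := by
  unfold chP
  rw [← chT_eq]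
  constructor
  · intro h1
    exact mem_Ch_of_chT h _ _ ω.2.2 h1
  · rintro ⟨p, rfl⟩
    refine (chT_iR h p (hl W)).trans ?_
    change chT cd 0 (.base (some W.qh)) = true
    rw [chT, h]
    exact .refl _

/-! ### start points -/

/-- raw start points, the text is an argument -/
def stR (W : WS R A) (tx : W.toSys.V) (w : List (A × Bool)) : Pt W.toSys :=
  evP (ipW w) (tx, .base (some W.qin))

theorem cp_st (w : List (A × Bool)) : cp (st W (FreeGroup.mk w)) = stR W W.tx w := by
  unfold st stR
  have := cp_act_hvl W (ipW w) (cfg (S := W.toSys) W.qin W.tx)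
  rw [hvl_ipW, SemidirectProduct.right_inr] at this
  exact this

/-- test for start points -/
noncomputable def stT [Finite A] (W : WS R A) (tx : W.toSys.V) (p : Pt W.toSys) : Bool :=
  (Re.wordsLT (A × Bool) (3 * ((p.1 W.I).natAbs + len p.2) + 1)).any
    fun w => decide (stR W tx w = p)

theorem stT_iff [Finite A] (ω : Om W.toSys) :
    stT W W.tx (cp ω) = true ↔ ω ∈ Start W := by
  unfold stT
  rw [List.any_eq_true]
  constructor
  · rintro ⟨w, -, hw⟩
    refine ⟨FreeGroup.mk w, ?_⟩
    apply cp_inj
    rw [cp_st]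
    simpa using hw
  · rintro ⟨g, rfl⟩
    have hS : Sm W (((st W g).1 W.I).natAbs + len (st W g).2.1) (st W g) := by
      refine ⟨?_, by omega⟩
      have hb := W.hb
      have h1 : (((st W g).1 W.I).natAbs + len (st W g).2.1) <
          2 ^ (((st W g).1 W.I).natAbs + len (st W g).2.1) := Nat.lt_two_pow_self
      have h2 : ((2:ℤ)) ^ (((st W g).1 W.I).natAbs + len (st W g).2.1) ≤
          W.b ^ (((st W g).1 W.I).natAbs + len (st W g).2.1) := pow_le_pow_left₀ (by norm_num) hb _
      have h3 : ((((st W g).1 W.I).natAbs + len (st W g).2.1 : ℕ) : ℤ) <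
          2 ^ (((st W g).1 W.I).natAbs + len (st W g).2.1) := by exact_mod_cast h1
      have h4 : |(st W g).1 W.I| ≤ ((((st W g).1 W.I).natAbs + len (st W g).2.1 : ℕ) : ℤ) := by
        rw [Int.abs_eq_natAbs]; push_cast; omega
      omega
    have h5 := start_bound hS
    refine ⟨g.toWord, ?_, ?_⟩
    · rw [Re.mem_wordsLT]
      exact Nat.lt_succ_of_le h5
    · rw [decide_eq_true_eq, ← cp_st, FreeGroup.mk_toWord]

/-! ### the subgroup `L` -/

/-- test for `L` -/
def inLT (cd : W.Q × W.toSys.V → Bool) (u : List (HLr W.toSys × Bool)) : Bool :=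
  decide (evP u (pt0 (W := W)) = evP (rlW u) pt0) &&
    (FreeGroup.reduce (pts u)).all fun y => chP cd y.1

theorem inLT_iff (h : CdOK cd) (u : List (HLr W.toSys × Bool)) :
    inLT cd u = true ↔ hvl W u ∈ Ls W := by
  unfold inLT
  rw [Bool.and_eq_true, decide_eq_true_eq, ← right_eq_iff, hvl_rlW, mem_Ls,
    ← (rep_pts u).mem_FC_iff (T := Ch W) (chP_iff h)]
  refine and_congr_left fun _ => ⟨fun h1 => ⟨_, h1⟩, ?_⟩
  rintro ⟨p, hp⟩
  rw [hp, rR_iR]

/-! ### the subgroup `E` -/

/-- test for `E` -/
noncomputable def inET [Finite A] (W : WS R A) (tx : W.toSys.V)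
    (u : List (HLr W.toSys × Bool)) : Bool :=
  decide (evP u (pt0 (W := W)) = evP (ipW (wA u)) pt0) &&
    (FreeGroup.reduce (pts u)).all fun y => stT W tx y.1

theorem mem_range_eps {h : Hg W} : h ∈ (eps W).range ↔
    h.right = ip W (wH W h) ∧ h.left ∈ FC (Start W) := by
  constructor
  · rintro ⟨x, rfl⟩
    refine ⟨?_, eps_left_mem W x⟩
    rw [wH, eps_right, rA_ip]
  · rintro ⟨h1, h2⟩
    obtain ⟨x, hx⟩ := exists_eps W h2 (wH W h)
    exact ⟨x, hx.trans (SemidirectProduct.ext rfl h1.symm)⟩

theorem inET_iff [Finite A] (u : List (HLr W.toSys × Bool)) :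
    inET W W.tx u = true ↔ hvl W u ∈ (eps W).range := by
  unfold inET
  rw [Bool.and_eq_true, decide_eq_true_eq, ← right_eq_iff, mem_range_eps, wH_hvl, hvl_ipW,
    SemidirectProduct.right_inr, ← (rep_pts u).mem_FC_iff (T := Start W) stT_iff]

/-! ### the set `EL` -/

/-- all elements after the longest `p`-prefix satisfy `C` -/
def dwAll {α : Type*} (p C : α → Bool) (l : List α) : Bool :=
  (l.foldr (fun x (s : Bool × Bool) => (bif p x then s.1 else C x && s.2, C x && s.2))
    (true, true)).1

theorem dwAll_eq {α : Type*} (p C : α → Bool) (l : List α) :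
    dwAll p C l = (l.dropWhile p).all C := by
  have key : l.foldr (fun x (s : Bool × Bool) => (bif p x then s.1 else C x && s.2, C x && s.2))
      (true, true) = ((l.dropWhile p).all C, l.all C) := by
    induction l with
    | nil => rfl
    | cons x l ih =>
      rw [List.foldr_cons, ih, List.dropWhile_cons]
      cases h : p x <;> simp
  unfold dwAll
  rw [key]

/-- test for `EL` -/
noncomputable def inELT [Finite A] (W : WS R A) (cd : W.Q × W.toSys.V → Bool) (tx : W.toSys.V)
    (u : List (HLr W.toSys × Bool)) : Bool :=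
  decide (evP u (pt0 (W := W)) = evP (ipW (wA u) ++ rlW u) pt0) &&
    dwAll (fun y => stT W tx y.1) (fun y => chP cd (evP (ipW (FreeGroup.invRev (wA u))) y.1))
      (FreeGroup.reduce (pts u))

theorem map_dropWhile {α β : Type*} (f : α → β) (p : β → Bool) (l : List α) :
    (l.map f).dropWhile p = (l.dropWhile (p ∘ f)).map f := by
  induction l with
  | nil => rfl
  | cons x l ih =>
    rw [List.map_cons, List.dropWhile_cons, List.dropWhile_cons]
    simp only [Function.comp]
    split_ifs with h
    · exact ih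
    · rfl

theorem inELT_iff [Finite A] (h : CdOK cd) (u : List (HLr W.toSys × Bool)) :
    inELT W cd W.tx u = true ↔ hvl W u ∈ EL W := by
  classical
  unfold inELT
  rw [Bool.and_eq_true, decide_eq_true_eq, ← right_eq_iff, mem_EL_iff, wH_hvl, hvl_append,
    SemidirectProduct.mul_right, hvl_ipW, SemidirectProduct.right_inr, hvl_rlW, dwAll_eq,
    ← (rep_pts u).reduce, map_dropWhile, List.all_eq_true]
  refine and_congr ⟨fun h1 => ⟨_, h1⟩, ?_⟩ ?_
  · rintro ⟨p, hp⟩
    rw [hp, map_mul, rR_ip, one_mul, rR_iR]
  · have h1 : ((fun y : Pt W.toSys × Bool => stT W W.tx y.1) ∘ Prod.map cp id) =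
        fun x : Om W.toSys × Bool => decide (x.1 ∈ Start W) := by
      funext x
      rw [Bool.eq_iff_iff]
      simp only [Function.comp, Prod.map_fst, decide_eq_true_eq]
      exact stT_iff x.1
    rw [h1]
    have h2 : ((hvl W u).left.toWord.dropWhile fun x => decide (x.1 ∈ Start W)) =
        dpW (Start W) (hvl W u).left := by
      unfold dpW
      congr 1
    rw [h2]
    have h3 : ∀ ω : Om W.toSys, chP cd (evP (ipW (FreeGroup.invRev (wA u))) (cp ω)) = true ↔
        ω ∈ Chw W (FreeGroup.mk (wA u)) := by
      intro ω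
      rw [← cp_act_hvl, chP_iff h, hvl_ipW, SemidirectProduct.right_inr, ← FreeGroup.inv_mk,
        map_inv, map_inv]
      constructor
      · intro h4
        exact ⟨_, h4, Equiv.apply_symm_apply _ _⟩
      · rintro ⟨t, ht, rfl⟩
        rw [show (act W.toSys (ip W (FreeGroup.mk (wA u))))⁻¹
          (act W.toSys (ip W (FreeGroup.mk (wA u))) t) = t from Equiv.symm_apply_apply _ _]
        exact ht
    constructor
    · intro h4 y hy
      exact (h3 y.1).1 (h4 _ (List.mem_map.2 ⟨y, hy, rfl⟩))
    · intro h4 y hy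
      obtain ⟨x, hx, rfl⟩ := List.mem_map.1 hy
      exact (h3 x.1).2 (h4 x hx)

/-! ### the map `eps` -/

/-- the points of the letters of `F(A ∪ {t})` -/
def tlE (W : WS R A) (tx : W.toSys.V) (x : Option A × Bool) : List (Pt W.toSys × Bool) :=
  match x.1 with
  | none => [((tx, .base (some W.qin)), x.2)]
  | some _ => []

/-- the action of the letters of `F(A ∪ {t})` on raw points -/
def lactE (x : Option A × Bool) (p : Pt W.toSys) : Pt W.toSys :=
  match x.1 with
  | none => p
  | some a => lact (ipL (a, x.2)) p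

/-- the signed points of a word in `A ∪ {t}` -/
def ptsE (W : WS R A) (tx : W.toSys.V) (x : List (Option A × Bool)) : List (Pt W.toSys × Bool) :=
  x.foldr (fun y acc => tlE W tx y ++ acc.map fun z => (lactE y z.1, z.2)) []

/-- the word in `A` -/
def wE (x : List (Option A × Bool)) : List (A × Bool) :=
  x.filterMap fun y => y.1.map fun a => (a, y.2)

theorem prA_mk (x : List (Option A × Bool)) : prA (FreeGroup.mk x) = FreeGroup.mk (wE x) := by
  induction x with
  | nil => simp [wE, ← FreeGroup.one_eq_mk]
  | cons y x ih =>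
    have h : (FreeGroup.mk (y :: x) : FreeGroup (Option A)) = FreeGroup.mk [y] * FreeGroup.mk x := by
      rw [FreeGroup.mul_mk]; rfl
    rw [h, map_mul, ih]
    obtain ⟨_ | a, _ | _⟩ := y
    · simp [prA, FreeGroup.lift_mk, wE]
    · simp [prA, FreeGroup.lift_mk, wE]
    · simp only [prA, FreeGroup.lift_mk, List.map_cons, List.map_nil, List.prod_cons,
        List.prod_nil, mul_one, cond_false, Option.elim, wE, List.filterMap_cons, Option.map_some]
      have h2 : ((FreeGroup.of a)⁻¹ : FreeGroup A) = FreeGroup.mk [(a, false)] := rfl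
      rw [h2, FreeGroup.mul_mk]; rfl
    · simp only [prA, FreeGroup.lift_mk, List.map_cons, List.map_nil, List.prod_cons,
        List.prod_nil, mul_one, cond_true, Option.elim, wE, List.filterMap_cons, Option.map_some]
      have h2 : ((FreeGroup.of a) : FreeGroup A) = FreeGroup.mk [(a, true)] := rfl
      rw [h2, FreeGroup.mul_mk]; rfl

theorem eps_mk_cons (y : Option A × Bool) (x : List (Option A × Bool)) :
    eps W (FreeGroup.mk (y :: x)) = eps W (FreeGroup.mk [y]) * eps W (FreeGroup.mk x) := by
  rw [← map_mul, FreeGroup.mul_mk]; rfl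

theorem eps_letter_some (a : A) (b : Bool) : eps W (FreeGroup.mk [(some a, b)]) =
    sgn W (ipL (a, b)) := by
  rw [sgn_ipL]
  cases b with
  | false =>
    have h : (FreeGroup.mk [(some a, false)] : FreeGroup (Option A)) =
      (FreeGroup.of (some a))⁻¹ := rfl
    have h2 : (FreeGroup.mk [(a, false)] : FreeGroup A) = (FreeGroup.of a)⁻¹ := rfl
    rw [h, h2, map_inv, map_inv, map_inv, eps_some]
  | true =>
    have h : (FreeGroup.mk [(some a, true)] : FreeGroup (Option A)) =
      (FreeGroup.of (some a)) := rfl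
    have h2 : (FreeGroup.mk [(a, true)] : FreeGroup A) = FreeGroup.of a := rfl
    rw [h, h2, eps_some]

theorem eps_letter_none (b : Bool) : eps W (FreeGroup.mk [(none, b)]) =
    cond b (te W) (te W)⁻¹ := by
  cases b with
  | false =>
    have h : (FreeGroup.mk [(none, false)] : FreeGroup (Option A)) =
      (FreeGroup.of none)⁻¹ := rfl
    rw [h, map_inv, eps_none]; rfl
  | true =>
    have h : (FreeGroup.mk [(none, true)] : FreeGroup (Option A)) =
      (FreeGroup.of none) := rfl
    rw [h, eps_none]; rfl

theorem rep_ptsE (x : List (Option A × Bool)) :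
    Rep (ptsE W W.tx x) (eps W (FreeGroup.mk x)).left := by
  induction x with
  | nil => 
    rw [← FreeGroup.one_eq_mk, map_one]; exact Rep.one
  | cons y x ih =>
    rw [eps_mk_cons, SemidirectProduct.mul_left]
    change Rep (tlE W W.tx y ++ (ptsE W W.tx x).map fun z => (lactE y z.1, z.2)) _
    obtain ⟨_ | a, b⟩ := y
    · refine Rep.mul ?_ ?_
      · rw [eps_letter_none]
        cases b
        · simp only [te, cond_false, SemidirectProduct.inv_left, SemidirectProduct.left_inl,
            SemidirectProduct.right_inl, inv_one, map_one, MulAut.one_apply]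
          exact Rep.of (cfg (S := W.toSys) W.qin W.tx) false
        · exact Rep.of (cfg (S := W.toSys) W.qin W.tx) true
      · refine ih.act _ _ ?_
        intro p
        rw [eps_letter_none]
        cases b <;> simp [te, lactE]
    · refine Rep.mul ?_ ?_
      · rw [eps_letter_some]
        have := rep_tl (W := W) (ipL (a, b))
        exact this
      · refine ih.act _ _ ?_
        intro p
        rw [eps_letter_some]
        exact cp_act_sgn W _ p

/-- test for `hvl u = eps x` -/
def epsT (W : WS R A) (tx : W.toSys.V) (u : List (HLr W.toSys × Bool))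
    (x : List (Option A × Bool)) : Bool :=
  decide (evP u (pt0 (W := W)) = evP (ipW (wE x)) pt0) &&
    decide (FreeGroup.reduce (pts u) = FreeGroup.reduce (ptsE W tx x))

theorem epsT_iff (u : List (HLr W.toSys × Bool)) (x : List (Option A × Bool)) :
    epsT W W.tx u x = true ↔ hvl W u = eps W (FreeGroup.mk x) := by
  unfold epsT
  rw [Bool.and_eq_true, decide_eq_true_eq, decide_eq_true_eq, ← right_eq_iff,
    ← (rep_pts u).eq_iff (rep_ptsE x), hvl_ipW, SemidirectProduct.right_inr, ← prA_mk, ← eps_right]
  constructor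
  · rintro ⟨h1, h2⟩
    exact SemidirectProduct.ext h2 h1
  · intro h; rw [h]; exact ⟨rfl, rfl⟩

/-- test for `hvl u = 1` -/
def oneT (u : List (HLr W.toSys × Bool)) : Bool :=
  decide (evP u (pt0 (W := W)) = pt0) && decide (FreeGroup.reduce (pts u) = [])

theorem oneT_iff (u : List (HLr W.toSys × Bool)) : oneT u = true ↔ hvl W u = 1 := by
  unfold oneT
  rw [Bool.and_eq_true, decide_eq_true_eq, decide_eq_true_eq, hvl_eq_one_iff]

end Crest.Agent.R185.Cw
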