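import Crest.Agent.R185.Cw459C
import Crest.Agent.R185.Hk1

/-!
# R185, computability of the witness, part D: the tests of part C are computable

The text vector `tx` is an argument everywhere, so everything is uniform in the program.
-/

set_option autoImplicit false
set_option linter.unusedSectionVars false

namespace Crest.Agent.R185.Cw

open Crest.Agent.R185.Wit Crest.Agent.Lib.RatPrimrec Crest.Agent.R185.Re

variable {R A : Type} [DecidableEq R] [DecidableEq A] {W : WS R A}
variable [Primcodable R] [Primcodable A] [Finite R] [Finite A] [Primcodable W.Q] [Finite W.Q]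

/-! ### words -/

theorem primrec_stp : Primrec₂ (stp (W := W)) := by
  refine primrec₂_of_finite fun x => ?_
  unfold stp
  refine Primrec.list_append.comp (Primrec.const _) (Primrec.list_map Primrec.id ?_)
  exact ((primrec_lact.comp (Primrec.const x) (Primrec.fst.comp Primrec.snd)).pair
    (Primrec.snd.comp Primrec.snd)).to₂

theorem primrec_pts : Primrec (pts (W := W)) := by
  refine Primrec.list_foldr (f := fun u : List (HLr W.toSys × Bool) => u)
    (g := fun _ => ([] : List (Pt W.toSys × Bool)))
    (h := fun _ (p : (HLr W.toSys × Bool) × List (Pt W.toSys × Bool)) => stp p.1 p.2)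
    Primrec.id (Primrec.const _) ?_
  exact primrec_stp.comp (Primrec.fst.comp Primrec.snd) (Primrec.snd.comp Primrec.snd)

theorem primrec_redpts : Primrec fun u : List (HLr W.toSys × Bool) =>
    FreeGroup.reduce (pts u) := Hk.reduce_primrec.comp primrec_pts

theorem primrec_rlW : Primrec (rlW (W := W)) := by
  have h : Primrec fun u : List (HLr W.toSys × Bool) =>
      u.filterMap fun x => if isRl x then some x else none := by
    refine Primrec.listFilterMap Primrec.id ?_
    exact ((Primrec.dom_finite fun x : HLr W.toSys × Bool => if isRl x then some x else none).comp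
      Primrec.snd).to₂
  refine h.of_eq fun u => ?_
  unfold rlW
  induction u with
  | nil => rfl
  | cons x u ih =>
    rw [List.filterMap_cons, List.filter_cons, ← ih]
    cases isRl x <;> rfl

theorem primrec_wA : Primrec (wA (W := W)) := by
  refine Primrec.listFilterMap Primrec.id ?_
  exact ((Primrec.dom_finite (aL (W := W))).comp Primrec.snd).to₂

theorem primrec_ipW : Primrec (ipW (W := W)) := by
  refine Primrec.list_map Primrec.id ?_
  exact ((Primrec.dom_finite (ipL (W := W))).comp Primrec.snd).to₂

theorem primrec_wE : Primrec (wE (A := A)) := by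
  refine Primrec.listFilterMap Primrec.id ?_
  exact ((Primrec.dom_finite fun y : Option A × Bool => y.1.map fun a => (a, y.2)).comp
    Primrec.snd).to₂

/-! ### the test for `Ch` -/

theorem primrec_chS : Primrec₂ (chS (W := W)) := by
  have h : Primrec₂ fun (l : W.toSys.Lam) (y : (Bool × W.toSys.V) × Option W.toSys.V) =>
      chS y.1 (l, y.2) := by
    refine primrec₂_of_finite fun l => ?_
    rcases l with r | x
    · have h1 : Primrec fun y : (Bool × W.toSys.V) × Option W.toSys.V =>
          (Option.casesOn y.2 (y.1.1 && decide (res (S := W.toSys) (.inl r) y.1.2 = 0),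
            quo (S := W.toSys) (.inl r) y.1.2)
            (fun e => (y.1.1, mulB (S := W.toSys) (.inl r) y.1.2 + e)) : Bool × W.toSys.V) := by
        refine Primrec.option_casesOn (o := fun y : (Bool × W.toSys.V) × Option W.toSys.V => y.2)
          (f := fun y => (y.1.1 && decide (res (S := W.toSys) (.inl r) y.1.2 = 0),
            quo (S := W.toSys) (.inl r) y.1.2))
          (g := fun y e => (y.1.1, mulB (S := W.toSys) (.inl r) y.1.2 + e)) Primrec.snd ?_ ?_
        · refine Primrec.pair (Primrec.and.comp (Primrec.fst.comp Primrec.fst)
            (primrec_deq (primrec_res.comp ((Primrec.const _).pair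
              (Primrec.snd.comp Primrec.fst))) (Primrec.const _)))
            (primrec_quo.comp ((Primrec.const _).pair (Primrec.snd.comp Primrec.fst)))
        · exact Primrec.pair (Primrec.fst.comp (Primrec.fst.comp Primrec.fst))
            (primrec_vadd.comp (primrec_mulB.comp ((Primrec.const _).pair
              (Primrec.snd.comp (Primrec.fst.comp Primrec.fst)))) Primrec.snd)
      refine h1.of_eq fun y => ?_
      obtain ⟨s, _ | e⟩ := y <;> rfl
    · refine ((Primrec.const false).pair (Primrec.snd.comp Primrec.fst)).of_eq fun y => ?_
      obtain ⟨s, _ | e⟩ := y <;> rfl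
  exact h.comp (Primrec.fst.comp Primrec.snd) (Primrec.fst.pair (Primrec.snd.comp Primrec.snd))

variable {cd : W.Q × W.toSys.V → Bool}

theorem computable_chP (hcd : Computable cd) : Computable (chP (W := W) cd) := by
  have h1 : Primrec fun p : Pt W.toSys => (tequiv p.2).2.foldl chS (true, p.1) := by
    refine Primrec.list_foldl (f := fun p : Pt W.toSys => (tequiv p.2).2)
      (g := fun p : Pt W.toSys => (true, p.1))
      (h := fun _ (x : (Bool × W.toSys.V) × (W.toSys.Lam × Option W.toSys.V)) => chS x.1 x.2)
      (Primrec.snd.comp (primrec_tequiv.comp Primrec.snd)) ((Primrec.const _).pair Primrec.fst) ?_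
    exact primrec_chS.comp (Primrec.fst.comp Primrec.snd) (Primrec.snd.comp Primrec.snd)
  have h2 : Computable fun x : Option W.Q × (Bool × W.toSys.V) => chE cd x.1 x.2 := by
    unfold chE
    refine Primrec.and.to_comp.comp (Computable.fst.comp Computable.snd) ?_
    refine Computable.option_casesOn (o := fun x : Option W.Q × (Bool × W.toSys.V) => x.1)
      (f := fun _ => false) (g := fun x q => cd (q, x.2.2)) Computable.fst (Computable.const _) ?_
    exact hcd.comp (Computable.snd.pair (Computable.snd.comp
      (Computable.snd.comp Computable.fst)))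
  exact h2.comp (((Primrec.fst.comp (primrec_tequiv.comp Primrec.snd)).pair h1).to_comp)

/-! ### start points -/

theorem primrec_stR : Primrec₂ (stR W) := by
  unfold stR
  exact primrec_evP.comp (primrec_ipW.comp Primrec.snd) (Primrec.fst.pair (Primrec.const _))

theorem primrec_len : Primrec (len : Tm W.toSys → ℕ) := by
  refine (Primrec.list_length.comp (Primrec.snd.comp primrec_tequiv)).of_eq fun s => ?_
  induction s with
  | base q => rfl
  | fwd l e s ih => rw [tequiv_fwd, List.length_cons, ih]; rfl
  | bwd l s ih => rw [tequiv_bwd, List.length_cons, ih]; rfl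

theorem computable_stT : Computable₂ (stT W) := by
  unfold stT
  refine computable_any (f := fun x : W.toSys.V × Pt W.toSys =>
    wordsLT (A × Bool) (3 * ((x.2.1 W.I).natAbs + len x.2.2) + 1))
    (g := fun x w => decide (stR W x.1 w = x.2)) ?_ ?_
  · refine computable_wordsLT.comp ?_
    refine Primrec.to_comp ?_
    refine Primrec.succ.comp (Primrec.nat_mul.comp (Primrec.const 3)
      (Primrec.nat_add.comp ?_ (primrec_len.comp (Primrec.snd.comp Primrec.snd))))
    exact primrec_natAbs.comp (primrec_app (Primrec.fst.comp Primrec.snd) (Primrec.const _))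
  · exact (primrec_deq (primrec_stR.comp (Primrec.fst.comp Primrec.fst) Primrec.snd)
      (Primrec.snd.comp Primrec.fst)).to_comp

/-! ### the tests -/

theorem primrec_evEq {α : Type*} [Primcodable α] {f g : α → List (HLr W.toSys × Bool)}
    (hf : Primrec f) (hg : Primrec g) :
    Primrec fun a => decide (evP (f a) (pt0 (W := W)) = evP (g a) pt0) :=
  primrec_deq (primrec_evP.comp hf (Primrec.const _)) (primrec_evP.comp hg (Primrec.const _))

theorem computable_inLT (hcd : Computable cd) : Computable (inLT (W := W) cd) := by
  have h1 : Computable fun u : List (HLr W.toSys × Bool) =>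
      decide (evP u (pt0 (W := W)) = evP (rlW u) pt0) :=
    (primrec_evEq Primrec.id primrec_rlW).to_comp
  have h3 : Computable₂ fun (_ : List (HLr W.toSys × Bool)) (y : Pt W.toSys × Bool) =>
      chP cd y.1 := (computable_chP hcd).comp (Computable.fst.comp Computable.snd)
  have h2 : Computable fun u : List (HLr W.toSys × Bool) =>
      (FreeGroup.reduce (pts u)).all fun y => chP cd y.1 :=
    computable_all (f := fun u : List (HLr W.toSys × Bool) => FreeGroup.reduce (pts u))
      (g := fun (_ : List (HLr W.toSys × Bool)) y => chP cd y.1) primrec_redpts.to_comp h3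
  exact Primrec.and.to_comp.comp h1 h2

theorem computable_inET : Computable₂ (inET W) := by
  have h1 : Computable fun x : W.toSys.V × List (HLr W.toSys × Bool) =>
      decide (evP x.2 (pt0 (W := W)) = evP (ipW (wA x.2)) pt0) :=
    (primrec_evEq Primrec.snd (primrec_ipW.comp (primrec_wA.comp Primrec.snd))).to_comp
  have h3 : Computable₂ fun (x : W.toSys.V × List (HLr W.toSys × Bool))
      (y : Pt W.toSys × Bool) => stT W x.1 y.1 :=
    computable_stT.comp (Computable.fst.comp Computable.fst) (Computable.fst.comp Computable.snd)
  have h4 : Computable fun x : W.toSys.V × List (HLr W.toSys × Bool) =>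
      FreeGroup.reduce (pts x.2) := primrec_redpts.to_comp.comp Computable.snd
  have h2 : Computable fun x : W.toSys.V × List (HLr W.toSys × Bool) =>
      (FreeGroup.reduce (pts x.2)).all fun y => stT W x.1 y.1 :=
    computable_all (f := fun x : W.toSys.V × List (HLr W.toSys × Bool) =>
      FreeGroup.reduce (pts x.2))
      (g := fun (x : W.toSys.V × List (HLr W.toSys × Bool)) y => stT W x.1 y.1) h4 h3
  exact Primrec.and.to_comp.comp h1 h2

theorem computable_dwAll {α β : Type*} [Primcodable α] [Primcodable β] {p C : α → β → Bool}
    {l : α → List β} (hp : Computable₂ p) (hC : Computable₂ C) (hl : Computable l) :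
    Computable fun a => dwAll (p a) (C a) (l a) := by
  unfold dwAll
  refine Computable.fst.comp (computable_foldr (f := l) (g := fun _ => (true, true))
    (h := fun a (x : β × (Bool × Bool)) => (bif p a x.1 then x.2.1 else C a x.1 && x.2.2,
      C a x.1 && x.2.2)) hl (Computable.const _) ?_)
  have h1 : Computable fun y : α × (β × (Bool × Bool)) => C y.1 y.2.1 && y.2.2.2 :=
    Primrec.and.to_comp.comp (hC.comp Computable.fst (Computable.fst.comp Computable.snd))
      (Computable.snd.comp (Computable.snd.comp Computable.snd))
  exact Computable.pair (Computable.cond (hp.comp Computable.fst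
    (Computable.fst.comp Computable.snd)) (Computable.fst.comp
      (Computable.snd.comp Computable.snd)) h1) h1

theorem computable_inELT (hcd : Computable cd) :
    Computable₂ fun (tx : W.toSys.V) (u : List (HLr W.toSys × Bool)) => inELT W cd tx u := by
  have h0 : Primrec fun x : W.toSys.V × List (HLr W.toSys × Bool) =>
      ipW (wA x.2) ++ rlW x.2 :=
    Primrec.list_append.comp (primrec_ipW.comp (primrec_wA.comp Primrec.snd))
      (primrec_rlW.comp Primrec.snd)
  have h1 : Computable fun x : W.toSys.V × List (HLr W.toSys × Bool) =>
      decide (evP x.2 (pt0 (W := W)) = evP (ipW (wA x.2) ++ rlW x.2) pt0) :=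
    (primrec_evEq Primrec.snd h0).to_comp
  have h3 : Computable₂ fun (x : W.toSys.V × List (HLr W.toSys × Bool))
      (y : Pt W.toSys × Bool) => stT W x.1 y.1 :=
    computable_stT.comp (Computable.fst.comp Computable.fst) (Computable.fst.comp Computable.snd)
  have h4 : Computable fun x : W.toSys.V × List (HLr W.toSys × Bool) =>
      FreeGroup.reduce (pts x.2) := primrec_redpts.to_comp.comp Computable.snd
  have h6 : Primrec fun z : (W.toSys.V × List (HLr W.toSys × Bool)) × (Pt W.toSys × Bool) =>
      evP (ipW (FreeGroup.invRev (wA z.1.2))) z.2.1 :=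
    primrec_evP.comp (primrec_ipW.comp (Hk.invRev_primrec.comp (primrec_wA.comp
      (Primrec.snd.comp Primrec.fst)))) (Primrec.fst.comp Primrec.snd)
  have h5 : Computable₂ fun (x : W.toSys.V × List (HLr W.toSys × Bool))
      (y : Pt W.toSys × Bool) => chP cd (evP (ipW (FreeGroup.invRev (wA x.2))) y.1) :=
    (computable_chP hcd).comp h6.to_comp
  have h2 := computable_dwAll
    (p := fun (x : W.toSys.V × List (HLr W.toSys × Bool)) (y : Pt W.toSys × Bool) =>
      stT W x.1 y.1)
    (C := fun (x : W.toSys.V × List (HLr W.toSys × Bool)) (y : Pt W.toSys × Bool) =>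
      chP cd (evP (ipW (FreeGroup.invRev (wA x.2))) y.1)) h3 h5 h4
  exact Primrec.and.to_comp.comp h1 h2

theorem primrec_ptsE : Primrec₂ (ptsE W) := by
  unfold ptsE
  refine Primrec.list_foldr (f := fun x : W.toSys.V × List (Option A × Bool) => x.2)
    (g := fun _ => ([] : List (Pt W.toSys × Bool)))
    (h := fun x (p : (Option A × Bool) × List (Pt W.toSys × Bool)) =>
      tlE W x.1 p.1 ++ p.2.map fun z => (lactE p.1 z.1, z.2))
    Primrec.snd (Primrec.const _) ?_
  have h1 : Primrec₂ fun (y : Option A × Bool) (z : W.toSys.V × List (Pt W.toSys × Bool)) =>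
      tlE W z.1 y ++ z.2.map fun z => (lactE y z.1, z.2) := by
    refine primrec₂_of_finite fun y => ?_
    refine Primrec.list_append.comp ?_ (Primrec.list_map Primrec.snd ?_)
    · obtain ⟨_ | a, b⟩ := y
      · exact Primrec.list_cons.comp ((Primrec.fst.pair (Primrec.const _)).pair
          (Primrec.const _)) (Primrec.const _)
      · exact Primrec.const _
    · obtain ⟨_ | a, b⟩ := y
      · exact (Primrec.fst.comp Primrec.snd).pair (Primrec.snd.comp Primrec.snd)
      · exact (primrec_lact.comp (Primrec.const _) (Primrec.fst.comp Primrec.snd)).pair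
          (Primrec.snd.comp Primrec.snd)
  exact h1.comp (Primrec.fst.comp Primrec.snd) ((Primrec.fst.comp Primrec.fst).pair
    (Primrec.snd.comp Primrec.snd))

theorem primrec_epsT : Primrec fun x : W.toSys.V × List (HLr W.toSys × Bool) ×
    List (Option A × Bool) => epsT W x.1 x.2.1 x.2.2 := by
  unfold epsT
  refine Primrec.and.comp (primrec_evEq (Primrec.fst.comp Primrec.snd) (primrec_ipW.comp
    (primrec_wE.comp (Primrec.snd.comp Primrec.snd)))) ?_
  exact primrec_deq (primrec_redpts.comp (Primrec.fst.comp Primrec.snd))
    (Hk.reduce_primrec.comp (primrec_ptsE.comp Primrec.fst (Primrec.snd.comp Primrec.snd)))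

theorem computable_epsT {α : Type*} [Primcodable α] {t : α → W.toSys.V}
    {u : α → List (HLr W.toSys × Bool)} {x : α → List (Option A × Bool)} (ht : Computable t)
    (hu : Computable u) (hx : Computable x) : Computable fun a => epsT W (t a) (u a) (x a) :=
  primrec_epsT.to_comp.comp (ht.pair (hu.pair hx))

theorem primrec_oneT : Primrec (oneT (W := W)) := by
  unfold oneT
  refine Primrec.and.comp (primrec_deq (primrec_evP.comp Primrec.id (Primrec.const _))
    (Primrec.const _)) ?_
  exact primrec_deq primrec_redpts (Primrec.const _)

end Crest.Agent.R185.Cw
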