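import Crest.Agent.R185.Cw459D
import Crest.Agent.R185.Md191G

/-!
# R185, computability of the witness, part E: the group `D`

Tests for `d = 1` and `d ∈ S` for words `d` in the letters of `D`, and their computability.
-/

set_option autoImplicit false
set_option linter.unusedSectionVars false

namespace Crest.Agent.R185.Cw

open Crest.Agent.R185.Wit Crest.Agent.Lib.RatPrimrec Crest.Agent.R185.Re
open Crest.Agent.R185.Md191C Crest.Agent.R185.Md191G

/-! ### free reduction over a Boolean equality -/

section red

variable {β α : Type*}

/-- one step of the reduction -/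
def redBS (q : β → β → Bool) (x : β × Bool) (l : List (β × Bool)) : List (β × Bool) :=
  Option.casesOn l.head? [x] fun y => bif q x.1 y.1 && decide (x.2 = !y.2) then l.tail else x :: l

/-- the reduction -/
def redB (q : β → β → Bool) (l : List (β × Bool)) : List (β × Bool) := l.foldr (redBS q) []

theorem map_redB [DecidableEq α] {q : β → β → Bool} {f : β → α}
    (hq : ∀ a b, q a b = true ↔ f a = f b) (l : List (β × Bool)) :
    (redB q l).map (fun x => (f x.1, x.2)) = FreeGroup.reduce (l.map fun x => (f x.1, x.2)) := by
  unfold redB
  induction l with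
  | nil => rfl
  | cons x l ih =>
    rw [List.foldr_cons, List.map_cons, FreeGroup.reduce.cons, ← ih]
    cases List.foldr (redBS q) [] l with
    | nil => rfl
    | cons y t =>
      simp only [redBS, List.head?_cons, List.tail_cons, List.map_cons]
      by_cases h : f x.1 = f y.1
      · rw [(hq _ _).2 h]
        by_cases h2 : x.2 = !y.2
        · simp [h, h2]
        · simp [h, h2]
      · have : q x.1 y.1 = false := by
          rw [Bool.eq_false_iff]; intro h3; exact h ((hq _ _).1 h3)
        rw [this]
        simp [h]

theorem computable_redB {γ : Type*} [Primcodable β] [Primcodable γ] {q : β → β → Bool}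
    (hq : Computable₂ q) {l : γ → List (β × Bool)} (hl : Computable l) :
    Computable fun a => redB q (l a) := by
  unfold redB
  refine computable_foldr (f := l) (g := fun _ => []) (h := fun _ (p : (β × Bool) ×
    List (β × Bool)) => redBS q p.1 p.2) hl (Computable.const _) ?_
  have h1 : Computable fun p : (β × Bool) × List (β × Bool) => redBS q p.1 p.2 := by
    unfold redBS
    refine Computable.option_casesOn (o := fun p : (β × Bool) × List (β × Bool) => p.2.head?)
      (f := fun p => [p.1]) (g := fun p y => bif q p.1.1 y.1 && decide (p.1.2 = !y.2) then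
        p.2.tail else p.1 :: p.2) ?_ ?_ ?_
    · exact Primrec.list_head?.to_comp.comp Computable.snd
    · exact (Primrec.list_cons.comp Primrec.fst (Primrec.const [])).to_comp
    · refine Computable.cond ?_ ?_ ?_
      · refine Primrec.and.to_comp.comp (hq.comp ?_ ?_) ?_
        · exact Computable.fst.comp (Computable.fst.comp Computable.fst)
        · exact Computable.fst.comp Computable.snd
        · exact (primrec_deq (Primrec.snd.comp (Primrec.fst.comp Primrec.fst))
            (Primrec.not.comp (Primrec.snd.comp Primrec.snd))).to_comp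
      · exact (Primrec.list_tail.comp (Primrec.snd.comp Primrec.fst)).to_comp
      · exact (Primrec.list_cons.comp (Primrec.fst.comp Primrec.fst)
          (Primrec.snd.comp Primrec.fst)).to_comp
  exact h1.comp Computable.snd

/-- test for `path true true` -/
def pathB (l : List (β × Bool)) : Bool :=
  (l.foldr (fun x (s : Bool × Bool) => (x.2 && s.2, !x.2 && s.1)) (true, false)).1

theorem pathB_iff {β : Type} (l : List (β × Bool)) : pathB l = true ↔ path true true l := by
  have key : ((l.foldr (fun x (s : Bool × Bool) => (x.2 && s.2, !x.2 && s.1))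
      (true, false)).1 = true ↔ path true true l) ∧
      ((l.foldr (fun x (s : Bool × Bool) => (x.2 && s.2, !x.2 && s.1))
      (true, false)).2 = true ↔ path false true l) := by
    induction l with
    | nil => simp
    | cons x l ih =>
      rw [List.foldr_cons, path_cons, path_cons]
      constructor
      · rw [Bool.and_eq_true, ih.2]; rfl
      · rw [Bool.and_eq_true, ih.1]; simp
  exact key.1

theorem primrec_pathB [Primcodable β] : Primrec (pathB (β := β)) := by
  unfold pathB
  refine Primrec.fst.comp (Primrec.list_foldr (f := fun l : List (β × Bool) => l)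
    (g := fun _ => (true, false)) (h := fun _ (p : (β × Bool) × (Bool × Bool)) =>
      (p.1.2 && p.2.2, !p.1.2 && p.2.1)) Primrec.id (Primrec.const _) ?_)
  have hx : Primrec fun y : List (β × Bool) × ((β × Bool) × (Bool × Bool)) => y.2.1.2 :=
    Primrec.snd.comp (Primrec.fst.comp Primrec.snd)
  have h1 : Primrec fun y : List (β × Bool) × ((β × Bool) × (Bool × Bool)) => y.2.2.1 :=
    Primrec.fst.comp (Primrec.snd.comp Primrec.snd)
  have h2 : Primrec fun y : List (β × Bool) × ((β × Bool) × (Bool × Bool)) => y.2.2.2 :=
    Primrec.snd.comp (Primrec.snd.comp Primrec.snd)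
  exact (Primrec.and.comp hx h2).pair (Primrec.and.comp (Primrec.not.comp hx) h1)

end red

/-! ### words in the letters of `D` -/

variable {R A : Type} [DecidableEq R] [DecidableEq A] (W : WS R A)

/-- values of the letters of `D` -/
def dlr (o : Option (HLr W.toSys)) : DG (Ls W) := o.elim (kD (Ls W)) fun a => hD (Ls W) (hlr W a)

/-- values of the words in the letters of `D` -/
def dvl (d : List (Option (HLr W.toSys) × Bool)) : DG (Ls W) :=
  FreeGroup.lift (dlr W) (FreeGroup.mk d)

/-- value of a signed letter -/
def dsg (x : Option (HLr W.toSys) × Bool) : DG (Ls W) := cond x.2 (dlr W x.1) (dlr W x.1)⁻¹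

@[simp] theorem dvl_nil : dvl W [] = 1 := by simp [dvl, FreeGroup.lift_mk]

@[simp] theorem dvl_cons (x : Option (HLr W.toSys) × Bool)
    (u : List (Option (HLr W.toSys) × Bool)) : dvl W (x :: u) = dsg W x * dvl W u := by
  simp [dvl, FreeGroup.lift_mk, dsg]

variable {W}

/-- the `H`-word of a `D`-word -/
def dh (d : List (Option (HLr W.toSys) × Bool)) : List (HLr W.toSys × Bool) :=
  d.filterMap fun x => x.1.map fun a => (a, x.2)

/-- one letter -/
def kst (x : Option (HLr W.toSys) × Bool) (acc : List (List (HLr W.toSys × Bool) × Bool)) :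
    List (List (HLr W.toSys × Bool) × Bool) :=
  match x with
  | (none, b) => ([], b) :: acc
  | (some a, b) => acc.map fun y => ((a, b) :: y.1, y.2)

/-- the occurrences of `k` -/
def kp (d : List (Option (HLr W.toSys) × Bool)) : List (List (HLr W.toSys × Bool) × Bool) :=
  d.foldr kst []

/-- the coset of a raw word -/
def cst (u : List (HLr W.toSys × Bool)) : Hg W ⧸ Ls W := ((hvl W u : Hg W) : Hg W ⧸ Ls W)

theorem dvl_right (d : List (Option (HLr W.toSys) × Bool)) : (dvl W d).right = hvl W (dh d) := by
  induction d with
  | nil => simp [dh]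
  | cons x d ih =>
    rw [dvl_cons, SemidirectProduct.mul_right, ih]
    obtain ⟨_ | a, b⟩ := x
    · have h1 : (dsg W (none, b)).right = 1 := by
        cases b
        · simp [dsg, dlr, kD]
        · simp [dsg, dlr, kD]
      rw [h1, one_mul]
      rfl
    · have h1 : (dsg W (some a, b)).right = sgn W (a, b) := by
        cases b
        · simp [dsg, dlr, hD, sgn]
        · simp [dsg, dlr, hD, sgn]
      rw [h1, ← hvl_cons]
      rfl

theorem dvl_left (d : List (Option (HLr W.toSys) × Bool)) : (dvl W d).left =
    FreeGroup.mk ((kp d).map fun y => (cst y.1, y.2)) := by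
  induction d with
  | nil => exact FreeGroup.one_eq_mk
  | cons x d ih =>
    rw [dvl_cons, SemidirectProduct.mul_left, ih]
    obtain ⟨_ | a, b⟩ := x
    · have h1 : (dsg W (none, b)).right = 1 := by
        cases b
        · simp [dsg, dlr, kD]
        · simp [dsg, dlr, kD]
      have h2 : (dsg W (none, b)).left = FreeGroup.mk [(cst (W := W) [], b)] := by
        have h3 : cst (W := W) [] = ((1 : Hg W) : Hg W ⧸ Ls W) := by rw [cst, hvl_nil]
        rw [h3]
        cases b
        · simp only [dsg, dlr, kD, cond_false, Option.elim, SemidirectProduct.inv_left,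
            SemidirectProduct.left_inl, SemidirectProduct.right_inl, inv_one, map_one,
            MulAut.one_apply]
          rfl
        · rfl
      rw [h1, h2, map_one, MulAut.one_apply, FreeGroup.mul_mk]
      rfl
    · have h1 : (dsg W (some a, b)).right = sgn W (a, b) := by
        cases b
        · simp [dsg, dlr, hD, sgn]
        · simp [dsg, dlr, hD, sgn]
      have h2 : (dsg W (some a, b)).left = 1 := by
        cases b
        · simp [dsg, dlr, hD]
        · simp [dsg, dlr, hD]
      rw [h1, h2, one_mul, qact_mk]
      change _ = FreeGroup.mk (((kp d).map fun y => ((a, b) :: y.1, y.2)).map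
        fun y => (cst y.1, y.2))
      rw [List.map_map, List.map_map]
      congr 1

variable {cd : W.Q × W.toSys.V → Bool}

/-- equality of cosets -/
def cstT (cd : W.Q × W.toSys.V → Bool) (u v : List (HLr W.toSys × Bool)) : Bool :=
  inLT cd (FreeGroup.invRev u ++ v)

theorem cstT_iff (h : CdOK cd) (u v : List (HLr W.toSys × Bool)) :
    cstT cd u v = true ↔ cst (W := W) u = cst v := by
  unfold cstT cst
  rw [inLT_iff h, hvl_append, hvl_invRev, QuotientGroup.eq]

/-- the reduced list of the occurrences of `k` -/
def kr (cd : W.Q × W.toSys.V → Bool) (d : List (Option (HLr W.toSys) × Bool)) :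
    List (List (HLr W.toSys × Bool) × Bool) := redB (cstT cd) (kp d)

/-- test for `d = 1` -/
def doneT (cd : W.Q × W.toSys.V → Bool) (d : List (Option (HLr W.toSys) × Bool)) : Bool :=
  (kr cd d).isEmpty && oneT (dh d)

theorem doneT_iff (h : CdOK cd) (d : List (Option (HLr W.toSys) × Bool)) :
    doneT cd d = true ↔ dvl W d = 1 := by
  classical
  unfold doneT
  rw [Bool.and_eq_true, oneT_iff, ← dvl_right, List.isEmpty_iff]
  have h1 := map_redB (f := cst (W := W)) (cstT_iff h) (kp d)
  have h2 : kr cd d = [] ↔ (dvl W d).left = 1 := by
    rw [dvl_left, ← FreeGroup.toWord_eq_nil_iff, FreeGroup.toWord_mk, ← h1, List.map_eq_nil_iff]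
    rfl
  rw [h2]
  constructor
  · rintro ⟨h3, h4⟩; exact SemidirectProduct.ext h3 h4
  · intro h3; rw [h3]; exact ⟨rfl, rfl⟩

/-- test for `d ∈ S` -/
noncomputable def inST [Finite A] (W : WS R A) (cd : W.Q × W.toSys.V → Bool) (tx : W.toSys.V)
    (d : List (Option (HLr W.toSys) × Bool)) : Bool :=
  inET W tx (dh d) && (pathB (kr cd d) && (kr cd d).all fun y => inELT W cd tx y.1)

theorem inE_cst (u : List (HLr W.toSys × Bool)) :
    inE (Ls W) (eps W) (cst u) ↔ hvl W u ∈ EL W := by
  unfold inE cst
  constructor
  · rintro ⟨e, he⟩
    rw [eq_comm, QuotientGroup.eq] at he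
    exact ⟨e, _, he, by group⟩
  · rintro ⟨e, l, hl, he⟩
    refine ⟨e, ?_⟩
    rw [eq_comm, QuotientGroup.eq, he]
    simpa using hl

theorem inST_iff [Finite A] (h : CdOK cd) (d : List (Option (HLr W.toSys) × Bool)) :
    inST W cd W.tx d = true ↔ dvl W d ∈ SG (Ls W) (eps W) := by
  classical
  unfold inST
  rw [mem_SG_iff, Bool.and_eq_true, Bool.and_eq_true, inET_iff, ← dvl_right, pathB_iff,
    List.all_eq_true]
  have h1 := map_redB (f := cst (W := W)) (cstT_iff h) (kp d)
  have h2 : (dvl W d).left.toWord = (kr cd d).map fun y => (cst y.1, y.2) := by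
    rw [dvl_left, FreeGroup.toWord_mk, ← h1]; rfl
  rw [h2]
  refine and_congr Iff.rfl (and_congr ?_ ?_)
  · constructor
    · intro h3
      exact path_map _ h3
    · intro h3
      have : ∀ (l : List (List (HLr W.toSys × Bool) × Bool)) (b : Bool),
          path b true (l.map fun y => (cst (W := W) y.1, y.2)) → path b true l := by
        intro l
        induction l with
        | nil => intro b h; exact h
        | cons x l ih =>
          intro b h
          rw [List.map_cons, path_cons] at h
          exact ⟨h.1, ih _ h.2⟩
      exact this _ _ h3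
  · constructor
    · intro h3 x hx
      obtain ⟨y, hy, rfl⟩ := List.mem_map.1 hx
      exact (inE_cst y.1).2 ((inELT_iff h y.1).1 (h3 y hy))
    · intro h3 y hy
      exact (inELT_iff h y.1).2 ((inE_cst y.1).1 (h3 _ (List.mem_map.2 ⟨y, hy, rfl⟩)))

/-! ### computability -/

section comp

variable [Primcodable R] [Primcodable A] [Finite R] [Finite A] [Primcodable W.Q] [Finite W.Q]

theorem primrec_dh : Primrec (dh (W := W)) := by
  refine Primrec.listFilterMap Primrec.id ?_
  exact ((Primrec.dom_finite fun x : Option (HLr W.toSys) × Bool =>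
    x.1.map fun a => (a, x.2)).comp Primrec.snd).to₂

theorem primrec_kp : Primrec (kp (W := W)) := by
  have h1 : Primrec₂ (kst (W := W)) := by
    refine primrec₂_of_finite fun x => ?_
    obtain ⟨_ | a, b⟩ := x
    · exact Primrec.list_cons.comp (Primrec.const _) Primrec.id
    · exact Primrec.list_map Primrec.id ((Primrec.list_cons.comp (Primrec.const _)
        (Primrec.fst.comp Primrec.snd)).pair (Primrec.snd.comp Primrec.snd)).to₂
  refine Primrec.list_foldr (f := fun d : List (Option (HLr W.toSys) × Bool) => d)
    (g := fun _ => ([] : List (List (HLr W.toSys × Bool) × Bool)))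
    (h := fun _ (p : (Option (HLr W.toSys) × Bool) × List (List (HLr W.toSys × Bool) × Bool)) =>
      kst p.1 p.2) Primrec.id (Primrec.const _) ?_
  exact h1.comp (Primrec.fst.comp Primrec.snd) (Primrec.snd.comp Primrec.snd)

theorem computable_cstT (hcd : Computable cd) : Computable₂ (cstT (W := W) cd) := by
  have h1 : Primrec fun x : List (HLr W.toSys × Bool) × List (HLr W.toSys × Bool) =>
      FreeGroup.invRev x.1 ++ x.2 :=
    Primrec.list_append.comp (Hk.invRev_primrec.comp Primrec.fst) Primrec.snd
  exact (computable_inLT hcd).comp h1.to_comp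

theorem computable_kr (hcd : Computable cd) : Computable (kr (W := W) cd) :=
  computable_redB (computable_cstT hcd) primrec_kp.to_comp

theorem computable_doneT (hcd : Computable cd) : Computable (doneT (W := W) cd) := by
  have h1 : Computable fun d : List (Option (HLr W.toSys) × Bool) => (kr cd d).isEmpty := by
    have h2 : Primrec fun l : List (List (HLr W.toSys × Bool) × Bool) => l.isEmpty := by
      refine (Primrec.not.comp (Primrec.option_isSome.comp Primrec.list_head?)).of_eq fun l => ?_
      cases l <;> rfl
    exact h2.to_comp.comp (computable_kr hcd)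
  exact Primrec.and.to_comp.comp h1 (primrec_oneT.comp primrec_dh).to_comp

theorem computable_inST (hcd : Computable cd) :
    Computable₂ fun (tx : W.toSys.V) (d : List (Option (HLr W.toSys) × Bool)) =>
      inST W cd tx d := by
  have h1 : Computable fun x : W.toSys.V × List (Option (HLr W.toSys) × Bool) =>
      inET W x.1 (dh x.2) :=
    computable_inET.comp Computable.fst (primrec_dh.to_comp.comp Computable.snd)
  have h2 : Computable fun x : W.toSys.V × List (Option (HLr W.toSys) × Bool) =>
      kr cd x.2 := (computable_kr hcd).comp Computable.snd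
  have h3 : Computable fun x : W.toSys.V × List (Option (HLr W.toSys) × Bool) =>
      pathB (kr cd x.2) := primrec_pathB.to_comp.comp h2
  have h5 : Computable₂ fun (x : W.toSys.V × List (Option (HLr W.toSys) × Bool))
      (y : List (HLr W.toSys × Bool) × Bool) => inELT W cd x.1 y.1 :=
    (computable_inELT hcd).comp (Computable.fst.comp Computable.fst)
      (Computable.fst.comp Computable.snd)
  have h4 : Computable fun x : W.toSys.V × List (Option (HLr W.toSys) × Bool) =>
      (kr cd x.2).all fun y => inELT W cd x.1 y.1 :=
    computable_all (f := fun x : W.toSys.V × List (Option (HLr W.toSys) × Bool) => kr cd x.2)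
      (g := fun x y => inELT W cd x.1 y.1) h2 h5
  exact Primrec.and.to_comp.comp h1 (Primrec.and.to_comp.comp h3 h4)

end comp

end Crest.Agent.R185.Cw
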