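import Crest.Agent.R185.Cw459F
import Crest.Agent.R185.She6
import Crest.Agent.R185.Asm4

/-!
# R185, computability of the witness, part G: the input `WtC` of the sheet layer
-/

set_option autoImplicit false
set_option linter.unusedSectionVars false

namespace Crest.Agent.R185.Cw

open Crest.Agent.R185.Wit Crest.Agent.R185.Re Crest.Agent.R292
open Crest.Agent.R185.Md191C Crest.Agent.R185.Md191G Crest.Agent.R185.She
open Crest.Agent.R185.Clk (UM PConn)

variable {A : Type} [Finite A] [Primcodable A] [DecidableEq A] (U : UM (A × Bool))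

theorem TU_hval (e : ℕ) (h : List (Asm.HU U × Bool)) : (TU U e).hval h = hval U e h := by
  rfl

theorem TU_dval (e : ℕ) (u : List (Option (Asm.HU U) × Bool)) : (TU U e).dval u = dval U e u := by
  unfold Wt.dval dval
  congr 1
  apply congrArg
  funext o
  cases o with
  | none => rfl
  | some i =>
    change hD (Ls (U.ws e)) (FreeGroup.lift (Asm.hlA U e) (FreeGroup.of i)) =
      hD (Ls (U.ws e)) (hlu U e i)
    rw [FreeGroup.lift_apply_of]
    rfl

/-- **the input of the sheet layer** -/
theorem wtC : WtC (TU U) where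
  epsW e y := by
    refine ⟨((Asm.wfp U e).θ y).toWord, ?_⟩
    change FreeGroup.lift (Asm.hlA U e) (FreeGroup.mk _) = eps (U.ws e) y
    rw [FreeGroup.mk_toWord, ← Asm.wfp_gen]
    exact (Asm.wfp U e).hθ y
  heps := by
    refine (comp_eps U).to_re.of_eq fun x => ?_
    rw [TU_hval]
    exact Iff.rfl
  inL := by
    refine (comp_L U).to_re.of_eq fun x => ?_
    rw [TU_hval]
    exact Iff.rfl
  ninLE := by
    refine (comp_LE U).not.to_re.of_eq fun x => ?_
    rw [TU_hval]
    exact Iff.rfl
  one := by
    refine (comp_done U).to_re.of_eq fun x => ?_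
    rw [TU_dval]
    exact Iff.rfl
  ne := by
    refine (comp_done U).not.to_re.of_eq fun x => ?_
    rw [TU_dval]
    exact Iff.rfl
  inS := by
    refine (comp_S U).to_re.of_eq fun x => ?_
    rw [TU_dval]
    exact Iff.rfl
  ninS := by
    refine (comp_S U).not.to_re.of_eq fun x => ?_
    rw [TU_dval]
    exact Iff.rfl
  kap := by
    classical
    obtain ⟨f, hf, h⟩ := ComputablePred.computable_iff.1 (comp_acc U)
    have h1 : Computable fun x : ℕ × List (Option (A × Bool) × Bool) ×
        List (Option (A × Bool) × Bool) => f (x.1, x.2.1) :=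
      hf.comp (Computable.fst.pair (Computable.fst.comp Computable.snd))
    have h2 : Computable fun x : ℕ × List (Option (A × Bool) × Bool) ×
        List (Option (A × Bool) × Bool) =>
        decide (FreeGroup.reduce x.2.2 = FreeGroup.reduce x.2.1) :=
      (primrec_deq (Hk.reduce_primrec.comp (Primrec.snd.comp Primrec.snd))
        (Hk.reduce_primrec.comp (Primrec.fst.comp Primrec.snd))).to_comp
    have h3 : Computable fun x : ℕ × List (Option (A × Bool) × Bool) ×
        List (Option (A × Bool) × Bool) => decide (FreeGroup.reduce x.2.2 = []) :=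
      (primrec_deq (Hk.reduce_primrec.comp (Primrec.snd.comp Primrec.snd))
        (Primrec.const _)).to_comp
    refine re_of_computable (Computable.cond h1 h3 h2) fun x => ?_
    have h4 : (st (U.ws x.1) (FreeGroup.mk x.2.1) ∈ Ch (U.ws x.1)) = (f (x.1, x.2.1) = true) :=
      congrFun h (x.1, x.2.1)
    change FreeGroup.mk x.2.2 = Tab.kap (U.ws x.1) (FreeGroup.mk x.2.1) ↔ _
    by_cases h5 : FreeGroup.mk x.2.1 ∈ Tab.AccG (U.ws x.1)
    · have h6 : f (x.1, x.2.1) = true := h4 ▸ h5
      rw [Tab.kap_spec _ _ h5, h6, cond_true, decide_eq_true_eq, FreeGroup.one_eq_mk,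
        ← FreeGroup.toWord_inj, FreeGroup.toWord_mk, FreeGroup.toWord_mk]
      rfl
    · have h6 : f (x.1, x.2.1) = false := by
        rw [Bool.eq_false_iff]
        intro h7
        exact h5 (h4.symm ▸ h7)
      rw [Tab.kap_not _ h5, h6, cond_false, decide_eq_true_eq,
        ← FreeGroup.toWord_inj, FreeGroup.toWord_mk, FreeGroup.toWord_mk]

end Crest.Agent.R185.Cw
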