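import Crest.Agent.R185.Re2

/-!
# R185, block H3 (1): r.e. relative to an oracle, uniformly

`orc : σ → W → Prop` is a family of oracles.  `ORE orc sp` says that `sp : σ → α → Prop` is r.e.
in the oracle by one procedure for all `s : σ` (a finite list of correct oracle answers and an r.e.
condition).  `levels`: if membership and non-membership in `Φ e s` are ORE in the oracle `s`, then
membership in `(Φ e)^i s₀` is computable in `(e, i, w)`.
-/

set_option autoImplicit false

namespace Crest.Agent.R185.Ev

open Crest.Agent.R292 Crest.Agent.R185.Re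

variable {σ W α β γ δ : Type} [Primcodable W] [Primcodable α] [Primcodable β] [Primcodable γ]
  [Primcodable δ]

/-- a correct oracle answer -/
def Cor (orc : σ → W → Prop) (s : σ) (x : W × Bool) : Prop := x.2 = true ↔ orc s x.1

/-- r.e. in the oracle, uniformly -/
def ORE (orc : σ → W → Prop) (sp : σ → α → Prop) : Prop :=
  ∃ G : List (W × Bool) × α → Prop, REPred G ∧
    ∀ s a, sp s a ↔ ∃ t : List (W × Bool), (∀ x ∈ t, Cor orc s x) ∧ G (t, a)

variable {orc : σ → W → Prop}

theorem ORE.congr {sp sp' : σ → α → Prop} (h : ORE orc sp) (h' : ∀ s a, sp' s a ↔ sp s a) :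
    ORE orc sp' := by
  obtain ⟨G, hG, hs⟩ := h
  exact ⟨G, hG, fun s a => (h' s a).trans (hs s a)⟩

theorem ORE.re {p : α → Prop} (h : REPred p) : ORE orc (fun _ a => p a) := by
  refine ⟨fun x => p x.2, re_comp h Computable.snd, fun s a => ?_⟩
  constructor
  · intro h; exact ⟨[], by simp, h⟩
  · rintro ⟨t, -, h⟩; exact h

theorem ORE.comp {sp : σ → β → Prop} (h : ORE orc sp) {f : α → β} (hf : Computable f) :
    ORE orc (fun s a => sp s (f a)) := by
  obtain ⟨G, hG, hs⟩ := h
  exact ⟨fun x => G (x.1, f x.2), re_comp hG (Computable.fst.pair (hf.comp Computable.snd)),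
    fun s a => hs s (f a)⟩

theorem re_query {f : α → W} (hf : Computable f) (b : Bool) :
    REPred fun x : List (W × Bool) × α => (f x.2, b) ∈ x.1 :=
  re_mem_list ((hf.comp Computable.snd).pair (Computable.const b)) Computable.fst

theorem ORE.query {f : α → W} (hf : Computable f) : ORE orc (fun s a => orc s (f a)) := by
  refine ⟨_, re_query hf true, fun s a => ?_⟩
  constructor
  · intro h
    exact ⟨[(f a, true)], by simpa [Cor] using h, by simp⟩
  · rintro ⟨t, h1, h2⟩
    exact (h1 _ h2).1 rfl

theorem ORE.nquery {f : α → W} (hf : Computable f) : ORE orc (fun s a => ¬ orc s (f a)) := by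
  refine ⟨_, re_query hf false, fun s a => ?_⟩
  constructor
  · intro h
    refine ⟨[(f a, false)], ?_, by simp⟩
    simpa [Cor] using h
  · rintro ⟨t, h1, h2⟩ h3
    exact absurd ((h1 _ h2).2 h3) (by simp)

theorem re_sub {f g : α → List β} (hf : Computable f) (hg : Computable g) :
    REPred fun a => ∀ x ∈ f a, x ∈ g a :=
  re_all_mem (p := fun y : α × β => y.2 ∈ g y.1)
    (re_mem_list Computable.snd (hg.comp Computable.fst)) hf

theorem ORE.and {sp sp' : σ → α → Prop} (h : ORE orc sp) (h' : ORE orc sp') :
    ORE orc (fun s a => sp s a ∧ sp' s a) := by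
  obtain ⟨G, hG, hs⟩ := h
  obtain ⟨G', hG', hs'⟩ := h'
  refine ⟨fun x => ∃ t : List (W × Bool) × List (W × Bool),
    (((∀ y ∈ t.1, y ∈ x.1) ∧ ∀ y ∈ t.2, y ∈ x.1) ∧ (G (t.1, x.2) ∧ G' (t.2, x.2))), ?_, ?_⟩
  · apply re_ex (p := fun z : (List (W × Bool) × α) × (List (W × Bool) × List (W × Bool)) =>
      (((∀ y ∈ z.2.1, y ∈ z.1.1) ∧ ∀ y ∈ z.2.2, y ∈ z.1.1) ∧ (G (z.2.1, z.1.2) ∧ G' (z.2.2, z.1.2))))
    refine re_and (re_and (re_sub ?_ ?_) (re_sub ?_ ?_)) (re_and (re_comp hG ?_) (re_comp hG' ?_))
    · exact Computable.fst.comp Computable.snd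
    · exact Computable.fst.comp Computable.fst
    · exact Computable.snd.comp Computable.snd
    · exact Computable.fst.comp Computable.fst
    · exact (Computable.fst.comp Computable.snd).pair (Computable.snd.comp Computable.fst)
    · exact (Computable.snd.comp Computable.snd).pair (Computable.snd.comp Computable.fst)
  · intro s a
    simp only [hs, hs']
    constructor
    · rintro ⟨⟨t, h1, h2⟩, t', h3, h4⟩
      refine ⟨t ++ t', ?_, (t, t'), ⟨?_, ?_⟩, h2, h4⟩
      · intro x hx
        rcases List.mem_append.1 hx with hx | hx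
        · exact h1 x hx
        · exact h3 x hx
      · intro y hy; exact List.mem_append_left _ hy
      · intro y hy; exact List.mem_append_right _ hy
    · rintro ⟨t, h1, ⟨t1, t2⟩, ⟨h2, h3⟩, h4, h5⟩
      exact ⟨⟨t1, fun x hx => h1 x (h2 x hx), h4⟩, t2, fun x hx => h1 x (h3 x hx), h5⟩

theorem ORE.or {sp sp' : σ → α → Prop} (h : ORE orc sp) (h' : ORE orc sp') :
    ORE orc (fun s a => sp s a ∨ sp' s a) := by
  obtain ⟨G, hG, hs⟩ := h
  obtain ⟨G', hG', hs'⟩ := h'
  refine ⟨fun x => G x ∨ G' x, re_or hG hG', fun s a => ?_⟩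
  simp only [hs, hs']
  constructor
  · rintro (⟨t, h1, h2⟩ | ⟨t, h1, h2⟩)
    · exact ⟨t, h1, Or.inl h2⟩
    · exact ⟨t, h1, Or.inr h2⟩
  · rintro ⟨t, h1, h2 | h2⟩
    · exact Or.inl ⟨t, h1, h2⟩
    · exact Or.inr ⟨t, h1, h2⟩

theorem ORE.ex {sp : σ → α × β → Prop} (h : ORE orc sp) :
    ORE orc (fun s a => ∃ b, sp s (a, b)) := by
  obtain ⟨G, hG, hs⟩ := h
  refine ⟨fun x => ∃ b, G (x.1, (x.2, b)), ?_, ?_⟩
  · apply re_ex (p := fun z : (List (W × Bool) × α) × β => G (z.1.1, (z.1.2, z.2)))
    exact re_comp hG ((Computable.fst.comp Computable.fst).pair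
      ((Computable.snd.comp Computable.fst).pair Computable.snd))
  · intro s a
    simp only [hs]
    constructor
    · rintro ⟨b, t, h1, h2⟩; exact ⟨t, h1, b, h2⟩
    · rintro ⟨t, h1, b, h2⟩; exact ⟨b, t, h1, h2⟩

theorem ORE.all_mem {sp : σ → α × β → Prop} (h : ORE orc sp) {L : α → List β} (hL : Computable L) :
    ORE orc (fun s a => ∀ b ∈ L a, sp s (a, b)) := by
  obtain ⟨G, hG, hs⟩ := h
  refine ⟨fun x => ∀ b ∈ L x.2, ∃ t : List (W × Bool), (∀ y ∈ t, y ∈ x.1) ∧ G (t, (x.2, b)),
    ?_, ?_⟩
  · apply re_all_mem (p := fun z : (List (W × Bool) × α) × β =>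
      ∃ t : List (W × Bool), (∀ y ∈ t, y ∈ z.1.1) ∧ G (t, (z.1.2, z.2)))
    · apply re_ex (p := fun z : ((List (W × Bool) × α) × β) × List (W × Bool) =>
        (∀ y ∈ z.2, y ∈ z.1.1.1) ∧ G (z.2, (z.1.1.2, z.1.2)))
      refine re_and (re_sub Computable.snd ?_) (re_comp hG ?_)
      · exact Computable.fst.comp (Computable.fst.comp Computable.fst)
      · exact Computable.snd.pair ((Computable.snd.comp (Computable.fst.comp Computable.fst)).pair
          (Computable.snd.comp Computable.fst))
    · exact hL.comp Computable.snd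
  · intro s a
    simp only [hs]
    constructor
    · intro h
      have key : ∀ l : List β, (∀ b ∈ l, ∃ t, (∀ x ∈ t, Cor orc s x) ∧ G (t, (a, b))) →
          ∃ t : List (W × Bool), (∀ x ∈ t, Cor orc s x) ∧
            ∀ b ∈ l, ∃ t', (∀ y ∈ t', y ∈ t) ∧ G (t', (a, b)) := by
        intro l
        induction l with
        | nil => intro _; exact ⟨[], by simp, by simp⟩
        | cons b l ih =>
          intro hl
          obtain ⟨t, h1, h2⟩ := ih fun b' hb' => hl b' (List.mem_cons_of_mem _ hb')
          obtain ⟨t', h3, h4⟩ := hl b List.mem_cons_self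
          refine ⟨t' ++ t, ?_, ?_⟩
          · intro x hx
            rcases List.mem_append.1 hx with hx | hx
            · exact h3 x hx
            · exact h1 x hx
          · intro b' hb'
            rcases List.mem_cons.1 hb' with rfl | hb'
            · exact ⟨t', fun y hy => List.mem_append_left _ hy, h4⟩
            · obtain ⟨t'', h5, h6⟩ := h2 b' hb'
              exact ⟨t'', fun y hy => List.mem_append_right _ (h5 y hy), h6⟩
      exact key _ h
    · rintro ⟨t, h1, h2⟩ b hb
      obtain ⟨t', h3, h4⟩ := h2 b hb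
      exact ⟨t', fun x hx => h1 x (h3 x hx), h4⟩

theorem ORE.fls : ORE orc (fun _ (_ : α) => False) := ORE.re (re_const False)

theorem ORE.tru : ORE orc (fun _ (_ : α) => True) := ORE.re (re_const True)

theorem ORE.eq {f g : α → β} (hf : Computable f) (hg : Computable g) :
    ORE orc (fun _ a => f a = g a) := ORE.re (re_eq hf hg)

theorem ORE.ne {f g : α → β} (hf : Computable f) (hg : Computable g) :
    ORE orc (fun _ a => f a ≠ g a) := ORE.re (re_ne hf hg)

/-- finite disjunction -/
theorem ORE.exFin {n : ℕ} {sp : Fin n → σ → α → Prop} (h : ∀ i, ORE orc (sp i)) :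
    ORE orc (fun s a => ∃ i, sp i s a) := by
  induction n with
  | zero => exact ORE.fls.congr fun s a => by simp
  | succ n ih =>
    refine ((h 0).or (ih fun i => h i.succ)).congr fun s a => ?_
    rw [Fin.exists_fin_succ]

/-- finite conjunction -/
theorem ORE.allFin {n : ℕ} {sp : Fin n → σ → α → Prop} (h : ∀ i, ORE orc (sp i)) :
    ORE orc (fun s a => ∀ i, sp i s a) := by
  induction n with
  | zero => exact ORE.tru.congr fun s a => by simp
  | succ n ih =>
    refine ((h 0).and (ih fun i => h i.succ)).congr fun s a => ?_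
    rw [Fin.forall_fin_succ]

/-- existential quantifier, curried form -/
theorem ORE.ex₂ {sp : σ → α → β → Prop} (h : ORE orc (fun s (x : α × β) => sp s x.1 x.2)) :
    ORE orc (fun s a => ∃ b, sp s a b) := h.ex

/-- paths: words acting through a one letter relation -/
inductive Pth {lt ρ : Type} (st : lt → ρ → ρ → Prop) : List lt → ρ → ρ → Prop
  | nil (r) : Pth st [] r r
  | cons (a w r r' r'') : Pth st w r r' → st a r' r'' → Pth st (a :: w) r r''

/-- check of a trace, from the last letter applied -/
def chk {lt ρ : Type} [DecidableEq ρ] (r' : ρ) (L : List (lt × ρ × ρ)) : Option ρ :=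
  L.foldl (fun c x => c.bind fun c => if c = x.2.2 then some x.2.1 else none) (some r')

theorem chk_foldl_none {lt ρ : Type} [DecidableEq ρ] (L : List (lt × ρ × ρ)) :
    L.foldl (fun c x => Option.bind c fun c => if c = x.2.2 then some x.2.1 else none) none = none := by
  induction L with
  | nil => rfl
  | cons x L ih => simpa using ih

theorem chk_cons {lt ρ : Type} [DecidableEq ρ] (r' : ρ) (x : lt × ρ × ρ) (L : List (lt × ρ × ρ)) :
    chk r' (x :: L) = if r' = x.2.2 then chk x.2.1 L else none := by
  unfold chk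
  rw [List.foldl_cons]
  by_cases h : r' = x.2.2
  · simp [h]
  · simp only [Option.bind_some, if_neg h]
    exact chk_foldl_none L

theorem pth_iff {lt ρ : Type} [DecidableEq ρ] {st : lt → ρ → ρ → Prop} {w : List lt} {r r' : ρ} :
    Pth st w r r' ↔ ∃ L : List (lt × ρ × ρ), L.map Prod.fst = w ∧ chk r' L = some r ∧
      ∀ x ∈ L, st x.1 x.2.1 x.2.2 := by
  constructor
  · intro h
    induction h with
    | nil r => exact ⟨[], rfl, rfl, by simp⟩
    | cons a w r r' r'' h h' ih =>
      obtain ⟨L, h1, h2, h3⟩ := ih
      refine ⟨(a, r', r'') :: L, by simp [h1], ?_, ?_⟩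
      · rw [chk_cons]; simpa using h2
      · intro x hx
        rcases List.mem_cons.1 hx with rfl | hx
        · exact h'
        · exact h3 x hx
  · rintro ⟨L, rfl, h2, h3⟩
    induction L generalizing r' with
    | nil =>
      have : r' = r := Option.some.inj h2
      subst this
      exact .nil _
    | cons x L ih =>
      rw [chk_cons] at h2
      split_ifs at h2 with h
      have h4 := ih h2 fun y hy => h3 y (List.mem_cons_of_mem _ hy)
      refine .cons _ _ _ _ _ h4 ?_
      rw [h]
      exact h3 x List.mem_cons_self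

theorem computable_ite_eq [DecidableEq β] {f g : α → β} {h k : α → γ} (hf : Computable f)
    (hg : Computable g) (hh : Computable h) (hk : Computable k) :
    Computable fun a => if f a = g a then h a else k a := by
  have h1 : Computable fun a => decide (f a = g a) := by
    have := (Primrec.eq (α := β)).decide.to_comp.comp hf hg
    exact this
  refine (Computable.cond h1 hh hk).of_eq fun z => ?_
  by_cases h : f z = g z <;> simp [h]

theorem computable_chk [DecidableEq β] :
    Computable fun x : β × List (α × β × β) => chk x.1 x.2 := by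
  refine computable_foldl (f := fun x : β × List (α × β × β) => x.2) (g := fun x => some x.1)
    (h := fun (_ : β × List (α × β × β)) (y : Option β × (α × β × β)) =>
      y.1.bind fun c => if c = y.2.2.2 then some y.2.2.1 else none)
    Computable.snd (Computable.option_some.comp Computable.fst) ?_
  refine Computable.option_bind (f := fun z : (β × List (α × β × β)) × (Option β × (α × β × β)) =>
    z.2.1) (g := fun z c => if c = z.2.2.2.2 then some z.2.2.2.1 else none)
    (Computable.fst.comp Computable.snd) ?_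
  refine computable_ite_eq Computable.snd ?_ ?_ (Computable.const none)
  · exact Computable.snd.comp (Computable.snd.comp (Computable.snd.comp
        (Computable.snd.comp Computable.fst)))
  · exact Computable.option_some.comp (Computable.fst.comp (Computable.snd.comp
        (Computable.snd.comp (Computable.snd.comp Computable.fst))))

theorem ORE.pth {st : σ → α → β → γ → γ → Prop}
    (h : ORE orc (fun s (x : α × β × γ × γ) => st s x.1 x.2.1 x.2.2.1 x.2.2.2)) :
    ORE orc (fun s (x : α × List β × γ × γ) => Pth (st s x.1) x.2.1 x.2.2.1 x.2.2.2) := by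
  classical
  have h1 : ORE orc (fun s (x : α × List β × γ × γ) => ∃ L : List (β × γ × γ),
      (L.map Prod.fst = x.2.1 ∧ chk x.2.2.2 L = some x.2.2.1) ∧
      ∀ y ∈ L, st s x.1 y.1 y.2.1 y.2.2) := by
    apply ORE.ex₂
    refine ORE.and (ORE.and (ORE.eq ?_ ?_) (ORE.eq ?_ ?_)) ?_
    · exact computable_map Computable.snd (Computable.fst.comp Computable.snd)
    · exact Computable.fst.comp (Computable.snd.comp Computable.fst)
    · exact computable_chk.comp ((Computable.snd.comp (Computable.snd.comp
        (Computable.snd.comp Computable.fst))).pair Computable.snd)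
    · exact Computable.option_some.comp (Computable.fst.comp (Computable.snd.comp
        (Computable.snd.comp Computable.fst)))
    · refine ORE.all_mem (sp := fun s (y : ((α × List β × γ × γ) × List (β × γ × γ)) ×
        (β × γ × γ)) => st s y.1.1.1 y.2.1 y.2.2.1 y.2.2.2) ?_ Computable.snd
      exact h.comp ((Computable.fst.comp (Computable.fst.comp Computable.fst)).pair Computable.snd)
  refine h1.congr fun s x => ?_
  rw [pth_iff]
  simp only [and_assoc]

/-! ### iteration over levels -/

section levels

variable {ε : Type} [Primcodable ε]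

/-- the rules -/
def LR (c0 : ε × W → Bool) (G G' : List (W × Bool) × (ε × W) → Prop) (e : ε)
    (l : List (ℕ × W × Bool)) (a : ℕ × W × Bool) : Prop :=
  (a.1 = 0 ∧ c0 (e, a.2.1) = a.2.2) ∨
  (∃ i : ℕ, a.1 = i + 1 ∧ (∀ x ∈ l, x.1 = i) ∧
    ((a.2.2 = true ∧ G (l.map Prod.snd, (e, a.2.1))) ∨
      (a.2.2 = false ∧ G' (l.map Prod.snd, (e, a.2.1)))))

theorem re_LR {c0 : ε × W → Bool} (h0 : Computable c0)
    {G G' : List (W × Bool) × (ε × W) → Prop} (hG : REPred G) (hG' : REPred G') :
    REPred fun x : ε × List (ℕ × W × Bool) × (ℕ × W × Bool) => LR c0 G G' x.1 x.2.1 x.2.2 := by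
  have cl : Computable fun y : (ε × List (ℕ × W × Bool) × (ℕ × W × Bool)) × ℕ => y.1.2.1 :=
    Computable.fst.comp (Computable.snd.comp Computable.fst)
  have cw : Computable fun y : (ε × List (ℕ × W × Bool) × (ℕ × W × Bool)) × ℕ => y.1.2.2.2.1 :=
    Computable.fst.comp (Computable.snd.comp (Computable.snd.comp (Computable.snd.comp
      Computable.fst)))
  have cb : Computable fun y : (ε × List (ℕ × W × Bool) × (ℕ × W × Bool)) × ℕ => y.1.2.2.2.2 :=
    Computable.snd.comp (Computable.snd.comp (Computable.snd.comp (Computable.snd.comp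
      Computable.fst)))
  have cm : Computable fun y : (ε × List (ℕ × W × Bool) × (ℕ × W × Bool)) × ℕ =>
      (y.1.2.1.map Prod.snd, (y.1.1, y.1.2.2.2.1)) :=
    (computable_map (g := fun _ (x : ℕ × W × Bool) => x.2) cl (Computable.snd.comp Computable.snd)).pair ((Computable.fst.comp
      Computable.fst).pair cw)
  unfold LR
  refine re_or (re_and (re_eq ?_ (Computable.const 0)) (re_eq (h0.comp ?_) ?_)) ?_
  · exact Computable.fst.comp (Computable.snd.comp Computable.snd)
  · exact Computable.fst.pair (Computable.fst.comp (Computable.snd.comp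
      (Computable.snd.comp Computable.snd)))
  · exact Computable.snd.comp (Computable.snd.comp (Computable.snd.comp Computable.snd))
  · apply re_ex₂ (p := fun (x : ε × List (ℕ × W × Bool) × (ℕ × W × Bool)) (i : ℕ) =>
      x.2.2.1 = i + 1 ∧ (∀ y ∈ x.2.1, y.1 = i) ∧
      ((x.2.2.2.2 = true ∧ G (x.2.1.map Prod.snd, (x.1, x.2.2.2.1))) ∨
        (x.2.2.2.2 = false ∧ G' (x.2.1.map Prod.snd, (x.1, x.2.2.2.1)))))
    refine re_and (re_eq ?_ (Computable.succ.comp Computable.snd)) (re_and ?_
      (re_or (re_and (re_eq cb (Computable.const _)) (re_comp hG cm))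
        (re_and (re_eq cb (Computable.const _)) (re_comp hG' cm))))
    · exact Computable.fst.comp (Computable.snd.comp (Computable.snd.comp Computable.fst))
    · refine re_all_mem (p := fun z : ((ε × List (ℕ × W × Bool) × (ℕ × W × Bool)) × ℕ) ×
        (ℕ × W × Bool) => z.2.1 = z.1.2) ?_ cl
      exact re_eq (Computable.fst.comp Computable.snd) (Computable.snd.comp Computable.fst)

theorem levels {Φ : ε → σ → σ} {s0 : σ} {c0 : W → Bool} (h0 : Computable c0)
    (hc0 : ∀ w, c0 w = true ↔ orc s0 w)
    (hp : ORE orc (fun s (x : ε × W) => orc (Φ x.1 s) x.2))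
    (hn : ORE orc (fun s (x : ε × W) => ¬ orc (Φ x.1 s) x.2)) :
    ∃ f : ε × ℕ × W → Bool, Computable f ∧
      ∀ e i w, f (e, i, w) = true ↔ orc ((Φ e)^[i] s0) w := by
  obtain ⟨G, hG, hGs⟩ := hp
  obtain ⟨G', hG', hGs'⟩ := hn
  set R := LR (fun x : ε × W => c0 x.2) G G' with hR
  have hRre : REPred fun x : ε × List (ℕ × W × Bool) × (ℕ × W × Bool) => R x.1 x.2.1 x.2.2 :=
    re_LR (h0.comp Computable.snd) hG hG'
  have hD := re_der hRre
  -- soundness
  have sound : ∀ e a, Der (R e) a → (a.2.2 = true ↔ orc ((Φ e)^[a.1] s0) a.2.1) := by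
    intro e a h
    induction h with
    | mk l a h hl ih =>
      rcases h with ⟨h1, h2⟩ | ⟨i, h1, h2, h3⟩
      · rw [h1, ← h2]
        exact hc0 a.2.1
      · have hcor : ∀ x ∈ l.map Prod.snd, Cor orc ((Φ e)^[i] s0) x := by
          intro x hx
          obtain ⟨y, hy, rfl⟩ := List.mem_map.1 hx
          have := ih y hy
          rw [h2 y hy] at this
          exact this
        rw [h1, Function.iterate_succ_apply']
        rcases h3 with ⟨h3, h4⟩ | ⟨h3, h4⟩
        · rw [h3]
          simp only [true_iff]
          exact (hGs _ (e, a.2.1)).2 ⟨_, hcor, h4⟩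
        · rw [h3]
          simp only [Bool.false_eq_true, false_iff]
          exact (hGs' _ (e, a.2.1)).2 ⟨_, hcor, h4⟩
  -- completeness
  have compl : ∀ e (i : ℕ) (w : W) (b : Bool), (b = true ↔ orc ((Φ e)^[i] s0) w) →
      Der (R e) (i, w, b) := by
    intro e i
    induction i with
    | zero =>
      intro w b h
      refine Der.mk [] _ (Or.inl ⟨rfl, ?_⟩) (by simp)
      simp only
      rw [Bool.eq_iff_iff, hc0]
      exact h.symm
    | succ i ih =>
      intro w b h
      rw [Function.iterate_succ_apply'] at h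
      cases b with
      | true =>
        obtain ⟨t, h1, h2⟩ := (hGs _ (e, w)).1 (h.1 rfl)
        refine Der.mk (t.map fun x => (i, x)) _ (Or.inr ⟨i, rfl, ?_, Or.inl ⟨rfl, ?_⟩⟩) ?_
        · intro x hx
          obtain ⟨y, -, rfl⟩ := List.mem_map.1 hx
          rfl
        · simpa [List.map_map, Function.comp_def] using h2
        · intro x hx
          obtain ⟨y, hy, rfl⟩ := List.mem_map.1 hx
          exact ih _ _ (h1 y hy)
      | false =>
        have h' : ¬ orc (Φ e ((Φ e)^[i] s0)) w := fun h3 => absurd (h.2 h3) (by simp)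
        obtain ⟨t, h1, h2⟩ := (hGs' _ (e, w)).1 h'
        refine Der.mk (t.map fun x => (i, x)) _ (Or.inr ⟨i, rfl, ?_, Or.inr ⟨rfl, ?_⟩⟩) ?_
        · intro x hx
          obtain ⟨y, -, rfl⟩ := List.mem_map.1 hx
          rfl
        · simpa [List.map_map, Function.comp_def] using h2
        · intro x hx
          obtain ⟨y, hy, rfl⟩ := List.mem_map.1 hx
          exact ih _ _ (h1 y hy)
  have hP : REPred fun x : ε × ℕ × W => Der (R x.1) (x.2.1, x.2.2, true) :=
    re_comp hD (f := fun x : ε × ℕ × W => (x.1, (x.2.1, x.2.2, true)))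
      (Computable.fst.pair ((Computable.fst.comp Computable.snd).pair
        ((Computable.snd.comp Computable.snd).pair (Computable.const true))))
  have hQ : REPred fun x : ε × ℕ × W => Der (R x.1) (x.2.1, x.2.2, false) :=
    re_comp hD (f := fun x : ε × ℕ × W => (x.1, (x.2.1, x.2.2, false)))
      (Computable.fst.pair ((Computable.fst.comp Computable.snd).pair
        ((Computable.snd.comp Computable.snd).pair (Computable.const false))))
  obtain ⟨f, hf, hf'⟩ := exists_bool hP hQ (by
    rintro ⟨e, i, w⟩
    constructor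
    · intro h1 h2
      have h3 := sound _ _ h1
      have h4 := sound _ _ h2
      simp only [Bool.false_eq_true, false_iff] at h3
      simp only [true_iff] at h4
      exact h3 h4
    · intro h
      apply compl
      simp only [Bool.false_eq_true, false_iff]
      intro h1
      exact h (compl e i w true (by simpa using h1)))
  refine ⟨f, hf, fun e i w => ?_⟩
  rw [hf']
  constructor
  · intro h
    exact (sound _ _ h).1 rfl
  · intro h
    exact compl e i w true (by simpa using h)

end levels

end Crest.Agent.R185.Ev
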