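import Crest.Agent.R185.Ev9
import Crest.Agent.R185.Asm6

/-!
# R185, block H3 (10): `LevOK` from the sheet layer
-/

set_option autoImplicit false
set_option linter.unusedSectionVars false
set_option linter.unusedVariables false

namespace Crest.Agent.R185.Ev

open Crest.Agent.R292 Crest.Agent.R185.Re Crest.Agent.R185.Wu Crest.Agent.R185.Hot
  Crest.Agent.R185.Smp Crest.Agent.R185.Asm
open Crest.Agent.R185.Clk (UM)

/-- **the output of the sheet layer**: codes of the points of `YU U e s`, uniformly in `e` and in
the oracle `s`; equality and inequality of coded points are r.e. in the oracle, the base point has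
a computable code and all letters are realised in both directions -/
def SheetOK (U : UM (GdL × Bool)) : Prop :=
  ∃ (R : Type) (_ : Primcodable R) (dec : ∀ (e : ℕ) (s : Subgroup (FreeGroup GdL)), R → YU U e s),
    Lay orcS dec ∧
    (∃ r₀ : ℕ → R, Computable r₀ ∧ ∀ e s, dec e s (r₀ e) = yU U e s) ∧
    ∀ a, RP orcS dec (fun e s => pU U e s a)

/-- **`LevOK` from the sheet layer** -/
theorem levOK_of_sheet (h : ∀ U, SheetOK U) : LevOK := by
  intro U G B _ _ _ eG hwp M
  obtain ⟨R, iR, dec, h1, ⟨r₀, h2, h3⟩, h4⟩ := h U
  exact H3_gzS M (allL (KLet (UU U) B)) hwp h1 h2 h3 h4 (Φ := Phi U eG M) (fun e s => rfl)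

end Crest.Agent.R185.Ev
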