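import Crest.Agent.R185.Ev1

/-!
# R185, block H3 (2): realisable multi-valued functions relative to an oracle

`RR orc Dm Y`: on the domain `Dm` a value `b` with `Y s a b` is found by a uniform oracle search.
-/

set_option autoImplicit false

namespace Crest.Agent.R185.Ev

open Crest.Agent.R292 Crest.Agent.R185.Re

variable {σ W α β γ δ : Type} [Primcodable W] [Primcodable α] [Primcodable β] [Primcodable γ]
  [Primcodable δ] {orc : σ → W → Prop}

/-- realisable -/
def RR (orc : σ → W → Prop) (Dm : σ → α → Prop) (Y : σ → α → β → Prop) : Prop :=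
  ∃ T : σ → α × β → Prop, ORE orc T ∧ (∀ s a b, Dm s a → T s (a, b) → Y s a b) ∧
    ∀ s a, Dm s a → ∃ b, T s (a, b)

theorem RR.mono {Dm Dm' : σ → α → Prop} {Y Y' : σ → α → β → Prop} (h : RR orc Dm Y)
    (h1 : ∀ s a, Dm' s a → Dm s a) (h2 : ∀ s a b, Dm' s a → Y s a b → Y' s a b) :
    RR orc Dm' Y' := by
  obtain ⟨T, hT, hs, ht⟩ := h
  exact ⟨T, hT, fun s a b h3 h4 => h2 s a b h3 (hs s a b (h1 s a h3) h4),
    fun s a h3 => ht s a (h1 s a h3)⟩

theorem RR.fn {Dm : σ → α → Prop} {Y : σ → α → β → Prop} {F : α → β} (hF : Computable F)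
    (h : ∀ s a, Dm s a → Y s a (F a)) : RR orc Dm Y := by
  refine ⟨fun _ x => x.2 = F x.1, ORE.eq Computable.snd (hF.comp Computable.fst), ?_, ?_⟩
  · intro s a b h1 h2
    simp only at h2
    rw [h2]; exact h s a h1
  · intro s a h1
    exact ⟨F a, rfl⟩

/-- search -/
theorem RR.search {Dm : σ → α → Prop} {Y : σ → α → β → Prop} {c : σ → α × β → Prop}
    (hc : ORE orc c) (h : ∀ s a b, Dm s a → c s (a, b) → Y s a b)
    (ht : ∀ s a, Dm s a → ∃ b, c s (a, b)) : RR orc Dm Y := ⟨c, hc, h, ht⟩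

theorem RR.comp {Dm : σ → β → Prop} {Y : σ → β → γ → Prop} (h : RR orc Dm Y) {f : α → β}
    (hf : Computable f) : RR orc (fun s a => Dm s (f a)) (fun s a c => Y s (f a) c) := by
  obtain ⟨T, hT, hs, ht⟩ := h
  exact ⟨fun s x => T s (f x.1, x.2), hT.comp ((hf.comp Computable.fst).pair Computable.snd),
    fun s a b h1 h2 => hs s (f a) b h1 h2, fun s a h1 => ht s (f a) h1⟩

theorem RR.bind {Dm : σ → α → Prop} {Y : σ → α → β → Prop} {Dm' : σ → α × β → Prop}
    {Y' : σ → α × β → γ → Prop} {Y'' : σ → α → γ → Prop} (h : RR orc Dm Y) (h' : RR orc Dm' Y')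
    (h1 : ∀ s a b, Dm s a → Y s a b → Dm' s (a, b))
    (h2 : ∀ s a b c, Dm s a → Y s a b → Y' s (a, b) c → Y'' s a c) : RR orc Dm Y'' := by
  obtain ⟨T, hT, hs, ht⟩ := h
  obtain ⟨T', hT', hs', ht'⟩ := h'
  refine ⟨fun s x => ∃ b, T s (x.1, b) ∧ T' s ((x.1, b), x.2), ?_, ?_, ?_⟩
  · apply ORE.ex₂ (sp := fun s (x : α × γ) b => T s (x.1, b) ∧ T' s ((x.1, b), x.2))
    refine ORE.and (hT.comp ?_) (hT'.comp ?_)
    · exact (Computable.fst.comp Computable.fst).pair Computable.snd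
    · exact ((Computable.fst.comp Computable.fst).pair Computable.snd).pair
        (Computable.snd.comp Computable.fst)
  · rintro s a c h3 ⟨b, h4, h5⟩
    have h6 := hs s a b h3 h4
    exact h2 s a b c h3 h6 (hs' s (a, b) c (h1 s a b h3 h6) h5)
  · intro s a h3
    obtain ⟨b, h4⟩ := ht s a h3
    have h6 := hs s a b h3 h4
    obtain ⟨c, h5⟩ := ht' s (a, b) (h1 s a b h3 h6)
    exact ⟨c, b, h4, h5⟩

theorem RR.cases {Dm : σ → α → Prop} {Y : σ → α → β → Prop} {c1 c2 : σ → α → Prop}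
    (hc1 : ORE orc c1) (hc2 : ORE orc c2) (hc : ∀ s a, Dm s a → c1 s a ∨ c2 s a)
    (h1 : RR orc (fun s a => Dm s a ∧ c1 s a) Y) (h2 : RR orc (fun s a => Dm s a ∧ c2 s a) Y) :
    RR orc Dm Y := by
  obtain ⟨T, hT, hs, ht⟩ := h1
  obtain ⟨T', hT', hs', ht'⟩ := h2
  refine ⟨fun s x => (c1 s x.1 ∧ T s x) ∨ (c2 s x.1 ∧ T' s x),
    ((hc1.comp Computable.fst).and hT).or ((hc2.comp Computable.fst).and hT'), ?_, ?_⟩
  · rintro s a b h3 (⟨h4, h5⟩ | ⟨h4, h5⟩)
    · exact hs s a b ⟨h3, h4⟩ h5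
    · exact hs' s a b ⟨h3, h4⟩ h5
  · intro s a h3
    rcases hc s a h3 with h4 | h4
    · obtain ⟨b, h5⟩ := ht s a ⟨h3, h4⟩
      exact ⟨b, Or.inl ⟨h4, h5⟩⟩
    · obtain ⟨b, h5⟩ := ht' s a ⟨h3, h4⟩
      exact ⟨b, Or.inr ⟨h4, h5⟩⟩

/-- exhaustive cases with a computable boolean -/
theorem RR.cond {Dm : σ → α → Prop} {Y : σ → α → β → Prop} {c : α → Bool} (hc : Computable c)
    (h1 : RR orc (fun s a => Dm s a ∧ c a = true) Y)
    (h2 : RR orc (fun s a => Dm s a ∧ c a = false) Y) : RR orc Dm Y :=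
  RR.cases (c1 := fun _ a => c a = true) (c2 := fun _ a => c a = false)
    (ORE.eq hc (Computable.const _)) (ORE.eq hc (Computable.const _))
    (fun s a _ => by cases c a <;> simp) h1 h2

/-- choose a witness first -/
theorem RR.choose {Dm : σ → α → Prop} {Y : σ → α → β → Prop} {c : σ → α × γ → Prop}
    (hc : ORE orc c) (ht : ∀ s a, Dm s a → ∃ g, c s (a, g))
    (h : RR orc (fun s (x : α × γ) => Dm s x.1 ∧ c s x) (fun s x b => Y s x.1 b)) :
    RR orc Dm Y :=
  (RR.search (Y := fun s a g => c s (a, g)) hc (fun _ _ _ _ h => h) ht).bind h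
    (fun _ _ _ h1 h2 => ⟨h1, h2⟩) (fun _ _ _ _ _ _ h3 => h3)

theorem RR.pair {Dm : σ → α → Prop} {Y : σ → α → β → Prop} {Y' : σ → α → γ → Prop}
    (h : RR orc Dm Y) (h' : RR orc Dm Y') :
    RR orc Dm (fun s a (x : β × γ) => Y s a x.1 ∧ Y' s a x.2) := by
  obtain ⟨T, hT, hs, ht⟩ := h
  obtain ⟨T', hT', hs', ht'⟩ := h'
  refine ⟨fun s x => T s (x.1, x.2.1) ∧ T' s (x.1, x.2.2), (hT.comp ?_).and (hT'.comp ?_), ?_, ?_⟩
  · exact Computable.fst.pair (Computable.fst.comp Computable.snd)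
  · exact Computable.fst.pair (Computable.snd.comp Computable.snd)
  · rintro s a b h3 ⟨h4, h5⟩
    exact ⟨hs _ _ _ h3 h4, hs' _ _ _ h3 h5⟩
  · intro s a h3
    obtain ⟨b, h4⟩ := ht s a h3
    obtain ⟨c, h5⟩ := ht' s a h3
    exact ⟨(b, c), h4, h5⟩

/-- post-processing by a computable function -/
theorem RR.map {Dm : σ → α → Prop} {Y : σ → α → β → Prop} {Y' : σ → α → γ → Prop}
    (h : RR orc Dm Y) {F : α × β → γ} (hF : Computable F)
    (h2 : ∀ s a b, Dm s a → Y s a b → Y' s a (F (a, b))) : RR orc Dm Y' :=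
  h.bind (Dm' := fun s x => Dm s x.1 ∧ Y s x.1 x.2)
    (RR.fn (Y := fun _ x c => c = F x) hF (fun _ _ _ => rfl))
    (fun _ _ _ h1 h3 => ⟨h1, h3⟩) (fun s a b c h3 h4 h5 => by rw [h5]; exact h2 s a b h3 h4)

/-- a property of the value, if independent of the choice of the value, is ORE -/
theorem RR.test {Dm : σ → α → Prop} {Y : σ → α → β → Prop} (h : RR orc Dm Y)
    {Z : σ → α → Prop} {q : σ → α × β → Prop} (hD : ORE orc Dm) (hq : ORE orc q)
    (h1 : ∀ s a b, Dm s a → Y s a b → (q s (a, b) ↔ Z s a)) :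
    ORE orc (fun s a => Dm s a ∧ Z s a) := by
  obtain ⟨T, hT, hs, ht⟩ := h
  have key : ORE orc (fun s a => ∃ b, (Dm s a ∧ T s (a, b)) ∧ q s (a, b)) := by
    apply ORE.ex₂ (sp := fun s a b => (Dm s a ∧ T s (a, b)) ∧ q s (a, b))
    exact ORE.and (ORE.and (hD.comp Computable.fst) (hT.comp Computable.id))
      (hq.comp Computable.id)
  refine key.congr fun s a => ?_
  constructor
  · rintro ⟨h2, h3⟩
    obtain ⟨b, h4⟩ := ht s a h2
    exact ⟨b, ⟨h2, h4⟩, (h1 s a b h2 (hs s a b h2 h4)).2 h3⟩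
  · rintro ⟨b, ⟨h2, h4⟩, h5⟩
    exact ⟨h2, (h1 s a b h2 (hs s a b h2 h4)).1 h5⟩

/-- the same on the full domain -/
theorem RR.test' {Y : σ → α → β → Prop} (h : RR orc (fun _ _ => True) Y)
    {Z : σ → α → Prop} {q : σ → α × β → Prop} (hq : ORE orc q)
    (h1 : ∀ s a b, Y s a b → (q s (a, b) ↔ Z s a)) : ORE orc Z :=
  (h.test ORE.tru hq (fun s a b _ h2 => h1 s a b h2)).congr fun s a => by simp

/-- words acting letter by letter -/
theorem RR.pth {Y : σ → α × β × γ → γ → Prop} (h : RR orc (fun _ _ => True) Y) :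
    RR orc (fun _ _ => True) (fun s (x : α × List β × γ) r' =>
      Pth (fun b r r' => Y s (x.1, b, r) r') x.2.1 x.2.2 r') := by
  obtain ⟨T, hT, hs, ht⟩ := h
  have h1 : ORE orc (fun s (x : α × List β × γ × γ) =>
      Pth (fun b r r' => T s ((x.1, b, r), r')) x.2.1 x.2.2.1 x.2.2.2) := by
    apply ORE.pth (st := fun s a b r r' => T s ((a, b, r), r'))
    refine hT.comp ?_
    exact (Computable.fst.pair ((Computable.fst.comp Computable.snd).pair
      (Computable.fst.comp (Computable.snd.comp Computable.snd)))).pair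
      (Computable.snd.comp (Computable.snd.comp Computable.snd))
  refine ⟨fun s x => Pth (fun b r r' => T s ((x.1.1, b, r), r')) x.1.2.1 x.1.2.2 x.2, ?_, ?_, ?_⟩
  · refine h1.comp (f := fun x : (α × List β × γ) × γ => (x.1.1, x.1.2.1, x.1.2.2, x.2)) ?_
    exact (Computable.fst.comp Computable.fst).pair ((Computable.fst.comp (Computable.snd.comp
      Computable.fst)).pair ((Computable.snd.comp (Computable.snd.comp Computable.fst)).pair
      Computable.snd))
  · intro s x r' _ h2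
    obtain ⟨a, w, r⟩ := x
    simp only at h2 ⊢
    induction h2 with
    | nil r => exact .nil r
    | cons b w r r' r'' h3 h4 ih => exact .cons _ _ _ _ _ ih (hs _ _ _ trivial h4)
  · intro s x _
    obtain ⟨a, w, r⟩ := x
    simp only
    induction w with
    | nil => exact ⟨r, .nil r⟩
    | cons b w ih =>
      obtain ⟨r', h3⟩ := ih
      obtain ⟨r'', h4⟩ := ht s (a, b, r') trivial
      exact ⟨r'', .cons _ _ _ _ _ h3 h4⟩

/-- semantic value of a path: a word of a free group acts -/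
theorem pth_free {Lt X R : Type} (f : FreeGroup Lt →* Equiv.Perm X) (dec : R → X)
    {w : List (Lt × Bool)} {r r' : R}
    (h : Pth (fun (b : Lt × Bool) r r' => dec r' = f (FreeGroup.mk [b]) (dec r)) w r r') :
    dec r' = f (FreeGroup.mk w) (dec r) := by
  induction h with
  | nil r =>
    have : (FreeGroup.mk [] : FreeGroup Lt) = 1 := rfl
    rw [this, map_one]; rfl
  | cons b w r r' r'' h h' ih =>
    rw [h', ih, ← Equiv.Perm.mul_apply, ← map_mul, FreeGroup.mul_mk]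
    rfl

theorem mk_single_true {Lt : Type} (b : Lt) : (FreeGroup.mk [(b, true)]) = FreeGroup.of b := rfl

theorem mk_single_false {Lt : Type} (b : Lt) :
    (FreeGroup.mk [(b, false)]) = (FreeGroup.of b)⁻¹ := rfl

theorem mk_cons {Lt : Type} (b : Lt × Bool) (w : List (Lt × Bool)) :
    FreeGroup.mk (b :: w) = FreeGroup.mk [b] * FreeGroup.mk w := by
  rw [FreeGroup.mul_mk]; rfl

end Crest.Agent.R185.Ev
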