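import Crest.Agent.R185.Ev2

/-!
# R185, block H3 (3): coded families of sets
-/

set_option autoImplicit false

namespace Crest.Agent.R185.Ev

open Crest.Agent.R292 Crest.Agent.R185.Re

section cpt

variable {α β γ : Type} [Primcodable α] [Primcodable β] [Primcodable γ]

theorem cid : Computable fun a : α => a := Computable.id

theorem ccst (b : β) : Computable fun _ : α => b := Computable.const b

theorem cfst {f : α → β × γ} (h : Computable f) : Computable fun a => (f a).1 :=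
  Computable.fst.comp h

theorem csnd {f : α → β × γ} (h : Computable f) : Computable fun a => (f a).2 :=
  Computable.snd.comp h

theorem cpair {f : α → β} {g : α → γ} (h : Computable f) (h' : Computable g) :
    Computable fun a => (f a, g a) := h.pair h'

theorem cinl {f : α → β} (h : Computable f) : Computable fun a => (Sum.inl (f a) : β ⊕ γ) :=
  Computable.sumInl.comp h

theorem cinr {f : α → γ} (h : Computable f) : Computable fun a => (Sum.inr (f a) : β ⊕ γ) :=
  Computable.sumInr.comp h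

theorem csome {f : α → β} (h : Computable f) : Computable fun a => some (f a) :=
  Computable.option_some.comp h

theorem csucc {f : α → ℕ} (h : Computable f) : Computable fun a => f a + 1 :=
  Computable.succ.comp h

theorem ccons {f : α → β} {g : α → List β} (h : Computable f) (h' : Computable g) :
    Computable fun a => f a :: g a := Computable.list_cons.comp h h'

theorem capp {f g : α → List β} (h : Computable f) (h' : Computable g) :
    Computable fun a => f a ++ g a := Computable.list_append.comp h h'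

theorem cfin {n : ℕ} {f : α → Fin n → β} {i : α → Fin n} (h : Computable f) (h' : Computable i) :
    Computable fun a => f a (i a) := Computable.fin_app.comp h h'

end cpt

/-- computability of projections, pairs, constructors -/
macro "cpt" : tactic => `(tactic| repeat' (with_reducible first
  | exact cid
  | exact ccst _
  | assumption
  | refine cfst ?_
  | refine csnd ?_
  | refine cpair ?_ ?_
  | refine cinl ?_
  | refine cinr ?_
  | refine csome ?_
  | refine csucc ?_
  | refine ccons ?_ ?_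
  | refine capp ?_ ?_
  | refine cfin ?_ ?_))

section basic

variable {σ W α β γ δ κ : Type} [Primcodable W] [Primcodable α] [Primcodable β] [Primcodable γ]
  [Primcodable δ] [Primcodable κ] {orc : σ → W → Prop}

/-- ORE on a sum with context -/
theorem ORE.sum {p : σ → γ × (α ⊕ β) → Prop} (h1 : ORE orc (fun s (x : γ × α) => p s (x.1, .inl x.2)))
    (h2 : ORE orc (fun s (x : γ × β) => p s (x.1, .inr x.2))) : ORE orc p := by
  have k1 : ORE orc (fun s (x : γ × (α ⊕ β)) => ∃ a, x.2 = .inl a ∧ p s (x.1, .inl a)) := by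
    apply ORE.ex₂ (sp := fun s (x : γ × (α ⊕ β)) a => x.2 = .inl a ∧ p s (x.1, .inl a))
    refine ORE.and (ORE.eq (by cpt) (by cpt)) ?_
    exact h1.comp (f := fun x : (γ × (α ⊕ β)) × α => (x.1.1, x.2)) (by cpt)
  have k2 : ORE orc (fun s (x : γ × (α ⊕ β)) => ∃ a, x.2 = .inr a ∧ p s (x.1, .inr a)) := by
    apply ORE.ex₂ (sp := fun s (x : γ × (α ⊕ β)) a => x.2 = .inr a ∧ p s (x.1, .inr a))
    refine ORE.and (ORE.eq (by cpt) (by cpt)) ?_
    exact h2.comp (f := fun x : (γ × (α ⊕ β)) × β => (x.1.1, x.2)) (by cpt)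
  refine (k1.or k2).congr fun s x => ?_
  obtain ⟨c, a | b⟩ := x
  · simp
  · simp

/-- RR on a sum with context -/
theorem RR.sum {Dm : σ → γ × (α ⊕ β) → Prop} {Y : σ → γ × (α ⊕ β) → δ → Prop}
    (h1 : RR orc (fun s (x : γ × α) => Dm s (x.1, .inl x.2)) (fun s x d => Y s (x.1, .inl x.2) d))
    (h2 : RR orc (fun s (x : γ × β) => Dm s (x.1, .inr x.2)) (fun s x d => Y s (x.1, .inr x.2) d)) :
    RR orc Dm Y := by
  obtain ⟨T1, hT1, hs1, ht1⟩ := h1
  obtain ⟨T2, hT2, hs2, ht2⟩ := h2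
  refine ⟨fun s x => (∃ a, x.1.2 = .inl a ∧ T1 s ((x.1.1, a), x.2)) ∨
    (∃ a, x.1.2 = .inr a ∧ T2 s ((x.1.1, a), x.2)), ?_, ?_, ?_⟩
  · refine ORE.or ?_ ?_
    · apply ORE.ex₂ (sp := fun s (x : (γ × (α ⊕ β)) × δ) a => x.1.2 = .inl a ∧
        T1 s ((x.1.1, a), x.2))
      refine ORE.and (ORE.eq (by cpt) (by cpt)) ?_
      exact hT1.comp (f := fun x : ((γ × (α ⊕ β)) × δ) × α => ((x.1.1.1, x.2), x.1.2)) (by cpt)
    · apply ORE.ex₂ (sp := fun s (x : (γ × (α ⊕ β)) × δ) a => x.1.2 = .inr a ∧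
        T2 s ((x.1.1, a), x.2))
      refine ORE.and (ORE.eq (by cpt) (by cpt)) ?_
      exact hT2.comp (f := fun x : ((γ × (α ⊕ β)) × δ) × β => ((x.1.1.1, x.2), x.1.2)) (by cpt)
  · rintro s ⟨c, a | b⟩ d h3 (⟨a', h4, h5⟩ | ⟨a', h4, h5⟩)
    · simp only [Sum.inl.injEq] at h4; subst h4
      exact hs1 s (c, a) d h3 h5
    · simp at h4
    · simp at h4
    · simp only [Sum.inr.injEq] at h4; subst h4
      exact hs2 s (c, b) d h3 h5
  · rintro s ⟨c, a | b⟩ h3
    · obtain ⟨d, h4⟩ := ht1 s (c, a) h3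
      exact ⟨d, Or.inl ⟨a, rfl, h4⟩⟩
    · obtain ⟨d, h4⟩ := ht2 s (c, b) h3
      exact ⟨d, Or.inr ⟨b, rfl, h4⟩⟩

/-- RR by cases on a natural number -/
theorem RR.nat {Dm : σ → γ × ℕ × α → Prop} {Y : σ → γ × ℕ × α → δ → Prop}
    (h1 : RR orc (fun s (x : γ × α) => Dm s (x.1, 0, x.2)) (fun s x d => Y s (x.1, 0, x.2) d))
    (h2 : RR orc (fun s (x : γ × ℕ × α) => Dm s (x.1, x.2.1 + 1, x.2.2))
      (fun s x d => Y s (x.1, x.2.1 + 1, x.2.2) d)) :
    RR orc Dm Y := by
  obtain ⟨T1, hT1, hs1, ht1⟩ := h1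
  obtain ⟨T2, hT2, hs2, ht2⟩ := h2
  refine ⟨fun s x => (x.1.2.1 = 0 ∧ T1 s ((x.1.1, x.1.2.2), x.2)) ∨
    (∃ n, x.1.2.1 = n + 1 ∧ T2 s ((x.1.1, n, x.1.2.2), x.2)), ?_, ?_, ?_⟩
  · refine ORE.or ?_ ?_
    · refine ORE.and (ORE.eq (by cpt) (by cpt)) ?_
      exact hT1.comp (f := fun x : (γ × ℕ × α) × δ => ((x.1.1, x.1.2.2), x.2)) (by cpt)
    · apply ORE.ex₂ (sp := fun s (x : (γ × ℕ × α) × δ) n => x.1.2.1 = n + 1 ∧
        T2 s ((x.1.1, n, x.1.2.2), x.2))
      refine ORE.and (ORE.eq (by cpt) (by cpt)) ?_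
      exact hT2.comp (f := fun x : ((γ × ℕ × α) × δ) × ℕ => ((x.1.1.1, x.2, x.1.1.2.2), x.1.2))
        (by cpt)
  · rintro s ⟨c, n, a⟩ d h3 (⟨h4, h5⟩ | ⟨n', h4, h5⟩)
    · simp only at h4; subst h4
      exact hs1 s (c, a) d h3 h5
    · simp only at h4; subst h4
      exact hs2 s (c, n', a) d h3 h5
  · rintro s ⟨c, n | n, a⟩ h3
    · obtain ⟨d, h4⟩ := ht1 s (c, a) h3
      exact ⟨d, Or.inl ⟨rfl, h4⟩⟩
    · obtain ⟨d, h4⟩ := ht2 s (c, n, a) h3
      exact ⟨d, Or.inr ⟨n, rfl, h4⟩⟩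

end basic

/-! ### coded families -/

section lay

variable {σ W ε : Type} [Primcodable W] [Primcodable ε] {orc : σ → W → Prop}

/-- equality and inequality of the values of raw codes are r.e. in the oracle -/
structure Lay (orc : σ → W → Prop) {Y : ε → σ → Type} {R : Type} [Primcodable R]
    (dec : ∀ e s, R → Y e s) : Prop where
  eq : ORE orc (fun s (x : ε × R × R) => dec x.1 s x.2.1 = dec x.1 s x.2.2)
  ne : ORE orc (fun s (x : ε × R × R) => dec x.1 s x.2.1 ≠ dec x.1 s x.2.2)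

/-- a family of maps is realised -/
def Rlz (orc : σ → W → Prop) {Y : ε → σ → Type} {R : Type} [Primcodable R]
    (dec : ∀ e s, R → Y e s) {Y' : ε → σ → Type} {R' : Type} [Primcodable R']
    (dec' : ∀ e s, R' → Y' e s) (f : ∀ e s, Y e s → Y' e s) : Prop :=
  RR orc (fun _ _ => True) (fun s (x : ε × R) r' => dec' x.1 s r' = f x.1 s (dec x.1 s x.2))

variable {Y Y' Y'' : ε → σ → Type} {R R' R'' : Type} [Primcodable R] [Primcodable R']
  [Primcodable R''] {dec : ∀ e s, R → Y e s} {dec' : ∀ e s, R' → Y' e s}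
  {dec'' : ∀ e s, R'' → Y'' e s}

theorem Rlz.comp {f : ∀ e s, Y e s → Y' e s} {g : ∀ e s, Y' e s → Y'' e s}
    (hg : Rlz orc dec' dec'' g) (hf : Rlz orc dec dec' f) :
    Rlz orc dec dec'' (fun e s y => g e s (f e s y)) := by
  refine RR.bind (Dm' := fun _ _ => True) (Y' := fun s (x : (ε × R) × R') r'' =>
    dec'' x.1.1 s r'' = g x.1.1 s (dec' x.1.1 s x.2)) hf
    (RR.comp (f := fun x : (ε × R) × R' => (x.1.1, x.2)) hg (by cpt)) (fun _ _ _ _ _ => trivial) ?_
  rintro s ⟨e, r⟩ r' r'' _ h1 h2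
  simp only at h1 h2 ⊢
  rw [h2, h1]

theorem Rlz.congr {f g : ∀ e s, Y e s → Y' e s} (hf : Rlz orc dec dec' f)
    (h : ∀ e s r, g e s (dec e s r) = f e s (dec e s r)) : Rlz orc dec dec' g :=
  RR.mono hf (fun _ _ h => h) (fun s x b _ h1 => by rw [h1, h])

theorem Rlz.id : Rlz orc dec dec (fun _ _ y => y) :=
  RR.fn (F := fun x : ε × R => x.2) (by cpt) (fun _ _ _ => rfl)

/-- the graph of a realised map -/
theorem Rlz.graph (h' : Lay orc dec') {f : ∀ e s, Y e s → Y' e s} (hf : Rlz orc dec dec' f) :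
    ORE orc (fun s (x : ε × R × R') => dec' x.1 s x.2.2 = f x.1 s (dec x.1 s x.2.1)) := by
  refine RR.test' (q := fun s (x : (ε × R × R') × R') => dec' x.1.1 s x.1.2.2 = dec' x.1.1 s x.2)
    (RR.comp (f := fun x : ε × R × R' => (x.1, x.2.1)) hf (by cpt))
    (h'.eq.comp (f := fun x : (ε × R × R') × R' => (x.1.1, x.1.2.2, x.2)) (by cpt)) ?_
  rintro s ⟨e, r, r'⟩ r'' h1
  simp only at h1 ⊢
  rw [h1]

/-- the complement of the graph of a realised map -/
theorem Rlz.ngraph (h' : Lay orc dec') {f : ∀ e s, Y e s → Y' e s} (hf : Rlz orc dec dec' f) :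
    ORE orc (fun s (x : ε × R × R') => dec' x.1 s x.2.2 ≠ f x.1 s (dec x.1 s x.2.1)) := by
  refine RR.test' (q := fun s (x : (ε × R × R') × R') => dec' x.1.1 s x.1.2.2 ≠ dec' x.1.1 s x.2)
    (RR.comp (f := fun x : ε × R × R' => (x.1, x.2.1)) hf (by cpt))
    (h'.ne.comp (f := fun x : (ε × R × R') × R' => (x.1.1, x.1.2.2, x.2)) (by cpt)) ?_
  rintro s ⟨e, r, r'⟩ r'' h1
  simp only at h1 ⊢
  rw [h1]

/-- the inverse of a realised permutation is realised, provided it preserves the coded points -/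
theorem Rlz.symm (h : Lay orc dec) {f g : ∀ e s, Y e s → Y e s} (hf : Rlz orc dec dec f)
    (h1 : ∀ e s y, f e s (g e s y) = y) (h2 : ∀ e s y, g e s (f e s y) = y)
    (ht : ∀ e s r, ∃ r', dec e s r' = g e s (dec e s r)) : Rlz orc dec dec g := by
  refine RR.search (c := fun s (x : (ε × R) × R) =>
    dec x.1.1 s x.1.2 = f x.1.1 s (dec x.1.1 s x.2)) ?_ ?_ ?_
  · exact (hf.graph h).comp (f := fun x : (ε × R) × R => (x.1.1, x.2, x.1.2)) (by cpt)
  · rintro s ⟨e, r⟩ r' _ h3
    simp only at h3 ⊢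
    rw [h3, h2]
  · rintro s ⟨e, r⟩ _
    obtain ⟨r', h3⟩ := ht e s r
    exact ⟨r', by simp only; rw [h3, h1]⟩

/-! #### constructions -/

theorem Lay.const {Z : Type} [Primcodable Z] : Lay orc (ε := ε) (Y := fun _ _ => Z)
    (fun _ _ (z : Z) => z) where
  eq := ORE.eq (by cpt) (by cpt)
  ne := ORE.ne (by cpt) (by cpt)

/-- product of codings -/
abbrev dprod (dec : ∀ e s, R → Y e s) (dec' : ∀ e s, R' → Y' e s) :
    ∀ e s, R × R' → Y e s × Y' e s := fun e s => Prod.map (dec e s) (dec' e s)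

/-- sum of codings -/
abbrev dsum (dec : ∀ e s, R → Y e s) (dec' : ∀ e s, R' → Y' e s) :
    ∀ e s, R ⊕ R' → Y e s ⊕ Y' e s := fun e s => Sum.map (dec e s) (dec' e s)

/-- option of codings -/
abbrev dopt (dec : ∀ e s, R → Y e s) : ∀ e s, Option R → Option (Y e s) :=
  fun e s => Option.map (dec e s)

/-- finite functions -/
abbrev dfin (n : ℕ) (dec : ∀ e s, R → Y e s) : ∀ e s, (Fin n → R) → (Fin n → Y e s) :=
  fun e s w i => dec e s (w i)

theorem Lay.prod (h : Lay orc dec) (h' : Lay orc dec') : Lay orc (dprod dec dec') where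
  eq := by
    refine (ORE.and (h.eq.comp (f := fun x : ε × (R × R') × (R × R') => (x.1, x.2.1.1, x.2.2.1))
      (by cpt)) (h'.eq.comp (f := fun x : ε × (R × R') × (R × R') => (x.1, x.2.1.2, x.2.2.2))
      (by cpt))).congr fun s x => ?_
    simp [dprod, Prod.ext_iff]
  ne := by
    refine (ORE.or (h.ne.comp (f := fun x : ε × (R × R') × (R × R') => (x.1, x.2.1.1, x.2.2.1))
      (by cpt)) (h'.ne.comp (f := fun x : ε × (R × R') × (R × R') => (x.1, x.2.1.2, x.2.2.2))
      (by cpt))).congr fun s x => ?_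
    simp only [dprod, ne_eq, Prod.ext_iff, Prod.map_fst, Prod.map_snd]
    tauto

theorem ORE.sum2 {p : σ → ε × (R ⊕ R') × (R ⊕ R') → Prop}
    (h11 : ORE orc (fun s (x : ε × R × R) => p s (x.1, .inl x.2.1, .inl x.2.2)))
    (h12 : ORE orc (fun s (x : ε × R × R') => p s (x.1, .inl x.2.1, .inr x.2.2)))
    (h21 : ORE orc (fun s (x : ε × R' × R) => p s (x.1, .inr x.2.1, .inl x.2.2)))
    (h22 : ORE orc (fun s (x : ε × R' × R') => p s (x.1, .inr x.2.1, .inr x.2.2))) :
    ORE orc p := by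
  have k1 : ORE orc (fun s (x : (ε × R) × (R ⊕ R')) => p s (x.1.1, .inl x.1.2, x.2)) := by
    apply ORE.sum
    · exact h11.comp (f := fun x : (ε × R) × R => (x.1.1, x.1.2, x.2)) (by cpt)
    · exact h12.comp (f := fun x : (ε × R) × R' => (x.1.1, x.1.2, x.2)) (by cpt)
  have k2 : ORE orc (fun s (x : (ε × R') × (R ⊕ R')) => p s (x.1.1, .inr x.1.2, x.2)) := by
    apply ORE.sum
    · exact h21.comp (f := fun x : (ε × R') × R => (x.1.1, x.1.2, x.2)) (by cpt)
    · exact h22.comp (f := fun x : (ε × R') × R' => (x.1.1, x.1.2, x.2)) (by cpt)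
  have k : ORE orc (fun s (x : (ε × (R ⊕ R')) × (R ⊕ R')) => p s (x.1.1, x.1.2, x.2)) := by
    have k3 : ORE orc (fun s (x : (ε × (R ⊕ R')) × (R ⊕ R')) =>
        (∃ a, x.1.2 = .inl a ∧ p s (x.1.1, .inl a, x.2)) ∨
        (∃ a, x.1.2 = .inr a ∧ p s (x.1.1, .inr a, x.2))) := by
      refine ORE.or ?_ ?_
      · apply ORE.ex₂ (sp := fun s (x : (ε × (R ⊕ R')) × (R ⊕ R')) a => x.1.2 = .inl a ∧
          p s (x.1.1, .inl a, x.2))
        refine ORE.and (ORE.eq (by cpt) (by cpt)) ?_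
        exact k1.comp (f := fun x : ((ε × (R ⊕ R')) × (R ⊕ R')) × R =>
          ((x.1.1.1, x.2), x.1.2)) (by cpt)
      · apply ORE.ex₂ (sp := fun s (x : (ε × (R ⊕ R')) × (R ⊕ R')) a => x.1.2 = .inr a ∧
          p s (x.1.1, .inr a, x.2))
        refine ORE.and (ORE.eq (by cpt) (by cpt)) ?_
        exact k2.comp (f := fun x : ((ε × (R ⊕ R')) × (R ⊕ R')) × R' =>
          ((x.1.1.1, x.2), x.1.2)) (by cpt)
    refine k3.congr fun s x => ?_
    obtain ⟨⟨e, a | b⟩, c⟩ := x <;> simp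
  exact k.comp (f := fun x : ε × (R ⊕ R') × (R ⊕ R') => ((x.1, x.2.1), x.2.2)) (by cpt)

theorem Lay.sum (h : Lay orc dec) (h' : Lay orc dec') : Lay orc (dsum dec dec') where
  eq := by
    apply ORE.sum2
    · exact h.eq.congr fun s x => by simp [dsum]
    · exact ORE.fls.congr fun s x => by simp [dsum]
    · exact ORE.fls.congr fun s x => by simp [dsum]
    · exact h'.eq.congr fun s x => by simp [dsum]
  ne := by
    apply ORE.sum2
    · exact h.ne.congr fun s x => by simp [dsum]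
    · exact ORE.tru.congr fun s x => by simp [dsum]
    · exact ORE.tru.congr fun s x => by simp [dsum]
    · exact h'.ne.congr fun s x => by simp [dsum]

/-- ORE on options -/
theorem ORE.opt2 {p : σ → ε × Option R × Option R → Prop}
    (h00 : ORE orc (fun s (x : ε) => p s (x, none, none)))
    (h01 : ORE orc (fun s (x : ε × R) => p s (x.1, none, some x.2)))
    (h10 : ORE orc (fun s (x : ε × R) => p s (x.1, some x.2, none)))
    (h11 : ORE orc (fun s (x : ε × R × R) => p s (x.1, some x.2.1, some x.2.2))) :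
    ORE orc p := by
  have k : ORE orc (fun s (x : ε × Option R × Option R) =>
      (((x.2.1 = none ∧ x.2.2 = none) ∧ p s (x.1, none, none)) ∨
      (∃ a, (x.2.1 = none ∧ x.2.2 = some a) ∧ p s (x.1, none, some a))) ∨
      ((∃ a, (x.2.1 = some a ∧ x.2.2 = none) ∧ p s (x.1, some a, none)) ∨
      (∃ a : R × R, (x.2.1 = some a.1 ∧ x.2.2 = some a.2) ∧ p s (x.1, some a.1, some a.2)))) := by
    refine ORE.or (ORE.or ?_ ?_) (ORE.or ?_ ?_)
    · exact ORE.and (ORE.and (ORE.eq (by cpt) (by cpt)) (ORE.eq (by cpt) (by cpt)))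
        (h00.comp (f := fun x : ε × Option R × Option R => x.1) (by cpt))
    · apply ORE.ex₂ (sp := fun s (x : ε × Option R × Option R) a =>
        (x.2.1 = none ∧ x.2.2 = some a) ∧ p s (x.1, none, some a))
      exact ORE.and (ORE.and (ORE.eq (by cpt) (by cpt)) (ORE.eq (by cpt) (by cpt)))
        (h01.comp (f := fun x : (ε × Option R × Option R) × R => (x.1.1, x.2)) (by cpt))
    · apply ORE.ex₂ (sp := fun s (x : ε × Option R × Option R) a =>
        (x.2.1 = some a ∧ x.2.2 = none) ∧ p s (x.1, some a, none))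
      exact ORE.and (ORE.and (ORE.eq (by cpt) (by cpt)) (ORE.eq (by cpt) (by cpt)))
        (h10.comp (f := fun x : (ε × Option R × Option R) × R => (x.1.1, x.2)) (by cpt))
    · apply ORE.ex₂ (sp := fun s (x : ε × Option R × Option R) (a : R × R) =>
        (x.2.1 = some a.1 ∧ x.2.2 = some a.2) ∧ p s (x.1, some a.1, some a.2))
      exact ORE.and (ORE.and (ORE.eq (by cpt) (by cpt)) (ORE.eq (by cpt) (by cpt)))
        (h11.comp (f := fun x : (ε × Option R × Option R) × (R × R) => (x.1.1, x.2.1, x.2.2))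
          (by cpt))
  refine k.congr fun s x => ?_
  obtain ⟨e, a | a, b | b⟩ := x <;> simp

theorem Lay.opt (h : Lay orc dec) : Lay orc (dopt dec) where
  eq := by
    apply ORE.opt2
    · exact ORE.tru.congr fun s x => by simp [dopt]
    · exact ORE.fls.congr fun s x => by simp [dopt]
    · exact ORE.fls.congr fun s x => by simp [dopt]
    · exact h.eq.congr fun s x => by simp [dopt]
  ne := by
    apply ORE.opt2
    · exact ORE.fls.congr fun s x => by simp [dopt]
    · exact ORE.tru.congr fun s x => by simp [dopt]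
    · exact ORE.tru.congr fun s x => by simp [dopt]
    · exact h.ne.congr fun s x => by simp [dopt]

theorem Lay.fin (h : Lay orc dec) (n : ℕ) : Lay orc (dfin n dec) where
  eq := by
    have : ORE orc (fun s (x : ε × (Fin n → R) × (Fin n → R)) =>
        ∀ i : Fin n, dec x.1 s (x.2.1 i) = dec x.1 s (x.2.2 i)) :=
      ORE.allFin fun i => h.eq.comp (f := fun x : ε × (Fin n → R) × (Fin n → R) =>
        (x.1, x.2.1 i, x.2.2 i)) (by cpt)
    exact this.congr fun s x => funext_iff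
  ne := by
    have : ORE orc (fun s (x : ε × (Fin n → R) × (Fin n → R)) =>
        ∃ i : Fin n, dec x.1 s (x.2.1 i) ≠ dec x.1 s (x.2.2 i)) :=
      ORE.exFin fun i => h.ne.comp (f := fun x : ε × (Fin n → R) × (Fin n → R) =>
        (x.1, x.2.1 i, x.2.2 i)) (by cpt)
    refine this.congr fun s x => ?_
    rw [ne_eq, funext_iff, not_forall]

end lay

end Crest.Agent.R185.Ev
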