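import Crest.Agent.R185.Smp3

/-!
# R185 / SMP (4): the letters of `K` on `ZZ G Y`

`KLet A B` = letters of `K`: block copies and rook copies of the letters `a : A` of `U`, the shift,
the generators `c : B` of `G`, the shift of the spare points and the two swaps
`(pts 0, ptb y₀)`, `(ptg 1, pts 0)`.
-/

set_option autoImplicit false

namespace Crest.Agent.R185.Smp

open Crest.Agent.R185.Wu Crest.Agent.R185.Hot

/-- the letters of `K` -/
inductive KLet (A B : Type) : Type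
  | b (a : A)
  | v (i : Fin 3) (j : Fin 4) (a : A)
  | s
  | g (c : B)
  | sp
  | sw
  | sw'
  deriving DecidableEq

/-- the shift of the spare points -/
def spP : Equiv.Perm ℕ := (Equiv.intEquivNat.symm.trans (Equiv.addRight (1 : ℤ))).trans Equiv.intEquivNat

theorem spP_apply (n : ℕ) : spP n = Equiv.intEquivNat (Equiv.intEquivNat.symm n + 1) := rfl

theorem spP_symm_apply (n : ℕ) :
    (spP⁻¹ : Equiv.Perm ℕ) n = Equiv.intEquivNat (Equiv.intEquivNat.symm n + -1) := rfl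

/-- permutation of the spare points -/
def zsp (G Y : Type) (f : Equiv.Perm ℕ) : Equiv.Perm (ZZ G Y) :=
  Equiv.sumCongr (Equiv.refl _) (Equiv.sumCongr f (Equiv.refl _))

section kact

variable {G Y A B : Type} [Group G]

open Classical in
/-- the letters of `K` as permutations of `ZZ G Y` -/
noncomputable def kact (e : B → G) (y₀ : Y) (pa : A → Equiv.Perm Y) : KLet A B → Equiv.Perm (ZZ G Y)
  | .b a => zb G (pa a)
  | .v i j a => zv G i j (pa a)
  | .s => zs G Y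
  | .g c => zg Y (e c)
  | .sp => zsp G Y spP
  | .sw => Equiv.swap (pts G Y 0) (ptb G y₀)
  | .sw' => Equiv.swap (ptg Y 1) (pts G Y 0)

/-- letters with signs -/
noncomputable def sg {Z L : Type} (p : L → Equiv.Perm Z) (a : L × Bool) (z : Z) : Z :=
  if a.2 then p a.1 z else (p a.1)⁻¹ z

theorem sg_true {Z L : Type} (p : L → Equiv.Perm Z) (a : L) (z : Z) : sg p (a, true) z = p a z := by
  simp [sg]

theorem sg_false {Z L : Type} (p : L → Equiv.Perm Z) (a : L) (z : Z) :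
    sg p (a, false) z = (p a)⁻¹ z := by
  simp [sg]

theorem sg_inv {Z L : Type} (p : L → Equiv.Perm Z) : Inv (sg p) (fun a => (a.1, !a.2)) := by
  constructor
  · rintro ⟨a, _ | _⟩ y <;> simp [sg]
  · rintro ⟨a, _ | _⟩ y <;> simp [sg]

/-- words act through the free group -/
theorem ev_sg {Z L : Type} (p : L → Equiv.Perm Z) (w : List (L × Bool)) (z : Z) :
    ev (sg p) w z = FreeGroup.lift p (FreeGroup.mk w) z := by
  induction w with
  | nil => simp [← FreeGroup.one_eq_mk]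
  | cons a w ih =>
    have : (FreeGroup.mk (a :: w) : FreeGroup L) = FreeGroup.mk [a] * FreeGroup.mk w := by
      rw [FreeGroup.mul_mk]; rfl
    rw [ev_cons, ih, this, map_mul, Equiv.Perm.mul_apply]
    rcases a with ⟨a, _ | _⟩
    · rw [sg_false]; simp
    · rw [sg_true]; simp

end kact

section steps

variable {G Y Y' A B : Type} [Group G] {R : ℕ → Y → Y' → Prop} {Q Qs : ℕ → ℕ → ℕ → Prop}
  {QG : ℕ → G → G → Prop} {e : B → G} {y₀ : Y} {y₀' : Y'} {pa : A → Equiv.Perm Y}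
  {pa' : A → Equiv.Perm Y'}

/-- everything needed of the base relations, up to level `N` -/
structure Base (N : ℕ) (Q Qs : ℕ → ℕ → ℕ → Prop) (QG : ℕ → G → G → Prop) (R : ℕ → Y → Y' → Prop)
    (e : B → G) (y₀ : Y) (y₀' : Y') (pa : A → Equiv.Perm Y) (pa' : A → Equiv.Perm Y') : Prop where
  hQ : Idx Q
  hR : GPI R
  hs : GPI Qs
  hG : GPI QG
  bQ : ∀ {m n n'}, Q m n n' → m ≤ N
  bR : ∀ {m y y'}, R m y y' → m ≤ N
  bs : ∀ {m n n'}, Qs m n n' → m ≤ N
  bG : ∀ {m g g'}, QG m g g' → m ≤ N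
  cQ : ∀ {m}, m ≤ N → Q m 0 0
  cR : ∀ {m}, m ≤ N → R m y₀ y₀'
  cs : ∀ {m}, m ≤ N → Qs m 0 0
  cG : ∀ {m}, m ≤ N → QG m 1 1
  sR : ∀ a, Stp R (pa a) (pa' a)
  sR' : ∀ a, Stp R ((pa a)⁻¹ : Equiv.Perm Y) ((pa' a)⁻¹ : Equiv.Perm Y')
  ss : Stp Qs spP spP
  ss' : Stp Qs (spP⁻¹ : Equiv.Perm ℕ) (spP⁻¹ : Equiv.Perm ℕ)
  sG : ∀ c, Stp QG (fun g => e c * g) (fun g => e c * g)
  sG' : ∀ c, Stp QG (fun g => (e c)⁻¹ * g) (fun g => (e c)⁻¹ * g)

variable {N : ℕ}

theorem Base.gpi (h : Base N Q Qs QG R e y₀ y₀' pa pa') : GPI (ZR Q Qs QG R) :=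
  ZR_gpi h.hQ h.hR h.hs h.hG

theorem Base.bound (h : Base N Q Qs QG R e y₀ y₀' pa pa') {m : ℕ} {z : ZZ G Y} {z' : ZZ G Y'}
    (hz : ZR Q Qs QG R m z z') : m ≤ N := by
  rcases hz with (⟨h1, -⟩ | ⟨h1, -⟩) | (h1 | h1)
  · exact h.bQ h1
  · exact h.bQ h1
  · exact h.bs h1
  · exact h.bG h1

theorem Base.pts0 (h : Base N Q Qs QG R e y₀ y₀' pa pa') {m : ℕ} (hm : m ≤ N) :
    ZR Q Qs QG R m (pts G Y 0) (pts G Y' 0) := pts_rel (h.cs hm)

theorem Base.ptb0 (h : Base N Q Qs QG R e y₀ y₀' pa pa') {m : ℕ} (hm : m ≤ N) :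
    ZR Q Qs QG R m (ptb G y₀) (ptb G y₀') := ptb_rel h.hQ (h.cQ hm) (h.cR hm)

theorem Base.ptg1 (h : Base N Q Qs QG R e y₀ y₀' pa pa') {m : ℕ} (hm : m ≤ N) :
    ZR Q Qs QG R m (ptg Y (1 : G)) (ptg Y' (1 : G)) := ptg_rel (h.cG hm)

theorem Base.cst (h : Base N Q Qs QG R e y₀ y₀' pa pa') {z : ZZ G Y} {z' : ZZ G Y'}
    (hz : ∀ {m}, m ≤ N → ZR Q Qs QG R m z z') : Cst (ZR Q Qs QG R) z z' :=
  fun _ _ _ h1 => hz (h.bound h1)

/-- **all letters of `K` are steps** -/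
theorem Base.stp (h : Base N Q Qs QG R e y₀ y₀' pa pa') (a : KLet A B × Bool) :
    Stp (ZR Q Qs QG R) (sg (kact e y₀ pa) a) (sg (kact e y₀' pa') a) := by
  classical
  rcases a with ⟨a, ε⟩
  rcases ε with _ | _
  · -- inverses
    have e1 : (sg (kact e y₀ pa) (a, false) : ZZ G Y → ZZ G Y) = ((kact e y₀ pa a)⁻¹ : Equiv.Perm _) :=
      funext fun z => sg_false _ _ _
    have e2 : (sg (kact e y₀' pa') (a, false) : ZZ G Y' → ZZ G Y') =
        ((kact e y₀' pa' a)⁻¹ : Equiv.Perm _) := funext fun z => sg_false _ _ _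
    rw [e1, e2]
    cases a with
    | b a =>
      change Stp _ ((zb G (pa a))⁻¹ : Equiv.Perm _) ((zb G (pa' a))⁻¹ : Equiv.Perm _)
      rw [← map_inv, ← map_inv]
      exact zb_stp h.hQ h.hR h.hs h.hG (h.sR' a)
    | v i j a =>
      change Stp _ ((zv G i j (pa a))⁻¹ : Equiv.Perm _) ((zv G i j (pa' a))⁻¹ : Equiv.Perm _)
      rw [← map_inv, ← map_inv]
      exact zv_stp h.hQ h.hR h.hs h.hG i j (h.sR' a)
    | s => exact zs_symm_stp h.hQ h.hR h.hs h.hG
    | g c =>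
      change Stp _ ((zg Y (e c))⁻¹ : Equiv.Perm _) ((zg Y' (e c))⁻¹ : Equiv.Perm _)
      rw [← map_inv, ← map_inv]
      exact zg_stp h.hQ h.hR h.hs (h.sG' c)
    | sp =>
      have h2 := spare_stp (QG := QG) (a := fun x => x) (b := fun x => x) h.hQ h.hR h.ss' (Stp.id h.hG)
      rintro m x x' h1
      have h3 := h2 m x x' h1
      rcases x with x | x | x <;> rcases x' with x' | x' | x' <;> exact h3
    | sw =>
      change Stp _ ((Equiv.swap _ _)⁻¹ : Equiv.Perm _) ((Equiv.swap _ _)⁻¹ : Equiv.Perm _)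
      rw [Equiv.swap_inv, Equiv.swap_inv]
      convert Stp.swap h.gpi (h.cst h.pts0) (h.cst h.ptb0)
    | sw' =>
      change Stp _ ((Equiv.swap _ _)⁻¹ : Equiv.Perm _) ((Equiv.swap _ _)⁻¹ : Equiv.Perm _)
      rw [Equiv.swap_inv, Equiv.swap_inv]
      convert Stp.swap h.gpi (h.cst h.ptg1) (h.cst h.pts0)
  · have e1 : (sg (kact e y₀ pa) (a, true) : ZZ G Y → ZZ G Y) = (kact e y₀ pa a : Equiv.Perm _) :=
      funext fun z => sg_true _ _ _
    have e2 : (sg (kact e y₀' pa') (a, true) : ZZ G Y' → ZZ G Y') =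
        (kact e y₀' pa' a : Equiv.Perm _) := funext fun z => sg_true _ _ _
    rw [e1, e2]
    cases a with
    | b a => exact zb_stp h.hQ h.hR h.hs h.hG (h.sR a)
    | v i j a => exact zv_stp h.hQ h.hR h.hs h.hG i j (h.sR a)
    | s => exact zs_stp h.hQ h.hR h.hs h.hG
    | g c => exact zg_stp h.hQ h.hR h.hs (h.sG c)
    | sp =>
      have h2 := spare_stp (QG := QG) (a := fun x => x) (b := fun x => x) h.hQ h.hR h.ss (Stp.id h.hG)
      rintro m x x' h1
      have h3 := h2 m x x' h1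
      rcases x with x | x | x <;> rcases x' with x' | x' | x' <;> exact h3
    | sw =>
      change Stp _ (Equiv.swap _ _) (Equiv.swap _ _)
      convert Stp.swap h.gpi (h.cst h.pts0) (h.cst h.ptb0)
    | sw' =>
      change Stp _ (Equiv.swap _ _) (Equiv.swap _ _)
      convert Stp.swap h.gpi (h.cst h.ptg1) (h.cst h.pts0)

end steps

end Crest.Agent.R185.Smp
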