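import Crest.Agent.R185.Ev3
import Crest.Agent.R185.Smp4

/-!
# R185, block H3 (4): the letters of `K` on raw codes of `ZZ G Y`
-/

set_option autoImplicit false
set_option linter.unusedSectionVars false
set_option linter.unusedVariables false

namespace Crest.Agent.R185.Ev

open Crest.Agent.R292 Crest.Agent.R185.Re Crest.Agent.R185.Wu Crest.Agent.R185.Hot
  Crest.Agent.R185.Smp

section mat

variable {σ W ε : Type} [Primcodable W] [Primcodable ε] {orc : σ → W → Prop}
variable {Y : ε → σ → Type} {R : Type} [Primcodable R] {dec : ∀ e s, R → Y e s}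

theorem Rlz.total {Y' : ε → σ → Type} {R' : Type} [Primcodable R'] {dec' : ∀ e s, R' → Y' e s}
    {f : ∀ e s, Y e s → Y' e s} (hf : Rlz orc dec dec' f) (e : ε) (s : σ) (r : R) :
    ∃ r', dec' e s r' = f e s (dec e s r) := by
  obtain ⟨T, -, h1, h2⟩ := hf
  obtain ⟨r', h3⟩ := h2 s (e, r) trivial
  exact ⟨r', h1 s (e, r) r' trivial h3⟩

/-- the near-unanimous value -/
theorem rlz_cen (h : Lay orc dec) (n : ℕ) (hn : Three (Fin n)) :
    Rlz orc (dfin n dec) (dopt dec) (fun _ _ w => cen w) := by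
  have hc : ORE orc (fun s (x : (ε × (Fin n → R)) × (Fin n × Fin n)) =>
      x.2.2 ≠ x.2.1 ∧ ∀ l : Fin n, l = x.2.1 ∨
        dec x.1.1 s (x.1.2 l) = dec x.1.1 s (x.1.2 x.2.2)) := by
    refine ORE.and (ORE.ne (by cpt) (by cpt)) (ORE.allFin fun l => ORE.or
      (ORE.eq (by cpt) (by cpt)) ?_)
    exact h.eq.comp (f := fun x : (ε × (Fin n → R)) × (Fin n × Fin n) =>
      (x.1.1, x.1.2 l, x.1.2 x.2.2)) (by cpt)
  have hnc : ORE orc (fun s (x : ε × (Fin n → R)) => ∀ j l0 : Fin n, l0 = j ∨ ∃ l : Fin n, l ≠ j ∧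
        dec x.1 s (x.2 l) ≠ dec x.1 s (x.2 l0)) := by
    refine ORE.allFin fun j => ORE.allFin fun l0 => ORE.or (ORE.re (re_const _))
      (ORE.exFin fun l => ORE.and (ORE.re (re_const _)) ?_)
    exact h.ne.comp (f := fun x : ε × (Fin n → R) => (x.1, x.2 l, x.2 l0)) (by cpt)
  refine RR.cases (c1 := fun s (x : ε × (Fin n → R)) => ∃ g : Fin n × Fin n, g.2 ≠ g.1 ∧
    ∀ l : Fin n, l = g.1 ∨ dec x.1 s (x.2 l) = dec x.1 s (x.2 g.2)) hc.ex hnc ?_ ?_ ?_
  · rintro s ⟨e, w⟩ -
    by_cases h1 : ∃ g : Fin n × Fin n, g.2 ≠ g.1 ∧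
      ∀ l : Fin n, l = g.1 ∨ dec e s (w l) = dec e s (w g.2)
    · exact Or.inl h1
    · right
      intro j l0
      by_contra h2
      push Not at h2
      apply h1
      refine ⟨(j, l0), h2.1, fun l => ?_⟩
      by_cases h3 : l = j
      · exact Or.inl h3
      · exact Or.inr (h2.2 l h3)
  · refine RR.choose hc (fun s a h1 => h1.2) ?_
    refine RR.fn (F := fun x : (ε × (Fin n → R)) × (Fin n × Fin n) => some (x.1.2 x.2.2))
      (by cpt) ?_
    rintro s ⟨⟨e, w⟩, ⟨j, l0⟩⟩ ⟨-, h1, h2⟩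
    simp only at h1 h2
    symm
    apply cen_eq hn
    refine ⟨j, fun l hl => ?_⟩
    rcases h2 l with h3 | h3
    · exact absurd h3 hl
    · exact h3
  · refine RR.fn (F := fun _ => none) (by cpt) ?_
    rintro s ⟨e, w⟩ ⟨-, h1⟩
    simp only at h1
    have h2 : ¬ ∃ y, NU (dfin n dec e s w) y := by
      rintro ⟨y, j, h3⟩
      obtain ⟨l0, h4, -⟩ := hn j j
      rcases h1 j l0 with h5 | ⟨l, h5, h6⟩
      · exact h4 h5
      · exact h6 ((h3 l h5).trans (h3 l0 h4).symm)
    change (none : Option (Y e s)) = cen (dfin n dec e s w)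
    unfold cen
    rw [dif_neg h2]

/-- raw matrices -/
abbrev RMat (R : Type) : Type := Fin 3 → Fin 4 → Option R

/-- coding of matrices -/
abbrev dmat (dec : ∀ e s, R → Y e s) : ∀ e s, RMat R → Mat (Y e s) := dfin 3 (dfin 4 (dopt dec))

theorem Lay.mat (h : Lay orc dec) : Lay orc (dmat dec) := (h.opt.fin 4).fin 3

theorem rlz_row (h : Lay orc dec) (i : Fin 3) :
    Rlz orc (dfin 4 dec) (dmat dec) (fun _ _ w => rowM i w) := by
  refine RR.bind (rlz_cen h 4 three4) (Dm' := fun _ _ => True)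
    (Y' := fun s (x : (ε × (Fin 4 → R)) × Option R) (M : RMat R) =>
      ∀ (k : Fin 3) (l : Fin 4), M k l = if k = i then some (x.1.2 l) else x.2) ?_
    (fun _ _ _ _ _ => trivial) ?_
  · refine RR.search (c := fun s (x : ((ε × (Fin 4 → R)) × Option R) × RMat R) =>
      ∀ (k : Fin 3) (l : Fin 4), x.2 k l = if k = i then some (x.1.1.2 l) else x.1.2) ?_
      (fun _ _ _ _ h => h) (fun s a _ => ⟨fun k l => if k = i then some (a.1.2 l) else a.2,
        fun k l => rfl⟩)
    refine ORE.allFin fun k => ORE.allFin fun l => ?_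
    by_cases hk : k = i
    · simp only [if_pos hk]
      exact ORE.eq (by cpt) (by cpt)
    · simp only [if_neg hk]
      exact ORE.eq (by cpt) (by cpt)
  · rintro s ⟨e, w⟩ c M _ h1 h2
    simp only at h1 h2 ⊢
    funext k l
    change (M k l).map (dec e s) = rowM i (dfin 4 dec e s w) k l
    rw [h2]
    by_cases hk : k = i
    · subst hk
      rw [rowM_self]; simp
    · rw [if_neg hk, rowM_ne hk]
      exact h1

theorem rlz_col (h : Lay orc dec) (j : Fin 4) :
    Rlz orc (dfin 3 dec) (dmat dec) (fun _ _ w => colM j w) := by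
  refine RR.bind (rlz_cen h 3 three3) (Dm' := fun _ _ => True)
    (Y' := fun s (x : (ε × (Fin 3 → R)) × Option R) (M : RMat R) =>
      ∀ (k : Fin 3) (l : Fin 4), M k l = if l = j then some (x.1.2 k) else x.2) ?_
    (fun _ _ _ _ _ => trivial) ?_
  · refine RR.search (c := fun s (x : ((ε × (Fin 3 → R)) × Option R) × RMat R) =>
      ∀ (k : Fin 3) (l : Fin 4), x.2 k l = if l = j then some (x.1.1.2 k) else x.1.2) ?_
      (fun _ _ _ _ h => h) (fun s a _ => ⟨fun k l => if l = j then some (a.1.2 k) else a.2,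
        fun k l => rfl⟩)
    refine ORE.allFin fun k => ORE.allFin fun l => ?_
    by_cases hk : l = j
    · simp only [if_pos hk]
      exact ORE.eq (by cpt) (by cpt)
    · simp only [if_neg hk]
      exact ORE.eq (by cpt) (by cpt)
  · rintro s ⟨e, w⟩ c M _ h1 h2
    simp only at h1 h2 ⊢
    funext k l
    change (M k l).map (dec e s) = colM j (dfin 3 dec e s w) k l
    rw [h2]
    by_cases hk : l = j
    · subst hk
      rw [colM_self]; simp
    · rw [if_neg hk, colM_ne hk]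
      exact h1

/-- updating one entry -/
theorem rlz_update (h : Lay orc dec) {f : ∀ e s, Y e s → Y e s} (hf : Rlz orc dec dec f) (n : ℕ)
    (j : Fin n) : Rlz orc (dfin n dec) (dfin n dec)
      (fun e s w => Function.update w j (f e s (w j))) := by
  refine RR.search (c := fun s (x : (ε × (Fin n → R)) × (Fin n → R)) =>
    (∀ l : Fin n, l = j ∨ x.2 l = x.1.2 l) ∧ dec x.1.1 s (x.2 j) = f x.1.1 s (dec x.1.1 s (x.1.2 j)))
    ?_ ?_ ?_
  · refine ORE.and (ORE.allFin fun l => ORE.or (ORE.re (re_const _)) (ORE.eq (by cpt) (by cpt))) ?_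
    exact (hf.graph h).comp (f := fun x : (ε × (Fin n → R)) × (Fin n → R) =>
      (x.1.1, x.1.2 j, x.2 j)) (by cpt)
  · rintro s ⟨e, w⟩ w' _ ⟨h1, h2⟩
    simp only at h1 h2 ⊢
    funext l
    by_cases hl : l = j
    · subst hl
      rw [Function.update_self]
      exact h2
    · rw [Function.update_of_ne hl]
      rcases h1 l with h3 | h3
      · exact absurd h3 hl
      · simp only [dfin, h3]
  · rintro s ⟨e, w⟩ _
    obtain ⟨r, hr⟩ := hf.total e s (w j)
    refine ⟨Function.update w j r, fun l => ?_, ?_⟩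
    · by_cases hl : l = j
      · exact Or.inl hl
      · exact Or.inr (Function.update_of_ne hl _ _)
    · simp only [Function.update_self]
      exact hr

/-- a semantic row matrix has a raw row -/
theorem raw_row {e : ε} {s : σ} {M : RMat R} {i : Fin 3} {w : Fin 4 → Y e s}
    (h : rowM i w = dmat dec e s M) : ∃ w' : Fin 4 → R, (∀ l, M i l = some (w' l)) ∧
      dfin 4 dec e s w' = w := by
  have h1 : ∀ l, ∃ r, M i l = some r ∧ dec e s r = w l := by
    intro l
    have h2 := congrFun (congrFun h i) l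
    rw [rowM_self] at h2
    have h3 : (M i l).map (dec e s) = some (w l) := h2.symm
    rw [Option.map_eq_some_iff] at h3
    exact h3
  choose w' h2 using h1
  exact ⟨w', fun l => (h2 l).1, funext fun l => (h2 l).2⟩

theorem raw_col {e : ε} {s : σ} {M : RMat R} {j : Fin 4} {z : Fin 3 → Y e s}
    (h : colM j z = dmat dec e s M) : ∃ z' : Fin 3 → R, (∀ k, M k j = some (z' k)) ∧
      dfin 3 dec e s z' = z := by
  have h1 : ∀ k, ∃ r, M k j = some r ∧ dec e s r = z k := by
    intro k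
    have h2 := congrFun (congrFun h k) j
    rw [colM_self] at h2
    have h3 : (M k j).map (dec e s) = some (z k) := h2.symm
    rw [Option.map_eq_some_iff] at h3
    exact h3
  choose w' h2 using h1
  exact ⟨w', fun l => (h2 l).1, funext fun l => (h2 l).2⟩

/-- being a row matrix -/
theorem ore_row (h : Lay orc dec) (i : Fin 3) :
    ORE orc (fun s (x : ε × RMat R) => ∃ w, rowM i w = dmat dec x.1 s x.2) := by
  have k : ORE orc (fun s (x : ε × RMat R) => ∃ w : Fin 4 → R,
      dmat dec x.1 s x.2 = rowM i (dfin 4 dec x.1 s w)) := by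
    apply ORE.ex₂ (sp := fun s (x : ε × RMat R) (w : Fin 4 → R) =>
      dmat dec x.1 s x.2 = rowM i (dfin 4 dec x.1 s w))
    exact ((rlz_row h i).graph h.mat).comp (f := fun x : (ε × RMat R) × (Fin 4 → R) =>
      (x.1.1, x.2, x.1.2)) (by cpt)
  refine k.congr fun s x => ?_
  constructor
  · rintro ⟨w, hw⟩
    obtain ⟨w', -, rfl⟩ := raw_row hw
    exact ⟨w', hw.symm⟩
  · rintro ⟨w, hw⟩
    exact ⟨_, hw.symm⟩

theorem ore_nrow (h : Lay orc dec) (i : Fin 3) :
    ORE orc (fun s (x : ε × RMat R) => ¬ ∃ w, rowM i w = dmat dec x.1 s x.2) := by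
  have k : ORE orc (fun s (x : ε × RMat R) => (∃ l : Fin 4, x.2 i l = none) ∨ ∃ w : Fin 4 → R,
      (∀ l : Fin 4, x.2 i l = some (w l)) ∧
      dmat dec x.1 s x.2 ≠ rowM i (dfin 4 dec x.1 s w)) := by
    refine ORE.or (ORE.exFin fun l => ORE.eq (by cpt) (by cpt)) ?_
    apply ORE.ex₂ (sp := fun s (x : ε × RMat R) (w : Fin 4 → R) =>
      (∀ l : Fin 4, x.2 i l = some (w l)) ∧ dmat dec x.1 s x.2 ≠ rowM i (dfin 4 dec x.1 s w))
    refine ORE.and (ORE.allFin fun l => ORE.eq (by cpt) (by cpt)) ?_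
    exact ((rlz_row h i).ngraph h.mat).comp (f := fun x : (ε × RMat R) × (Fin 4 → R) =>
      (x.1.1, x.2, x.1.2)) (by cpt)
  refine k.congr fun s x => ?_
  constructor
  · intro h1
    by_cases h2 : ∃ l : Fin 4, x.2 i l = none
    · exact Or.inl h2
    · right
      push Not at h2
      have h3 : ∀ l : Fin 4, ∃ r, x.2 i l = some r := fun l => Option.ne_none_iff_exists'.1 (h2 l)
      choose w hw using h3
      exact ⟨w, hw, fun h4 => h1 ⟨_, h4.symm⟩⟩
  · rintro (⟨l, hl⟩ | ⟨w, hw, h1⟩) ⟨w', hw'⟩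
    · obtain ⟨w'', h2, -⟩ := raw_row hw'
      exact absurd (h2 l) (by rw [hl]; simp)
    · obtain ⟨w'', h2, rfl⟩ := raw_row hw'
      have : w'' = w := by
        funext l
        exact Option.some.inj ((h2 l).symm.trans (hw l))
      rw [this] at hw'
      exact h1 hw'.symm

theorem ore_col (h : Lay orc dec) (j : Fin 4) :
    ORE orc (fun s (x : ε × RMat R) => ∃ w, colM j w = dmat dec x.1 s x.2) := by
  have k : ORE orc (fun s (x : ε × RMat R) => ∃ w : Fin 3 → R,
      dmat dec x.1 s x.2 = colM j (dfin 3 dec x.1 s w)) := by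
    apply ORE.ex₂ (sp := fun s (x : ε × RMat R) (w : Fin 3 → R) =>
      dmat dec x.1 s x.2 = colM j (dfin 3 dec x.1 s w))
    exact ((rlz_col h j).graph h.mat).comp (f := fun x : (ε × RMat R) × (Fin 3 → R) =>
      (x.1.1, x.2, x.1.2)) (by cpt)
  refine k.congr fun s x => ?_
  constructor
  · rintro ⟨w, hw⟩
    obtain ⟨w', -, rfl⟩ := raw_col hw
    exact ⟨w', hw.symm⟩
  · rintro ⟨w, hw⟩
    exact ⟨_, hw.symm⟩

theorem ore_ncol (h : Lay orc dec) (j : Fin 4) :
    ORE orc (fun s (x : ε × RMat R) => ¬ ∃ w, colM j w = dmat dec x.1 s x.2) := by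
  have k : ORE orc (fun s (x : ε × RMat R) => (∃ l : Fin 3, x.2 l j = none) ∨ ∃ w : Fin 3 → R,
      (∀ l : Fin 3, x.2 l j = some (w l)) ∧
      dmat dec x.1 s x.2 ≠ colM j (dfin 3 dec x.1 s w)) := by
    refine ORE.or (ORE.exFin fun l => ORE.eq (by cpt) (by cpt)) ?_
    apply ORE.ex₂ (sp := fun s (x : ε × RMat R) (w : Fin 3 → R) =>
      (∀ l : Fin 3, x.2 l j = some (w l)) ∧ dmat dec x.1 s x.2 ≠ colM j (dfin 3 dec x.1 s w))
    refine ORE.and (ORE.allFin fun l => ORE.eq (by cpt) (by cpt)) ?_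
    exact ((rlz_col h j).ngraph h.mat).comp (f := fun x : (ε × RMat R) × (Fin 3 → R) =>
      (x.1.1, x.2, x.1.2)) (by cpt)
  refine k.congr fun s x => ?_
  constructor
  · intro h1
    by_cases h2 : ∃ l : Fin 3, x.2 l j = none
    · exact Or.inl h2
    · right
      push Not at h2
      have h3 : ∀ l : Fin 3, ∃ r, x.2 l j = some r := fun l => Option.ne_none_iff_exists'.1 (h2 l)
      choose w hw using h3
      exact ⟨w, hw, fun h4 => h1 ⟨_, h4.symm⟩⟩
  · rintro (⟨l, hl⟩ | ⟨w, hw, h1⟩) ⟨w', hw'⟩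
    · obtain ⟨w'', h2, -⟩ := raw_col hw'
      exact absurd (h2 l) (by rw [hl]; simp)
    · obtain ⟨w'', h2, rfl⟩ := raw_col hw'
      have : w'' = w := by
        funext l
        exact Option.some.inj ((h2 l).symm.trans (hw l))
      rw [this] at hw'
      exact h1 hw'.symm

/-- **the partial action at a place of the matrices is realised** -/
theorem rlz_act (h : Lay orc dec) {f : ∀ e s, Y e s → Y e s} (hf : Rlz orc dec dec f) (i : Fin 3)
    (j : Fin 4) : Rlz orc (dmat dec) (dmat dec) (fun e s M => act i j (f e s) M) := by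
  refine RR.cases (ore_row h i) (ore_nrow h i) (fun s x _ => em _) ?_ ?_
  · -- row matrices
    refine RR.choose (c := fun s (x : (ε × RMat R) × (Fin 4 → R)) =>
      dmat dec x.1.1 s x.1.2 = rowM i (dfin 4 dec x.1.1 s x.2)) ?_ ?_ ?_
    · exact ((rlz_row h i).graph h.mat).comp (f := fun x : (ε × RMat R) × (Fin 4 → R) =>
        (x.1.1, x.2, x.1.2)) (by cpt)
    · rintro s ⟨e, M⟩ ⟨-, w, hw⟩
      obtain ⟨w', -, rfl⟩ := raw_row hw
      exact ⟨w', hw.symm⟩
    · refine RR.mono (RR.comp (f := fun x : (ε × RMat R) × (Fin 4 → R) => (x.1.1, x.2))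
        (Rlz.comp (rlz_row h i) (rlz_update h hf 4 j)) (by cpt)) (fun _ _ _ => trivial) ?_
      rintro s ⟨⟨e, M⟩, w⟩ M' ⟨-, h1⟩ h2
      simp only at h1 h2 ⊢
      rw [h1, h2, act_row]
  · refine RR.cases ((ore_col h j)) (ore_ncol h j) (fun s x _ => em _) ?_ ?_
    · refine RR.choose (c := fun s (x : (ε × RMat R) × (Fin 3 → R)) =>
        dmat dec x.1.1 s x.1.2 = colM j (dfin 3 dec x.1.1 s x.2)) ?_ ?_ ?_
      · exact ((rlz_col h j).graph h.mat).comp (f := fun x : (ε × RMat R) × (Fin 3 → R) =>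
          (x.1.1, x.2, x.1.2)) (by cpt)
      · rintro s ⟨e, M⟩ ⟨-, w, hw⟩
        obtain ⟨w', -, rfl⟩ := raw_col hw
        exact ⟨w', hw.symm⟩
      · refine RR.mono (RR.comp (f := fun x : (ε × RMat R) × (Fin 3 → R) => (x.1.1, x.2))
          (Rlz.comp (rlz_col h j) (rlz_update h hf 3 i)) (by cpt)) (fun _ _ _ => trivial) ?_
        rintro s ⟨⟨e, M⟩, w⟩ M' ⟨-, h1⟩ h2
        simp only at h1 h2 ⊢
        rw [h1, h2, act_col three3 three4]
    · refine RR.fn (F := fun x : ε × RMat R => x.2) (by cpt) ?_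
      rintro s ⟨e, M⟩ ⟨⟨-, h1⟩, h2⟩
      simp only at h1 h2 ⊢
      push Not at h1 h2
      rw [act_else _ h1 h2]

/-- constant matrices -/
theorem rlz_con (h : Lay orc dec) :
    Rlz orc dec (dmat dec) (fun e s y => cY y) := by
  refine RR.search (c := fun s (x : (ε × R) × RMat R) => ∀ (k : Fin 3) (l : Fin 4),
    x.2 k l = some x.1.2) ?_ ?_ ?_
  · exact ORE.allFin fun k => ORE.allFin fun l => ORE.eq (by cpt) (by cpt)
  · rintro s ⟨e, r⟩ M _ h1
    funext k l
    change (M k l).map (dec e s) = some (dec e s r)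
    have h2 : M k l = some r := h1 k l
    rw [h2]; rfl
  · rintro s ⟨e, r⟩ _
    exact ⟨fun _ _ => some r, fun _ _ => rfl⟩

theorem raw_con {e : ε} {s : σ} {M : RMat R} {y : Y e s} (h : cY y = dmat dec e s M) :
    ∃ r : R, M 0 0 = some r ∧ dec e s r = y := by
  have h2 := congrFun (congrFun h 0) 0
  have h3 : (M 0 0).map (dec e s) = some y := h2.symm
  rwa [Option.map_eq_some_iff] at h3

theorem ore_con (h : Lay orc dec) :
    ORE orc (fun s (x : ε × RMat R) => ∃ y, cY y = dmat dec x.1 s x.2) := by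
  have k : ORE orc (fun s (x : ε × RMat R) => ∃ w : R,
      dmat dec x.1 s x.2 = cY (dec x.1 s w)) := by
    apply ORE.ex₂ (sp := fun s (x : ε × RMat R) (w : R) =>
      dmat dec x.1 s x.2 = cY (dec x.1 s w))
    exact ((rlz_con h).graph h.mat).comp (f := fun x : (ε × RMat R) × R =>
      (x.1.1, x.2, x.1.2)) (by cpt)
  refine k.congr fun s x => ?_
  constructor
  · rintro ⟨w, hw⟩
    obtain ⟨w', -, rfl⟩ := raw_con hw
    exact ⟨w', hw.symm⟩
  · rintro ⟨w, hw⟩
    exact ⟨_, hw.symm⟩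

theorem ore_ncon (h : Lay orc dec) :
    ORE orc (fun s (x : ε × RMat R) => ¬ ∃ y, cY y = dmat dec x.1 s x.2) := by
  have k : ORE orc (fun s (x : ε × RMat R) => (x.2 0 0 = none) ∨ ∃ w : R,
      x.2 0 0 = some w ∧ dmat dec x.1 s x.2 ≠ cY (dec x.1 s w)) := by
    refine ORE.or (ORE.eq (by cpt) (by cpt)) ?_
    apply ORE.ex₂ (sp := fun s (x : ε × RMat R) (w : R) =>
      x.2 0 0 = some w ∧ dmat dec x.1 s x.2 ≠ cY (dec x.1 s w))
    refine ORE.and (ORE.eq (by cpt) (by cpt)) ?_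
    exact ((rlz_con h).ngraph h.mat).comp (f := fun x : (ε × RMat R) × R =>
      (x.1.1, x.2, x.1.2)) (by cpt)
  refine k.congr fun s x => ?_
  constructor
  · intro h1
    rcases h2 : x.2 0 0 with _ | r
    · exact Or.inl rfl
    · exact Or.inr ⟨r, rfl, fun h4 => h1 ⟨_, h4.symm⟩⟩
  · rintro (hl | ⟨w, hw, h1⟩) ⟨w', hw'⟩
    · obtain ⟨w'', h2, -⟩ := raw_con hw'
      rw [hl] at h2
      exact absurd h2 (by simp)
    · obtain ⟨w'', h2, rfl⟩ := raw_con hw'
      rw [hw] at h2
      rw [Option.some.inj h2] at h1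
      exact h1 hw'.symm

end mat

end Crest.Agent.R185.Ev
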