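import Crest.Agent.R185.Ev3

/-!
# R185, block H3 (6): stabiliser membership is r.e. and co-r.e. in the oracle
-/

set_option autoImplicit false
set_option linter.unusedSectionVars false
set_option linter.unusedVariables false

namespace Crest.Agent.R185.Ev

open Crest.Agent.R292 Crest.Agent.R185.Re

section

variable {σ W α β γ δ κ : Type} [Primcodable W] [Primcodable α] [Primcodable β] [Primcodable γ]
  [Primcodable δ] [Primcodable κ] {orc : σ → W → Prop}

/-- cases over a finite type of letters -/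
theorem RR.finite [Finite β] {Y : σ → α × β × γ → δ → Prop}
    (h : ∀ b, RR orc (fun _ _ => True) (fun s (x : α × γ) d => Y s (x.1, b, x.2) d)) :
    RR orc (fun _ _ => True) Y := by
  obtain ⟨n, ⟨eq⟩⟩ := Finite.exists_equiv_fin β
  choose T hT hs ht using h
  refine ⟨fun s x => ∃ i : Fin n, x.1.2.1 = eq.symm i ∧ T (eq.symm i) s ((x.1.1, x.1.2.2), x.2),
    ?_, ?_, ?_⟩
  · refine ORE.exFin fun i => ORE.and (ORE.eq (by cpt) (by cpt)) ?_
    exact (hT (eq.symm i)).comp (f := fun x : (α × β × γ) × δ => ((x.1.1, x.1.2.2), x.2)) (by cpt)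
  · rintro s ⟨a, b, c⟩ d _ ⟨i, h1, h2⟩
    simp only at h1 h2
    have := hs _ s (a, c) d trivial h2
    rw [← h1] at this
    exact this
  · rintro s ⟨a, b, c⟩ _
    obtain ⟨d, h1⟩ := ht b s (a, c) trivial
    refine ⟨d, eq b, ?_, ?_⟩
    · simp
    · simpa using h1

end

section stab

variable {σ W ε : Type} [Primcodable W] [Primcodable ε] {orc : σ → W → Prop}
variable {Y : ε → σ → Type} {R : Type} [Primcodable R] {dec : ∀ e s, R → Y e s}

/-- a family of permutations is realised in both directions -/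
def RPm (orc : σ → W → Prop) (dec : ∀ e s, R → Y e s) (f : ∀ e s, Equiv.Perm (Y e s)) : Prop :=
  Rlz orc dec dec (fun e s => f e s) ∧ Rlz orc dec dec (fun e s => ((f e s)⁻¹ : Equiv.Perm (Y e s)))

variable {L : Type} [Primcodable L] [Finite L] {p : ∀ e s, L → Equiv.Perm (Y e s)}

/-- words act -/
theorem rr_word (hp : ∀ a, RPm orc dec (fun e s => p e s a)) :
    RR orc (fun _ _ => True) (fun s (x : ε × List (L × Bool) × R) r' =>
      dec x.1 s r' = FreeGroup.lift (p x.1 s) (FreeGroup.mk x.2.1) (dec x.1 s x.2.2)) := by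
  have h1 : RR orc (fun _ _ => True) (fun s (x : ε × (L × Bool) × R) r' =>
      dec x.1 s r' = FreeGroup.lift (p x.1 s) (FreeGroup.mk [x.2.1]) (dec x.1 s x.2.2)) := by
    apply RR.finite
    rintro ⟨a, _ | _⟩
    · refine RR.mono (hp a).2 (fun _ _ h => h) ?_
      rintro s ⟨e, r⟩ r' _ h
      simp only at h ⊢
      rw [h, mk_single_false, map_inv, FreeGroup.lift_apply_of]
    · refine RR.mono (hp a).1 (fun _ _ h => h) ?_
      rintro s ⟨e, r⟩ r' _ h
      simp only at h ⊢
      rw [h, mk_single_true, FreeGroup.lift_apply_of]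
  refine RR.mono h1.pth (fun _ _ h => h) ?_
  rintro s ⟨e, w, r⟩ r' _ h
  exact pth_free (FreeGroup.lift (p e s)) (dec e s) h

variable {y₀ : ∀ e s, Y e s} {r₀ : ε → R}

/-- fixing the base point -/
theorem ore_fix (h : Lay orc dec) (hp : ∀ a, RPm orc dec (fun e s => p e s a)) (hr : Computable r₀)
    (hy : ∀ e s, dec e s (r₀ e) = y₀ e s) :
    ORE orc (fun s (x : ε × List (L × Bool)) =>
      FreeGroup.lift (p x.1 s) (FreeGroup.mk x.2) (y₀ x.1 s) = y₀ x.1 s) := by
  have hr' : Computable fun x : ε × List (L × Bool) => r₀ x.1 := hr.comp (by cpt)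
  have hr'' : Computable fun x : (ε × List (L × Bool)) × R => r₀ x.1.1 := hr.comp (by cpt)
  refine RR.test' (RR.comp (f := fun x : ε × List (L × Bool) => (x.1, x.2, r₀ x.1)) (rr_word hp)
    (by cpt)) (q := fun s (x : (ε × List (L × Bool)) × R) => dec x.1.1 s x.2 = dec x.1.1 s (r₀ x.1.1))
    (h.eq.comp (f := fun x : (ε × List (L × Bool)) × R => (x.1.1, x.2, r₀ x.1.1)) (by cpt)) ?_
  rintro s ⟨e, w⟩ r h1
  simp only at h1 ⊢
  rw [h1, hy]

theorem ore_nfix (h : Lay orc dec) (hp : ∀ a, RPm orc dec (fun e s => p e s a)) (hr : Computable r₀)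
    (hy : ∀ e s, dec e s (r₀ e) = y₀ e s) :
    ORE orc (fun s (x : ε × List (L × Bool)) =>
      ¬ FreeGroup.lift (p x.1 s) (FreeGroup.mk x.2) (y₀ x.1 s) = y₀ x.1 s) := by
  have hr' : Computable fun x : ε × List (L × Bool) => r₀ x.1 := hr.comp (by cpt)
  have hr'' : Computable fun x : (ε × List (L × Bool)) × R => r₀ x.1.1 := hr.comp (by cpt)
  refine RR.test' (RR.comp (f := fun x : ε × List (L × Bool) => (x.1, x.2, r₀ x.1)) (rr_word hp)
    (by cpt)) (q := fun s (x : (ε × List (L × Bool)) × R) => dec x.1.1 s x.2 ≠ dec x.1.1 s (r₀ x.1.1))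
    (h.ne.comp (f := fun x : (ε × List (L × Bool)) × R => (x.1.1, x.2, r₀ x.1.1)) (by cpt)) ?_
  rintro s ⟨e, w⟩ r h1
  simp only at h1 ⊢
  rw [h1, hy]

end stab

/-- **the final form**: if membership in `Φ e s` is `fixing a coded base point`, then membership in
all levels is computable. -/
theorem computable_levels {A : Type} [Primcodable A] {ε : Type} [Primcodable ε]
    {Φ : ε → Subgroup (FreeGroup A) → Subgroup (FreeGroup A)}
    (hp : ORE (fun (s : Subgroup (FreeGroup A)) (w : List (A × Bool)) => FreeGroup.mk w ∈ s)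
      (fun s (x : ε × List (A × Bool)) => FreeGroup.mk x.2 ∈ Φ x.1 s))
    (hn : ORE (fun (s : Subgroup (FreeGroup A)) (w : List (A × Bool)) => FreeGroup.mk w ∈ s)
      (fun s (x : ε × List (A × Bool)) => ¬ FreeGroup.mk x.2 ∈ Φ x.1 s)) :
    ComputablePred fun x : ε × ℕ × List (A × Bool) =>
      FreeGroup.mk x.2.2 ∈ (Φ x.1)^[x.2.1] (⊤ : Subgroup (FreeGroup A)) := by
  obtain ⟨f, hf, h⟩ := levels (Φ := Φ) (s0 := (⊤ : Subgroup (FreeGroup A)))
    (c0 := fun _ => true) (Computable.const _) (fun w => by simp) hp hn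
  rw [ComputablePred.computable_iff]
  refine ⟨f, hf, ?_⟩
  funext x
  obtain ⟨e, i, w⟩ := x
  exact propext (h e i w).symm

end Crest.Agent.R185.Ev
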