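import Crest.Agent.R185.Ev5
import Crest.Agent.R185.Ev6

/-!
# R185, block H3 (7): codes of a group with decidable word problem
-/

set_option autoImplicit false
set_option linter.unusedSectionVars false
set_option linter.unusedVariables false

namespace Crest.Agent.R185.Ev

open Crest.Agent.R292 Crest.Agent.R185.Re Crest.Agent.R185.Wu Crest.Agent.R185.Hot
  Crest.Agent.R185.Smp

section grp

variable {G B : Type} [Group G] [Primcodable B]

theorem decG_append (gB : B → G) (w w' : List (B × Bool)) :
    decG gB (w ++ w') = decG gB w * decG gB w' := by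
  unfold decG
  rw [← map_mul, FreeGroup.mul_mk]

theorem decG_invRev (gB : B → G) (w : List (B × Bool)) :
    decG gB (FreeGroup.invRev w) = (decG gB w)⁻¹ := by
  unfold decG
  rw [← map_inv, FreeGroup.inv_mk]

theorem computable_invRev : Computable (FreeGroup.invRev : List (B × Bool) → List (B × Bool)) := by
  have h : Computable fun w : List (B × Bool) => (w.map fun g => (g.1, !g.2)).reverse :=
    Computable.list_reverse.comp (Primrec.list_map Primrec.id
      ((Primrec.fst.comp Primrec.snd).pair (Primrec.not.comp
        (Primrec.snd.comp Primrec.snd))).to₂).to_comp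
  exact h.of_eq fun w => rfl

variable {σ W ε : Type} [Primcodable W] [Primcodable ε] {orc : σ → W → Prop}

/-- codes of a group with decidable word problem -/
theorem Lay.grp {gB : B → G}
    (hwp : ComputablePred fun w : List (B × Bool) => FreeGroup.lift gB (FreeGroup.mk w) = 1) :
    Lay orc (ε := ε) (Y := fun _ _ => G) (fun _ _ => decG gB) where
  eq := by
    have h1 : ORE orc (fun _ (x : ε × List (B × Bool) × List (B × Bool)) =>
        FreeGroup.lift gB (FreeGroup.mk (FreeGroup.invRev x.2.1 ++ x.2.2)) = 1) := by
      apply ORE.re
      exact re_comp hwp.to_re (f := fun x : ε × List (B × Bool) × List (B × Bool) =>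
        FreeGroup.invRev x.2.1 ++ x.2.2)
        (capp (computable_invRev.comp (by cpt)) (by cpt))
    refine h1.congr fun s x => ?_
    change _ ↔ decG gB _ = 1
    rw [decG_append, decG_invRev, inv_mul_eq_one]
  ne := by
    have h1 : ORE orc (fun _ (x : ε × List (B × Bool) × List (B × Bool)) =>
        ¬ FreeGroup.lift gB (FreeGroup.mk (FreeGroup.invRev x.2.1 ++ x.2.2)) = 1) := by
      apply ORE.re
      exact re_comp hwp.not.to_re (f := fun x : ε × List (B × Bool) × List (B × Bool) =>
        FreeGroup.invRev x.2.1 ++ x.2.2)
        (capp (computable_invRev.comp (by cpt)) (by cpt))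
    refine h1.congr fun s x => ?_
    change _ ↔ ¬ decG gB _ = 1
    rw [decG_append, decG_invRev, inv_mul_eq_one]

end grp

end Crest.Agent.R185.Ev
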