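import Crest.Agent.R185.Ev7
import Crest.Agent.R185.Smp10

/-!
# R185, block H3 (8): the guard on raw codes
-/

set_option autoImplicit false
set_option linter.unusedSectionVars false
set_option linter.unusedVariables false

namespace Crest.Agent.R185.Ev

open Crest.Agent.R292 Crest.Agent.R185.Re Crest.Agent.R185.Wu Crest.Agent.R185.Hot
  Crest.Agent.R185.Smp

/-- codes of integers -/
abbrev RI : Type := ℕ × ℕ

/-- decoding of integers -/
def dI (p : RI) : ℤ := (p.1 : ℤ) - p.2

section cpt2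

variable {α β : Type} [Primcodable α] [Primcodable β]

theorem cadd {f g : α → ℕ} (hf : Computable f) (hg : Computable g) :
    Computable fun a => f a + g a := Primrec.nat_add.to_comp.comp hf hg

theorem csub {f g : α → ℕ} (hf : Computable f) (hg : Computable g) :
    Computable fun a => f a - g a := Primrec.nat_sub.to_comp.comp hf hg

theorem cmul {f g : α → ℕ} (hf : Computable f) (hg : Computable g) :
    Computable fun a => f a * g a := Primrec.nat_mul.to_comp.comp hf hg

theorem cdiv {f g : α → ℕ} (hf : Computable f) (hg : Computable g) :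
    Computable fun a => f a / g a := Primrec.nat_div.to_comp.comp hf hg

theorem cmod {f g : α → ℕ} (hf : Computable f) (hg : Computable g) :
    Computable fun a => f a % g a := Primrec.nat_mod.to_comp.comp hf hg

end cpt2

/-- the code of the letter behind a door -/
def oI (M J : ℕ) (q : RI) : Option (Fin J) :=
  if (q.1 - q.2) / M = 0 then none else (List.finRange J)[(q.1 - q.2) / M - 1]?

theorem oI_comp (M J : ℕ) : Computable (oI M J) := by
  refine computable_ite_eq (cdiv (csub (by cpt) (by cpt)) (by cpt)) (by cpt) (by cpt) ?_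
  exact Computable.list_getElem?.comp (Computable.const _) (csub (cdiv (csub (by cpt) (by cpt)) (by cpt)) (by cpt))

theorem ltL_oI {C : Type} (L : List C) (M : ℕ) (q : RI) :
    ltL L (dI q / M) = (oI M L.length q).map L.get := by
  obtain ⟨a, b⟩ := q
  unfold oI ltL
  simp only
  have key : (1 ≤ dI (a, b) / (M : ℤ) ↔ (a - b) / M ≠ 0) ∧
      ((a - b) / M ≠ 0 → (dI (a, b) / (M : ℤ) - 1).toNat = (a - b) / M - 1) := by
    unfold dI
    simp only
    rcases le_total b a with h | h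
    · have h1 : ((a : ℤ) - b) / (M : ℤ) = (((a - b) / M : ℕ) : ℤ) := by
        rw [← Nat.cast_sub h]; norm_cast
      rw [h1]
      generalize (a - b) / M = k
      constructor
      · omega
      · intro h2; omega
    · have h1 : (a - b) / M = 0 := by rw [Nat.sub_eq_zero_of_le h, Nat.zero_div]
      have h2 : ((a : ℤ) - b) / (M : ℤ) ≤ 0 := by
        have h3 : ((a : ℤ) - b) ≤ 0 := by omega
        rcases Nat.eq_zero_or_pos M with h4 | h4
        · simp [h4]
        · exact Int.ediv_nonpos_of_nonpos_of_neg h3 (by exact_mod_cast h4)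
      rw [h1]
      constructor
      · constructor
        · intro h3; omega
        · intro h3; exact absurd rfl h3
      · intro h3; exact absurd rfl h3
  by_cases h : (a - b) / M = 0
  · rw [if_neg (fun h1 => key.1.1 h1 h), if_pos h]; rfl
  · rw [if_pos (key.1.2 h), if_neg h, key.2 h]
    rcases lt_or_ge ((a - b) / M - 1) L.length with h1 | h1
    · rw [List.getElem?_eq_getElem h1, List.getElem?_eq_getElem (by simpa using h1)]
      simp
    · rw [List.getElem?_eq_none h1, List.getElem?_eq_none (by simpa using h1)]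
      rfl

section guard

variable {σ W ε : Type} [Primcodable W] [Primcodable ε] {orc : σ → W → Prop}
variable {Z : ε → σ → Type} {R : Type} [Primcodable R] {dec : ∀ e s, R → Z e s}

/-- decoding of integers as a family -/
abbrev cI : ε → σ → RI → ℤ := fun _ _ => dI

theorem Lay.int : Lay orc (ε := ε) (Y := fun _ _ => ℤ) cI where
  eq := by
    refine (ORE.eq (f := fun x : ε × RI × RI => x.2.1.1 + x.2.2.2)
      (g := fun x : ε × RI × RI => x.2.2.1 + x.2.1.2) (cadd (by cpt) (by cpt))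
      (cadd (by cpt) (by cpt))).congr fun s x => ?_
    obtain ⟨e, ⟨a, b⟩, ⟨c, d⟩⟩ := x
    simp only [cI, dI]
    omega
  ne := by
    refine (ORE.ne (f := fun x : ε × RI × RI => x.2.1.1 + x.2.2.2)
      (g := fun x : ε × RI × RI => x.2.2.1 + x.2.1.2) (cadd (by cpt) (by cpt))
      (cadd (by cpt) (by cpt))).congr fun s x => ?_
    obtain ⟨e, ⟨a, b⟩, ⟨c, d⟩⟩ := x
    simp only [cI, dI]
    omega

/-- raw codes of guard points -/
abbrev RGd (R : Type) : Type := (RI × RI × RI) × R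

/-- decoding of guard points -/
abbrev decGd (dec : ∀ e s, R → Z e s) : ∀ e s, RGd R → GX (Z e s) :=
  dprod (Y := fun _ _ => GP) (Y' := Z)
    (dprod (Y := fun _ _ => ℤ) (Y' := fun _ _ => ℤ × ℤ) cI
      (dprod (Y := fun _ _ => ℤ) (Y' := fun _ _ => ℤ) cI cI)) dec

theorem Lay.guard (h : Lay orc dec) : Lay orc (decGd dec) :=
  (Lay.int.prod (Lay.int.prod Lay.int)).prod h

variable {C : Type} {p : ∀ e s, C → Equiv.Perm (Z e s)}

/-- the labels -/
theorem rr_sig (M : ℕ) (L : List C) (hp : ∀ c, RP orc dec (fun e s => p e s c)) (b : Bool) :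
    RR orc (fun _ _ => True) (fun s (x : ε × RI × R) r' =>
      dec x.1 s r' = (if b then sig (ltL L) (p x.1 s) (dI x.2.1 / M) else
        (sig (ltL L) (p x.1 s) (dI x.2.1 / M))⁻¹) (dec x.1 s x.2.2)) := by
  have h1 : RR orc (fun _ _ => True) (fun s (x : ε × Option (Fin L.length) × R) r' =>
      dec x.1 s r' = (if b then ((x.2.1.map L.get).elim 1 (p x.1 s) : Equiv.Perm (Z x.1 s)) else
        ((x.2.1.map L.get).elim 1 (p x.1 s))⁻¹) (dec x.1 s x.2.2)) := by
    apply RR.finite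
    rintro (_ | i)
    · refine RR.fn (F := fun x : ε × R => x.2) (by cpt) ?_
      rintro s ⟨e, r⟩ _
      cases b <;> simp
    · cases b
      · exact RR.mono (hp (L.get i)).2 (fun _ _ h => h) (fun s x r' _ h => h)
      · exact RR.mono (hp (L.get i)).1 (fun _ _ h => h) (fun s x r' _ h => h)
  have h2 : Computable fun x : ε × RI × R => oI M L.length x.2.1 :=
    (oI_comp M L.length).comp (by cpt)
  refine RR.mono (RR.comp (f := fun x : ε × RI × R => (x.1, oI M L.length x.2.1, x.2.2)) h1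
    (by cpt)) (fun _ _ h => h) ?_
  rintro s ⟨e, q, r⟩ r' _ h3
  simp only at h3 ⊢
  rw [h3]
  unfold sig
  rw [ltL_oI]

/-- the door condition -/
theorem door_iff (M : ℕ) (q : RI) : Door M (dI q) ↔ (q.1 % M = q.2 % M ∧ q.1 ≠ q.2) := by
  obtain ⟨a, b⟩ := q
  unfold Door dI
  simp only
  have h1 : (M : ℤ) ∣ (a : ℤ) - b ↔ a % M = b % M := by
    rw [← Nat.modEq_iff_dvd]
    constructor
    · intro h; exact h.symm
    · intro h; exact h.symm
  rw [h1]
  constructor
  · rintro ⟨h2, h3⟩; exact ⟨h2, by omega⟩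
  · rintro ⟨h2, h3⟩; exact ⟨h2, by omega⟩

variable {α : Type} [Primcodable α]

theorem ore_door (M : ℕ) {f : α → RI} (hf : Computable f) :
    ORE orc (fun _ x => Door M (dI (f x))) := by
  refine (ORE.and (ORE.eq (f := fun x => (f x).1 % M) (g := fun x => (f x).2 % M)
    (cmod (cfst hf) (by cpt)) (cmod (csnd hf) (by cpt)))
    (ORE.ne (f := fun x => (f x).1) (g := fun x => (f x).2) (cfst hf) (csnd hf))).congr
    fun s x => door_iff M (f x)

theorem ore_ndoor (M : ℕ) {f : α → RI} (hf : Computable f) :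
    ORE orc (fun _ x => ¬ Door M (dI (f x))) := by
  refine (ORE.or (ORE.ne (f := fun x => (f x).1 % M) (g := fun x => (f x).2 % M)
    (cmod (cfst hf) (by cpt)) (cmod (csnd hf) (by cpt)))
    (ORE.eq (f := fun x => (f x).1) (g := fun x => (f x).2) (cfst hf) (csnd hf))).congr
    fun s x => by rw [door_iff M (f x)]; tauto

theorem ore_eqk (k : ℕ) {f : α → RI} (hf : Computable f) :
    ORE orc (fun _ x => dI (f x) = k) := by
  refine (ORE.eq (f := fun x => (f x).1) (g := fun x => (f x).2 + k) (cfst hf)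
    (cadd (csnd hf) (by cpt))).congr fun s x => ?_
  unfold dI; omega

theorem ore_nek (k : ℕ) {f : α → RI} (hf : Computable f) :
    ORE orc (fun _ x => ¬ dI (f x) = k) := by
  refine (ORE.ne (f := fun x => (f x).1) (g := fun x => (f x).2 + k) (cfst hf)
    (cadd (csnd hf) (by cpt))).congr fun s x => ?_
  unfold dI; omega

theorem ore_neg {f : α → RI} (hf : Computable f) : ORE orc (fun _ x => dI (f x) < 0) := by
  have h1 : ORE orc (fun _ (x : α × ℕ) => (f x.1).2 = (f x.1).1 + x.2 + 1) :=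
    ORE.eq (csnd (hf.comp (by cpt))) (cadd (cadd (cfst (hf.comp (by cpt))) (by cpt)) (by cpt))
  refine h1.ex.congr fun s x => ?_
  simp only
  unfold dI
  constructor
  · intro h; exact ⟨(f x).2 - (f x).1 - 1, by omega⟩
  · rintro ⟨k, h⟩; omega

theorem ore_nneg {f : α → RI} (hf : Computable f) : ORE orc (fun _ x => ¬ dI (f x) < 0) := by
  have h1 : ORE orc (fun _ (x : α × ℕ) => (f x.1).1 = (f x.1).2 + x.2) :=
    ORE.eq (cfst (hf.comp (by cpt))) (cadd (csnd (hf.comp (by cpt))) (by cpt))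
  refine h1.ex.congr fun s x => ?_
  simp only
  unfold dI
  constructor
  · intro h; exact ⟨(f x).1 - (f x).2, by omega⟩
  · rintro ⟨k, h⟩; omega

theorem dI_succ (a b : ℕ) : dI (a + 1, b) = dI (a, b) + 1 := by simp only [dI]; omega

theorem dI_pred (a b : ℕ) : dI (a, b + 1) = dI (a, b) - 1 := by simp only [dI]; omega

theorem rlz_x (M : ℕ) (L : List C) (hp : ∀ c, RP orc dec (fun e s => p e s c)) (b : Bool) :
    Rlz orc (decGd dec) (decGd dec) (fun e s => gstep M (sig (ltL L) (p e s)) (.x, b)) := by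
  cases b
  · refine RR.fn (F := fun x : ε × RGd R => (((x.2.1.1.1, x.2.1.1.2 + 1), x.2.1.2), x.2.2))
      (by cpt) ?_
    rintro s ⟨e, ⟨⟨a, b⟩, j, n⟩, r⟩ _
    change (((dI (a, b + 1), dI j, dI n), dec e s r) : GX (Z e s)) =
      ((dI (a, b) - 1, dI j, dI n), dec e s r)
    rw [dI_pred]
  · refine RR.fn (F := fun x : ε × RGd R => (((x.2.1.1.1 + 1, x.2.1.1.2), x.2.1.2), x.2.2))
      (by cpt) ?_
    rintro s ⟨e, ⟨⟨a, b⟩, j, n⟩, r⟩ _
    change (((dI (a + 1, b), dI j, dI n), dec e s r) : GX (Z e s)) =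
      ((dI (a, b) + 1, dI j, dI n), dec e s r)
    rw [dI_succ]

theorem rlz_t (M : ℕ) (L : List C) (hp : ∀ c, RP orc dec (fun e s => p e s c)) (b : Bool) :
    Rlz orc (decGd dec) (decGd dec) (fun e s => gstep M (sig (ltL L) (p e s)) (.t, b)) := by
  refine RR.cases (c1 := fun _ (x : ε × RGd R) => dI x.2.1.1 = (0 : ℕ) ∧ dI x.2.1.2.1 = (0 : ℕ))
    (c2 := fun _ (x : ε × RGd R) => ¬ dI x.2.1.1 = (0 : ℕ) ∨ ¬ dI x.2.1.2.1 = (0 : ℕ))
    ((ore_eqk 0 (by cpt)).and (ore_eqk 0 (by cpt))) ((ore_nek 0 (by cpt)).or (ore_nek 0 (by cpt)))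
    (fun s x _ => by tauto) ?_ ?_
  · cases b
    · refine RR.fn (F := fun x : ε × RGd R =>
        ((x.2.1.1, x.2.1.2.1, (x.2.1.2.2.1, x.2.1.2.2.2 + 1)), x.2.2)) (by cpt) ?_
      rintro s ⟨e, ⟨i, j, ⟨a, b⟩⟩, r⟩ ⟨-, h1, h2⟩
      change (((dI i, dI j, dI (a, b + 1)), dec e s r) : GX (Z e s)) =
        ((if dI i = 0 ∧ dI j = 0 then (dI i, dI j, dI (a, b) - 1) else (dI i, dI j, dI (a, b))),
          dec e s r)
      rw [if_pos ⟨h1, h2⟩, dI_pred]
    · refine RR.fn (F := fun x : ε × RGd R =>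
        ((x.2.1.1, x.2.1.2.1, (x.2.1.2.2.1 + 1, x.2.1.2.2.2)), x.2.2)) (by cpt) ?_
      rintro s ⟨e, ⟨i, j, ⟨a, b⟩⟩, r⟩ ⟨-, h1, h2⟩
      change (((dI i, dI j, dI (a + 1, b)), dec e s r) : GX (Z e s)) =
        ((if dI i = 0 ∧ dI j = 0 then (dI i, dI j, dI (a, b) + 1) else (dI i, dI j, dI (a, b))),
          dec e s r)
      rw [if_pos ⟨h1, h2⟩, dI_succ]
  · refine RR.fn (F := fun x : ε × RGd R => x.2) (by cpt) ?_
    rintro s ⟨e, ⟨i, j, n⟩, r⟩ ⟨-, h1⟩
    have h2 : ¬ (dI i = 0 ∧ dI j = 0) := by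
      rintro ⟨h3, h4⟩
      rcases h1 with h1 | h1
      · exact h1 h3
      · exact h1 h4
    cases b
    · change (((dI i, dI j, dI n), dec e s r) : GX (Z e s)) =
        ((if dI i = 0 ∧ dI j = 0 then (dI i, dI j, dI n - 1) else (dI i, dI j, dI n)), dec e s r)
      rw [if_neg h2]
    · change (((dI i, dI j, dI n), dec e s r) : GX (Z e s)) =
        ((if dI i = 0 ∧ dI j = 0 then (dI i, dI j, dI n + 1) else (dI i, dI j, dI n)), dec e s r)
      rw [if_neg h2]

theorem rlz_y (M : ℕ) (L : List C) (hp : ∀ c, RP orc dec (fun e s => p e s c)) (b : Bool) :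
    Rlz orc (decGd dec) (decGd dec) (fun e s => gstep M (sig (ltL L) (p e s)) (.y, b)) := by
  refine RR.cases (c1 := fun _ (x : ε × RGd R) => Door M (dI x.2.1.1))
    (c2 := fun _ (x : ε × RGd R) => ¬ Door M (dI x.2.1.1))
    (ore_door M (by cpt)) (ore_ndoor M (by cpt)) (fun s x _ => em _) ?_ ?_
  · cases b
    · refine RR.cases (c1 := fun _ (x : ε × RGd R) =>
        dI x.2.1.2.1 = (1 : ℕ) ∧ dI x.2.1.2.2 < 0) (c2 := fun _ (x : ε × RGd R) =>
        ¬ dI x.2.1.2.1 = (1 : ℕ) ∨ ¬ dI x.2.1.2.2 < 0)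
        ((ore_eqk 1 (by cpt)).and (ore_neg (by cpt))) ((ore_nek 1 (by cpt)).or (ore_nneg (by cpt)))
        (fun s x _ => by tauto) ?_ ?_
      · refine RR.map (RR.mono (RR.comp (f := fun x : ε × RGd R => (x.1, x.2.1.1, x.2.2))
          (rr_sig M L hp false) (by cpt)) (fun _ _ _ => trivial) (fun _ _ _ _ h => h))
          (F := fun x : (ε × RGd R) × R =>
          ((x.1.2.1.1, (x.1.2.1.2.1.1, x.1.2.1.2.1.2 + 1), x.1.2.1.2.2), x.2)) (by cpt) ?_
        rintro s ⟨e, ⟨i, ⟨a, b⟩, n⟩, r⟩ r' ⟨⟨-, h1⟩, h2, h3⟩ h4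
        simp only [Bool.false_eq_true, if_false] at h1 h2 h3 h4 ⊢
        change (((dI i, dI (a, b + 1), dI n), dec e s r') : GX (Z e s)) =
          ((if Door M (dI i) then (dI i, dI (a, b) - 1, dI n) else (dI i, dI (a, b), dI n)),
          (if Door M (dI i) ∧ dI (a, b) = 1 ∧ dI n < 0 then
            (sig (ltL L) (p e s) (dI i / M))⁻¹ else 1) (dec e s r))
        rw [if_pos h1, if_pos ⟨h1, h2, h3⟩, dI_pred, h4]
      · refine RR.fn (F := fun x : ε × RGd R =>
          ((x.2.1.1, (x.2.1.2.1.1, x.2.1.2.1.2 + 1), x.2.1.2.2), x.2.2)) (by cpt) ?_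
        rintro s ⟨e, ⟨i, ⟨a, b⟩, n⟩, r⟩ ⟨⟨-, h1⟩, h2⟩
        simp only at h1 h2 ⊢
        change (((dI i, dI (a, b + 1), dI n), dec e s r) : GX (Z e s)) =
          ((if Door M (dI i) then (dI i, dI (a, b) - 1, dI n) else (dI i, dI (a, b), dI n)),
          (if Door M (dI i) ∧ dI (a, b) = 1 ∧ dI n < 0 then
            (sig (ltL L) (p e s) (dI i / M))⁻¹ else 1) (dec e s r))
        rw [if_pos h1, if_neg, dI_pred]
        · rfl
        · rintro ⟨-, h3, h4⟩
          rcases h2 with h2 | h2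
          · exact h2 h3
          · exact h2 h4
    · refine RR.cases (c1 := fun _ (x : ε × RGd R) =>
        dI x.2.1.2.1 = (0 : ℕ) ∧ dI x.2.1.2.2 < 0) (c2 := fun _ (x : ε × RGd R) =>
        ¬ dI x.2.1.2.1 = (0 : ℕ) ∨ ¬ dI x.2.1.2.2 < 0)
        ((ore_eqk 0 (by cpt)).and (ore_neg (by cpt))) ((ore_nek 0 (by cpt)).or (ore_nneg (by cpt)))
        (fun s x _ => by tauto) ?_ ?_
      · refine RR.map (RR.mono (RR.comp (f := fun x : ε × RGd R => (x.1, x.2.1.1, x.2.2))
          (rr_sig M L hp true) (by cpt)) (fun _ _ _ => trivial) (fun _ _ _ _ h => h))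
          (F := fun x : (ε × RGd R) × R =>
          ((x.1.2.1.1, (x.1.2.1.2.1.1 + 1, x.1.2.1.2.1.2), x.1.2.1.2.2), x.2)) (by cpt) ?_
        rintro s ⟨e, ⟨i, ⟨a, b⟩, n⟩, r⟩ r' ⟨⟨-, h1⟩, h2, h3⟩ h4
        simp only [if_true] at h1 h2 h3 h4 ⊢
        change (((dI i, dI (a + 1, b), dI n), dec e s r') : GX (Z e s)) =
          ((if Door M (dI i) then (dI i, dI (a, b) + 1, dI n) else (dI i, dI (a, b), dI n)),
          (if Door M (dI i) ∧ dI (a, b) = 0 ∧ dI n < 0 then
            sig (ltL L) (p e s) (dI i / M) else 1) (dec e s r))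
        rw [if_pos h1, if_pos ⟨h1, h2, h3⟩, dI_succ, h4]
      · refine RR.fn (F := fun x : ε × RGd R =>
          ((x.2.1.1, (x.2.1.2.1.1 + 1, x.2.1.2.1.2), x.2.1.2.2), x.2.2)) (by cpt) ?_
        rintro s ⟨e, ⟨i, ⟨a, b⟩, n⟩, r⟩ ⟨⟨-, h1⟩, h2⟩
        simp only at h1 h2 ⊢
        change (((dI i, dI (a + 1, b), dI n), dec e s r) : GX (Z e s)) =
          ((if Door M (dI i) then (dI i, dI (a, b) + 1, dI n) else (dI i, dI (a, b), dI n)),
          (if Door M (dI i) ∧ dI (a, b) = 0 ∧ dI n < 0 then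
            sig (ltL L) (p e s) (dI i / M) else 1) (dec e s r))
        rw [if_pos h1, if_neg, dI_succ]
        · rfl
        · rintro ⟨-, h3, h4⟩
          rcases h2 with h2 | h2
          · exact h2 h3
          · exact h2 h4
  · refine RR.fn (F := fun x : ε × RGd R => x.2) (by cpt) ?_
    rintro s ⟨e, ⟨i, j, n⟩, r⟩ ⟨-, h1⟩
    simp only at h1
    cases b
    · change (((dI i, dI j, dI n), dec e s r) : GX (Z e s)) =
        ((if Door M (dI i) then (dI i, dI j - 1, dI n) else (dI i, dI j, dI n)),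
        (if Door M (dI i) ∧ dI j = 1 ∧ dI n < 0 then
          (sig (ltL L) (p e s) (dI i / M))⁻¹ else 1) (dec e s r))
      rw [if_neg h1, if_neg (fun h => h1 h.1)]
      rfl
    · change (((dI i, dI j, dI n), dec e s r) : GX (Z e s)) =
        ((if Door M (dI i) then (dI i, dI j + 1, dI n) else (dI i, dI j, dI n)),
        (if Door M (dI i) ∧ dI j = 0 ∧ dI n < 0 then
          sig (ltL L) (p e s) (dI i / M) else 1) (dec e s r))
      rw [if_neg h1, if_neg (fun h => h1 h.1)]
      rfl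

/-- **the guard letters are realised in both directions** -/
theorem rp_gperm (M : ℕ) (L : List C) (hp : ∀ c, RP orc dec (fun e s => p e s c)) (a : GdL) :
    RP orc (decGd dec) (fun e s => gperm M (sig (ltL L) (p e s)) a) := by
  cases a with
  | x => exact ⟨rlz_x M L hp true, rlz_x M L hp false⟩
  | y => exact ⟨rlz_y M L hp true, rlz_y M L hp false⟩
  | t => exact ⟨rlz_t M L hp true, rlz_t M L hp false⟩

end guard

end Crest.Agent.R185.Ev
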