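import Mathlib

/-!
# R185 / TORUS: the mapping torus (ascending HNN extension) of an injective endomorphism

For `U` finitely presented and `ψ : U →* U` injective there is a finitely presented group `Γ` with
an embedding `ι : U →* Γ`, an element `t` with `t ι(u) t⁻¹ = ι(ψ u)`, a height homomorphism to `ℤ`
and every element of the form `t⁻ᵃ ι(u) tᵇ`.
-/

set_option autoImplicit false

namespace Crest.Agent.R185.Tor

open Monoid

/-- a finitely presented group has a finite generating set -/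
theorem exists_gen (U : Type) [Group U] (h : Group.IsFinitelyPresented U) :
    ∃ S : Set U, S.Finite ∧ Subgroup.closure S = ⊤ := by
  obtain ⟨n, φ, hφ, -⟩ := h.out
  refine ⟨Set.range fun i => φ (FreeGroup.of i), Set.finite_range _, ?_⟩
  rw [eq_top_iff]
  intro u hu
  clear hu
  obtain ⟨w, rfl⟩ := hφ u
  induction w using FreeGroup.induction_on with
  | C1 => simp
  | of i => exact Subgroup.subset_closure ⟨i, rfl⟩
  | inv_of i ih => rw [map_inv]; exact Subgroup.inv_mem _ ih
  | mul a b ha hb => rw [map_mul]; exact Subgroup.mul_mem _ ha hb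

/-- two homomorphisms agreeing on a generating set agree -/
theorem hom_eq {U K : Type} [Group U] [Group K] {S : Set U} (hS : Subgroup.closure S = ⊤)
    {f g : U →* K} (h : ∀ a ∈ S, f a = g a) : ∀ a, f a = g a := by
  intro a
  have : f = g := MonoidHom.eq_of_eqOn_dense hS (fun a ha => h a ha)
  rw [this]

/-- commutation of two homomorphisms on generators implies commutation -/
theorem hom_comm {U K : Type} [Group U] [Group K] {S : Set U} (hS : Subgroup.closure S = ⊤)
    {f g : U →* K} (h : ∀ a ∈ S, ∀ b ∈ S, Commute (f a) (g b)) : ∀ a b, Commute (f a) (g b) := by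
  have h1 : ∀ a ∈ S, ∀ b, Commute (f a) (g b) := by
    intro a ha b
    have hb : b ∈ Subgroup.closure S := by rw [hS]; trivial
    induction hb using Subgroup.closure_induction with
    | mem x hx => exact h a ha x hx
    | one => rw [map_one]; exact Commute.one_right _
    | mul x y _ _ hx hy => rw [map_mul]; exact hx.mul_right hy
    | inv x _ hx => rw [map_inv]; exact hx.inv_right
  intro a b
  have ha : a ∈ Subgroup.closure S := by rw [hS]; trivial
  induction ha using Subgroup.closure_induction with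
  | mem x hx => exact h1 x hx b
  | one => rw [map_one]; exact Commute.one_left _
  | mul x y _ _ hx hy => rw [map_mul]; exact hx.mul_left hy
  | inv x _ hx => rw [map_inv]; exact hx.inv_left

/-- data of a mapping torus -/
structure IsTorus {U Γ : Type} [Group U] [Group Γ] (ψ : U →* U) (ι : U →* Γ) (t : Γ)
    (ht : Γ →* Multiplicative ℤ) : Prop where
  inj : Function.Injective ι
  conj : ∀ u, t * ι u * t⁻¹ = ι (ψ u)
  height_t : ht t = Multiplicative.ofAdd 1
  height_ι : ∀ u, ht (ι u) = 1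
  form : ∀ γ : Γ, ∃ (a b : ℕ) (u : U), γ = t⁻¹ ^ a * ι u * t ^ b

section

variable {U : Type} [Group U] (ψ : U →* U) (S : Set U)

/-- the relators -/
def rel : Set (Coprod U (Multiplicative ℤ)) :=
  (fun a => Coprod.inr (Multiplicative.ofAdd (1 : ℤ)) * Coprod.inl a *
    (Coprod.inr (Multiplicative.ofAdd (1 : ℤ)))⁻¹ * (Coprod.inl (ψ a))⁻¹) '' S

/-- the torus group -/
abbrev TG : Type := Coprod U (Multiplicative ℤ) ⧸ Subgroup.normalClosure (rel ψ S)

/-- projection -/
def pr : Coprod U (Multiplicative ℤ) →* TG ψ S :=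
  QuotientGroup.mk' (Subgroup.normalClosure (rel ψ S))

theorem pr_surj : Function.Surjective (pr ψ S) :=
  QuotientGroup.mk'_surjective (Subgroup.normalClosure (rel ψ S))

/-- the base -/
def ib : U →* TG ψ S := (pr ψ S).comp Coprod.inl

/-- the stable letter -/
def tt : TG ψ S := pr ψ S (Coprod.inr (Multiplicative.ofAdd (1 : ℤ)))

theorem rel_gen (a : U) (ha : a ∈ S) : tt ψ S * ib ψ S a * (tt ψ S)⁻¹ = ib ψ S (ψ a) := by
  have h : pr ψ S (Coprod.inr (Multiplicative.ofAdd (1 : ℤ)) * Coprod.inl a *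
    (Coprod.inr (Multiplicative.ofAdd (1 : ℤ)))⁻¹ * (Coprod.inl (ψ a))⁻¹) = 1 := by
    rw [← MonoidHom.mem_ker]
    unfold pr
    rw [QuotientGroup.ker_mk']
    exact Subgroup.subset_normalClosure ⟨a, ha, rfl⟩
  simp only [map_mul, map_inv] at h
  exact mul_inv_eq_one.mp h

theorem rel_all (hS : Subgroup.closure S = ⊤) (a : U) :
    tt ψ S * ib ψ S a * (tt ψ S)⁻¹ = ib ψ S (ψ a) := by
  have := hom_eq hS (f := (MulAut.conj (tt ψ S)).toMonoidHom.comp (ib ψ S))
    (g := (ib ψ S).comp ψ) (fun a ha => by simpa [MulAut.conj_apply] using rel_gen ψ S a ha) a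
  simpa [MulAut.conj_apply] using this

/-- universal property -/
theorem exists_lift {K : Type} [Group K] (f : U →* K) (x : K)
    (h : ∀ a, x * f a * x⁻¹ = f (ψ a)) :
    ∃ F : TG ψ S →* K, (∀ a, F (ib ψ S a) = f a) ∧ F (tt ψ S) = x := by
  have hle : Subgroup.normalClosure (rel ψ S) ≤
      (Coprod.lift f (zpowersHom K x)).ker := by
    apply Subgroup.normalClosure_le_normal
    rintro _ ⟨a, _, rfl⟩
    change _ ∈ MonoidHom.ker _
    rw [MonoidHom.mem_ker]
    simp only [map_mul, map_inv, Coprod.lift_apply_inl, Coprod.lift_apply_inr]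
    rw [zpowersHom_apply]
    simp only [toAdd_ofAdd, zpow_one]
    rw [h, mul_inv_cancel]
  refine ⟨QuotientGroup.lift (Subgroup.normalClosure (rel ψ S)) (Coprod.lift f (zpowersHom K x))
    (fun y hy => hle hy), ?_, ?_⟩
  · intro a
    change QuotientGroup.lift (Subgroup.normalClosure (rel ψ S)) _ _
      (QuotientGroup.mk' _ (Coprod.inl a)) = _
    rw [QuotientGroup.mk'_apply, QuotientGroup.lift_mk, Coprod.lift_apply_inl]
  · change QuotientGroup.lift (Subgroup.normalClosure (rel ψ S)) _ _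
      (QuotientGroup.mk' _ (Coprod.inr (Multiplicative.ofAdd (1 : ℤ)))) = _
    rw [QuotientGroup.mk'_apply, QuotientGroup.lift_mk, Coprod.lift_apply_inr, zpowersHom_apply]
    simp

variable {ψ}

theorem ib_inj (hψ : Function.Injective ψ) : Function.Injective (ib ψ S) := by
  let φ : (⊤ : Subgroup U) ≃* ψ.range := Subgroup.topEquiv.trans (MonoidHom.ofInjective hψ)
  obtain ⟨F, h1, -⟩ := exists_lift ψ S (HNNExtension.of : U →* HNNExtension U ⊤ ψ.range φ)
    HNNExtension.t (by
      intro a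
      have := HNNExtension.equiv_eq_conj (φ := φ) ⟨a, Subgroup.mem_top a⟩
      rw [← this]
      rfl)
  intro a b hab
  apply HNNExtension.of_injective (φ := φ)
  rw [← h1, ← h1, hab]

end

/-- elements `t⁻ᵃ u tᵇ` -/
theorem form_mul {U Γ : Type} [Group U] [Group Γ] {ψ : U →* U} {ι : U →* Γ} {t : Γ}
    (h : ∀ u, t * ι u * t⁻¹ = ι (ψ u)) :
    ∀ (c : ℕ) (u : U), t ^ c * ι u = ι ((ψ^[c]) u) * t ^ c ∧
      ι u * t⁻¹ ^ c = t⁻¹ ^ c * ι ((ψ^[c]) u) := by
  intro c
  have key : ∀ (c : ℕ) (u : U), t ^ c * ι u = ι ((ψ^[c]) u) * t ^ c := by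
    intro c
    induction c with
    | zero => intro u; simp
    | succ c ih =>
      intro u
      have : t * ι u = ι (ψ u) * t := by rw [← h]; group
      rw [pow_succ, mul_assoc, this, ← mul_assoc, ih, Function.iterate_succ_apply, mul_assoc]
  intro u
  refine ⟨key c u, ?_⟩
  have := key c u
  rw [inv_pow, mul_inv_eq_iff_eq_mul, mul_assoc, ← this, inv_mul_cancel_left]

theorem form_all {U Γ : Type} [Group U] [Group Γ] {ψ : U →* U} {ι : U →* Γ} {t : Γ}
    (h : ∀ u, t * ι u * t⁻¹ = ι (ψ u)) (hg : Subgroup.closure (Set.range ι ∪ {t}) = ⊤) (γ : Γ) :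
    ∃ (a b : ℕ) (u : U), γ = t⁻¹ ^ a * ι u * t ^ b := by
  have hγ : γ ∈ Subgroup.closure (Set.range ι ∪ {t}) := by rw [hg]; trivial
  induction hγ using Subgroup.closure_induction with
  | mem x hx =>
    rcases hx with ⟨u, rfl⟩ | hx
    · exact ⟨0, 0, u, by simp⟩
    · rw [Set.mem_singleton_iff] at hx
      exact ⟨0, 1, 1, by simp [hx]⟩
  | one => exact ⟨0, 0, 1, by simp⟩
  | mul x y _ _ hx hy =>
    obtain ⟨a, b, u, rfl⟩ := hx
    obtain ⟨c, d, v, rfl⟩ := hy
    rcases le_total c b with hcb | hcb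
    · obtain ⟨e, rfl⟩ := Nat.exists_eq_add_of_le hcb
      refine ⟨a, e + d, u * (ψ^[e]) v, ?_⟩
      have h1 : t ^ (c + e) * t⁻¹ ^ c = t ^ e := by
        rw [add_comm, pow_add, mul_assoc, inv_pow, mul_inv_cancel, mul_one]
      calc t⁻¹ ^ a * ι u * t ^ (c + e) * (t⁻¹ ^ c * ι v * t ^ d)
          = t⁻¹ ^ a * ι u * (t ^ (c + e) * t⁻¹ ^ c) * ι v * t ^ d := by simp only [mul_assoc]
        _ = t⁻¹ ^ a * ι u * (t ^ e * ι v) * t ^ d := by rw [h1]; simp only [mul_assoc]
        _ = t⁻¹ ^ a * ι (u * (ψ^[e]) v) * t ^ (e + d) := by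
            rw [(form_mul h e v).1, map_mul, pow_add]; simp only [mul_assoc]
    · obtain ⟨e, rfl⟩ := Nat.exists_eq_add_of_le hcb
      refine ⟨a + e, d, (ψ^[e]) u * v, ?_⟩
      have h1 : t ^ b * t⁻¹ ^ (b + e) = t⁻¹ ^ e := by
        rw [pow_add, ← mul_assoc, inv_pow, mul_inv_cancel, one_mul]
      calc t⁻¹ ^ a * ι u * t ^ b * (t⁻¹ ^ (b + e) * ι v * t ^ d)
          = t⁻¹ ^ a * ι u * (t ^ b * t⁻¹ ^ (b + e)) * ι v * t ^ d := by simp only [mul_assoc]
        _ = t⁻¹ ^ a * (ι u * t⁻¹ ^ e) * ι v * t ^ d := by rw [h1]; simp only [mul_assoc]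
        _ = t⁻¹ ^ (a + e) * ι ((ψ^[e]) u * v) * t ^ d := by
            rw [(form_mul h e u).2, map_mul, pow_add]; simp only [mul_assoc]
  | inv x _ hx =>
    obtain ⟨a, b, u, rfl⟩ := hx
    refine ⟨b, a, u⁻¹, ?_⟩
    simp only [mul_inv_rev, inv_pow, inv_inv, map_inv, mul_assoc]

/-- **Mapping torus.** -/
theorem exists_torus (U : Type) [Group U] (hU : Group.IsFinitelyPresented U) (ψ : U →* U)
    (hψ : Function.Injective ψ) :
    ∃ (Γ : Type) (_ : Group Γ) (ι : U →* Γ) (t : Γ) (ht : Γ →* Multiplicative ℤ),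
      Group.IsFinitelyPresented Γ ∧ IsTorus ψ ι t ht := by
  obtain ⟨S, hSf, hS⟩ := exists_gen U hU
  obtain ⟨H, hH1, hH2⟩ := exists_lift ψ S (1 : U →* Multiplicative ℤ) (Multiplicative.ofAdd (1 : ℤ))
    (by intro a; simp)
  refine ⟨TG ψ S, inferInstance, ib ψ S, tt ψ S, H, ?_, ?_⟩
  · have : Group.IsFinitelyPresented (Coprod U (Multiplicative ℤ)) := inferInstance
    exact Group.IsFinitelyPresented.quotient (Subgroup.normalClosure (rel ψ S))
      ⟨rel ψ S, hSf.image _, rfl⟩
  · refine ⟨ib_inj S hψ, rel_all ψ S hS, hH2, hH1, form_all (rel_all ψ S hS) ?_⟩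
    rw [eq_top_iff]
    intro γ hγ
    clear hγ
    obtain ⟨x, rfl⟩ := pr_surj ψ S γ
    induction x using Coprod.induction_on with
    | inl u => exact Subgroup.subset_closure (Or.inl ⟨u, rfl⟩)
    | inr n =>
      have h3 : pr ψ S (Coprod.inr n) = tt ψ S ^ (Multiplicative.toAdd n) := by
        have h4 : n = (Multiplicative.ofAdd (1 : ℤ)) ^ (Multiplicative.toAdd n) := by
          rw [← ofAdd_zsmul]; simp
        have h5 : (Coprod.inr n : Coprod U (Multiplicative ℤ)) =
            (Coprod.inr (Multiplicative.ofAdd (1 : ℤ))) ^ (Multiplicative.toAdd n) := by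
          rw [← map_zpow, ← h4]
        rw [h5, map_zpow]
        rfl
      have h6 : tt ψ S ∈ Subgroup.closure (Set.range (ib ψ S) ∪ {tt ψ S}) :=
        Subgroup.subset_closure (Or.inr rfl)
      rw [h3]
      exact Subgroup.zpow_mem _ h6 _
    | mul x y hx hy => rw [map_mul]; exact Subgroup.mul_mem _ hx hy

end Crest.Agent.R185.Tor
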