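import Crest.Agent.R185.QTh
import Crest.Agent.R185.Tor1

/-!
# Row 185 (Q2), piece P3: a criterion for finite presentability (helper340)

Brown's criterion without complexes: a group acting on a connected, simply connected preordered set
with finitely many orbits of triples `x ≤ y ≤ z`, finitely presented stabilisers and finitely
generated edge stabilisers is finitely presented.
-/

set_option autoImplicit false

namespace Crest.Agent.R185.Q.FPC

open Subgroup

/-! ### approximations of a group by finitely presented groups -/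

section approx

variable {G : Type} [Group G]

/-- a retract of a finitely presented group is finitely presented -/
theorem fp_retract {E : Type} [Group E] (hE : Group.IsFinitelyPresented E) (π : E →* G)
    (τ : G →* E) (h : ∀ g, π (τ g) = g) : Group.IsFinitelyPresented G := by
  obtain ⟨S, hSf, hS⟩ := Tor.exists_gen E hE
  refine Group.IsFinitelyPresented.of_surjective π (fun g => ⟨τ g, h g⟩)
    ⟨(fun s => s * (τ (π s))⁻¹) '' S, hSf.image _, ?_⟩
  apply le_antisymm
  · apply normalClosure_le_normal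
    rintro _ ⟨s, hs, rfl⟩
    simp [MonoidHom.mem_ker, h]
  · intro e he
    have h1 : ∀ e, QuotientGroup.mk' (normalClosure ((fun s => s * (τ (π s))⁻¹) '' S)) e =
        ((QuotientGroup.mk' (normalClosure ((fun s => s * (τ (π s))⁻¹) '' S))).comp
          (τ.comp π)) e := by
      apply Tor.hom_eq hS
      intro s hs
      have h2 : s * (τ (π s))⁻¹ ∈ normalClosure ((fun s => s * (τ (π s))⁻¹) '' S) :=
        subset_normalClosure ⟨s, hs, rfl⟩
      have h3 := (QuotientGroup.eq_one_iff (N := normalClosure ((fun s => s * (τ (π s))⁻¹) '' S))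
        (s * (τ (π s))⁻¹)).mpr h2
      rw [QuotientGroup.mk_mul, QuotientGroup.mk_inv, mul_inv_eq_one] at h3
      exact h3
    have h4 := h1 e
    rw [MonoidHom.comp_apply, MonoidHom.comp_apply, (MonoidHom.mem_ker).mp he, map_one,
      map_one] at h4
    exact (QuotientGroup.eq_one_iff e).mp h4

/-- an approximation of `G` by a finitely presented group -/
structure App (G : Type) [Group G] where
  E : Type
  [grp : Group E]
  fp : Group.IsFinitelyPresented E
  π : E →* G

attribute [instance] App.grp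

theorem add_hom (A : App G) {H : Type} [Group H] (hH : Group.IsFinitelyPresented H) (φ : H →* G) :
    ∃ (B : App G) (q : A.E →* B.E) (σ : H →* B.E),
      (∀ x, B.π (q x) = A.π x) ∧ ∀ h, B.π (σ h) = φ h := by
  have hA := A.fp
  refine ⟨{ E := Monoid.Coprod A.E H, fp := inferInstance, π := Monoid.Coprod.lift A.π φ },
    Monoid.Coprod.inl, Monoid.Coprod.inr, ?_, ?_⟩
  · intro x; simp
  · intro x; simp

theorem add_homs (A : App G) {ι : Type} [Finite ι] (H : ι → Type) [∀ i, Group (H i)]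
    (hH : ∀ i, Group.IsFinitelyPresented (H i)) (φ : ∀ i, H i →* G) :
    ∃ (B : App G) (q : A.E →* B.E) (σ : ∀ i, H i →* B.E),
      (∀ x, B.π (q x) = A.π x) ∧ ∀ i h, B.π (σ i h) = φ i h := by
  classical
  have := Fintype.ofFinite ι
  suffices hs : ∀ s : Finset ι, ∃ (B : App G) (q : A.E →* B.E),
      (∀ x, B.π (q x) = A.π x) ∧ ∀ i ∈ s, ∃ σ : H i →* B.E, ∀ h, B.π (σ h) = φ i h by
    obtain ⟨B, q, h1, h2⟩ := hs Finset.univ
    choose σ hσ using fun i => h2 i (Finset.mem_univ i)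
    exact ⟨B, q, σ, h1, hσ⟩
  intro s
  induction s using Finset.induction_on with
  | empty => exact ⟨A, MonoidHom.id _, fun x => rfl, by simp⟩
  | insert i s hi ih =>
    obtain ⟨B, q, h1, h2⟩ := ih
    obtain ⟨C, q', σ, h3, h4⟩ := add_hom B (hH i) (φ i)
    refine ⟨C, q'.comp q, fun x => by rw [MonoidHom.comp_apply, h3, h1], ?_⟩
    intro j hj
    rw [Finset.mem_insert] at hj
    rcases hj with rfl | hj
    · exact ⟨σ, h4⟩
    · obtain ⟨σ', h5⟩ := h2 j hj
      exact ⟨q'.comp σ', fun h => by rw [MonoidHom.comp_apply, h3, h5]⟩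

theorem add_elts (A : App G) (S : Set G) (hS : S.Finite) :
    ∃ (B : App G) (q : A.E →* B.E) (l : G → B.E),
      (∀ x, B.π (q x) = A.π x) ∧ ∀ a ∈ S, B.π (l a) = a := by
  classical
  have := hS.to_subtype
  obtain ⟨B, q, σ, h1, h2⟩ := add_hom A (H := FreeGroup S) inferInstance
    (FreeGroup.lift (fun a : S => (a : G)))
  refine ⟨B, q, fun a => if h : a ∈ S then σ (FreeGroup.of ⟨a, h⟩) else 1, h1, ?_⟩
  intro a ha
  simp [ha, h2]

theorem kill (A : App G) (P : Set (A.E × A.E)) (hP : P.Finite)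
    (h : ∀ p ∈ P, A.π p.1 = A.π p.2) :
    ∃ (B : App G) (q : A.E →* B.E),
      (∀ x, B.π (q x) = A.π x) ∧ ∀ p ∈ P, q p.1 = q p.2 := by
  have hA := A.fp
  have hN : normalClosure ((fun p : A.E × A.E => p.1 * p.2⁻¹) '' P) ≤ A.π.ker := by
    apply normalClosure_le_normal
    rintro _ ⟨p, hp, rfl⟩
    simp [MonoidHom.mem_ker, h p hp]
  refine ⟨{ E := A.E ⧸ normalClosure ((fun p : A.E × A.E => p.1 * p.2⁻¹) '' P)
            fp := Group.IsFinitelyPresented.quotient _ ⟨_, hP.image _, rfl⟩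
            π := QuotientGroup.lift _ A.π hN }, QuotientGroup.mk' _, ?_, ?_⟩
  · intro x; rfl
  · intro p hp
    have h2 : p.1 * p.2⁻¹ ∈ normalClosure ((fun p : A.E × A.E => p.1 * p.2⁻¹) '' P) :=
      subset_normalClosure ⟨p, hp, rfl⟩
    have h3 := (QuotientGroup.eq_one_iff _).mpr h2
    rw [QuotientGroup.mk_mul, QuotientGroup.mk_inv, mul_inv_eq_one] at h3
    exact h3

end approx

/-! ### the last step: a functor gives a retraction -/

section functor

variable {G X : Type} [Group G] [MulAction G X] [Nonempty X] {r : X → X → Prop}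

theorem of_functor (hr : ∀ x, r x x) (hinv : ∀ (g : G) x y, r x y → r (g • x) (g • y))
    (hC : Cnd r Set.univ) (hT : CT r Set.univ)
    {E : Type} [Group E] (hE : Group.IsFinitelyPresented E) (π : E →* G) (t : X → G)
    (Φ : X → X → G → E)
    (h1 : ∀ x y a, r (a • x) y → π (Φ x y a) = (t y)⁻¹ * a * t x)
    (h2 : ∀ x y z a b, r (a • y) z → r (b • x) y → Φ x z (a * b) = Φ y z a * Φ x y b) :
    Group.IsFinitelyPresented G := by
  obtain ⟨b, hb⟩ := hT E (fun x y => (Φ x y 1)⁻¹) (by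
    intro x _ y _ z _ hxy hyz
    have := h2 x y z 1 1 (by rwa [one_smul]) (by rwa [one_smul])
    rw [mul_one] at this
    rw [this, mul_inv_rev])
  have hb' : ∀ x y, r x y → b y = b x * (Φ x y 1)⁻¹ := by
    intro x y hxy
    rw [hb x trivial y trivial hxy, mul_inv_cancel_left]
  obtain ⟨x0⟩ := ‹Nonempty X›
  -- the image of `b` in `G`
  have h3 : ∀ x, π (b x) * (t x)⁻¹ = π (b x0) * (t x0)⁻¹ := by
    intro x
    have := hC (fun x => π (b x) * (t x)⁻¹ = π (b x0) * (t x0)⁻¹) (by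
      intro x _ y _ hxy
      have h4 := h1 x y 1 (by rwa [one_smul])
      have h5 : π (b y) * (t y)⁻¹ = π (b x) * (t x)⁻¹ := by
        rw [hb' x y hxy, map_mul, map_inv, h4]
        group
      rw [h5]) x trivial x0 trivial
    exact this.mpr rfl
  have h4 : ∀ g x, b (g • x) * Φ x (g • x) g * (b x)⁻¹ =
      b (g • x0) * Φ x0 (g • x0) g * (b x0)⁻¹ := by
    intro g x
    have := hC (fun x => b (g • x) * Φ x (g • x) g * (b x)⁻¹ =
      b (g • x0) * Φ x0 (g • x0) g * (b x0)⁻¹) (by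
      intro x _ y _ hxy
      have hg := hinv g x y hxy
      have h5 := h2 x y (g • y) g 1 (hr _) (by rwa [one_smul])
      have h6 := h2 x (g • x) (g • y) 1 g (by rwa [one_smul]) (hr _)
      rw [mul_one] at h5
      rw [one_mul] at h6
      have h7 : b (g • y) * Φ y (g • y) g * (b y)⁻¹ = b (g • x) * Φ x (g • x) g * (b x)⁻¹ := by
        rw [hb' x y hxy, hb' _ _ hg]
        have h8 : Φ y (g • y) g = Φ (g • x) (g • y) 1 * Φ x (g • x) g * (Φ x y 1)⁻¹ := by
          rw [← h6, h5, mul_inv_cancel_right]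
        rw [h8]
        group
      rw [h7]) x trivial x0 trivial
    exact this.mpr rfl
  let τ : G →* E := MonoidHom.mk' (fun g => b (g • x0) * Φ x0 (g • x0) g * (b x0)⁻¹) (by
    intro g h
    rw [← h4 g (h • x0), mul_smul, h2 x0 (h • x0) (g • h • x0) g h (hr _) (hr _)]
    group)
  refine fp_retract hE (((MulAut.conj (π (b x0) * (t x0)⁻¹)⁻¹).toMonoidHom).comp π) τ ?_
  intro g
  have h5 : π (τ g) = (π (b x0) * (t x0)⁻¹) * g * (π (b x0) * (t x0)⁻¹)⁻¹ := by
    change π (b (g • x0) * Φ x0 (g • x0) g * (b x0)⁻¹) = _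
    rw [map_mul, map_mul, map_inv, h1 _ _ _ (hr _)]
    have h6 : π (b (g • x0)) = (π (b x0) * (t x0)⁻¹) * t (g • x0) := by
      rw [← h3 (g • x0), inv_mul_cancel_right]
    rw [h6]
    group
  rw [MonoidHom.comp_apply, h5]
  simp [MulAut.conj_apply]
  group

end functor

/-! ### representatives of double cosets -/

theorem exists_rep {G : Type} [Group G] (H K : Subgroup G) : ∃ rep : G → G,
    (∀ a, ∃ h ∈ H, ∃ k ∈ K, a = h * rep a * k) ∧
    ∀ a, ∀ h ∈ H, ∀ k ∈ K, rep (h * a * k) = rep a := by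
  refine ⟨fun a => (DoubleCoset.mk H K a).out, ?_, ?_⟩
  · intro a
    obtain ⟨h, k, hh, hk, e⟩ := DoubleCoset.mk_out_eq_mul H K a
    refine ⟨h⁻¹, inv_mem hh, k⁻¹, inv_mem hk, ?_⟩
    change a = h⁻¹ * ((DoubleCoset.mk H K a).out : G) * k⁻¹
    have e2 : ((DoubleCoset.mk H K a).out : G) = h * a * k := e
    refine Eq.symm (Eq.trans (congrArg (fun z => h⁻¹ * z * k⁻¹) e2) ?_)
    group
  · intro a h hh k hk
    have : DoubleCoset.mk H K a = DoubleCoset.mk H K (h * a * k) :=
      (DoubleCoset.eq H K _ _).mpr ⟨h, hh, k, hk, rfl⟩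
    simp only [this]

/-! ### the stages -/

section stages

variable {G X : Type} [Group G] [MulAction G X] {r : X → X → Prop}

local notation "st" => MulAction.stabilizer G

theorem stage1 (R : Set X) (hR : R.Finite)
    (hst : ∀ x : X, Group.IsFinitelyPresented (MulAction.stabilizer G x))
    (A : Set G) (hA : A.Finite) : ∃ (B : App G) (s : X → G → B.E) (l : G → B.E),
      (∀ x ∈ R, ∀ g ∈ st x, B.π (s x g) = g) ∧
      (∀ x ∈ R, ∀ g ∈ st x, ∀ h ∈ st x, s x (g * h) = s x g * s x h) ∧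
      ∀ a ∈ A, B.π (l a) = a := by
  classical
  have := hR.to_subtype
  obtain ⟨B, -, σ, -, hσ⟩ := add_homs (G := G) (⟨PUnit, inferInstance, 1⟩ : App G) (ι := R)
    (fun x => MulAction.stabilizer G (x : X)) (fun x => hst x)
    (fun x => (MulAction.stabilizer G (x : X)).subtype)
  obtain ⟨C, q, l, h1, h2⟩ := add_elts B A hA
  refine ⟨C, fun x g => if h : x ∈ R ∧ g ∈ st x then q (σ ⟨x, h.1⟩ ⟨g, h.2⟩) else 1, l, ?_, ?_, h2⟩
  · intro x hx g hg
    beta_reduce
    rw [dif_pos ⟨hx, hg⟩, h1, hσ]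
    rfl
  · intro x hx g hg h hh
    beta_reduce
    rw [dif_pos ⟨hx, mul_mem hg hh⟩, dif_pos ⟨hx, hg⟩, dif_pos ⟨hx, hh⟩, ← map_mul, ← map_mul]
    rfl

section mults

variable {E : Type} [Group E] {H : Subgroup G} {s : G → E}

theorem s_one (hs : ∀ g ∈ H, ∀ h ∈ H, s (g * h) = s g * s h) : s 1 = 1 := by
  have := hs 1 H.one_mem 1 H.one_mem
  rw [mul_one] at this
  exact left_eq_mul.mp this

theorem s_inv (hs : ∀ g ∈ H, ∀ h ∈ H, s (g * h) = s g * s h) {g : G} (hg : g ∈ H) :
    s g⁻¹ = (s g)⁻¹ := by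
  have := hs g⁻¹ (H.inv_mem hg) g hg
  rw [inv_mul_cancel, s_one hs] at this
  exact eq_inv_of_mul_eq_one_left this.symm

end mults

theorem rep_le (hinv : ∀ (g : G) x y, r x y → r (g • x) (g • y)) {x y : X} {a c h k : G}
    (hh : h ∈ st y) (hk : k ∈ st x) (e : a = h * c * k) (ha : r (a • x) y) : r (c • x) y := by
  have h1 := hinv h⁻¹ _ _ ha
  have h2 : h⁻¹ • y = y := (st y).inv_mem hh
  have h3 : h⁻¹ • a • x = c • x := by
    have hk' : k • x = x := hk
    rw [e, mul_smul, mul_smul, hk', inv_smul_smul]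
  rwa [h2, h3] at h1

theorem stage2 (hr : ∀ x, r x x) (hinv : ∀ (g : G) x y, r x y → r (g • x) (g • y))
    (T : Set (X × X × X)) (hT : T.Finite)
    (hT' : ∀ x y z, r x y → r y z → ∃ g : G, (g • x, g • y, g • z) ∈ T)
    (hst : ∀ x : X, Group.IsFinitelyPresented (MulAction.stabilizer G x))
    (hed : ∀ x y : X, r x y →
      Group.FG ↥(MulAction.stabilizer G x ⊓ MulAction.stabilizer G y))
    (R : Set X) (hR : R.Finite)
    (rep : X → X → G → G) (hrep : ∀ x y a, ∃ h ∈ st y, ∃ k ∈ st x, a = h * rep x y a * k)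
    (hrep' : ∀ x y a, ∀ h ∈ st y, ∀ k ∈ st x, rep x y (h * a * k) = rep x y a) :
    ∃ (B : App G) (s : X → G → B.E) (l : G → B.E),
      (∀ x ∈ R, ∀ g ∈ st x, B.π (s x g) = g) ∧
      (∀ x ∈ R, ∀ g ∈ st x, ∀ h ∈ st x, s x (g * h) = s x g * s x h) ∧
      (∀ x ∈ R, ∀ y ∈ R, ∀ a, r (a • x) y → B.π (l (rep x y a)) = rep x y a) ∧
      ∀ x ∈ R, ∀ y ∈ R, ∀ a, r (a • x) y → ∀ h ∈ st y, ∀ k ∈ st x,
        h * rep x y a = rep x y a * k →
        s y h * l (rep x y a) = l (rep x y a) * s x k := by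
  classical
  -- finitely many double cosets
  have hfin : ∀ x y : X, {c | ∃ a, r (a • x) y ∧ c = rep x y a}.Finite := by
    intro x y
    have h1 : {c | ∃ a, r (a • x) y ∧ c = rep x y a} ⊆
        ⋃ t ∈ T, {c | ∃ a, ∃ g : G, (g • a • x, g • y, g • y) = t ∧ c = rep x y a} := by
      rintro c ⟨a, ha, rfl⟩
      obtain ⟨g, hg⟩ := hT' _ _ _ ha (hr y)
      simp only [Set.mem_iUnion]
      exact ⟨_, hg, a, g, rfl, rfl⟩
    refine (hT.biUnion fun t _ => Set.Subsingleton.finite ?_).subset h1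
    rintro c ⟨a, g, h2, rfl⟩ c' ⟨a', g', rfl, rfl⟩
    have h3 := (Prod.mk.injEq _ _ _ _).mp h2
    obtain ⟨h4, h5⟩ := h3
    have h6 := ((Prod.mk.injEq _ _ _ _).mp h5).1
    have e : a = (g⁻¹ * g') * a' * (a'⁻¹ * g'⁻¹ * g * a) := by group
    rw [e]
    apply hrep'
    · rw [MulAction.mem_stabilizer_iff, mul_smul, ← h6, inv_smul_smul]
    · rw [MulAction.mem_stabilizer_iff]
      rw [mul_smul, mul_smul, h4, mul_smul, inv_smul_smul, inv_smul_smul]
  -- the generators of the edge groups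
  have hgen : ∀ (x y : X) (c : G), ∃ S : Set G, S.Finite ∧
      (r (c • x) y → closure S = st x ⊓ st (c⁻¹ • y)) := by
    intro x y c
    by_cases h : r (c • x) y
    · have h1 : r x (c⁻¹ • y) := by
        have := hinv c⁻¹ _ _ h
        rwa [inv_smul_smul] at this
      have h2 := (Group.fg_iff_subgroup_fg _).mp (hed _ _ h1)
      obtain ⟨S, hS⟩ := h2
      exact ⟨S, S.finite_toSet, fun _ => hS⟩
    · exact ⟨∅, Set.finite_empty, fun h' => absurd h' h⟩
  choose S hSf hS using hgen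
  obtain ⟨B, s, l, h1, h2, h3⟩ := stage1 R hR hst
    (⋃ x ∈ R, ⋃ y ∈ R, {c | ∃ a, r (a • x) y ∧ c = rep x y a})
    (hR.biUnion fun x _ => hR.biUnion fun y _ => hfin x y)
  have h3' : ∀ x ∈ R, ∀ y ∈ R, ∀ a, r (a • x) y → B.π (l (rep x y a)) = rep x y a := by
    intro x hx y hy a ha
    apply h3
    simp only [Set.mem_iUnion]
    exact ⟨x, hx, y, hy, a, ha, rfl⟩
  have key : ∀ (x y : X) (c : G), r (c • x) y → ∀ k, k ∈ st x → k ∈ st (c⁻¹ • y) →
      c * k * c⁻¹ ∈ st y := by
    intro x y c _ k _ hk2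
    rw [MulAction.mem_stabilizer_iff] at hk2 ⊢
    rw [mul_smul, mul_smul, hk2, smul_inv_smul]
  obtain ⟨C, q, hq1, hq2⟩ := kill B
    (⋃ x ∈ R, ⋃ y ∈ R, ⋃ c ∈ {c | ∃ a, r (a • x) y ∧ c = rep x y a},
      (fun k => (s y (c * k * c⁻¹) * l c, l c * s x k)) '' S x y c)
    (hR.biUnion fun x _ => hR.biUnion fun y _ => (hfin x y).biUnion fun c _ =>
      (hSf x y c).image _) (by
    intro p hp
    simp only [Set.mem_iUnion] at hp
    obtain ⟨x, hx, y, hy, c, ⟨a, ha, rfl⟩, k, hk, rfl⟩ := hp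
    obtain ⟨h', hh', k', hk', e⟩ := hrep x y a
    have hc := rep_le hinv hh' hk' e ha
    have hk2 : k ∈ st x ⊓ st ((rep x y a)⁻¹ • y) := by
      rw [← hS x y _ hc]
      exact subset_closure hk
    simp only [map_mul]
    rw [h1 y hy _ (key x y _ hc k hk2.1 hk2.2), h3' x hx y hy a ha, h1 x hx k hk2.1]
    group)
  refine ⟨C, fun x g => q (s x g), fun c => q (l c), ?_, ?_, ?_, ?_⟩
  · intro x hx g hg
    rw [hq1, h1 x hx g hg]
  · intro x hx g hg h hh
    beta_reduce
    rw [h2 x hx g hg h hh, map_mul]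
  · intro x hx y hy a ha
    rw [hq1, h3' x hx y hy a ha]
  · intro x hx y hy a ha h hh k hk e
    obtain ⟨h', hh', k', hk', e'⟩ := hrep x y a
    have hc := rep_le hinv hh' hk' e' ha
    have hmul : ∀ x ∈ R, ∀ g ∈ st x, ∀ h ∈ st x, q (s x (g * h)) = q (s x g) * q (s x h) := by
      intro x hx g hg h hh
      rw [h2 x hx g hg h hh, map_mul]
    have hkey : ∀ k ∈ closure (S x y (rep x y a)),
        q (s y (rep x y a * k * (rep x y a)⁻¹)) * q (l (rep x y a)) =
          q (l (rep x y a)) * q (s x k) := by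
      intro k hk
      induction hk using closure_induction with
      | mem k hk =>
        have := hq2 _ (by
          simp only [Set.mem_iUnion]
          exact ⟨x, hx, y, hy, _, ⟨a, ha, rfl⟩, k, hk, rfl⟩)
        simpa only [map_mul] using this
      | one =>
        rw [mul_one, mul_inv_cancel, s_one (H := st x) (s := fun g => q (s x g)) (hmul x hx),
          s_one (H := st y) (s := fun g => q (s y g)) (hmul y hy), one_mul, mul_one]
      | mul k k' hk hk' ih ih' =>
        rw [hS x y _ hc] at hk hk'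
        have e1 : rep x y a * (k * k') * (rep x y a)⁻¹ =
            (rep x y a * k * (rep x y a)⁻¹) * (rep x y a * k' * (rep x y a)⁻¹) := by group
        rw [e1, hmul y hy _ (key x y _ hc k hk.1 hk.2) _ (key x y _ hc k' hk'.1 hk'.2),
          mul_assoc, ih', ← mul_assoc, ih, mul_assoc, ← hmul x hx _ hk.1 _ hk'.1]
      | inv k hk ih =>
        rw [hS x y _ hc] at hk
        have e1 : rep x y a * k⁻¹ * (rep x y a)⁻¹ = (rep x y a * k * (rep x y a)⁻¹)⁻¹ := by group
        rw [e1, s_inv (H := st y) (s := fun g => q (s y g)) (hmul y hy)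
          (key x y _ hc k hk.1 hk.2), s_inv (H := st x) (s := fun g => q (s x g)) (hmul x hx) hk.1,
          inv_mul_eq_iff_eq_mul, ← mul_assoc, ih, mul_inv_cancel_right]
    have e2 : h = rep x y a * k * (rep x y a)⁻¹ := by rw [← e]; group
    have hk2 : k ∈ closure (S x y (rep x y a)) := by
      rw [hS x y _ hc]
      refine mem_inf.mpr ⟨hk, ?_⟩
      rw [MulAction.mem_stabilizer_iff]
      have e3 : k = (rep x y a)⁻¹ * h * rep x y a := by
        rw [mul_assoc, e]; group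
      have hh2 : h • y = y := hh
      rw [e3, mul_smul, mul_smul, smul_inv_smul, hh2]
    rw [e2]
    exact hkey k hk2

theorem stage3 (hr : ∀ x, r x x) (hinv : ∀ (g : G) x y, r x y → r (g • x) (g • y))
    (T : Set (X × X × X)) (hT : T.Finite)
    (hT' : ∀ x y z, r x y → r y z → ∃ g : G, (g • x, g • y, g • z) ∈ T)
    (hst : ∀ x : X, Group.IsFinitelyPresented (MulAction.stabilizer G x))
    (hed : ∀ x y : X, r x y →
      Group.FG ↥(MulAction.stabilizer G x ⊓ MulAction.stabilizer G y))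
    (R : Set X) (hR : R.Finite) :
    ∃ (B : App G) (s : X → G → B.E) (Φ : X → X → G → B.E),
      (∀ x ∈ R, ∀ g ∈ st x, ∀ h ∈ st x, s x (g * h) = s x g * s x h) ∧
      (∀ x ∈ R, ∀ y ∈ R, ∀ a, r (a • x) y → B.π (Φ x y a) = a) ∧
      ∀ x ∈ R, ∀ y ∈ R, ∀ a, r (a • x) y → ∀ h ∈ st y, ∀ k ∈ st x,
        Φ x y (h * a * k) = s y h * Φ x y a * s x k := by
  classical
  choose rep hrep hrep' using fun x y : X => exists_rep (st y) (st x)
  obtain ⟨B, s, l, h1, h2, h3, h4⟩ := stage2 hr hinv T hT hT' hst hed R hR rep hrep hrep'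
  choose H hH K hK e using hrep
  have wd : ∀ x ∈ R, ∀ y ∈ R, ∀ a, r (a • x) y → ∀ h ∈ st y, ∀ k ∈ st x,
      a = h * rep x y a * k →
      s y (H x y a) * l (rep x y a) * s x (K x y a) = s y h * l (rep x y a) * s x k := by
    intro x hx y hy a ha h hh k hk e'
    have e1 : (h⁻¹ * H x y a) * rep x y a = rep x y a * (k * (K x y a)⁻¹) := by
      have e2 := e x y a
      rw [e'] at e2
      rw [← e'] at e2
      have e3 : h * rep x y a * k = H x y a * rep x y a * K x y a := by rw [← e', ← e2]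
      have e4 : H x y a * rep x y a = h * rep x y a * k * (K x y a)⁻¹ := by
        rw [e3, mul_inv_cancel_right]
      rw [mul_assoc, e4]
      group
    have h5 := h4 x hx y hy a ha _ ((st y).mul_mem ((st y).inv_mem hh) (hH x y a)) _
      ((st x).mul_mem hk ((st x).inv_mem (hK x y a))) e1
    rw [h2 y hy _ ((st y).inv_mem hh) _ (hH x y a), s_inv (h2 y hy) hh,
      h2 x hx _ hk _ ((st x).inv_mem (hK x y a)), s_inv (h2 x hx) (hK x y a)] at h5
    have h6 : s y (H x y a) * l (rep x y a) =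
        s y h * (l (rep x y a) * (s x k * (s x (K x y a))⁻¹)) := by
      rw [← h5]; group
    rw [h6]
    group
  refine ⟨B, s, fun x y a => s y (H x y a) * l (rep x y a) * s x (K x y a), h2, ?_, ?_⟩
  · intro x hx y hy a ha
    beta_reduce
    rw [map_mul, map_mul, h1 y hy _ (hH x y a), h3 x hx y hy a ha, h1 x hx _ (hK x y a), ← e]
  · intro x hx y hy a ha h hh k hk
    beta_reduce
    have ha' : r ((h * a * k) • x) y := by
      have hk' : k • x = x := hk
      have hh' : h • y = y := hh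
      rw [mul_smul, mul_smul, hk']
      have := hinv h _ _ ha
      rwa [hh'] at this
    have h5 := wd x hx y hy (h * a * k) ha' (h * H x y a) ((st y).mul_mem hh (hH x y a))
      (K x y a * k) ((st x).mul_mem (hK x y a) hk) (by
        rw [hrep' x y a h hh k hk]
        have e1 := e x y a
        calc h * a * k = h * (H x y a * rep x y a * K x y a) * k := by rw [← e1]
          _ = _ := by group)
    rw [h5, hrep' x y a h hh k hk, h2 y hy h hh _ (hH x y a), h2 x hx _ (hK x y a) k hk]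
    group

theorem stage4 (hr : ∀ x, r x x) (hinv : ∀ (g : G) x y, r x y → r (g • x) (g • y))
    (htr : ∀ x y z, r x y → r y z → r x z)
    (T : Set (X × X × X)) (hT : T.Finite)
    (hT' : ∀ x y z, r x y → r y z → ∃ g : G, (g • x, g • y, g • z) ∈ T)
    (hst : ∀ x : X, Group.IsFinitelyPresented (MulAction.stabilizer G x))
    (hed : ∀ x y : X, r x y →
      Group.FG ↥(MulAction.stabilizer G x ⊓ MulAction.stabilizer G y))
    (R : Set X) (hR : R.Finite) :
    ∃ (B : App G) (Φ : X → X → G → B.E),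
      (∀ x ∈ R, ∀ y ∈ R, ∀ a, r (a • x) y → B.π (Φ x y a) = a) ∧
      ∀ x ∈ R, ∀ y ∈ R, ∀ z ∈ R, ∀ a b, r (a • y) z → r (b • x) y →
        Φ x z (a * b) = Φ y z a * Φ x y b := by
  classical
  obtain ⟨B, s, Φ, h1, h2, h3⟩ := stage3 hr hinv T hT hT' hst hed R hR
  have hab : ∀ x y z : X, ∀ a b : G, r (a • y) z → r (b • x) y → r ((a * b) • x) z := by
    intro x y z a b h h'
    rw [mul_smul]
    exact htr _ _ _ (hinv a _ _ h') h
  -- representatives of the triples
  have hch : ∀ (x y z : X) (t : X × X × X), ∃ p : G × G,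
      (∃ a b g : G, r (a • y) z ∧ r (b • x) y ∧ (g • a • b • x, g • a • y, g • z) = t) →
      ∃ g : G, r (p.1 • y) z ∧ r (p.2 • x) y ∧ (g • p.1 • p.2 • x, g • p.1 • y, g • z) = t := by
    intro x y z t
    by_cases h : ∃ a b g : G, r (a • y) z ∧ r (b • x) y ∧ (g • a • b • x, g • a • y, g • z) = t
    · obtain ⟨a, b, g, h⟩ := h
      exact ⟨(a, b), fun _ => ⟨g, h⟩⟩
    · exact ⟨(1, 1), fun h' => absurd h' h⟩
  choose p hp using hch
  obtain ⟨C, q, hq1, hq2⟩ := kill B
    (⋃ x ∈ R, ⋃ y ∈ R, ⋃ z ∈ R, ⋃ t ∈ T,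
      {w | r ((p x y z t).1 • y) z ∧ r ((p x y z t).2 • x) y ∧
        w = (Φ x z ((p x y z t).1 * (p x y z t).2),
          Φ y z (p x y z t).1 * Φ x y (p x y z t).2)})
    (hR.biUnion fun x _ => hR.biUnion fun y _ => hR.biUnion fun z _ => hT.biUnion fun t _ =>
      Set.Subsingleton.finite (by
        rintro w ⟨_, _, rfl⟩ w' ⟨_, _, rfl⟩
        rfl)) (by
    intro w hw
    simp only [Set.mem_iUnion] at hw
    obtain ⟨x, hx, y, hy, z, hz, t, ht, h4, h5, rfl⟩ := hw
    simp only [map_mul]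
    rw [h2 x hx z hz _ (hab x y z _ _ h4 h5), h2 y hy z hz _ h4, h2 x hx y hy _ h5])
  refine ⟨C, fun x y a => q (Φ x y a), ?_, ?_⟩
  · intro x hx y hy a ha
    rw [hq1, h2 x hx y hy a ha]
  · intro x hx y hy z hz a b ha hb
    beta_reduce
    obtain ⟨g, hg⟩ := hT' (a • b • x) (a • y) z (hinv a _ _ hb) ha
    obtain ⟨g', h4, h5, h6⟩ := hp x y z _ ⟨a, b, g, ha, hb, rfl⟩
    set A := (p x y z (g • a • b • x, g • a • y, g • z)).1 with hA
    set A' := (p x y z (g • a • b • x, g • a • y, g • z)).2 with hA'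
    obtain ⟨e1, e2⟩ := (Prod.mk.injEq _ _ _ _).mp h6
    obtain ⟨e2, e3⟩ := (Prod.mk.injEq _ _ _ _).mp e2
    have h7 := hq2 _ (by
      simp only [Set.mem_iUnion]
      exact ⟨x, hx, y, hy, z, hz, _, hg, h4, h5, rfl⟩)
    simp only [map_mul] at h7
    rw [← hA, ← hA'] at h7
    -- `A = c₃ * a * c₂`, `A' = c₂⁻¹ * b * c₁`
    have hc3 : g'⁻¹ * g ∈ st z := by
      rw [MulAction.mem_stabilizer_iff, mul_smul, ← e3, inv_smul_smul]
    have hc2 : a⁻¹ * g⁻¹ * g' * A ∈ st y := by
      rw [MulAction.mem_stabilizer_iff, mul_smul, mul_smul, mul_smul, e2, inv_smul_smul,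
        inv_smul_smul]
    have hc1 : b⁻¹ * a⁻¹ * g⁻¹ * g' * A * A' ∈ st x := by
      rw [MulAction.mem_stabilizer_iff, mul_smul, mul_smul, mul_smul, mul_smul, mul_smul, e1,
        inv_smul_smul, inv_smul_smul, inv_smul_smul]
    have eA : A = (g'⁻¹ * g) * a * (a⁻¹ * g⁻¹ * g' * A) := by group
    have eA' : A' = (a⁻¹ * g⁻¹ * g' * A)⁻¹ * b * (b⁻¹ * a⁻¹ * g⁻¹ * g' * A * A') := by group
    have eAA : A * A' = (g'⁻¹ * g) * (a * b) * (b⁻¹ * a⁻¹ * g⁻¹ * g' * A * A') := by group
    have f1 := h3 y hy z hz a ha _ hc3 _ hc2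
    rw [← eA] at f1
    have f2 := h3 x hx y hy b hb _ ((st y).inv_mem hc2) _ hc1
    rw [← eA', s_inv (h1 y hy) hc2] at f2
    have f3 := h3 x hx z hz (a * b) (hab x y z a b ha hb) _ hc3 _ hc1
    rw [← eAA] at f3
    rw [f1, f2, f3] at h7
    simp only [map_mul, map_inv] at h7
    have h8 : q (s z (g'⁻¹ * g)) * q (Φ x z (a * b)) *
        q (s x (b⁻¹ * a⁻¹ * g⁻¹ * g' * A * A')) =
        q (s z (g'⁻¹ * g)) * (q (Φ y z a) * q (Φ x y b)) *
        q (s x (b⁻¹ * a⁻¹ * g⁻¹ * g' * A * A')) := by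
      rw [h7]; group
    exact mul_left_cancel (mul_right_cancel h8)

end stages

/-- **P3**: the criterion for finite presentability -/
theorem fpCrit : FPCrit := by
  intro G X _ _ _ r hr htr hinv hC hT ⟨T, hTf, hT'⟩ hst hed
  classical
  obtain ⟨B, Φ, h1, h2⟩ := stage4 hr hinv htr T hTf hT' hst hed
    ((fun t : X × X × X => t.1) '' T) (hTf.image _)
  have hex : ∀ x : X, ∃ (t : G) (y : X), y ∈ (fun t : X × X × X => t.1) '' T ∧ t • y = x := by
    intro x
    obtain ⟨g, hg⟩ := hT' x x x (hr x) (hr x)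
    exact ⟨g⁻¹, g • x, ⟨_, hg, rfl⟩, inv_smul_smul g x⟩
  choose t ρ hρ ht using hex
  have hle : ∀ (x y : X) (a : G), r (a • x) y → r (((t y)⁻¹ * a * t x) • ρ x) (ρ y) := by
    intro x y a ha
    have := hinv (t y)⁻¹ _ _ ha
    rw [mul_smul, mul_smul, ht x]
    have e : (t y)⁻¹ • y = ρ y := by rw [inv_smul_eq_iff, ht y]
    rwa [e] at this
  refine of_functor hr hinv hC hT B.fp B.π t
    (fun x y a => Φ (ρ x) (ρ y) ((t y)⁻¹ * a * t x)) ?_ ?_
  · intro x y a ha
    exact h1 _ (hρ x) _ (hρ y) _ (hle x y a ha)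
  · intro x y z a b ha hb
    rw [← h2 _ (hρ x) _ (hρ y) _ (hρ z) _ _ (hle y z a ha) (hle x y b hb)]
    congr 1
    group

end Crest.Agent.R185.Q.FPC
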