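import Mathlib

/-!
# R185: finite products of finitely presented groups are finitely presented (helper862)
-/

set_option autoImplicit false

namespace Crest.Agent.R185.FPP

universe u v

theorem fg_of_fp (G : Type u) [Group G] [h : Group.IsFinitelyPresented G] : Group.FG G := by
  obtain ⟨n, φ, hφ, -⟩ := h.out
  exact Group.fg_of_surjective hφ

theorem fp_prod (G : Type u) (H : Type v) [Group G] [Group H]
    [hG : Group.IsFinitelyPresented G] [hH : Group.IsFinitelyPresented H] :
    Group.IsFinitelyPresented (G × H) := by
  classical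
  obtain ⟨S, hS, hSf⟩ := Group.fg_iff.1 (fg_of_fp G)
  obtain ⟨T, hT, hTf⟩ := Group.fg_iff.1 (fg_of_fp H)
  let f : Monoid.Coprod G H →* G × H := Monoid.Coprod.toProd
  have hf : Function.Surjective f := Monoid.Coprod.toProd_surjective
  set R : Set (Monoid.Coprod G H) :=
    (fun p : G × H => Monoid.Coprod.inl p.1 * Monoid.Coprod.inr p.2 *
      (Monoid.Coprod.inl p.1)⁻¹ * (Monoid.Coprod.inr p.2)⁻¹) '' (S ×ˢ T) with hR
  have hRf : R.Finite := (hSf.prod hTf).image _
  set N := Subgroup.normalClosure R with hN
  let π : Monoid.Coprod G H →* Monoid.Coprod G H ⧸ N := QuotientGroup.mk' N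
  have h1 : ∀ s ∈ S, ∀ t ∈ T, Commute (π (Monoid.Coprod.inl s)) (π (Monoid.Coprod.inr t)) := by
    intro s hs t ht
    have hmem : Monoid.Coprod.inl s * Monoid.Coprod.inr t *
        (Monoid.Coprod.inl s)⁻¹ * (Monoid.Coprod.inr t)⁻¹ ∈ N :=
      Subgroup.subset_normalClosure ⟨(s, t), ⟨hs, ht⟩, rfl⟩
    have h2 : π (Monoid.Coprod.inl s * Monoid.Coprod.inr t *
        (Monoid.Coprod.inl s)⁻¹ * (Monoid.Coprod.inr t)⁻¹) = 1 :=
      (QuotientGroup.eq_one_iff _).2 hmem
    rw [map_mul, map_mul, map_mul, map_inv, map_inv, mul_inv_eq_one, mul_inv_eq_iff_eq_mul] at h2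
    exact h2
  have h2 : ∀ s ∈ S, ∀ h : H, Commute (π (Monoid.Coprod.inl s)) (π (Monoid.Coprod.inr h)) := by
    intro s hs h
    have : h ∈ Subgroup.closure T := by rw [hT]; trivial
    induction this using Subgroup.closure_induction with
    | mem t ht => exact h1 s hs t ht
    | one => rw [map_one, map_one]; exact Commute.one_right _
    | mul x y _ _ hx hy => rw [map_mul, map_mul]; exact hx.mul_right hy
    | inv x _ hx => rw [map_inv, map_inv]; exact hx.inv_right
  have h3 : ∀ (g : G) (h : H), Commute (π (Monoid.Coprod.inl g)) (π (Monoid.Coprod.inr h)) := by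
    intro g h
    have : g ∈ Subgroup.closure S := by rw [hS]; trivial
    induction this using Subgroup.closure_induction with
    | mem s hs => exact h2 s hs h
    | one => rw [map_one, map_one]; exact Commute.one_left _
    | mul x y _ _ hx hy => rw [map_mul, map_mul]; exact hx.mul_left hy
    | inv x _ hx => rw [map_inv, map_inv]; exact hx.inv_left
  let q : G × H →* Monoid.Coprod G H ⧸ N :=
    MonoidHom.noncommCoprod (π.comp Monoid.Coprod.inl) (π.comp Monoid.Coprod.inr)
      (fun g h => h3 g h)
  have hq : q.comp f = π := by
    apply Monoid.Coprod.hom_ext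
    · ext g; simp [q, f]
    · ext h; simp [q, f]
  have hker : f.ker = N := by
    apply le_antisymm
    · intro x hx
      have hx' : f x = 1 := hx
      have : π x = 1 := by rw [← hq, MonoidHom.comp_apply, hx', map_one]
      exact (QuotientGroup.eq_one_iff _).1 this
    · refine Subgroup.normalClosure_le_normal ?_
      rintro _ ⟨⟨s, t⟩, -, rfl⟩
      change f _ = 1
      ext <;> simp [f]
  exact Group.IsFinitelyPresented.of_surjective f hf (by rw [hker]; exact ⟨R, hRf, rfl⟩)

theorem fp_pi (s : ℕ) : ∀ (K : Fin s → Type u) [∀ i, Group (K i)],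
    (∀ i, Group.IsFinitelyPresented (K i)) → Group.IsFinitelyPresented (∀ i, K i) := by
  induction s with
  | zero =>
    intro K _ _
    infer_instance
  | succ s ih =>
    intro K _ h
    have h1 : Group.IsFinitelyPresented (∀ i : Fin s, K i.succ) :=
      ih (fun i => K i.succ) fun i => h i.succ
    have h0 := h 0
    have h2 := fp_prod (K 0) (∀ i : Fin s, K i.succ)
    exact Group.IsFinitelyPresented.equiv
      ({ toFun := fun p => Fin.cons p.1 p.2
         invFun := fun f => (f 0, fun i => f i.succ)
         left_inv := fun p => by simp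
         right_inv := fun f => by
           funext i
           refine Fin.cases ?_ (fun j => ?_) i
           · simp
           · simp
         map_mul' := fun a b => by
           funext i
           refine Fin.cases ?_ (fun j => ?_) i
           · simp
           · simp } : (K 0 × (∀ i : Fin s, K i.succ)) ≃* (∀ i, K i))

/-- Powers. -/
theorem fp_pow (s : ℕ) (K : Type u) [Group K] [h : Group.IsFinitelyPresented K] :
    Group.IsFinitelyPresented (Fin s → K) := fp_pi s (fun _ => K) (fun _ => h)

theorem fg_pi (s : ℕ) : ∀ (K : Fin s → Type u) [∀ i, Group (K i)],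
    (∀ i, Group.FG (K i)) → Group.FG (∀ i, K i) := by
  induction s with
  | zero =>
    intro K _ _
    infer_instance
  | succ s ih =>
    intro K _ h
    have h1 : Group.FG (∀ i : Fin s, K i.succ) :=
      ih (fun i => K i.succ) fun i => h i.succ
    have h0 := h 0
    have h2 : Group.FG (K 0 × (∀ i : Fin s, K i.succ)) := inferInstance
    let e : (K 0 × (∀ i : Fin s, K i.succ)) →* (∀ i, K i) :=
      { toFun := fun p => Fin.cons p.1 p.2
        map_one' := by
           funext i
           refine Fin.cases ?_ (fun j => ?_) i
           · simp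
           · simp
        map_mul' := fun a b => by
           funext i
           refine Fin.cases ?_ (fun j => ?_) i
           · simp
           · simp }
    refine Group.fg_of_surjective (f := e) fun f => ⟨(f 0, fun i => f i.succ), ?_⟩
    funext i
    refine Fin.cases ?_ (fun j => ?_) i
    · simp [e]
    · simp [e]

end Crest.Agent.R185.FPP
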