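import Crest.Agent.R185.Hur7
import Crest.Agent.R185.Base5
import Crest.Agent.R185.Bld4

/-!
# Row 185, T6: `TNull G` and finite presentability give `JF G`
-/

set_option autoImplicit false
set_option linter.unusedSectionVars false

open Set Metric Topology
open Crest.Agent.R185.Att
open Crest.Agent.R185.Bld

local notation "I" => unitInterval

namespace Crest.Agent.R185.Hur

variable {G : Type} [Group G]

/-- ordered simplices of scale `(F, L)` in the Milnor model -/
def sim (F : Finset G) (L : ℕ) (q : ℕ) : Set (Fin (q + 1) → G × ℕ) :=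
  {v | StrictMono (fun i => (v i).2) ∧ (∀ i, (v i).2 < L) ∧ ∀ i j, (v i).1⁻¹ * (v j).1 ∈ F}

/-- chains of scale `(F, L)` -/
def ChS (F : Finset G) (L : ℕ) (q : ℕ) : Submodule ℤ (Chn (G × ℕ) q) :=
  Finsupp.supported ℤ ℤ (sim F L q)

/-- (reduced) cycles -/
def Cyc {V : Type} : ∀ q : ℕ, Chn V q → Prop
  | 0, z => (z.sum fun _ a => a) = 0
  | q + 1, z => dd q z = 0

variable (G) in
/-- **the chain level hypothesis**: cycles of scale `(F, L)` bound at scale `(F', L')` -/
def TNull : Prop := ∀ (n : ℕ) (F : Finset G) (L : ℕ), ∃ (F' : Finset G) (L' : ℕ),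
  ∀ z ∈ ChS F L n, Cyc n z → ∃ b ∈ ChS F' L' (n + 1), dd n b = z

theorem sim_mono {F F' : Finset G} {L L' : ℕ} (hF : F ⊆ F') (hL : L ≤ L') {q : ℕ} :
    sim F L q ⊆ sim F' L' q := fun _ h =>
  ⟨h.1, fun i => (h.2.1 i).trans_le hL, fun i j => hF (h.2.2 i j)⟩

theorem ChS_mono {F F' : Finset G} {L L' : ℕ} (hF : F ⊆ F') (hL : L ≤ L') {q : ℕ} :
    ChS F L q ≤ ChS F' L' q := Finsupp.supported_mono (sim_mono hF hL)

theorem sim_face {F : Finset G} {L : ℕ} {q : ℕ} {v : Fin (q + 2) → G × ℕ} (h : v ∈ sim F L (q + 1))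
    (j : Fin (q + 2)) : v ∘ j.succAbove ∈ sim F L q :=
  ⟨h.1.comp (Fin.strictMono_succAbove j), fun _ => h.2.1 _, fun _ _ => h.2.2 _ _⟩

theorem single_mem_ChS {F : Finset G} {L : ℕ} {q : ℕ} {v : Fin (q + 1) → G × ℕ}
    (h : v ∈ sim F L q) (a : ℤ) : Finsupp.single v a ∈ ChS F L q :=
  Finsupp.single_mem_supported ℤ a h

/-- partial contractions -/
theorem contr (hT : TNull G) (q : ℕ) (F : Finset G) (L : ℕ) : ∃ (F' : Finset G) (L' : ℕ)
    (f : (Fin (q + 1) → G × ℕ) → Chn (G × ℕ) (q + 1)), ∀ s ∈ sim F L (q + 1),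
      (Finsupp.single s 1 - ∑ j : Fin (q + 2), ((-1 : ℤ) ^ (j : ℕ)) • f (s ∘ j.succAbove)) ∈
        ChS F' L' (q + 1) ∧
      dd q (Finsupp.single s 1 - ∑ j : Fin (q + 2), ((-1 : ℤ) ^ (j : ℕ)) • f (s ∘ j.succAbove)) = 0 := by
  classical
  induction q with
  | zero =>
    obtain ⟨F', L', h⟩ := hT 0 (insert 1 F) (max L 1)
    let r0 : Fin 1 → G × ℕ := fun _ => (1, 0)
    have hex : ∀ r : Fin (0 + 1) → G × ℕ, r ∈ sim F L 0 → ∃ b ∈ ChS F' L' 1,
        dd 0 b = Finsupp.single r 1 - Finsupp.single r0 1 := by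
      intro r hr
      apply h
      · refine Submodule.sub_mem _ (single_mem_ChS (sim_mono (Finset.subset_insert _ _)
          (le_max_left _ _) hr) _) (single_mem_ChS ⟨?_, ?_, ?_⟩ _)
        · intro i j hij
          have := i.2; have := j.2
          rw [Fin.lt_def] at hij
          omega
        · intro i; exact lt_of_lt_of_le zero_lt_one (le_max_right _ _)
        · intro i j
          show (1 : G)⁻¹ * 1 ∈ _
          simp
      · show (Finsupp.sum _ fun _ a => a) = 0
        rw [Finsupp.sum_sub_index (fun _ _ _ => rfl), Finsupp.sum_single_index rfl,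
          Finsupp.sum_single_index rfl, sub_self]
    choose! f hf1 hf2 using hex
    refine ⟨F ∪ F', max L L', f, fun s hs => ⟨?_, ?_⟩⟩
    · refine Submodule.sub_mem _ (single_mem_ChS (sim_mono Finset.subset_union_left
        (le_max_left _ _) hs) _) (Submodule.sum_mem _ fun j _ => Submodule.smul_mem _ _ ?_)
      exact ChS_mono Finset.subset_union_right (le_max_right _ _) (hf1 _ (sim_face hs j))
    · rw [map_sub, dd_single, map_sum]
      simp only [map_smul]
      rw [Finset.sum_congr rfl fun j _ => by rw [hf2 _ (sim_face hs j)]]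
      unfold ddt
      simp only [smul_sub]
      rw [Finset.sum_sub_distrib, sub_sub_cancel, Fin.sum_univ_two]
      simp
  | succ q ih =>
    obtain ⟨F1, L1, f1, hf1⟩ := ih
    obtain ⟨F', L', h⟩ := hT (q + 1) F1 L1
    have hex : ∀ s : Fin (q + 1 + 1) → G × ℕ, s ∈ sim F L (q + 1) → ∃ b ∈ ChS F' L' (q + 2),
        dd (q + 1) b = Finsupp.single s 1 -
          ∑ j : Fin (q + 2), ((-1 : ℤ) ^ (j : ℕ)) • f1 (s ∘ j.succAbove) := fun s hs =>
      h _ (hf1 s hs).1 (hf1 s hs).2
    choose! f hf2 hf3 using hex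
    refine ⟨F ∪ F', max L L', f, fun t ht => ⟨?_, ?_⟩⟩
    · refine Submodule.sub_mem _ (single_mem_ChS (sim_mono Finset.subset_union_left
        (le_max_left _ _) ht) _) (Submodule.sum_mem _ fun j _ => Submodule.smul_mem _ _ ?_)
      exact ChS_mono Finset.subset_union_right (le_max_right _ _) (hf2 _ (sim_face ht j))
    · rw [map_sub, dd_single, map_sum]
      simp only [map_smul]
      rw [Finset.sum_congr rfl fun j _ => by rw [hf3 _ (sim_face ht j)]]
      simp only [smul_sub]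
      rw [Finset.sum_sub_distrib]
      have e1 : ∑ j : Fin (q + 3), ((-1 : ℤ) ^ (j : ℕ)) • Finsupp.single (t ∘ j.succAbove) (1 : ℤ) =
          ddt t := rfl
      rw [e1, sub_sub_cancel]
      -- the double sum vanishes
      let Ff : Chn (G × ℕ) q →ₗ[ℤ] Chn (G × ℕ) (q + 1) := Finsupp.linearCombination ℤ f1
      have hFf : ∀ v, Ff (Finsupp.single v 1) = f1 v := fun v => by simp [Ff]
      have h0 : (Ff.comp (dd q)) (ddt t) = 0 := by rw [LinearMap.comp_apply, dd_ddt, map_zero]
      rw [map_ddt (Ff.comp (dd q))] at h0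
      simp only [LinearMap.comp_apply, dd_single, map_ddt, hFf] at h0
      exact h0

/-! ### the model as a levelled complex -/

theorem lev_mil (F : Finset G) (L k : ℕ) : Lev (mil F L k) Prod.snd :=
  fun _ hs a ha b hb h => (hs.1 a ha b hb).2 h

theorem os_of_sim {F : Finset G} {L k q : ℕ} (hq : q + 1 ≤ k) {v : Fin (q + 1) → G × ℕ}
    (h : v ∈ sim F L q) : Os (mil F L k) Prod.snd v := by
  classical
  refine ⟨h.1, fun s _ hv => ⟨?_, ?_, ?_⟩⟩
  · intro a ha b hb
    obtain ⟨i, rfl⟩ := hv a ha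
    obtain ⟨j, rfl⟩ := hv b hb
    exact ⟨h.2.2 i j, fun hij => congrArg v (h.1.injective hij)⟩
  · intro a ha
    obtain ⟨i, rfl⟩ := hv a ha
    exact h.2.1 i
  · refine (Finset.card_le_card (t := Finset.univ.image v) fun a ha => ?_).trans
      (Finset.card_image_le.trans (by simpa using hq))
    obtain ⟨i, hi⟩ := hv a ha
    simp only [Finset.mem_image, Finset.mem_univ, true_and]
    exact ⟨i, hi⟩

theorem sim_of_os {F : Finset G} {L k q : ℕ} {v : Fin (q + 1) → G × ℕ}
    (h : Os (mil F L k) Prod.snd v) : v ∈ sim F L q := by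
  classical
  have h1 : Finset.univ.image v ∈ (mil F L k).s :=
    h.2 _ ⟨v 0, by simp⟩ fun a ha => by simpa using ha
  exact ⟨h.1, fun i => h1.2.1 _ (by simp), fun i j => (h1.1 _ (by simp) _ (by simp)).1⟩

/-- null-homotopies of the `(n+1)`-skeleta (at most `n+2` vertices) -/
theorem tn_all (hG : Group.IsFinitelyPresented G) (hT : TNull G) (n : ℕ) : ∀ (F : Finset G) (L : ℕ),
    ∃ (F' : Finset G) (L' : ℕ) (hs : (mil F L (n + 2)).s ⊆ (mil F' L' L').s) (w : MJ F' L' L'),
      (inc hs).Homotopic (ContinuousMap.const _ w) := by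
  classical
  induction n with
  | zero =>
    intro F L
    obtain ⟨F', L', hF, hL, w, H, h0, h1⟩ := Base.tn1 hG F L
    refine ⟨F', max L' 2, fun s hs => ⟨fun a ha b hb => ⟨hF (hs.1 a ha b hb).1, (hs.1 a ha b hb).2⟩,
      fun a ha => (hs.2.1 a ha).trans_le (hL.trans (le_max_left _ _)),
      hs.2.2.trans (le_max_right _ _)⟩, ?_⟩
    have hsub : (mil F' L' L').s ⊆ (mil F' (max L' 2) (max L' 2)).s :=
      mil_mono (Finset.Subset.refl _) (le_max_left _ _) (le_max_left _ _)
    refine ⟨inc hsub w, ⟨⟨⟨fun p => inc hsub (H (p.2, p.1)), by fun_prop⟩, fun p => ?_, fun p => ?_⟩⟩⟩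
    · apply Cx.R.ext_m
      exact h0 p
    · show inc hsub (H (p, 1)) = _
      rw [h1]; rfl
  | succ n ih =>
    intro F L
    obtain ⟨F1, L1, f, hf⟩ := contr hT (n + 1) F L
    obtain ⟨F2, L2, h2⟩ := hT (n + 2) F1 L1
    let F3 := F ∪ F2
    let L3 := max L L2
    obtain ⟨F4, L4, hs4, w, hw⟩ := ih F3 L3
    let F5 := F3 ∪ F4
    let L5 := max L3 (max L4 (n + 4))
    let K := mil F L (n + 3)
    let K1 := mil F3 L3 (n + 4)
    have hKK : K.s ⊆ K1.s := mil_mono Finset.subset_union_left (le_max_left _ _) (by omega)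
    have h15 : K1.s ⊆ (mil F5 L5 L5).s := mil_mono Finset.subset_union_left (le_max_left _ _)
      ((le_max_right _ _).trans (le_max_right _ _))
    have h45 : (mil F4 L4 L4).s ⊆ (mil F5 L5 L5).s := mil_mono Finset.subset_union_right
      ((le_max_left _ _).trans (le_max_right _ _)) ((le_max_left _ _).trans (le_max_right _ _))
    have hsk : (sk (n + 1 + 1 + 2) K1).s ⊆ K1.s := fun s hs => hs.1
    let J : C((sk (n + 1 + 1 + 2) K1).R, MJ F5 L5 L5) := inc (hsk.trans h15)
    have hJ : (J.comp (inc (sk_sub K1 (Nat.le_add_right (n + 1 + 1) 2)))).Homotopic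
        (ContinuousMap.const _ (inc h45 w)) := by
      have hsub : (sk (n + 1 + 1) K1).s ⊆ (mil F3 L3 (n + 2)).s := fun s hs =>
        ⟨hs.1.1, hs.1.2.1, hs.2⟩
      have h5 : ((inc h45).comp ((inc hs4).comp (inc hsub))).Homotopic
          ((inc h45).comp ((ContinuousMap.const _ w).comp (inc hsub))) :=
        ContinuousMap.Homotopic.comp (ContinuousMap.Homotopic.refl _)
          (ContinuousMap.Homotopic.comp hw (ContinuousMap.Homotopic.refl _))
      exact h5
    obtain ⟨H, H0, H1⟩ := step_null (ℓ := Prod.snd) (k := n + 1) K K1 hKK (lev_mil _ _ _) J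
      (inc h45 w) hJ f (by
        intro s hs
        have hs' : s ∈ sim F L (n + 2) := sim_of_os hs
        obtain ⟨b, hb, hbs⟩ := h2 _ (hf s hs').1 (hf s hs').2
        refine ⟨b, ?_, hbs⟩
        have hb' : b ∈ ChS F3 L3 (n + 3) := ChS_mono Finset.subset_union_right (le_max_right _ _) hb
        exact Finsupp.supported_mono (fun t ht => os_of_sim le_rfl ht) hb')
    refine ⟨F5, L5, hKK.trans h15, inc h45 w, ?_⟩
    have hsub : K.s ⊆ (sk (n + 1 + 2) K).s := fun s hs => ⟨hs, hs.2.2⟩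
    rw [homotopic_iff]
    refine ⟨H.comp (inc hsub), fun p => ?_, fun p => H1 _⟩
    have hsub3 : K.s ⊆ (sk (n + 1 + 1 + 2) K1).s := fun s hs =>
      ⟨hKK hs, hs.2.2.trans (by omega)⟩
    exact H0 (inc hsub p) (inc hsub3 p) rfl

/-- **TNTarget** -/
theorem jf_of_tnull (hG : Group.IsFinitelyPresented G) (hT : TNull G) : JF G := by
  intro n F L
  obtain ⟨F', L', hs, w, hw⟩ := tn_all hG hT n F L
  refine ⟨F', L', fun f => ?_⟩
  have hsub : (mil F L n).s ⊆ (mil F L (n + 2)).s :=
    mil_mono (Finset.Subset.refl _) le_rfl (by omega)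
  have h1 : ((inc hs).comp ((inc hsub).comp f)).Homotopic
      ((ContinuousMap.const _ w).comp ((inc hsub).comp f)) :=
    ContinuousMap.Homotopic.comp hw (ContinuousMap.Homotopic.refl _)
  obtain ⟨g, hg⟩ := ext_of_homotopic h1 ⟨ContinuousMap.const _ w, fun s => rfl⟩
  exact ⟨g, fun s => by rw [hg]; rfl⟩

end Crest.Agent.R185.Hur
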