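import Crest.Agent.R185.Lev1
import Crest.Agent.R185.Null2
import Crest.Agent.R185.Hur8

/-!
# Row 185, levelled chains, part 2: chains on tuples; nullness of the identity (`Null2`) implies the
hypothesis `Hur.TNull` of block T6.
-/

set_option autoImplicit false
set_option linter.unusedSectionVars false

namespace Crest.Agent.R185.Lev

open Finsupp Crest.Agent.R185.Null

section tuples

variable {α : Type}

/-- boundary of chains on tuples -/
noncomputable def dF {k : ℕ} : ((Fin (k + 1) → α) →₀ ℤ) →ₗ[ℤ] ((Fin k → α) →₀ ℤ) :=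
  Finsupp.linearCombination ℤ fun v => ∑ i : Fin (k + 1), (-1 : ℤ) ^ (i : ℕ) • single (v ∘ i.succAbove) 1

theorem dF_single {k : ℕ} (v : Fin (k + 1) → α) :
    dF (single v 1) = ∑ i : Fin (k + 1), (-1 : ℤ) ^ (i : ℕ) • single (v ∘ i.succAbove) 1 := by
  simp [dF]

/-- tuples to lists -/
noncomputable def lo {k : ℕ} : ((Fin k → α) →₀ ℤ) →ₗ[ℤ] Ch α := Finsupp.lmapDomain ℤ ℤ List.ofFn

@[simp] theorem lo_single {k : ℕ} (v : Fin k → α) (n : ℤ) :
    lo (single v n) = single (List.ofFn v) n := by simp [lo]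

theorem lo_inj {k : ℕ} : Function.Injective (lo : ((Fin k → α) →₀ ℤ) → Ch α) :=
  Finsupp.mapDomain_injective List.ofFn_injective

theorem dl_ofFn {k : ℕ} (v : Fin (k + 1) → α) :
    dl (List.ofFn v) = ∑ i : Fin (k + 1), (-1 : ℤ) ^ (i : ℕ) • single (List.ofFn (v ∘ i.succAbove)) 1 := by
  induction k with
  | zero =>
    simp [dl_cons]
  | succ k ih =>
    rw [List.ofFn_succ, Fin.sum_univ_succ]
    have h1 : dl (v 0 :: List.ofFn fun i => v i.succ) =
        single (List.ofFn fun i => v i.succ) 1 - pre (v 0) (dl (List.ofFn fun i => v i.succ)) := rfl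
    rw [h1, ih (fun i => v i.succ), map_sum]
    have h2 : ∀ i : Fin (k + 1), pre (v 0) ((-1 : ℤ) ^ (i : ℕ) •
        single (List.ofFn ((fun i => v i.succ) ∘ i.succAbove)) 1) =
        (-1 : ℤ) ^ (i : ℕ) • single (List.ofFn (v ∘ i.succ.succAbove)) 1 := by
      intro i
      rw [map_smul, pre_single, List.ofFn_succ (f := v ∘ i.succ.succAbove)]
      simp only [Function.comp_apply, Fin.succ_succAbove_zero, Fin.succ_succAbove_succ]
      rfl
    simp only [h2]
    simp only [Fin.val_zero, pow_zero, one_smul, Fin.val_succ, pow_succ, mul_neg, mul_one, neg_smul,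
      Finset.sum_neg_distrib]
    rw [sub_eq_add_neg]
    congr 1

theorem lo_dF {k : ℕ} (z : (Fin (k + 1) → α) →₀ ℤ) : lo (dF z) = Dl (lo z) := by
  have : (lo (α := α)).comp (dF (k := k)) = Dl.comp lo := lin_ext fun v => by
    simp only [LinearMap.comp_apply, dF_single, lo_single, Dl_single, one_smul, dl_ofFn, map_sum,
      map_smul]
  exact LinearMap.congr_fun this z

end tuples

section null

variable {G : Type} [Group G]

theorem srt_ofFn {k : ℕ} {v : Fin k → G × ℕ} (h : StrictMono fun i => (v i).2) :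
    Srt (List.ofFn v) := by
  unfold Srt
  rw [List.pairwise_ofFn]
  intro i j hij
  exact h hij

/-- the finite set of normalised lists -/
theorem finite_lists (F : Finset G) (L k : ℕ) :
    {x : (J G).X | x.1.length = k ∧ ∀ a ∈ x.1, a.1 ∈ F ∧ a.2 < L}.Finite := by
  classical
  have h1 : {x : List (G × ℕ) | x.length = k ∧ ∀ a ∈ x, a ∈ F ×ˢ Finset.range L}.Finite := by
    have := List.finite_length_eq (F ×ˢ Finset.range L : Finset (G × ℕ)) k
    refine (this.image (List.map Subtype.val)).subset ?_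
    rintro x ⟨hx, hx'⟩
    refine ⟨x.attachWith (fun a => a ∈ F ×ˢ Finset.range L) hx', ?_, ?_⟩
    · simpa using hx
    · exact List.attachWith_map_subtype_val hx'
  refine (h1.preimage (f := fun x : (J G).X => x.1) (fun a _ b _ h => Subtype.ext h)).subset ?_
  rintro x ⟨hx, hx'⟩
  refine ⟨hx, fun a ha => ?_⟩
  rw [Finset.mem_product, Finset.mem_range]
  exact hx' a ha

theorem EJ_eq_sum (c : (J G).X →₀ ℤ) (hc : c ∈ (J G).Dg 0) : (J G).E c = c.sum fun _ a => a := by
  show Finsupp.linearCombination ℤ jep c = _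
  rw [Finsupp.linearCombination_apply]
  refine Finsupp.sum_congr fun x hx => ?_
  have h1 : x.1.length = 1 := len_of_mem hc hx
  simp [jep, h1]

theorem tnull_of_bac (h : ∀ n, BAc (J G).toPCx n) : Hur.TNull G := by
  classical
  intro n F L
  obtain ⟨T', hT', hT⟩ := h n _ (finite_lists F L (n + 1))
  let F' : Finset G := hT'.toFinset.biUnion fun x => (x.1.toFinset ×ˢ x.1.toFinset).image
    fun p => p.1.1⁻¹ * p.2.1
  let L' : ℕ := hT'.toFinset.sup fun x => (x.1.map Prod.snd).sum + 1
  refine ⟨F', L', fun z hz h0 => ?_⟩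
  have hz' : ∀ v ∈ z.support, v ∈ Hur.sim F L n := fun v hv => (Finsupp.mem_supported ℤ z).1 hz hv
  have hsrt : ∀ y ∈ (lo z).support, ∃ v ∈ z.support, List.ofFn v = y := by
    intro y hy
    have := Finsupp.mapDomain_support hy
    rw [Finset.mem_image] at this
    exact this
  have hs' : ∀ y ∈ (lo z).support, Srt y ∧ y ≠ [] := by
    intro y hy
    obtain ⟨v, hv, rfl⟩ := hsrt y hy
    refine ⟨srt_ofFn (hz' v hv).1, ?_⟩
    simp
  have hem : em (re (lo z)) = lo z := em_re hs'
  have hside1 : re (lo z) ∈ (J G).Dg n := by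
    refine (Finsupp.mem_supported ℤ _).2 fun x hx => ?_
    obtain ⟨v, hv, hvx⟩ := hsrt x.1 (mem_re.1 hx)
    show x.1.length - 1 = n
    rw [← hvx]
    simp
  have hside2 : re (lo z) ∈ (J G).Bs {x | x.1.length = n + 1 ∧ ∀ a ∈ x.1, a.1 ∈ F ∧ a.2 < L} := by
    refine (Finsupp.mem_supported ℤ _).2 fun x hx => ?_
    obtain ⟨v, hv, hvx⟩ := hsrt x.1 (mem_re.1 hx)
    obtain ⟨h1, h2, h3⟩ := hz' v hv
    refine ⟨(J G).sm (v 0).1⁻¹ x, ⟨?_, ?_⟩, (v 0).1, ?_⟩
    · show (mv _ x.1).length = n + 1
      rw [← hvx]; simp [mv]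
    · intro a ha
      have ha' : a ∈ mv (v 0).1⁻¹ x.1 := ha
      unfold mv at ha'
      rw [List.mem_map] at ha'
      obtain ⟨a', ha', rfl⟩ := ha'
      rw [← hvx, List.mem_ofFn] at ha'
      obtain ⟨i, rfl⟩ := ha'
      exact ⟨h3 0 i, h2 i⟩
    · rw [← (J G).sm_mul, mul_inv_cancel, (J G).sm_one]
  have hside4 : (J G).E (re (lo z)) = 0 := by
    rcases Nat.eq_zero_or_pos n with rfl | hn
    · rw [EJ_eq_sum _ hside1]
      have h1 : (z.sum fun _ a => a) = 0 := h0
      have h2 : ∀ c : JX G →₀ ℤ, (c.sum fun _ a => a) = ((em c).sum fun _ a => a) := by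
        intro c
        show _ = (Finsupp.mapDomain Subtype.val c).sum fun _ a => a
        rw [Finsupp.sum_mapDomain_index (by simp) (by simp)]
      have h3 : ∀ c : (Fin 1 → G × ℕ) →₀ ℤ, (c.sum fun _ a => a) = ((lo c).sum fun _ a => a) := by
        intro c
        show _ = (Finsupp.mapDomain List.ofFn c).sum fun _ a => a
        rw [Finsupp.sum_mapDomain_index (by simp) (by simp)]
      rw [h2, hem, ← h3, h1]
    · exact (J G).E_eq_zero (by omega) hside1
  have hside3 : (J G).D (re (lo z)) = 0 := by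
    cases n with
    | zero => exact (J G).D_zero hside1
    | succ n =>
      apply em_inj
      rw [em_D, hside4, hem, map_zero, zero_smul, sub_zero, ← lo_dF]
      have h1 : dF z = 0 := h0
      rw [h1, map_zero]
  obtain ⟨c, hc1, hc2, hc3⟩ := (J G).mem_Bo.1 (hT ((J G).mem_Cy.2 ⟨hside1, hside2, hside3, hside4⟩))
  -- back to tuples
  have hcl : ∀ y ∈ (em (G := G) c).support, y.length = n + 2 := by
    intro y hy
    obtain ⟨x, hx, rfl⟩ := mem_em hy
    exact len_of_mem hc1 hx
  let b : (Fin (n + 2) → G × ℕ) →₀ ℤ :=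
    Finsupp.comapDomain List.ofFn (em (G := G) c) List.ofFn_injective.injOn
  have hb : lo b = em (G := G) c := by
    refine Finsupp.mapDomain_comapDomain _ List.ofFn_injective _ ?_
    intro y hy
    have hl := hcl y hy
    refine ⟨fun i => y.get (i.cast hl.symm), ?_⟩
    apply List.ext_getElem
    · simp [hl]
    · intro i h1 h2
      rw [List.getElem_ofFn]
      rfl
  refine ⟨b, (Finsupp.mem_supported ℤ b).2 fun v hv => ?_, ?_⟩
  · have hv' : List.ofFn v ∈ (em (G := G) c).support := by
      have hv0 : v ∈ b.support := hv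
      rw [Finsupp.mem_support_iff] at hv0 ⊢
      rwa [Finsupp.comapDomain_apply] at hv0
    obtain ⟨x, hx, hxv⟩ := mem_em hv'
    obtain ⟨y, hy, g, hyx⟩ := (Finsupp.mem_supported ℤ _).1 hc2 hx
    have hxy : x.1 = mv g y.1 := congrArg Subtype.val hyx
    have hmem : ∀ i, ∃ a ∈ y.1, v i = (g * a.1, a.2) := by
      intro i
      have h1 : v i ∈ mv g y.1 := by
        rw [← hxy, hxv, List.mem_ofFn]
        exact ⟨i, rfl⟩
      unfold mv at h1
      rw [List.mem_map] at h1
      obtain ⟨a, ha, ha'⟩ := h1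
      exact ⟨a, ha, ha'.symm⟩
    refine ⟨?_, fun i => ?_, fun i j => ?_⟩
    · have h1 := x.2.1
      rw [hxv] at h1
      unfold Srt at h1
      rw [List.pairwise_ofFn] at h1
      intro i j hij
      exact h1 hij
    · obtain ⟨a, ha, hva⟩ := hmem i
      rw [hva]
      have h1 : (y.1.map Prod.snd).sum + 1 ≤ L' := Finset.le_sup (f := fun x : (J G).X =>
        (x.1.map Prod.snd).sum + 1) (by simpa using hy)
      have h2 : a.2 ≤ (y.1.map Prod.snd).sum :=
        List.single_le_sum (by simp) _ (List.mem_map_of_mem ha)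
      show a.2 < L'
      omega
    · obtain ⟨a, ha, hva⟩ := hmem i
      obtain ⟨a', ha', hva'⟩ := hmem j
      rw [hva, hva']
      simp only [F', Finset.mem_biUnion, Finset.mem_image, Finset.mem_product, List.mem_toFinset]
      refine ⟨y, by simpa using hy, (a, a'), ⟨ha, ha'⟩, ?_⟩
      simp only
      group
  · apply lo_inj
    have h1 : lo (Hur.dd n b) = Dl (lo b) := lo_dF b
    rw [h1, hb]
    have h2 := em_D (G := G) c
    rw [(J G).E_eq_zero (Nat.succ_ne_zero n) hc1, zero_smul, sub_zero, hc3, hem] at h2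
    exact h2.symm

/-- **The passage**: nullness of the identity in all degrees gives block T6's hypothesis. -/
theorem tnull_of_isNull (h : ∀ n, IsNull (MonoidHom.id G) n) : Hur.TNull G :=
  tnull_of_bac fun n => (null_id_iff J_acyclic).1 (h n)

/-- **TOP**: a finitely presented group with null identity has a classifying complex of finite type
as soon as the builder is applied to `JF`. -/
theorem jf_of_isNull (hG : Group.IsFinitelyPresented G) (h : ∀ n, IsNull (MonoidHom.id G) n) :
    Bld.JF G := Hur.jf_of_tnull hG (tnull_of_isNull h)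

end null

end Crest.Agent.R185.Lev
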