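import Crest.Agent.R185.U9

/-!
# R185 / UNIV (10): a finitely presented group containing every finitely presented group
-/

set_option autoImplicit false
set_option linter.unusedSimpArgs false

namespace Crest.Agent.R185.Univ

open scoped commutatorElement
open Matrix

/-- the coordinate ring of the universal group -/
instance : Ring (Crd ux) := Crd.ring UG_facts.1

theorem crd_stein : Stein (Crd.st ux) := Crd.stein UG_facts.1

instance : Ch2 (Crd ux) := ⟨crd_stein.two⟩

theorem crd_RR : RR (Crd.gen ux) := by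
  refine (RR_iff _).1 (fun i => ?_)
  have e1 := Crd.evalP_gen UG_facts.1 (relP i).1
  have e2 := Crd.evalP_gen UG_facts.1 (relP i).2
  rw [e1, e2]
  exact Crd.mk_eq.2 (fun a b hab => UG_facts.2.2 i a b hab)

theorem crd_Gen : Gen (Crd.st ux) := by
  have h := PresentedGroup.closure_range_of grels
  refine top_le_iff.1 ?_
  have h' : Subgroup.closure (Set.range (PresentedGroup.of (rels := grels))) ≤
      Subgroup.closure {g : UG | ∃ i j r, i ≠ j ∧ g = Crd.st ux i j r} := by
    rw [Subgroup.closure_le]
    rintro _ ⟨⟨i, j, a⟩, rfl⟩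
    by_cases hij : i = j
    · subst hij
      have : (PresentedGroup.of (rels := grels) (i, i, a) : UG) = 1 := UG_facts.2.1 i a
      rw [this]
      exact Subgroup.one_mem _
    · refine Subgroup.subset_closure ?_
      cases a with
      | none =>
        refine ⟨i, j, Crd.mk ux [[]], hij, ?_⟩
        rw [Crd.st_mk hij]
        simp [psi, W]; rfl
      | some a =>
        refine ⟨i, j, Crd.mk ux [[a]], hij, ?_⟩
        rw [Crd.st_mk hij]
        simp only [psi, List.map_cons, List.map_nil, List.prod_cons, List.prod_nil, mul_one]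
        rw [UG_facts.1.W_single a hij]; rfl
  exact h.symm.le.trans h'

section compare

variable {S : Type*} [Ring S] [Ch2 S] {v : Gn → S} (h : RR v)

theorem comp_aux (h : RR v) (r : FreeGroup Lt) (hr : r ∈ grels) :
    FreeGroup.lift (fun p : Lt => el p.1 p.2.1 (p.2.2.elim 1 v)) r = 1 := by
  revert r
  rw [grels_iff]
  have e : (fun i j a => FreeGroup.lift (fun p : Lt => el p.1 p.2.1 (p.2.2.elim 1 v)) (fx i j a)) =
      (fun i j (a : Option Gn) => el i j (a.elim 1 v)) := by
    funext i j a; simp [fx]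
  rw [e]
  refine ⟨el_stein.base v, ?_, ?_⟩
  · intro i a
    simp [fx, el]
  · intro r i j hij
    rw [el_stein.psi v _ hij, el_stein.psi v _ hij, (RR_iff v).2 h r]

/-- the comparison homomorphism -/
noncomputable def Th (h : RR v) : UG →* (Matrix (Fin 5) (Fin 5) S)ˣ :=
  PresentedGroup.toGroup (f := fun p : Lt => el p.1 p.2.1 (p.2.2.elim 1 v)) (comp_aux h)

theorem Th_ux (i j : Fin 5) (a : Option Gn) : Th h (ux i j a) = el i j (a.elim 1 v) :=
  PresentedGroup.toGroup.of (comp_aux h)

theorem Th_psi (p : Poly Gn) {i j : Fin 5} (hij : i ≠ j) :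
    Th h (psi ux i j p) = el i j (evalP v p) := by
  rw [map_psi, ← el_stein.psi v p hij]
  congr 1; funext i j a; exact Th_ux h i j a

/-- the comparison of rings -/
noncomputable def rbar (h : RR v) : Crd ux →+* S where
  toFun := Quotient.lift (s := crdSetoid ux) (evalP v)
    (fun p q (hpq : ∀ i j, i ≠ j → psi ux i j p = psi ux i j q) => by
      have h1 := congrArg (Th h) (hpq 0 1 (by decide))
      rw [Th_psi h p (by decide), Th_psi h q (by decide)] at h1
      exact el_inj (by decide) h1)
  map_one' := by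
    change evalP v [[]] = 1
    simp
  map_mul' := by
    intro a b
    obtain ⟨a, rfl⟩ := Crd.mk_surj a; obtain ⟨b, rfl⟩ := Crd.mk_surj b
    exact evalP_pmul v a b
  map_zero' := rfl
  map_add' := by
    intro a b
    obtain ⟨a, rfl⟩ := Crd.mk_surj a; obtain ⟨b, rfl⟩ := Crd.mk_surj b
    exact evalP_append v a b

theorem rbar_mk (p : Poly Gn) : rbar h (Crd.mk ux p) = evalP v p := rfl

theorem rbar_gen (a : Gn) : rbar h (Crd.gen ux a) = v a := by
  rw [Crd.gen, rbar_mk]; simp [evalP]

theorem rbar_zero_of {r : Crd ux} (hr : Crd.st ux 0 2 r = 1) : rbar h r = 0 := by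
  obtain ⟨p, rfl⟩ := Crd.mk_surj r
  have h1 := congrArg (Th h) hr
  rw [Crd.st_mk (by decide), Th_psi h p (by decide), map_one] at h1
  rw [rbar_mk]
  refine el_inj (i := 0) (j := 2) (by decide) ?_
  rw [h1, el_stein.zero (by decide)]

end compare

section natural

variable {R S : Type*} [Ring R] [Ring S] (f : R →+* S) {v : Gn → R} {v' : Gn → S}
  (hv : ∀ a, f (v a) = v' a)
include hv

theorem map_gam (b : Bool) (i : ℕ) : f (gam v b i) = gam v' b i := by
  cases b <;> simp [gam, hg, hv]

theorem map_zz (w : List (ℕ × Bool)) : f (zz v w) = zz v' w := by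
  induction w with
  | nil => simp [zz]
  | cons p w ih => rw [zz, map_mul, ih, map_gam f hv]; rfl

theorem map_wT (b : Bool) : f (wT v b) = wT v' b := by simp [wT, hv]

theorem map_wC (c : Fin 4) : f (wC v c) = wC v' c := by simp [wC, hv]

theorem map_pr (L : List Ltr) : f (pr v L) = pr v' L := by
  induction L with
  | nil => simp [pr]
  | cons a L ih => rw [pr_cons, map_mul, ih, hv, pr_cons]

theorem map_qr (L : List Ltr) : f (qr v L) = qr v' L := by
  induction L with
  | nil => simp [qr]
  | cons a L ih => rw [qr, map_mul, ih, hv]; rfl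

theorem map_ff (π : List Ltr) : f (ff v π) = ff v' π := by
  simp [ff, EE, map_wT f hv, map_wC f hv, map_pr f hv, map_qr f hv]

end natural

section data

variable {R : Type*} [Ring R] [Ch2 R] {v : Gn → R} (h : RR v)

/-- the unit of a generator -/
def cu (h : RR v) (i : ℕ) : Rˣ := ⟨gam v true i, gam v false i, h.gam_mul true i, h.gam_mul false i⟩

/-- the swindle data -/
def dat (h : RR v) (m : ℕ) (π : List Ltr) : Data R (Fin m) where
  f := ff v π
  k := v (.C 2)
  k' := v (.C' 2)
  n := v (.C 3)
  n' := v (.C' 3)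
  c i := cu h i
  ff := h.ff_sq π
  kk := h.cc 2
  nn := h.cc 3
  fk := (h.cn_ff 2 (by decide) π).symm
  fk' := (h.cn'_ff 2 (by decide) π).symm
  fn := (h.cn_ff 3 (by decide) π).symm
  fn' := (h.cn'_ff 3 (by decide) π).symm
  kn := h.c1 2 3 (by decide)
  kn' := h.c2 2 3 (by decide)
  k'n := (h.c2 3 2 (by decide)).symm
  k'n' := h.c3 2 3 (by decide)
  cf i := h.gam_ff true i π
  ck i := (h.gam_cn true i 2 (by decide)).1
  ck' i := (h.gam_cn true i 2 (by decide)).2
  cn i := (h.gam_cn true i 3 (by decide)).1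
  cn' i := (h.gam_cn true i 3 (by decide)).2

/-- forget the bound of the indices -/
def wd {m : ℕ} (L : List (Fin m × Bool)) : List (ℕ × Bool) := L.map (fun p => (p.1.val, p.2))

omit [Ch2 R] in
theorem lift_zz {m : ℕ} (L : List (Fin m × Bool)) :
    ((FreeGroup.lift (fun i : Fin m => cu h i) (FreeGroup.mk L) : Rˣ) : R) = zz v (wd L) := by
  rw [FreeGroup.lift_mk]
  induction L with
  | nil => rfl
  | cons p L ih =>
    obtain ⟨i, b⟩ := p
    rw [List.map_cons, List.prod_cons, Units.val_mul, ih]
    cases b <;> rfl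

end data

theorem lift_wv {M : Type*} [Group M] {m : ℕ} (gen : ℕ → M) (L : List (Fin m × Bool)) :
    FreeGroup.lift (fun i : Fin m => gen i) (FreeGroup.mk L) = wv gen (wd L) := by
  rw [FreeGroup.lift_mk]
  induction L with
  | nil => rfl
  | cons p L ih =>
    obtain ⟨i, b⟩ := p
    rw [List.map_cons, List.prod_cons, ih]
    cases b <;> rfl

theorem embed_presented {m : ℕ} (s : Set (FreeGroup (Fin m))) (hs : s.Finite) :
    ∃ φ : PresentedGroup s →* UG, Function.Injective φ := by
  classical
  set ws : List (List (ℕ × Bool)) := hs.toFinset.toList.map (fun r => wd r.toWord) with hws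
  have hmem : ∀ r ∈ s, wd r.toWord ∈ ws := fun r hr => by
    rw [hws]; exact List.mem_map.2 ⟨r, by simpa using hr, rfl⟩
  set π := textOf ws with hπ
  set d := dat crd_RR m π with hd
  have hkill : ∀ r ∈ s, FreeGroup.lift (d.V (Crd.st ux)) r = 1 := by
    intro r hr
    refine d.kill crd_stein crd_Gen r ?_
    have e1 : ((FreeGroup.lift d.c r : (Crd ux)ˣ) : Crd ux) = zz (Crd.gen ux) (wd r.toWord) := by
      have := lift_zz crd_RR r.toWord
      rwa [FreeGroup.mk_toWord] at this
    obtain ⟨L, R, hLR⟩ := textOf_mem (hmem r hr)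
    rw [e1]
    change _ * ff (Crd.gen ux) π = ff (Crd.gen ux) π
    rw [hπ, hLR]
    exact crd_RR.relator _ L R
  refine ⟨PresentedGroup.toGroup (f := d.V (Crd.st ux)) hkill, ?_⟩
  rw [injective_iff_map_eq_one]
  intro g hg
  induction g using PresentedGroup.induction_on with
  | _ r =>
  have hr : FreeGroup.lift (d.V (Crd.st ux)) r = 1 := hg
  have h1 := d.inj crd_stein crd_Gen r hr
  -- the model
  set gen : ℕ → PresentedGroup s := fun i => if h : i < m then PresentedGroup.of ⟨i, h⟩ else 1
    with hgen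
  have hM : RR (vM gen) := vM_RR gen
  have h2 := rbar_zero_of hM h1
  have hgm : FreeGroup.lift (fun i : Fin m => gen i) = PresentedGroup.mk s := by
    ext i; simp [hgen]; rfl
  have e1 : ((FreeGroup.lift d.c r : (Crd ux)ˣ) : Crd ux) = zz (Crd.gen ux) (wd r.toWord) := by
    have := lift_zz crd_RR r.toWord
    rwa [FreeGroup.mk_toWord] at this
  have e2 : d.eps = ff (Crd.gen ux) π * wC (Crd.gen ux) 2 * wC (Crd.gen ux) 3 := rfl
  have hv := rbar_gen hM
  rw [e1, e2] at h2
  simp only [map_add, map_mul, map_zz _ hv, map_ff _ hv, map_wC _ hv] at h2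
  have hgood : Good gen (textOf ws) := by
    apply good_textOf
    intro w hw
    rw [hws] at hw
    obtain ⟨q, hq, rfl⟩ := List.mem_map.1 hw
    have hq' : q ∈ s := by simpa using hq
    have := lift_wv gen q.toWord
    rw [FreeGroup.mk_toWord, hgm] at this
    rw [← this]
    exact PresentedGroup.mk_eq_one_iff.2 (Subgroup.subset_normalClosure hq')
  have h3 := congrArg (fun A : Module.End (ZMod 2) (Cf (PresentedGroup s) →₀ ZMod 2) =>
    A (Finsupp.single (y0 π 1) 1)) h2
  simp only [LinearMap.add_apply, Module.End.mul_apply, LinearMap.zero_apply] at h3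
  rw [wC_single gen 3 _ rfl, wC_single gen 2 _ rfl, ff_single, zz_single gen _ _ (by
    rw [hπ]; simpa [Cf.text, y0] using hgood) rfl rfl] at h3
  have h4 := eq_neg_of_add_eq_zero_left h3
  rw [← Finsupp.single_neg, show (-1 : ZMod 2) = 1 from rfl] at h4
  have h5 := Finsupp.single_left_injective (one_ne_zero (α := ZMod 2)) h4
  have h6 := congrArg Cf.m h5
  have h7 : (1 : PresentedGroup s) = wv gen (wd r.toWord) * 1 := h6
  rw [mul_one, ← lift_wv gen r.toWord, FreeGroup.mk_toWord, hgm] at h7
  exact h7.symm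

/-- **Higman's universal group.** -/
theorem exists_universal_fp : ∃ (U : Type) (_ : Group U), Group.IsFinitelyPresented U ∧
    ∀ (G : Type) [Group G], Group.IsFinitelyPresented G → ∃ f : G →* U, Function.Injective f := by
  refine ⟨UG, inferInstance, UG_fp, ?_⟩
  intro G _ hG
  obtain ⟨m, s, hs, ⟨e⟩⟩ := Group.IsFinitelyPresented.exists_mulEquiv_presentedGroup (G := G)
  obtain ⟨φ, hφ⟩ := embed_presented s hs
  exact ⟨φ.comp e.toMonoidHom, hφ.comp e.injective⟩

end Crest.Agent.R185.Univ
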