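import Crest.Agent.R185.Wu4
import Crest.Agent.R185.U10
import Crest.Agent.R185.Lev2
import Crest.Agent.R185.Bld4

/-!
# R185 / FINAL (1): the universal group of type `F∞` (S0279)
-/

set_option autoImplicit false

namespace Crest.Agent.R185.Fin

open Crest.Agent.R185.Null Crest.Agent.R185.Wu

/-- a finitely presented group is `0`-null -/
theorem null0 {G : Type} [Group G] (h : Group.IsFinitelyPresented G) :
    IsNull (MonoidHom.id G) 0 := by
  apply isNull_zero_of_fg
  obtain ⟨S, hSf, hS⟩ := Tor.exists_gen G h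
  exact ⟨hSf.toFinset, by rw [Set.Finite.coe_toFinset]; exact hS⟩

/-- finitely presented + null in all degrees gives a finite type classifying complex -/
theorem finite_type {G : Type} [Group G] (hG : Group.IsFinitelyPresented G)
    (h : ∀ n, IsNull (MonoidHom.id G) n) : Crest.Topology.HasFiniteTypeClassifyingComplex G :=
  Bld.build G (Lev.jf_of_isNull hG h)

/-- **S0279** -/
theorem universal :
    ∃ (H : Type) (_ : Group H), Crest.Topology.HasFiniteTypeClassifyingComplex H ∧
      ∀ (G : Type) [Group G], Group.IsFinitelyPresented G →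
        ∃ f : G →* H, Function.Injective f := by
  obtain ⟨U, _, hU, huniv⟩ := Univ.exists_universal_fp
  obtain ⟨K, _, R, hK, hR⟩ := exists_W U hU
  obtain ⟨j, hj⟩ := huniv K hK
  obtain ⟨Γ, _, ι, t, ht, hΓ, hT⟩ := Tor.exists_torus U hU (j.comp R.β) (hj.comp hR)
  have hpow : ∀ n, ∃ N : ℕ, IsNull (ipow (j.comp R.β) N) n := by
    apply exists_pow_null _ (null0 hU)
    intro n hn φ hφ
    exact (R.null hφ hn).comp j
  have hnull : ∀ n, IsNull (MonoidHom.id Γ) n := fun n =>
    torus_null ι hT.inj t (j.comp R.β) hT.conj ht hT.height_ι hT.height_t hT.form hpow n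
  refine ⟨Γ, inferInstance, finite_type hΓ hnull, ?_⟩
  intro G _ hG
  obtain ⟨f, hf⟩ := huniv G hG
  exact ⟨ι.comp f, hT.inj.comp hf⟩

end Crest.Agent.R185.Fin
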