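import Crest.Agent.R185.Fin1

/-!
# R185 / FINAL (2): the group `Γ` of a core is finitely presented and null in all degrees, and so
are all its tuple stabilisers
-/

set_option autoImplicit false

namespace Crest.Agent.R185.Fin

open Crest.Agent.R185.Null Crest.Agent.R185.Wu Crest.Agent.R185.Hot

/-- nullness is invariant under isomorphism -/
theorem null_equiv {G G' : Type} [Group G] [Group G'] (e : G ≃* G') {n : ℕ}
    (h : IsNull (MonoidHom.id G) n) : IsNull (MonoidHom.id G') n := by
  have h1 := (h.comp e.toMonoidHom).precomp e.symm.toMonoidHom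
  have h2 : (e.toMonoidHom.comp (MonoidHom.id G)).comp e.symm.toMonoidHom = MonoidHom.id G' := by
    ext x; simp
  rwa [h2] at h1

/-- the torus of an endomorphism factoring through a finitely presented group and having a rook
certificate is null in all degrees -/
theorem torus_null' {H E : Type} [Group H] [Group E] (hE : Group.IsFinitelyPresented E)
    (φ : H →* H) (hφ : Function.Injective φ) (i : H →* E) (q : E →* H) (hqi : ∀ h, q (i h) = φ h)
    (R : Rook H H) (hR : R.β = φ) (n : ℕ) : IsNull (MonoidHom.id (GT φ)) n := by
  obtain ⟨ht, hT⟩ := exists_isTorus hφ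
  have h0 : IsNull φ 0 := by
    have h1 := ((null0 hE).comp q).precomp i
    have h2 : (q.comp (MonoidHom.id E)).comp i = φ := by
      ext x; exact hqi x
    rwa [h2] at h1
  have hpow : ∀ n, ∃ N : ℕ, IsNull (ipow φ N) n := by
    apply exists_pow_null' _ h0
    intro n hn α hα
    have := R.null hα hn
    rwa [hR] at this
  exact torus_null (gi φ) hT.inj (gt φ) φ hT.conj ht hT.height_ι hT.height_t hT.form hpow n

theorem core_null {G : Type} [Group G] (C : Core G) (n : ℕ) : IsNull (MonoidHom.id C.Γ) n :=
  torus_null' C.fpE C.φ C.hotel.φ_inj C.i₁ C.pr (fun _ => rfl) C.rook rfl n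

theorem core_stab_null {G : Type} [Group G] (C : Core G) {m : ℕ} (x : _root_.Fin m → C.X)
    (hx : Function.Injective x) (n : ℕ) :
    IsNull (MonoidHom.id (tupStab x : Subgroup C.Γ)) n := by
  obtain ⟨e⟩ := C.isHT.stab m x hx
  exact null_equiv e (core_null C n)

theorem core_stab_fp {G : Type} [Group G] (C : Core G) {m : ℕ} (x : _root_.Fin m → C.X)
    (hx : Function.Injective x) : Group.IsFinitelyPresented (tupStab x : Subgroup C.Γ) := by
  obtain ⟨e⟩ := C.isHT.stab m x hx
  have := C.fp
  exact Group.IsFinitelyPresented.equiv e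

end Crest.Agent.R185.Fin
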