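import Crest.Agent.R185.QPerf

/-!
# Row 185: the group `Q(Γ,Y)` is simple, main argument (helper424)
-/

set_option autoImplicit false

namespace Crest.Agent.R185.Q

open Classical

variable {Γ Y : Type} [Group Γ] [MulAction Γ Y]

/-! ### roots -/

theorem sh_length (y : Y) (v : W Y) : (sh y v).length = v.length := by
  cases v <;> simp [sh_cons]

theorem ac_length (γ : Γ) (v : W Y) : (ac γ v).length = v.length := by
  simp [ac]

theorem sh_take (y : Y) (v : W Y) (k : ℕ) : sh y (v.take k) = (sh y v).take k := by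
  cases k with
  | zero => simp
  | succ k =>
    cases v with
    | nil => simp
    | cons p v => simp [sh_cons]

theorem M.length {m : W Y → W Y} (hm : M Γ m) (a : W Y) :
    (m a).length = (m []).length + a.length := by
  induction hm with
  | one => simp
  | cs y m _ ih => simp only [Function.comp_apply, sh_length, ih]
  | cc y m _ ih => simp only [Function.comp_apply, ch_apply, List.length_cons, ih]; omega
  | ca γ m _ ih => simp only [Function.comp_apply, ac_length, ih]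

theorem M.take {m : W Y → W Y} (hm : M Γ m) (a : W Y) (k : ℕ) :
    m (a.take k) = (m a).take ((m []).length + k) := by
  induction hm with
  | one => simp
  | cs y m _ ih =>
    simp only [Function.comp_apply, sh_length]
    rw [ih, sh_take]
  | cc y m _ ih =>
    simp only [Function.comp_apply, ch_apply, List.length_cons]
    rw [ih, show (m []).length + 1 + k = ((m []).length + k) + 1 by omega, List.take_succ_cons]
  | ca γ m _ ih =>
    simp only [Function.comp_apply, ac_length]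
    rw [ih]
    simp [ac, List.map_take]

theorem root_mem {m m' : W Y → W Y} (hm : M Γ m) (hm' : M Γ m') {a b : W Y} (h : m a = m' b)
    (hl : (m []).length ≤ (m' []).length) : ∃ c, m' [] = m c := by
  refine ⟨a.take ((m' []).length - (m []).length), ?_⟩
  rw [hm.take, h]
  have := hm'.take b 0
  rw [List.take_zero] at this
  rw [this]
  simp only [Nat.add_zero, List.length_take]
  congr 1
  have := hm'.length b
  omega

theorem exists_shrink (z : Y) : ∀ k : ℕ, ∃ (s : W Y → W Y) (L : List (W Y → W Y)),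
    Cut Γ (s :: L) ∧ L ≠ [] ∧ s [] = [] ∧ ∀ a c', s a ≠ (z, k) :: c' := by
  intro k
  induction k with
  | zero =>
    refine ⟨sh z, [ch z], Cut.split z id [] Cut.one, by simp, rfl, ?_⟩
    intro a c' e
    exact sh_ne_ch z a c' e
  | succ k ih =>
    obtain ⟨s, L, h, hL, h0, hs⟩ := ih
    refine ⟨sh z ∘ s, L.map (fun m => sh z ∘ m) ++ [ch z ∘ id], ?_, by simp, by simp [h0], ?_⟩
    · exact h.node Cut.one z
    · intro a c' e
      have e2 : sh z ((z, k) :: c') = (z, k + 1) :: c' := by simp [sh_cons]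
      rw [← e2] at e
      exact hs a c' (sh_inj z e)

theorem exists_root (v : W Y) : ∃ (n : W Y → W Y) (L : List (W Y → W Y)),
    Cut Γ (n :: L) ∧ n [] = v := by
  induction v with
  | nil => exact ⟨id, [], Cut.one, rfl⟩
  | cons p v ih =>
    obtain ⟨z, k⟩ := p
    obtain ⟨n0, L0, h0, hn0⟩ := ih
    induction k with
    | zero =>
      refine ⟨ch z ∘ n0, L0.map (fun m => ch z ∘ m) ++ [sh z ∘ id], ?_, by simp [hn0]⟩
      have := Cut.one.node h0 z
      exact this.perm List.perm_append_comm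
    | succ k ih =>
      obtain ⟨n, L, h, hn⟩ := ih
      refine ⟨sh z ∘ n, L.map (fun m => sh z ∘ m) ++ [ch z ∘ id], h.node Cut.one z, ?_⟩
      simp [hn, sh_cons]

/-- separate two elements of `M` with distinct roots -/
theorem exists_sep {F G : W Y → W Y} (hF : M Γ F) (hG : M Γ G) (hne : F [] ≠ G [])
    (hl : (F []).length ≤ (G []).length) :
    ∃ (s : W Y → W Y) (L : List (W Y → W Y)), Cut Γ (s :: L) ∧ Dj (F ∘ s) (G ∘ s) := by
  by_cases hr : ∃ c, G [] = F c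
  · obtain ⟨c, hc⟩ := hr
    rcases c with _ | ⟨⟨z, k⟩, c'⟩
    · exact absurd hc.symm hne
    · obtain ⟨s, L, h, -, h0, hs⟩ := exists_shrink (Γ := Γ) z k
      refine ⟨s, L, h, ?_⟩
      intro a b e
      have hsM : M Γ s := h.mem_M s (by simp)
      obtain ⟨c2, hc2⟩ := root_mem (hF.comp hsM) (hG.comp hsM) e (by simpa [h0] using hl)
      simp only [Function.comp_apply, h0] at hc2
      rw [hc] at hc2
      exact hs c2 c' (hF.inj hc2).symm
  · refine ⟨id, [], Cut.one, ?_⟩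
    intro a b e
    exact hr (root_mem hF hG e hl)

theorem exists_sep' {F G : W Y → W Y} (hF : M Γ F) (hG : M Γ G) (hne : F [] ≠ G []) :
    ∃ (s : W Y → W Y) (L : List (W Y → W Y)), Cut Γ (s :: L) ∧ Dj (F ∘ s) (G ∘ s) := by
  rcases le_total (F []).length (G []).length with hl | hl
  · exact exists_sep hF hG hne hl
  · obtain ⟨s, L, h, hd⟩ := exists_sep hG hF (Ne.symm hne) hl
    exact ⟨s, L, h, hd.symm⟩

/-- displacement -/
theorem exists_disp [Nonempty Y] {g : Equiv.Perm (W Y)} (hg : g ∈ QG Γ Y) (hne : g ≠ 1) :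
    ∃ (f : W Y → W Y) (L : List (W Y → W Y)), Cut Γ (f :: L) ∧ L ≠ [] ∧ Dj (g ∘ f) f := by
  obtain ⟨u, hu⟩ : ∃ u, g u ≠ u := by
    by_contra hcon
    push Not at hcon
    exact hne (Equiv.ext hcon)
  obtain ⟨L0, h0, hM0⟩ := Adm.exists_cut hg.1
  obtain ⟨f, hf, v, rfl⟩ := h0.cover u
  obtain ⟨A, B, rfl⟩ := List.append_of_mem hf
  have h1 : Cut Γ (f :: (A ++ B)) := h0.perm List.perm_middle
  obtain ⟨n, L1, hn, hn0⟩ := exists_root (Γ := Γ) v
  have h2 := h1.graft hn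
  simp only [List.map_cons, List.cons_append] at h2
  have hnM : M Γ n := hn.mem_M n (by simp)
  have hF : M Γ (f ∘ n) := h2.mem_M _ (by simp)
  have hG : M Γ ((g : W Y → W Y) ∘ (f ∘ n)) := by
    have := (hM0 f hf).comp hnM
    exact this
  obtain ⟨s, L2, hs, hd⟩ := exists_sep' hG hF (by simpa [hn0] using hu)
  have h3 := h2.graft hs
  simp only [List.map_cons, List.cons_append] at h3
  obtain ⟨y⟩ := ‹Nonempty Y›
  have h4 := Cut.split y _ _ h3
  refine ⟨_, _, h4, by simp, ?_⟩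
  intro a b e
  exact hd (sh y a) (sh y b) e

/-! ### normal subgroups -/

/-- The double commutator trick, abstract form. -/
theorem double_comm {G : Type} [Group G] (N : Subgroup G) [N.Normal] {g a b : G} (hg : g ∈ N)
    (hc : Commute (g * a * g⁻¹) a) (hc' : Commute (g * a * g⁻¹) b) :
    a⁻¹ * b * a * b⁻¹ ∈ N := by
  have h1 : g * a * g⁻¹ * a⁻¹ ∈ N := by
    have : g * (a * g⁻¹ * a⁻¹) ∈ N :=
      N.mul_mem hg (‹N.Normal›.conj_mem _ (N.inv_mem hg) a)
    simpa [mul_assoc] using this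
  have h2 : (g * a * g⁻¹ * a⁻¹) * (b * (g * a * g⁻¹ * a⁻¹)⁻¹ * b⁻¹) ∈ N :=
    N.mul_mem h1 (‹N.Normal›.conj_mem _ (N.inv_mem h1) b)
  have h3 : (g * a * g⁻¹ * a⁻¹) * (b * (g * a * g⁻¹ * a⁻¹)⁻¹ * b⁻¹) = a⁻¹ * b * a * b⁻¹ := by
    set x := g * a * g⁻¹ with hx
    have e1 : x * a⁻¹ = a⁻¹ * x := (hc.inv_right).eq
    have e2 : x * b = b * x := hc'.eq
    have : x * a⁻¹ * (b * (x * a⁻¹)⁻¹ * b⁻¹) = a⁻¹ * (x * b) * a * x⁻¹ * b⁻¹ := by
      rw [mul_inv_rev, inv_inv, e1]; group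
    rw [this, e2]
    have e3 : x * a * x⁻¹ = a := by
      rw [hc.eq]; group
    calc a⁻¹ * (b * x) * a * x⁻¹ * b⁻¹ = a⁻¹ * b * (x * a * x⁻¹) * b⁻¹ := by group
      _ = _ := by rw [e3]
  rw [← h3]; exact h2

theorem disj_commute {f : W Y → W Y} {L : List (W Y → W Y)} (h : Cut Γ (f :: L))
    {g a a' b b' : Equiv.Perm (W Y)} (ha : IsEmb f L a' a) (hb : IsEmb f L b' b)
    (hd : Dj (g ∘ f) f) : Commute (g * a * g⁻¹) b := by
  apply Equiv.Perm.Disjoint.commute
  intro u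
  by_cases hu : ∃ v, f v = u
  · -- `g⁻¹ u ∉ range f`
    left
    obtain ⟨v, rfl⟩ := hu
    obtain ⟨k, hk, w, hw⟩ := h.cover (g⁻¹ (f v))
    rcases List.mem_cons.1 hk with rfl | hk
    · exfalso
      refine hd w v ?_
      simp [hw]
    · have : a (g⁻¹ (f v)) = g⁻¹ (f v) := by
        rw [← hw]; exact congrFun (ha.2 k hk) w
      simp only [Equiv.Perm.coe_mul, Function.comp_apply, this]
      simp
  · right
    obtain ⟨k, hk, w, hw⟩ := h.cover u
    rcases List.mem_cons.1 hk with rfl | hk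
    · exact absurd ⟨w, hw⟩ hu
    · rw [← hw]; exact congrFun (hb.2 k hk) w

theorem normal_emb [MulAction.IsPretransitive Γ Y] [Nonempty Y]
    (hst : Subgroup.closure (⋃ y : Y, (MulAction.stabilizer Γ y : Set Γ)) = ⊤)
    (N : Subgroup (QG Γ Y)) [N.Normal] (hN : N ≠ ⊥) :
    ∃ (f : W Y → W Y) (L : List (W Y → W Y)), Cut Γ (f :: L) ∧ L ≠ [] ∧
      ∀ a ∈ QG Γ Y, ∀ g (hg : g ∈ QG Γ Y), IsEmb f L a g → (⟨g, hg⟩ : QG Γ Y) ∈ N := by
  obtain ⟨⟨⟨g, hg⟩, hgN⟩, hne0⟩ := Subgroup.ne_bot_iff_exists_ne_one.1 hN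
  have hne : (⟨g, hg⟩ : QG Γ Y) ≠ 1 := fun e => hne0 (Subtype.ext e)
  have hne' : g ≠ 1 := fun e => hne (Subtype.ext e)
  obtain ⟨f, L, h, hL, hd⟩ := exists_disp hg hne'
  refine ⟨f, L, h, hL, ?_⟩
  obtain ⟨φ, hφ, hφe⟩ := exists_emb h
  -- restricted hom
  let ψ : QG Γ Y →* QG Γ Y :=
    ((φ.comp (QG Γ Y).subtype).codRestrict (QG Γ Y) (fun a => hφ a.1 a.2))
  have hcomm : ∀ a b : QG Γ Y, ψ (a⁻¹ * b * a * b⁻¹) ∈ N := by
    intro a b
    have h1 : Commute ((⟨g, hg⟩ : QG Γ Y) * ψ a * (⟨g, hg⟩ : QG Γ Y)⁻¹) (ψ a) := by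
      have := disj_commute h (hφe a.1) (hφe a.1) hd
      exact Subtype.ext this.eq
    have h2 : Commute ((⟨g, hg⟩ : QG Γ Y) * ψ a * (⟨g, hg⟩ : QG Γ Y)⁻¹) (ψ b) := by
      have := disj_commute h (hφe a.1) (hφe b.1) hd
      exact Subtype.ext this.eq
    have := double_comm N hgN h1 h2
    simpa only [map_mul, map_inv] using this
  have hle : commutator (QG Γ Y) ≤ N.comap ψ := by
    rw [commutator_eq_closure, Subgroup.closure_le]
    rintro x ⟨a, b, rfl⟩
    have := hcomm a⁻¹ b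
    simpa [commutatorElement_def] using this
  rw [perfect hst] at hle
  intro a ha g' hg' hemb
  have h5 : ψ ⟨a, ha⟩ ∈ N := hle (Subgroup.mem_top _)
  have h6 : g' = φ a := IsEmb.eq h hemb (hφe a)
  subst h6
  exact h5

theorem normal_emb_all [MulAction.IsPretransitive Γ Y] [Nonempty Y]
    (hst : Subgroup.closure (⋃ y : Y, (MulAction.stabilizer Γ y : Set Γ)) = ⊤)
    (N : Subgroup (QG Γ Y)) [N.Normal] (hN : N ≠ ⊥) (f : W Y → W Y) (L : List (W Y → W Y))
    (h : Cut Γ (f :: L)) (hL : L ≠ []) (a : Equiv.Perm (W Y)) (ha : a ∈ QG Γ Y)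
    (g : Equiv.Perm (W Y)) (hg : g ∈ QG Γ Y) (he : IsEmb f L a g) :
    (⟨g, hg⟩ : QG Γ Y) ∈ N := by
  obtain ⟨f0, L0, h0, hL0, H0⟩ := normal_emb hst N hN
  obtain ⟨y⟩ := ‹Nonempty Y›
  obtain ⟨L1, h1, hl1, hs1⟩ := h.refine hL y L0.length
  obtain ⟨L2, h2, hl2, hs2⟩ := h0.refine hL0 y L.length
  have he1 := he.mono hs1
  obtain ⟨c, hc, e⟩ := mk h1 h2 (by simp [hl1, hl2]; omega)
  have h3 := conj_emb he1 e
  -- compare with `φ a` on `f0 :: L0`
  obtain ⟨φ, hφ, hφe⟩ := exists_emb h0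
  have h4 : c * g * c⁻¹ = φ a := IsEmb.eq h2 h3 ((hφe a).mono hs2)
  have h5 : (⟨c * g * c⁻¹, (QG Γ Y).mul_mem ((QG Γ Y).mul_mem hc hg) ((QG Γ Y).inv_mem hc)⟩ :
      QG Γ Y) ∈ N := by
    refine H0 a ha _ _ ?_
    rw [h4]; exact hφe a
  have h6 := ‹N.Normal›.conj_mem _ h5 (⟨c, hc⟩ : QG Γ Y)⁻¹
  have h7 : ((⟨c, hc⟩ : QG Γ Y)⁻¹ * ⟨c * g * c⁻¹, (QG Γ Y).mul_mem ((QG Γ Y).mul_mem hc hg)
      ((QG Γ Y).inv_mem hc)⟩ * ((⟨c, hc⟩ : QG Γ Y)⁻¹)⁻¹) = ⟨g, hg⟩ := by
    apply Subtype.ext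
    simp only [Subgroup.coe_mul, Subgroup.coe_inv]
    group
  rw [h7] at h6
  exact h6

theorem tail_len (y : Y) (n : ℕ) : ∃ K : List (W Y → W Y), Cut Γ (sh y :: K) ∧ K.length = n + 1 := by
  have h0 : Cut Γ (sh y :: [(ch y : W Y → W Y)]) := Cut.split y id [] Cut.one
  obtain ⟨L2, h2, hl, -⟩ := h0.refine (by simp) y n
  exact ⟨L2, h2, by simp [hl]; omega⟩

theorem normal_top [MulAction.IsPretransitive Γ Y] [Nonempty Y]
    (hst : Subgroup.closure (⋃ y : Y, (MulAction.stabilizer Γ y : Set Γ)) = ⊤)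
    (N : Subgroup (QG Γ Y)) [N.Normal] (hN : N ≠ ⊥) : N = ⊤ := by
  have y0 : Y := Classical.arbitrary Y
  have key : QG Γ Y ≤ N.map (QG Γ Y).subtype := by
    refine eq_top_of hst _ ?_ ?_
    · intro f L γ y g h hL hγ hg hlab
      exact ⟨⟨g, hg⟩, normal_emb_all hst N hN f L h hL (acP γ) (acP_mem γ) g hg hlab, rfl⟩
    · intro f f' L g h hL hg htr
      refine ⟨⟨g, hg⟩, ?_, rfl⟩
      obtain ⟨K, hK, hKl⟩ := tail_len (Γ := Γ) y0 (L.length - 1)
      have hLp := List.length_pos_iff.2 hL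
      have hK2 : Cut Γ (sh y0 ∘ sh y0 :: sh y0 ∘ ch y0 :: K) := Cut.split y0 _ _ hK
      obtain ⟨c, hc, e⟩ := mk h hK2 (by simp [hKl]; omega)
      have h3 := conj_tr htr e
      -- the swap of `sh y0`, `ch y0`
      have hb : Cut Γ (sh y0 :: [(ch y0 : W Y → W Y)]) := Cut.split y0 id [] Cut.one
      obtain ⟨t, ht, ht'⟩ := exists_tr (L := []) hb
      have h4 : IsEmb (sh y0) K t (c * g * c⁻¹) := by
        refine ⟨?_, h3.2.2⟩
        funext u
        rcases Q.cover y0 u with ⟨v, rfl⟩ | ⟨v, rfl⟩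
        · have e1 := congrFun h3.1 v
          have e2 := congrFun ht'.1 v
          simp only [Function.comp_apply] at e1 e2 ⊢
          rw [e1, e2]
        · have e1 := congrFun h3.2.1 v
          have e2 := congrFun ht'.2.1 v
          simp only [Function.comp_apply] at e1 e2 ⊢
          rw [e1, e2]
      have h5 := normal_emb_all hst N hN _ K hK (by
        intro e
        rw [e] at hKl
        simp at hKl) t ht (c * g * c⁻¹)
        ((QG Γ Y).mul_mem ((QG Γ Y).mul_mem hc hg) ((QG Γ Y).inv_mem hc)) h4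
      have h6 := ‹N.Normal›.conj_mem _ h5 (⟨c, hc⟩ : QG Γ Y)⁻¹
      have h7 : ((⟨c, hc⟩ : QG Γ Y)⁻¹ * ⟨c * g * c⁻¹, (QG Γ Y).mul_mem ((QG Γ Y).mul_mem hc hg)
          ((QG Γ Y).inv_mem hc)⟩ * ((⟨c, hc⟩ : QG Γ Y)⁻¹)⁻¹) = ⟨g, hg⟩ := by
        apply Subtype.ext
        simp only [Subgroup.coe_mul, Subgroup.coe_inv]
        group
      rw [h7] at h6
      exact h6
  rw [eq_top_iff]
  rintro ⟨g, hg⟩ _
  obtain ⟨⟨g', hg'⟩, h1, h2⟩ := key hg
  simp only [Subgroup.subtype_apply] at h2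
  subst h2
  exact h1

/-- nontriviality -/
theorem exists_ne_one [Nonempty Y] : ∃ g ∈ QG Γ Y, g ≠ 1 := by
  have y0 : Y := Classical.arbitrary Y
  have hb : Cut Γ (sh y0 :: [(ch y0 : W Y → W Y)]) := Cut.split y0 id [] Cut.one
  obtain ⟨t, ht, ht'⟩ := exists_tr (L := []) hb
  refine ⟨t, ht, ?_⟩
  rintro rfl
  have := congrFun ht'.1 []
  simp at this

/-- **Theorem.** `Q(Γ,Y)` is simple when `Γ` is transitive on `Y ≠ ∅` and is generated by the
point stabilisers. -/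
theorem isSimpleGroup_QG [MulAction.IsPretransitive Γ Y] [Nonempty Y]
    (hst : Subgroup.closure (⋃ y : Y, (MulAction.stabilizer Γ y : Set Γ)) = ⊤) :
    IsSimpleGroup (QG Γ Y) where
  exists_pair_ne := by
    obtain ⟨g, hg, hne⟩ := exists_ne_one (Γ := Γ) (Y := Y)
    exact ⟨⟨g, hg⟩, 1, fun e => hne (congrArg Subtype.val e)⟩
  eq_bot_or_eq_top_of_normal := by
    intro N hN
    by_cases h : N = ⊥
    · exact Or.inl h
    · exact Or.inr (normal_top hst N h)

/-- the labels embed -/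
def labHom (Γ Y : Type) [Group Γ] [MulAction Γ Y] : Γ →* QG Γ Y where
  toFun γ := ⟨acP γ, acP_mem γ⟩
  map_one' := by
    apply Subtype.ext
    ext1 u
    show ac (1 : Γ) u = u
    simp
  map_mul' a b := by
    apply Subtype.ext
    ext1 u
    show ac (a * b) u = ac a (ac b u)
    rw [ac_mul]; rfl

theorem labHom_injective [FaithfulSMul Γ Y] : Function.Injective (labHom Γ Y) := by
  intro a b h
  apply FaithfulSMul.eq_of_smul_eq_smul (α := Y)
  intro y
  have h1 : (acP a : Equiv.Perm (W Y)) = acP b := congrArg Subtype.val h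
  have h2 : ac a ([(y, 0)] : W Y) = ac b [(y, 0)] := congrArg (fun e : Equiv.Perm (W Y) => e [(y, 0)]) h1
  simpa using h2

end Crest.Agent.R185.Q
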