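import Crest.Agent.R185.Fin2
import Crest.Agent.R185.QMain

/-!
# R185 / FINAL (3): from a core to S0277 and S0278 (helper958)

`Q` is the group `QG Γ X` of helper424 over the hotel `(Γ, X)` of a core.
-/

set_option autoImplicit false

namespace Crest.Agent.R185.Fin

open Crest.Agent.R185.Null Crest.Agent.R185.Wu Crest.Agent.R185.Hot Crest.Agent.R185.Q

section ht

variable {Γ X : Type} [Group Γ] [MulAction Γ X]

theorem isHT_pretransitive (h : IsHT Γ X) : MulAction.IsPretransitive Γ X := by
  constructor
  intro x y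
  obtain ⟨γ, hγ⟩ := h.trans 1 (fun _ => x) (fun _ => y)
    (fun i j _ => Subsingleton.elim _ _) (fun i j _ => Subsingleton.elim _ _)
  exact ⟨γ, hγ 0⟩

theorem isHT_faithful (h : IsHT Γ X) : FaithfulSMul Γ X := by
  constructor
  intro a b hab
  have := h.faithful (b⁻¹ * a) (fun x => by rw [mul_smul, hab, inv_smul_smul])
  rw [inv_mul_eq_one] at this
  exact this.symm

theorem isHT_nonempty (h : IsHT Γ X) : Nonempty X := by
  have := h.inf
  infer_instance

/-- the point stabilisers generate -/
theorem isHT_closure (h : IsHT Γ X) :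
    Subgroup.closure (⋃ y : X, (MulAction.stabilizer Γ y : Set Γ)) = ⊤ := by
  classical
  have hinf := h.inf
  rw [eq_top_iff]
  intro γ hγ
  clear hγ
  obtain ⟨y⟩ := isHT_nonempty h
  have hst : ∀ (x : X) (δ : Γ), δ • x = x →
      δ ∈ Subgroup.closure (⋃ y : X, (MulAction.stabilizer Γ y : Set Γ)) := by
    intro x δ hδ
    exact Subgroup.subset_closure (Set.mem_iUnion.2 ⟨x, hδ⟩)
  by_cases hy : γ • y = y
  · exact hst y γ hy
  · obtain ⟨w, hw⟩ := Infinite.exists_notMem_finset ({y, γ • y} : Finset X)
    rw [Finset.mem_insert, Finset.mem_singleton, not_or] at hw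
    obtain ⟨δ, hδ⟩ := h.trans 2 ![w, y] ![w, γ • y] (by
      intro i j hij
      fin_cases i <;> fin_cases j <;> simp_all) (by
      intro i j hij
      fin_cases i <;> fin_cases j <;> simp_all)
    have h0 : δ • w = w := by simpa using hδ 0
    have h1 : δ • y = γ • y := by simpa using hδ 1
    have e : γ = δ * (δ⁻¹ * γ) := by group
    rw [e]
    refine Subgroup.mul_mem _ (hst w δ h0) (hst y _ ?_)
    rw [mul_smul, ← h1, inv_smul_smul]

/-- `Q(Γ, X)` is simple -/
theorem isHT_simple (h : IsHT Γ X) : IsSimpleGroup (QG Γ X) := by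
  have := isHT_pretransitive h
  have := isHT_nonempty h
  exact isSimpleGroup_QG (isHT_closure h)

theorem isHT_lab (h : IsHT Γ X) : Function.Injective (labHom Γ X) := by
  have := isHT_faithful h
  exact labHom_injective

end ht

/-- the embedding of `G` into `Q` -/
theorem core_emb {G : Type} [Group G] (C : Core G) :
    ∃ f : G →* QG C.Γ C.X, Function.Injective f :=
  ⟨(labHom C.Γ C.X).comp C.gΓ, (isHT_lab C.isHT).comp C.gΓ_inj⟩

/-- every group with a core embeds in a finitely presented simple group of type `F∞` -/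
theorem of_core {G : Type} [Group G] (C : Core G)
    (hfp : Group.IsFinitelyPresented (QG C.Γ C.X))
    (hnull : ∀ n, IsNull (MonoidHom.id (QG C.Γ C.X)) n) :
    ∃ (S : Type) (_ : Group S) (f : G →* S),
      Group.IsFinitelyPresented S ∧ IsSimpleGroup S ∧
      Crest.Topology.HasFiniteTypeClassifyingComplex S ∧ Function.Injective f := by
  obtain ⟨f, hf⟩ := core_emb C
  exact ⟨QG C.Γ C.X, inferInstance, f, hfp, isHT_simple C.isHT, finite_type hfp hnull, hf⟩

/-- reduction of the universe and of the generating tuple -/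
theorem of_small (P : ∀ (G : Type) [Group G] (k : ℕ) (s : _root_.Fin k → G),
      Subgroup.closure (Set.range s) = ⊤ →
      (ComputablePred fun w : List (_root_.Fin k × Bool) => FreeGroup.lift s (FreeGroup.mk w) = 1) →
      ∃ (S : Type) (_ : Group S) (f : G →* S),
        Group.IsFinitelyPresented S ∧ IsSimpleGroup S ∧
        Crest.Topology.HasFiniteTypeClassifyingComplex S ∧ Function.Injective f)
    (G : Type*) [Group G] (k : ℕ) (s : _root_.Fin k → G)
    (hgen : Subgroup.closure (Set.range s) = ⊤)
    (hdec : ComputablePred fun w : List (_root_.Fin k × Bool) =>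
      FreeGroup.lift s (FreeGroup.mk w) = 1) :
    ∃ (S : Type) (_ : Group S) (f : G →* S),
      Group.IsFinitelyPresented S ∧ IsSimpleGroup S ∧
      Crest.Topology.HasFiniteTypeClassifyingComplex S ∧ Function.Injective f := by
  let L : FreeGroup (_root_.Fin k) →* G := FreeGroup.lift s
  have hL : Function.Surjective L := by
    rw [← MonoidHom.range_eq_top, eq_top_iff, ← hgen, Subgroup.closure_le]
    rintro _ ⟨i, rfl⟩
    exact ⟨FreeGroup.of i, by simp [L]⟩
  let e : (FreeGroup (_root_.Fin k) ⧸ L.ker) ≃* G := QuotientGroup.quotientKerEquivOfSurjective L hL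
  have he : ∀ x, e (QuotientGroup.mk x) = L x := fun x => rfl
  let s' : _root_.Fin k → FreeGroup (_root_.Fin k) ⧸ L.ker :=
    fun i => QuotientGroup.mk (FreeGroup.of i)
  have hs' : ∀ x, FreeGroup.lift s' x = QuotientGroup.mk x := by
    intro x
    have : FreeGroup.lift s' = QuotientGroup.mk' L.ker := by
      apply FreeGroup.ext_hom
      intro i
      simp [s']
    rw [this]; rfl
  obtain ⟨S, _, f, h1, h2, h3, h4⟩ := P (FreeGroup (_root_.Fin k) ⧸ L.ker) k s' (by
      rw [eq_top_iff]
      intro x hx
      clear hx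
      obtain ⟨x, rfl⟩ := QuotientGroup.mk_surjective x
      have hx : x ∈ Subgroup.closure (Set.range (FreeGroup.of : _root_.Fin k → _)) := by
        rw [FreeGroup.closure_range_of]; trivial
      have := Subgroup.mem_map_of_mem (QuotientGroup.mk' L.ker) hx
      rw [MonoidHom.map_closure] at this
      refine Subgroup.closure_mono ?_ this
      rintro _ ⟨_, ⟨i, rfl⟩, rfl⟩
      exact ⟨i, rfl⟩) (by
      refine hdec.of_eq ?_
      intro w
      rw [hs']
      change L (FreeGroup.mk w) = 1 ↔ _
      rw [← he, MulEquivClass.map_eq_one_iff])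
  exact ⟨S, inferInstance, f.comp e.symm.toMonoidHom, h1, h2, h3, h4.comp e.symm.injective⟩

end Crest.Agent.R185.Fin
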