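import Crest.Agent.R185.Glu424
import Crest.Agent.R185.Asm5

/-!
# R185, glue (2): (H1) and (H2) for `Asm.Phi` (helper424)
-/

set_option autoImplicit false
set_option linter.unusedSectionVars false

namespace Crest.Agent.R185.Glu

open Crest.Agent.R185.Wu Crest.Agent.R185.Hot Crest.Agent.R185.Smp Crest.Agent.R185.Asm
  Crest.Agent.R185.Hub
open Crest.Agent.R185.Clk (UM PConn)
open Crest.Agent.R185.Tab (AccG)

variable (U : UM (GdL × Bool)) {G B : Type} [Group G] [Finite B] (eG : B → G)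

/-- **(H1) and (H2) for `Asm.Phi`** from the local inputs -/
theorem h12_of_loc [DecidableEq (UU U)] {C : ℕ} {β : ℕ → ℕ → ℕ} (hC : 1 ≤ C)
    (hβ : Computable₂ β)
    (hA : LocA (fun e => AccG (U.ws e)) (yU U) (pU U) C)
    (hB : LocB (fun e => AccG (U.ws e)) (yU U) (pU U) C β)
    {ht : G → ℤ} {t : B} (hh : Height eG ht t) :
    ∃ M : ℕ, 0 < M ∧ ∃ β' : ℕ → ℕ → ℕ, Computable₂ β' ∧
      (∀ e S S' r, Hub.Good (AccU U e) S r → Hub.Good (AccU U e) S' r → Hub.Agr S S' r →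
        Hub.Agr (Phi U eG M e S) (Phi U eG M e S') (2 * r + 1)) ∧
      (∀ e S n ρ b, 1 ≤ n → Hub.Good (AccU U e) S ((n + 2 * ρ) / 2) →
        Hub.TL1 S (n / 2) (ρ / 2) b → Hub.TL1 (Phi U eG M e S) n ρ (β' n b)) := by
  have hAcc : ∀ e, ∀ w ∈ AccG (U.ws e), strip GdL w ∈ AccU U e := fun e w hw =>
    (mem_AccU U e).2 ⟨w, hw, rfl⟩
  refine ⟨4 * C + 1, by omega, beta2 (4 * C + 1) (JU U B) β, beta2_computable _ _ hβ, ?_, ?_⟩
  · intro e S S' r hS hS' hSS
    exact H1 (AccM := fun e => AccG (U.ws e)) hAcc hC le_rfl hA e S S' r hS hS' hSS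
  · intro e S n ρ b hn hS hT
    exact H2 (AccM := fun e => AccG (U.ws e)) hAcc hC le_rfl hh (lblU U (B := B)) hB e S n ρ b hn
      hS hT

end Crest.Agent.R185.Glu
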