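import Crest.Agent.R185.Tor1

/-!
# R185 / HOTEL (1): the colimit set `Y_∞` and the action of the mapping torus

`H` acts on `Y`, `φ : H →* H`, `θ : Y → Y` injective with `θ (h • y) = φ h • θ y`.  The mapping torus
`Γ = H *_φ` acts on `Y_∞ = colim (Y, θ)`, `t` acting as `θ`.
-/

set_option autoImplicit false

namespace Crest.Agent.R185.Hot

/-! ### the torus for arbitrary groups -/

section torus

variable {H : Type} [Group H] (φ : H →* H)

/-- the mapping torus `H *_φ` -/
abbrev GT : Type := Tor.TG φ Set.univ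

/-- the base of the torus -/
abbrev gi : H →* GT φ := Tor.ib φ Set.univ

/-- the stable letter -/
abbrev gt : GT φ := Tor.tt φ Set.univ

theorem gt_conj (h : H) : gt φ * gi φ h * (gt φ)⁻¹ = gi φ (φ h) :=
  Tor.rel_all φ Set.univ Subgroup.closure_univ h

theorem closure_gt : Subgroup.closure (Set.range (gi φ) ∪ {gt φ}) = ⊤ := by
  rw [eq_top_iff]
  intro γ hγ
  clear hγ
  obtain ⟨x, rfl⟩ := Tor.pr_surj φ Set.univ γ
  induction x using Monoid.Coprod.induction_on with
  | inl u => exact Subgroup.subset_closure (Or.inl ⟨u, rfl⟩)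
  | inr n =>
    have h3 : Tor.pr φ Set.univ (Monoid.Coprod.inr n) = gt φ ^ (Multiplicative.toAdd n) := by
      have h4 : n = (Multiplicative.ofAdd (1 : ℤ)) ^ (Multiplicative.toAdd n) := by
        rw [← ofAdd_zsmul]; simp
      have h5 : (Monoid.Coprod.inr n : Monoid.Coprod H (Multiplicative ℤ)) =
          (Monoid.Coprod.inr (Multiplicative.ofAdd (1 : ℤ))) ^ (Multiplicative.toAdd n) := by
        rw [← map_zpow, ← h4]
      rw [h5, map_zpow]
      rfl
    have h6 : gt φ ∈ Subgroup.closure (Set.range (gi φ) ∪ {gt φ}) :=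
      Subgroup.subset_closure (Or.inr rfl)
    rw [h3]
    exact Subgroup.zpow_mem _ h6 _
  | mul x y hx hy => rw [map_mul]; exact Subgroup.mul_mem _ hx hy

theorem gt_form (γ : GT φ) : ∃ (a b : ℕ) (h : H), γ = (gt φ)⁻¹ ^ a * gi φ h * gt φ ^ b :=
  Tor.form_all (gt_conj φ) (closure_gt φ) γ

theorem gt_lift {K : Type} [Group K] (f : H →* K) (x : K) (h : ∀ a, x * f a * x⁻¹ = f (φ a)) :
    ∃ F : GT φ →* K, (∀ a, F (gi φ a) = f a) ∧ F (gt φ) = x :=
  Tor.exists_lift φ Set.univ f x h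

theorem gt_ext {K : Type} [Group K] {F F' : GT φ →* K} (h1 : ∀ a, F (gi φ a) = F' (gi φ a))
    (h2 : F (gt φ) = F' (gt φ)) : F = F' := by
  apply MonoidHom.ext
  intro γ
  obtain ⟨a, b, h, rfl⟩ := gt_form φ γ
  simp only [map_mul, map_pow, map_inv, h1, h2]

variable {φ}

theorem exists_isTorus (hφ : Function.Injective φ) :
    ∃ ht : GT φ →* Multiplicative ℤ, Tor.IsTorus φ (gi φ) (gt φ) ht := by
  obtain ⟨ht, h1, h2⟩ := gt_lift φ (1 : H →* Multiplicative ℤ) (Multiplicative.ofAdd (1 : ℤ))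
    (by intro a; simp)
  exact ⟨ht, Tor.ib_inj Set.univ hφ, gt_conj φ, h2, h1, gt_form φ⟩

/-- shift equivalence: if `φ = q ∘ i` through a finitely presented group, the torus is finitely
presented -/
theorem gt_fp {E : Type} [Group E] (hE : Group.IsFinitelyPresented E) (i : H →* E) (q : E →* H)
    (hqi : ∀ h, q (i h) = φ h) : Group.IsFinitelyPresented (GT φ) := by
  obtain ⟨S, hSf, hS⟩ := Tor.exists_gen E hE
  let χ : E →* E := i.comp q
  have hT : Group.IsFinitelyPresented (Tor.TG χ S) := by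
    have : Group.IsFinitelyPresented (Monoid.Coprod E (Multiplicative ℤ)) := inferInstance
    exact Group.IsFinitelyPresented.quotient (Subgroup.normalClosure (Tor.rel χ S))
      ⟨Tor.rel χ S, hSf.image _, rfl⟩
  have hrel : ∀ u, Tor.tt χ S * Tor.ib χ S u * (Tor.tt χ S)⁻¹ = Tor.ib χ S (χ u) :=
    Tor.rel_all χ S hS
  obtain ⟨A, hA1, hA2⟩ := Tor.exists_lift χ S ((gi φ).comp q) (gt φ) (by
    intro a
    change gt φ * gi φ (q a) * (gt φ)⁻¹ = gi φ (q (i (q a)))
    rw [hqi, gt_conj])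
  obtain ⟨B, hB1, hB2⟩ := gt_lift φ
    ((MulAut.conj (Tor.tt χ S)⁻¹).toMonoidHom.comp ((Tor.ib χ S).comp i)) (Tor.tt χ S) (by
    intro a
    change Tor.tt χ S * ((Tor.tt χ S)⁻¹ * Tor.ib χ S (i a) * (Tor.tt χ S)⁻¹⁻¹) * (Tor.tt χ S)⁻¹ =
      (Tor.tt χ S)⁻¹ * Tor.ib χ S (i (φ a)) * (Tor.tt χ S)⁻¹⁻¹
    have h1 := hrel (i a)
    change _ = Tor.ib χ S (i (q (i a))) at h1
    rw [hqi] at h1
    rw [← h1]
    group)
  have hB1' : ∀ a, B (gi φ a) = (Tor.tt χ S)⁻¹ * Tor.ib χ S (i a) * Tor.tt χ S := by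
    intro a
    rw [hB1]
    change (Tor.tt χ S)⁻¹ * Tor.ib χ S (i a) * (Tor.tt χ S)⁻¹⁻¹ = _
    rw [inv_inv]
  have hAB : ∀ γ, A (B γ) = γ := by
    intro γ
    have : A.comp B = MonoidHom.id _ := by
      apply gt_ext
      · intro a
        change A (B (gi φ a)) = gi φ a
        rw [hB1', map_mul, map_mul, map_inv, hA2, hA1]
        change (gt φ)⁻¹ * gi φ (q (i a)) * gt φ = _
        rw [hqi, ← gt_conj]
        group
      · change A (B (gt φ)) = gt φ
        rw [hB2, hA2]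
    exact DFunLike.congr_fun this γ
  have hgen : Subgroup.closure (Set.range (Tor.ib χ S) ∪ {Tor.tt χ S}) = ⊤ := by
    rw [eq_top_iff]
    intro γ hγ
    clear hγ
    obtain ⟨x, rfl⟩ := Tor.pr_surj χ S γ
    induction x using Monoid.Coprod.induction_on with
    | inl u => exact Subgroup.subset_closure (Or.inl ⟨u, rfl⟩)
    | inr n =>
      have h3 : Tor.pr χ S (Monoid.Coprod.inr n) = Tor.tt χ S ^ (Multiplicative.toAdd n) := by
        have h4 : n = (Multiplicative.ofAdd (1 : ℤ)) ^ (Multiplicative.toAdd n) := by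
          rw [← ofAdd_zsmul]; simp
        have h5 : (Monoid.Coprod.inr n : Monoid.Coprod E (Multiplicative ℤ)) =
            (Monoid.Coprod.inr (Multiplicative.ofAdd (1 : ℤ))) ^ (Multiplicative.toAdd n) := by
          rw [← map_zpow, ← h4]
        rw [h5, map_zpow]
        rfl
      have h6 : Tor.tt χ S ∈ Subgroup.closure (Set.range (Tor.ib χ S) ∪ {Tor.tt χ S}) :=
        Subgroup.subset_closure (Or.inr rfl)
      rw [h3]
      exact Subgroup.zpow_mem _ h6 _
    | mul x y hx hy => rw [map_mul]; exact Subgroup.mul_mem _ hx hy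
  have hBA : ∀ γ, B (A γ) = γ := by
    intro γ
    obtain ⟨a, b, u, rfl⟩ := Tor.form_all hrel hgen γ
    have h1 : B (A (Tor.ib χ S u)) = Tor.ib χ S u := by
      rw [hA1]
      change B (gi φ (q u)) = _
      rw [hB1']
      have h2 := hrel u
      change _ = Tor.ib χ S (i (q u)) at h2
      rw [← h2]
      group
    have h2 : B (A (Tor.tt χ S)) = Tor.tt χ S := by rw [hA2, hB2]
    simp only [map_mul, map_pow, map_inv, h1, h2]
  exact Group.IsFinitelyPresented.equiv
    ({ toFun := A, invFun := B, left_inv := hBA, right_inv := hAB, map_mul' := A.map_mul } :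
      Tor.TG χ S ≃* GT φ)

end torus

/-! ### the colimit -/

section colim

variable {H Y : Type} [Group H] [MulAction H Y] {φ : H →* H} {θ : Y → Y}

/-- the relation `(n, y) ~ (m, y')` iff `θᵐ y = θⁿ y'` -/
def ySetoid (hθ : Function.Injective θ) : Setoid (ℕ × Y) where
  r p q := θ^[q.1] p.2 = θ^[p.1] q.2
  iseqv := by
    refine ⟨fun _ => rfl, fun h => h.symm, ?_⟩
    rintro ⟨n, y⟩ ⟨m, y'⟩ ⟨k, y''⟩ h1 h2
    simp only at h1 h2 ⊢
    apply hθ.iterate m
    rw [← Function.iterate_add_apply, ← Function.iterate_add_apply, add_comm m k,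
      Function.iterate_add_apply, h1, ← Function.iterate_add_apply, add_comm k n,
      Function.iterate_add_apply, h2, ← Function.iterate_add_apply, add_comm n m]

/-- the colimit set -/
def YY (hθ : Function.Injective θ) : Type := Quotient (ySetoid hθ)

variable (hθ : Function.Injective θ)

/-- the point `t⁻ⁿ y` -/
def pt (n : ℕ) (y : Y) : YY hθ := Quotient.mk (ySetoid hθ) (n, y)

theorem pt_eq {n m : ℕ} {y y' : Y} : pt hθ n y = pt hθ m y' ↔ θ^[m] y = θ^[n] y' :=
  ⟨fun h => Quotient.exact (s := ySetoid hθ) h, fun h => Quotient.sound (s := ySetoid hθ) h⟩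

theorem pt_surj (x : YY hθ) : ∃ n y, x = pt hθ n y := by
  obtain ⟨⟨n, y⟩, rfl⟩ := Quotient.exists_rep x
  exact ⟨n, y, rfl⟩

theorem pt_succ (n : ℕ) (y : Y) : pt hθ (n + 1) (θ y) = pt hθ n y := by
  rw [pt_eq, Function.iterate_succ_apply]

theorem pt_add (n k : ℕ) (y : Y) : pt hθ (n + k) (θ^[k] y) = pt hθ n y := by
  rw [pt_eq, ← Function.iterate_add_apply]

theorem pt_zero_inj {y y' : Y} (h : pt hθ 0 y = pt hθ 0 y') : y = y' := (pt_eq hθ).1 h

/-- the action of `t` -/
def tP : Equiv.Perm (YY hθ) where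
  toFun := Quotient.map' (s₁ := ySetoid hθ) (s₂ := ySetoid hθ) (fun p => (p.1, θ p.2)) (by
    rintro ⟨n, y⟩ ⟨m, y'⟩ h
    change θ^[m] (θ y) = θ^[n] (θ y')
    change θ^[m] y = θ^[n] y' at h
    rw [← Function.iterate_succ_apply, ← Function.iterate_succ_apply,
      Function.iterate_succ_apply', Function.iterate_succ_apply', h])
  invFun := Quotient.map' (s₁ := ySetoid hθ) (s₂ := ySetoid hθ) (fun p => (p.1 + 1, p.2)) (by
    rintro ⟨n, y⟩ ⟨m, y'⟩ h
    change θ^[m + 1] y = θ^[n + 1] y'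
    change θ^[m] y = θ^[n] y' at h
    rw [Function.iterate_succ_apply', Function.iterate_succ_apply', h])
  left_inv := by
    intro x
    obtain ⟨n, y, rfl⟩ := pt_surj hθ x
    exact pt_succ hθ n y
  right_inv := by
    intro x
    obtain ⟨n, y, rfl⟩ := pt_surj hθ x
    exact pt_succ hθ n y

theorem tP_pt (n : ℕ) (y : Y) : tP hθ (pt hθ n y) = pt hθ n (θ y) := rfl

theorem tP_inv_pt (n : ℕ) (y : Y) : (tP hθ)⁻¹ (pt hθ n y) = pt hθ (n + 1) y := rfl

theorem tP_pow_pt (k n : ℕ) (y : Y) : (tP hθ ^ k) (pt hθ n y) = pt hθ n (θ^[k] y) := by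
  induction k with
  | zero => rfl
  | succ k ih =>
    rw [pow_succ', Equiv.Perm.mul_apply, ih, tP_pt, Function.iterate_succ_apply']

theorem tP_inv_pow_pt (k n : ℕ) (y : Y) : ((tP hθ)⁻¹ ^ k) (pt hθ n y) = pt hθ (n + k) y := by
  induction k with
  | zero => rfl
  | succ k ih =>
    rw [pow_succ', Equiv.Perm.mul_apply, ih, tP_inv_pt]; rfl

theorem iter_smul (he : ∀ (h : H) (y : Y), θ (h • y) = φ h • θ y) (n : ℕ) (h : H) (y : Y) :
    θ^[n] (h • y) = (φ^[n]) h • θ^[n] y := by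
  induction n generalizing h y with
  | zero => rfl
  | succ n ih => rw [Function.iterate_succ_apply, he, ih, Function.iterate_succ_apply,
      Function.iterate_succ_apply]

variable (he : ∀ (h : H) (y : Y), θ (h • y) = φ h • θ y)

/-- the action of `h` as a map -/
def hf (h : H) : YY hθ → YY hθ :=
  Quotient.map' (s₁ := ySetoid hθ) (s₂ := ySetoid hθ) (fun p => (p.1, (φ^[p.1]) h • p.2)) (by
    rintro ⟨n, y⟩ ⟨m, y'⟩ hh
    change θ^[m] ((φ^[n]) h • y) = θ^[n] ((φ^[m]) h • y')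
    change θ^[m] y = θ^[n] y' at hh
    rw [iter_smul he, iter_smul he, hh, ← Function.iterate_add_apply,
      ← Function.iterate_add_apply, add_comm])

theorem hf_pt (h : H) (n : ℕ) (y : Y) : hf hθ he h (pt hθ n y) = pt hθ n ((φ^[n]) h • y) := rfl

/-- the action of `H` -/
def hP : H →* Equiv.Perm (YY hθ) where
  toFun h :=
    { toFun := hf hθ he h
      invFun := hf hθ he h⁻¹
      left_inv := by
        intro x
        obtain ⟨n, y, rfl⟩ := pt_surj hθ x
        rw [hf_pt, hf_pt, ← mul_smul]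
        have : (φ^[n]) h⁻¹ * (φ^[n]) h = 1 := by
          rw [← iterate_map_mul, inv_mul_cancel, iterate_map_one]
        rw [this, one_smul]
      right_inv := by
        intro x
        obtain ⟨n, y, rfl⟩ := pt_surj hθ x
        rw [hf_pt, hf_pt, ← mul_smul]
        have : (φ^[n]) h * (φ^[n]) h⁻¹ = 1 := by
          rw [← iterate_map_mul, mul_inv_cancel, iterate_map_one]
        rw [this, one_smul] }
  map_one' := by
    ext1 x
    obtain ⟨n, y, rfl⟩ := pt_surj hθ x
    change hf hθ he 1 (pt hθ n y) = pt hθ n y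
    rw [hf_pt, iterate_map_one, one_smul]
  map_mul' a b := by
    ext1 x
    obtain ⟨n, y, rfl⟩ := pt_surj hθ x
    change hf hθ he (a * b) (pt hθ n y) = hf hθ he a (hf hθ he b (pt hθ n y))
    rw [hf_pt, hf_pt, hf_pt, iterate_map_mul, mul_smul]

theorem hP_pt (h : H) (n : ℕ) (y : Y) : hP hθ he h (pt hθ n y) = pt hθ n ((φ^[n]) h • y) := rfl

theorem exists_act : ∃ F : GT φ →* Equiv.Perm (YY hθ), (∀ a, F (gi φ a) = hP hθ he a) ∧
    F (gt φ) = tP hθ := by
  apply gt_lift
  intro a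
  rw [mul_inv_eq_iff_eq_mul]
  ext1 x
  obtain ⟨n, y, rfl⟩ := pt_surj hθ x
  simp only [Equiv.Perm.mul_apply]
  rw [hP_pt, tP_pt, tP_pt, hP_pt, he, ← Function.iterate_succ_apply,
    Function.iterate_succ_apply']

end colim

end Crest.Agent.R185.Hot
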