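import Crest.Agent.R185.Wu2
import Crest.Agent.R185.Hot2

/-!
# R185 / HOTEL (3): helper660's set `Z(Y)` and its letters

`ZZ G Y = (ℕ × Mat Y) ⊕ (ℕ × Y) ⊕ ℕ ⊕ G` with the letters `zb h` (block copy of `h` on
`{0} × Y`), `zv i j h` (rook letters), `zs` (shift), `zg g` (left multiplication on `G`), and the
transpositions.
-/

set_option autoImplicit false

namespace Crest.Agent.R185.Hot

open Crest.Agent.R185.Wu

section gadget

variable {H Y : Type} [Group H] [MulAction H Y]

/-- the action at `(i, j)` on matrices -/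
noncomputable def vY (i : Fin 3) (j : Fin 4) : H →* Equiv.Perm (Mat Y) where
  toFun u :=
    { toFun := act i j (fun y => u • y)
      invFun := act i j (fun y => u⁻¹ • y)
      left_inv := by
        intro M
        rw [act_comp three3 three4]
        have : ((fun y : Y => u⁻¹ • y) ∘ fun y => u • y) = id := by funext y; simp
        rw [this, act_id three3 three4]
      right_inv := by
        intro M
        rw [act_comp three3 three4]
        have : ((fun y : Y => u • y) ∘ fun y => u⁻¹ • y) = id := by funext y; simp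
        rw [this, act_id three3 three4] }
  map_one' := by
    apply Equiv.ext
    intro M
    have : (fun y : Y => (1 : H) • y) = id := by funext y; simp
    change act i j (fun y : Y => (1 : H) • y) M = M
    rw [this, act_id three3 three4]
  map_mul' a b := by
    apply Equiv.ext
    intro M
    change act i j (fun y : Y => (a * b) • y) M =
      act i j (fun y : Y => a • y) (act i j (fun y : Y => b • y) M)
    rw [act_comp three3 three4]
    congr 1
    funext y
    simp [mul_smul]

theorem vY_apply (i : Fin 3) (j : Fin 4) (u : H) (M : Mat Y) :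
    vY i j u M = act i j (fun y => u • y) M := rfl

theorem vY_row (i : Fin 3) (j : Fin 4) (u : H) (w : Fin 4 → Y) :
    vY i j u (rowM i w) = rowM i (Function.update w j (u • w j)) := by
  rw [vY_apply, act_row]

theorem vY_col (i : Fin 3) (j : Fin 4) (u : H) (z : Fin 3 → Y) :
    vY i j u (colM j z) = colM j (Function.update z i (u • z i)) := by
  rw [vY_apply, act_col three3 three4]

theorem vY_comm_row (i : Fin 3) (j l : Fin 4) (h : j ≠ l) (a b : H) :
    Commute (vY (Y := Y) i j a) (vY i l b) := by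
  apply Equiv.ext
  intro M
  exact act_comm_row three3 three4 i h _ _ M

theorem vY_comm_col (i k : Fin 3) (j : Fin 4) (h : i ≠ k) (a b : H) :
    Commute (vY (Y := Y) i j a) (vY k j b) := by
  apply Equiv.ext
  intro M
  exact act_comm_col three3 three4 j h _ _ M

/-- constant matrices -/
abbrev cY (y : Y) : Mat Y := con (Fin 3) (Fin 4) y

theorem rY_cY (i : Fin 3) (u : H) (y : Y) :
    (vY i 0 u * vY i 1 u * vY i 2 u * vY i 3 u : Equiv.Perm (Mat Y)) (cY y) = cY (u • y) := by
  unfold cY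
  rw [← rowM_const three4 0 i y, ← rowM_const three4 0 i (u • y)]
  simp only [Equiv.Perm.mul_apply, vY_row]
  congr 1
  funext l
  fin_cases l <;> simp [Function.update]

theorem colY_cY (j : Fin 4) (u : H) (y : Y) :
    (vY 0 j u * vY 1 j u * vY 2 j u : Equiv.Perm (Mat Y)) (cY y) = cY (u • y) := by
  unfold cY
  rw [← colM_const three3 0 j y, ← colM_const three3 0 j (u • y)]
  simp only [Equiv.Perm.mul_apply, vY_col]
  congr 1
  funext l
  fin_cases l <;> simp [Function.update]

theorem cY_inj {Y : Type} {y y' : Y} (h : cY y = cY y') : y = y' :=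
  Option.some.inj (congrFun (congrFun h 0) 0)

end gadget

/-- the rook part -/
abbrev RX (Y : Type) : Type := (ℕ × Mat Y) ⊕ (ℕ × Y)

section shift

variable {Y : Type}

open Classical in
/-- the shift -/
noncomputable def shf : RX Y → RX Y
  | Sum.inl (0, M) => if h : ∃ y, cY y = M then Sum.inr (0, h.choose) else Sum.inl (0, M)
  | Sum.inl (n + 1, M) => if ∃ y, cY y = M then Sum.inl (n, M) else Sum.inl (n + 1, M)
  | Sum.inr (n, y) => Sum.inr (n + 1, y)

open Classical in
/-- the inverse shift -/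
noncomputable def shg : RX Y → RX Y
  | Sum.inl (n, M) => if ∃ y, cY y = M then Sum.inl (n + 1, M) else Sum.inl (n, M)
  | Sum.inr (0, y) => Sum.inl (0, cY y)
  | Sum.inr (n + 1, y) => Sum.inr (n, y)

theorem shf_zero (y : Y) : shf (Sum.inl (0, cY y)) = Sum.inr (0, y) := by
  have h : ∃ y', cY y' = cY y := ⟨y, rfl⟩
  unfold shf
  simp only
  rw [dif_pos h, cY_inj h.choose_spec]

theorem shf_succ (n : ℕ) (y : Y) : shf (Sum.inl (n + 1, cY y)) = Sum.inl (n, cY y) := by
  have h : ∃ y', cY y' = cY y := ⟨y, rfl⟩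
  unfold shf
  simp only
  rw [if_pos h]

theorem shf_else (n : ℕ) (M : Mat Y) (h : ∀ y, cY y ≠ M) :
    shf (Sum.inl (n, M)) = Sum.inl (n, M) := by
  have h' : ¬ ∃ y, cY y = M := by rintro ⟨y, hy⟩; exact h y hy
  rcases n with _ | n
  · unfold shf; simp only; rw [dif_neg h']
  · unfold shf; simp only; rw [if_neg h']

theorem shf_inr (n : ℕ) (y : Y) : shf (Sum.inr (n, y)) = Sum.inr (n + 1, y) := rfl

theorem shg_con (n : ℕ) (y : Y) : shg (Sum.inl (n, cY y)) = Sum.inl (n + 1, cY y) := by
  have h : ∃ y', cY y' = cY y := ⟨y, rfl⟩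
  unfold shg
  simp only
  rw [if_pos h]

theorem shg_else (n : ℕ) (M : Mat Y) (h : ∀ y, cY y ≠ M) :
    shg (Sum.inl (n, M)) = Sum.inl (n, M) := by
  have h' : ¬ ∃ y, cY y = M := by rintro ⟨y, hy⟩; exact h y hy
  unfold shg; simp only; rw [if_neg h']

theorem shg_zero (y : Y) : shg (Sum.inr (0, y)) = Sum.inl (0, cY y) := rfl

theorem shg_succ (n : ℕ) (y : Y) : shg (Sum.inr (n + 1, y)) = Sum.inr (n, y) := rfl

theorem RX_cases (x : RX Y) :
    (∃ y, x = Sum.inl (0, cY y)) ∨ (∃ n y, x = Sum.inl (n + 1, cY y)) ∨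
    (∃ n M, (∀ y, cY y ≠ M) ∧ x = Sum.inl (n, M)) ∨ (∃ y, x = Sum.inr (0, y)) ∨
    (∃ n y, x = Sum.inr (n + 1, y)) := by
  rcases x with ⟨n, M⟩ | ⟨n | n, y⟩
  · by_cases h : ∃ y, cY y = M
    · obtain ⟨y, rfl⟩ := h
      rcases n with _ | n
      · exact Or.inl ⟨y, rfl⟩
      · exact Or.inr (Or.inl ⟨n, y, rfl⟩)
    · push Not at h
      exact Or.inr (Or.inr (Or.inl ⟨n, M, h, rfl⟩))
  · exact Or.inr (Or.inr (Or.inr (Or.inl ⟨y, rfl⟩)))
  · exact Or.inr (Or.inr (Or.inr (Or.inr ⟨n, y, rfl⟩)))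

/-- the shift permutation -/
noncomputable def shP : Equiv.Perm (RX Y) where
  toFun := shf
  invFun := shg
  left_inv := by
    intro x
    rcases RX_cases x with ⟨y, rfl⟩ | ⟨n, y, rfl⟩ | ⟨n, M, h, rfl⟩ | ⟨y, rfl⟩ | ⟨n, y, rfl⟩
    · rw [shf_zero, shg_zero]
    · rw [shf_succ, shg_con]
    · rw [shf_else n M h, shg_else n M h]
    · rw [shf_inr, shg_succ]
    · rw [shf_inr, shg_succ]
  right_inv := by
    intro x
    rcases RX_cases x with ⟨y, rfl⟩ | ⟨n, y, rfl⟩ | ⟨n, M, h, rfl⟩ | ⟨y, rfl⟩ | ⟨n, y, rfl⟩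
    · rw [shg_con, shf_succ]
    · rw [shg_con, shf_succ]
    · rw [shg_else n M h, shf_else n M h]
    · rw [shg_zero, shf_zero]
    · rw [shg_succ, shf_inr]

theorem shP_apply (x : RX Y) : shP x = shf x := rfl

end shift

/-! ### the set `Z(Y)` -/

/-- helper660's set -/
abbrev ZZ (G Y : Type) : Type := RX Y ⊕ (ℕ ⊕ G)

section letters

variable {G Y H : Type} [Group H] [MulAction H Y]

/-- extension of a permutation of the rook part -/
def ext1 (G : Type) : Equiv.Perm (RX Y) →* Equiv.Perm (ZZ G Y) where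
  toFun e := Equiv.sumCongr e (Equiv.refl _)
  map_one' := by ext x; rcases x with x | x <;> rfl
  map_mul' a b := by ext x; rcases x with x | x <;> rfl

@[simp] theorem ext1_inl (e : Equiv.Perm (RX Y)) (x : RX Y) :
    ext1 G e (Sum.inl x) = Sum.inl (e x) := rfl

@[simp] theorem ext1_inr (e : Equiv.Perm (RX Y)) (x : ℕ ⊕ G) :
    ext1 G e (Sum.inr x) = Sum.inr x := rfl

theorem ext1_inj : Function.Injective (ext1 G : Equiv.Perm (RX Y) →* _) := by
  intro a b h
  apply Equiv.ext
  intro x
  have := congrArg (fun e : Equiv.Perm (ZZ G Y) => e (Sum.inl x)) h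
  exact Sum.inl.inj this

/-- extension of a permutation of the matrices -/
def upY : Equiv.Perm (Mat Y) →* Equiv.Perm (RX Y) where
  toFun e := Equiv.sumCongr (Equiv.prodCongr (Equiv.refl ℕ) e) (Equiv.refl _)
  map_one' := by
    apply Equiv.ext; intro x; rcases x with ⟨n, M⟩ | ⟨n, y⟩ <;> rfl
  map_mul' a b := by
    apply Equiv.ext; intro x; rcases x with ⟨n, M⟩ | ⟨n, y⟩ <;> rfl

theorem upY_inl (e : Equiv.Perm (Mat Y)) (n : ℕ) (M : Mat Y) :
    upY e (Sum.inl (n, M)) = Sum.inl (n, e M) := rfl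

theorem upY_inr (e : Equiv.Perm (Mat Y)) (n : ℕ) (y : Y) :
    upY e (Sum.inr (n, y)) = Sum.inr (n, y) := rfl

/-- the block copy on points -/
def bfY (u : H) : RX Y → RX Y
  | Sum.inl x => Sum.inl x
  | Sum.inr (0, y) => Sum.inr (0, u • y)
  | Sum.inr (n + 1, y) => Sum.inr (n + 1, y)

/-- the block copy -/
def bY : H →* Equiv.Perm (RX Y) where
  toFun u :=
    { toFun := bfY u
      invFun := bfY u⁻¹
      left_inv := by rintro (⟨n, M⟩ | ⟨n | n, y⟩) <;> simp [bfY]
      right_inv := by rintro (⟨n, M⟩ | ⟨n | n, y⟩) <;> simp [bfY] }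
  map_one' := by
    apply Equiv.ext; intro x; rcases x with ⟨n, M⟩ | ⟨n | n, y⟩ <;> simp [bfY]
  map_mul' a b := by
    apply Equiv.ext; intro x; rcases x with ⟨n, M⟩ | ⟨n | n, y⟩ <;> simp [bfY, mul_smul]

theorem bY_inl (u : H) (x : ℕ × Mat Y) : bY u (Sum.inl x) = Sum.inl x := rfl

theorem bY_zero (u : H) (y : Y) : bY u (Sum.inr (0, y)) = Sum.inr (0, u • y) := rfl

theorem bY_succ (u : H) (y : Y) (n : ℕ) : bY u (Sum.inr (n + 1, y)) = Sum.inr (n + 1, y) := rfl

theorem upY_comm_bY (e : Equiv.Perm (Mat Y)) (u : H) : Commute (upY e) (bY u) := by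
  apply Equiv.ext
  intro x
  rcases x with ⟨n, M⟩ | ⟨n | n, y⟩ <;> rfl

/-- the key relation -/
theorem shP_conj (e : Equiv.Perm (Mat Y)) (u : H) (he : ∀ y, e (cY y) = cY (u • y)) :
    shP * upY e * shP⁻¹ = upY e * bY u := by
  rw [mul_inv_eq_iff_eq_mul]
  apply Equiv.ext
  intro x
  simp only [Equiv.Perm.mul_apply, shP_apply]
  rcases RX_cases x with ⟨y, rfl⟩ | ⟨n, y, rfl⟩ | ⟨n, M, h, rfl⟩ | ⟨y, rfl⟩ | ⟨n, y, rfl⟩
  · rw [upY_inl, he, shf_zero, shf_zero, bY_zero, upY_inr]
  · rw [upY_inl, he, shf_succ, shf_succ, bY_inl, upY_inl, he]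
  · have h2 : ∀ y, cY y ≠ e M := by
      intro y hy
      apply h (u⁻¹ • y)
      apply e.injective
      rw [he, smul_inv_smul, hy]
    rw [upY_inl, shf_else n _ h2, shf_else n M h, bY_inl, upY_inl]
  · rw [upY_inr, shf_inr, bY_succ, upY_inr]
  · rw [upY_inr, shf_inr, bY_succ, upY_inr]

/-- block copy letter -/
def zb (G : Type) : H →* Equiv.Perm (ZZ G Y) := (ext1 G).comp bY

/-- rook letter -/
noncomputable def zv (G : Type) (i : Fin 3) (j : Fin 4) : H →* Equiv.Perm (ZZ G Y) :=
  ((ext1 G).comp upY).comp (vY i j)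

/-- shift letter -/
noncomputable def zs (G Y : Type) : Equiv.Perm (ZZ G Y) := ext1 G shP

/-- left multiplication letters -/
def zg (Y : Type) [Group G] : G →* Equiv.Perm (ZZ G Y) where
  toFun g := Equiv.sumCongr (Equiv.refl _) (Equiv.sumCongr (Equiv.refl _) (Equiv.mulLeft g))
  map_one' := by
    apply Equiv.ext; intro x; rcases x with x | x | x
    · rfl
    · rfl
    · change Sum.inr (Sum.inr (1 * x)) = _; rw [one_mul]; rfl
  map_mul' a b := by
    apply Equiv.ext; intro x; rcases x with x | x | x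
    · rfl
    · rfl
    · change Sum.inr (Sum.inr (a * b * x)) = Sum.inr (Sum.inr (a * (b * x))); rw [mul_assoc]

theorem zg_apply [Group G] (g g' : G) : zg Y g (Sum.inr (Sum.inr g')) = Sum.inr (Sum.inr (g * g')) := rfl

theorem zg_inj [Group G] : Function.Injective (zg Y : G →* Equiv.Perm (ZZ G Y)) := by
  intro a b h
  have := congrArg (fun e : Equiv.Perm (ZZ G Y) => e (Sum.inr (Sum.inr 1))) h
  change Sum.inr (Sum.inr (a * 1)) = (Sum.inr (Sum.inr (b * 1)) : ZZ G Y) at this
  simpa using this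

theorem zb_inr (u : H) (x : ℕ ⊕ G) : zb G u (Sum.inr x : ZZ G Y) = Sum.inr x := rfl

theorem zb_zero (u : H) (y : Y) :
    zb G u (Sum.inl (Sum.inr (0, y))) = Sum.inl (Sum.inr (0, u • y)) := rfl

theorem conj_ext (S A B : Equiv.Perm (RX Y)) (h : S * A * S⁻¹ = A * B) :
    ext1 G S * ext1 G A * (ext1 G S)⁻¹ = ext1 G A * ext1 G B := by
  rw [← map_inv, ← map_mul, ← map_mul, ← map_mul, h]

/-- the rook certificate in permutations of `Z(Y)` -/
noncomputable def zRook (G H Y : Type) [Group H] [MulAction H Y] :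
    Rook H (Equiv.Perm (ZZ G Y)) where
  v i j := zv G i j
  β := zb G
  s := zs G Y
  row i j l h a b := ((vY_comm_row i j l h a b).map upY).map (ext1 G)
  col i k j h a b := ((vY_comm_col i k j h a b).map upY).map (ext1 G)
  rβ i a b := by
    have : zv (Y := Y) G i 0 a * zv G i 1 a * zv G i 2 a * zv G i 3 a =
        ext1 G (upY (vY i 0 a * vY i 1 a * vY i 2 a * vY i 3 a)) := by
      simp only [map_mul]; rfl
    rw [this]
    exact (upY_comm_bY _ _).map (ext1 G)
  cβ j a b := by
    have : zv (Y := Y) G 0 j a * zv G 1 j a * zv G 2 j a =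
        ext1 G (upY (vY 0 j a * vY 1 j a * vY 2 j a)) := by
      simp only [map_mul]; rfl
    rw [this]
    exact (upY_comm_bY _ _).map (ext1 G)
  sr i a := by
    have : zv (Y := Y) G i 0 a * zv G i 1 a * zv G i 2 a * zv G i 3 a =
        ext1 G (upY (vY i 0 a * vY i 1 a * vY i 2 a * vY i 3 a)) := by
      simp only [map_mul]; rfl
    rw [this]
    exact conj_ext _ _ _ (shP_conj _ a (rY_cY (Y := Y) i a))
  sc j a := by
    have : zv (Y := Y) G 0 j a * zv G 1 j a * zv G 2 j a =
        ext1 G (upY (vY 0 j a * vY 1 j a * vY 2 j a)) := by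
      simp only [map_mul]; rfl
    rw [this]
    exact conj_ext _ _ _ (shP_conj _ a (colY_cY (Y := Y) j a))

end letters

/-- a rook certificate can be pushed forward -/
def rookMap {U K K' : Type} [Group U] [Group K] [Group K'] (R : Rook U K) (f : K →* K') :
    Rook U K' where
  v i j := f.comp (R.v i j)
  β := f.comp R.β
  s := f R.s
  row i j l h a b := (R.row i j l h a b).map f
  col i k j h a b := (R.col i k j h a b).map f
  rβ i a b := by
    have := (R.rβ i a b).map f
    simp only [map_mul] at this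
    exact this
  cβ j a b := by
    have := (R.cβ j a b).map f
    simp only [map_mul] at this
    exact this
  sr i a := by
    have := congrArg f (R.sr i a)
    simp only [map_mul, map_inv] at this
    exact this
  sc j a := by
    have := congrArg f (R.sc j a)
    simp only [map_mul, map_inv] at this
    exact this

end Crest.Agent.R185.Hot
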