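import Mathlib

/-!
# Row 185, T5: cubes.  Box filling, homotopy extension for `(I^N, ∂I^N)`
-/

set_option autoImplicit false
set_option linter.unusedSectionVars false

open Set Metric Topology unitInterval

namespace Crest.Agent.R185.Hur

/-- bottom and sides of the box -/
def Box (N : ℕ) : Set (I × (Fin N → I)) := {p | p.1 = 0 ∨ p.2 ∈ Cube.boundary (Fin N)}

noncomputable def rM {N : ℕ} (x : Fin N → I) : ℝ := ‖(fun i => 2 * (x i : ℝ) - 1 : Fin N → ℝ)‖

theorem rM_le {N : ℕ} (x : Fin N → I) : rM x ≤ 1 := by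
  unfold rM
  rw [pi_norm_le_iff_of_nonneg zero_le_one]
  intro i
  rw [Real.norm_eq_abs, abs_le]
  constructor <;> linarith [(x i).2.1, (x i).2.2]

theorem abs_le_rM {N : ℕ} (x : Fin N → I) (i : Fin N) : |2 * (x i : ℝ) - 1| ≤ rM x := by
  have := norm_le_pi_norm (fun i => 2 * (x i : ℝ) - 1 : Fin N → ℝ) i
  rwa [Real.norm_eq_abs] at this

theorem rM_eq_one {N : ℕ} {x : Fin N → I} (h : x ∈ Cube.boundary (Fin N)) : rM x = 1 := by
  refine le_antisymm (rM_le x) ?_
  obtain ⟨i, hi⟩ := h
  refine le_trans ?_ (abs_le_rM x i)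
  rcases hi with hi | hi <;> rw [hi] <;> norm_num

theorem exists_abs_eq_rM {N : ℕ} (x : Fin N → I) (h : 0 < rM x) :
    ∃ i, |2 * (x i : ℝ) - 1| = rM x := by
  by_contra hcon
  push Not at hcon
  have h2 : ∀ i, ‖(fun i => 2 * (x i : ℝ) - 1 : Fin N → ℝ) i‖ < rM x := fun i =>
    lt_of_le_of_ne (abs_le_rM x i) (hcon i)
  exact lt_irrefl _ ((pi_norm_lt_iff h).2 h2)

noncomputable def rm {N : ℕ} (p : I × (Fin N → I)) : ℝ := max (rM p.2) ((2 - (p.1 : ℝ)) / 2)

theorem half_le_rm {N : ℕ} (p : I × (Fin N → I)) : 1 / 2 ≤ rm p :=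
  le_trans (by linarith [p.1.2.2]) (le_max_right _ _)

theorem rm_pos {N : ℕ} (p : I × (Fin N → I)) : 0 < rm p := lt_of_lt_of_le (by norm_num) (half_le_rm p)

theorem rm_le {N : ℕ} (p : I × (Fin N → I)) : rm p ≤ 1 :=
  max_le (rM_le _) (by linarith [p.1.2.1])

theorem continuous_rm {N : ℕ} : Continuous (rm : I × (Fin N → I) → ℝ) := by
  unfold rm rM
  fun_prop

/-- the retraction onto the box -/
noncomputable def rho (N : ℕ) : C(I × (Fin N → I), I × (Fin N → I)) where
  toFun p := (⟨2 - (2 - (p.1 : ℝ)) / rm p, by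
      have h1 : (2 - (p.1 : ℝ)) / 2 ≤ rm p := le_max_right _ _
      have h0 := rm_pos p
      constructor
      · rw [sub_nonneg, div_le_iff₀ h0]; linarith
      · have : (1 : ℝ) ≤ (2 - (p.1 : ℝ)) / rm p := by
          rw [le_div_iff₀ h0]; linarith [rm_le p, p.1.2.2]
        linarith⟩,
    fun i => ⟨1 / 2 + ((p.2 i : ℝ) - 1 / 2) / rm p, by
      have h0 := rm_pos p
      have h1 : |2 * (p.2 i : ℝ) - 1| ≤ rm p := (abs_le_rM p.2 i).trans (le_max_left _ _)
      rw [abs_le] at h1
      have h2 : |((p.2 i : ℝ) - 1 / 2) / rm p| ≤ 1 / 2 := by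
        rw [abs_div, abs_of_pos h0, div_le_iff₀ h0, abs_le]
        constructor <;> linarith [h1.1, h1.2]
      rw [abs_le] at h2
      constructor <;> linarith [h2.1, h2.2]⟩)
  continuous_toFun := by
    have hc := continuous_rm (N := N)
    have h0 : ∀ p : I × (Fin N → I), rm p ≠ 0 := fun p => (rm_pos p).ne'
    refine Continuous.prodMk ?_ ?_
    · apply Continuous.subtype_mk
      exact continuous_const.sub ((continuous_const.sub
        (continuous_subtype_val.comp continuous_fst)).div hc h0)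
    · refine continuous_pi fun i => ?_
      apply Continuous.subtype_mk
      refine continuous_const.add (Continuous.div ?_ hc h0)
      fun_prop

theorem rho_of_mem {N : ℕ} {p : I × (Fin N → I)} (h : p ∈ Box N) : rho N p = p := by
  have hr : rm p = 1 := by
    rcases h with h | h
    · have : (2 - (p.1 : ℝ)) / 2 = 1 := by rw [h]; norm_num
      unfold rm
      rw [this]
      exact max_eq_right (rM_le _)
    · unfold rm
      rw [rM_eq_one h]
      exact max_eq_left (by linarith [p.1.2.1])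
  refine Prod.ext (Subtype.ext ?_) (funext fun i => Subtype.ext ?_)
  · simp only [rho, ContinuousMap.coe_mk, hr]; ring
  · simp only [rho, ContinuousMap.coe_mk, hr]; ring

theorem rho_mem {N : ℕ} (p : I × (Fin N → I)) : rho N p ∈ Box N := by
  have h0 := rm_pos p
  rcases le_total (rM p.2) ((2 - (p.1 : ℝ)) / 2) with h | h
  · left
    have hr : rm p = (2 - (p.1 : ℝ)) / 2 := max_eq_right h
    apply Subtype.ext
    simp only [rho, ContinuousMap.coe_mk]
    rw [hr] at h0 ⊢
    have : (2 - (p.1 : ℝ)) ≠ 0 := by intro h; rw [h] at h0; norm_num at h0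
    simp only [Icc.coe_zero]
    field_simp
    ring
  · right
    have hr : rm p = rM p.2 := max_eq_left h
    obtain ⟨i, hi⟩ := exists_abs_eq_rM p.2 (hr ▸ h0)
    refine ⟨i, ?_⟩
    rw [← hr] at hi
    rcases abs_choice (2 * (p.2 i : ℝ) - 1) with h1 | h1
    · right
      apply Subtype.ext
      simp only [rho, ContinuousMap.coe_mk, Icc.coe_one]
      have : (p.2 i : ℝ) - 1 / 2 = rm p / 2 := by linarith
      rw [this]
      field_simp
      norm_num
    · left
      apply Subtype.ext
      simp only [rho, ContinuousMap.coe_mk, Icc.coe_zero]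
      have : (p.2 i : ℝ) - 1 / 2 = -(rm p / 2) := by linarith
      rw [this]
      field_simp
      norm_num

variable {W : Type*} [TopologicalSpace W]

/-- **box filling** -/
theorem exists_box_ext {N : ℕ} (g : I × (Fin N → I) → W) (hg : ContinuousOn g (Box N)) :
    ∃ U : C(I × (Fin N → I), W), ∀ p ∈ Box N, U p = g p := by
  refine ⟨⟨fun p => g (rho N p), ?_⟩, fun p hp => ?_⟩
  · exact hg.comp_continuous (rho N).continuous rho_mem
  · show g (rho N p) = g p
    rw [rho_of_mem hp]

end Crest.Agent.R185.Hur
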