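import Crest.Agent.R185.Hur1

/-!
# Row 185, T5: homotopy addition for cubes
-/

set_option autoImplicit false
set_option linter.unusedSectionVars false

open Set Metric Topology unitInterval

namespace Crest.Agent.R185.Hur

variable {W : Type*} [TopologicalSpace W] {w : W}

/-- all codimension two faces go to the base point -/
def Good (w : W) {n : ℕ} (K : C(Fin (n + 1) → I, W)) : Prop :=
  ∀ (y : Fin (n + 1) → I) (i j : Fin (n + 1)), i ≠ j → (y i = 0 ∨ y i = 1) → (y j = 0 ∨ y j = 1) →
    K y = w

/-- the face inclusion of cubes -/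
def ins {n : ℕ} (i : Fin (n + 1)) (e : I) : C(Fin n → I, Fin (n + 1) → I) where
  toFun z := Fin.insertNth (α := fun _ => I) i e z
  continuous_toFun := by
    refine continuous_pi fun j => ?_
    refine Fin.succAboveCases i ?_ (fun l => ?_) j
    · simp only [Fin.insertNth_apply_same]; exact continuous_const
    · simp only [Fin.insertNth_apply_succAbove]; exact continuous_apply l

@[simp] theorem ins_same {n : ℕ} (i : Fin (n + 1)) (e : I) (z : Fin n → I) : ins i e z i = e :=
  Fin.insertNth_apply_same (α := fun _ => I) i e z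

@[simp] theorem ins_succAbove {n : ℕ} (i : Fin (n + 1)) (e : I) (z : Fin n → I) (j : Fin n) :
    ins i e z (i.succAbove j) = z j := Fin.insertNth_apply_succAbove (α := fun _ => I) i e z j

theorem ins_eq_iff {n : ℕ} (i : Fin (n + 1)) (e : I) (z : Fin n → I) (y : Fin (n + 1) → I) :
    ins i e z = y ↔ e = y i ∧ ∀ j, z j = y (i.succAbove j) := by
  constructor
  · rintro rfl; simp
  · rintro ⟨h1, h2⟩
    funext j
    refine Fin.succAboveCases i ?_ (fun l => ?_) j
    · simpa using h1
    · simpa using h2 l

theorem eq_ins {n : ℕ} (i : Fin (n + 1)) (y : Fin (n + 1) → I) :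
    y = ins i (y i) (fun j => y (i.succAbove j)) :=
  ((ins_eq_iff i _ _ y).2 ⟨rfl, fun _ => rfl⟩).symm

theorem update_ins_same {n : ℕ} (i : Fin (n + 1)) (e e' : I) (z : Fin n → I) :
    Function.update (ins i e z) i e' = ins i e' z := by
  symm
  rw [ins_eq_iff]
  refine ⟨by simp, fun j => ?_⟩
  rw [Function.update_of_ne (Fin.succAbove_ne i j)]
  simp

theorem update_ins {n : ℕ} (k : Fin (n + 1)) (e e' : I) (z : Fin n → I) (p : Fin n) :
    Function.update (ins k e z) (k.succAbove p) e' = ins k e (Function.update z p e') := by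
  symm
  rw [ins_eq_iff]
  constructor
  · rw [Function.update_of_ne (Fin.succAbove_ne k p).symm]; simp
  · intro j
    by_cases h : j = p
    · subst h; simp
    · rw [Function.update_of_ne h, Function.update_of_ne
        (fun h' => h (Fin.succAbove_right_injective h'))]
      simp

/-- faces of a good cube -/
def fc {n : ℕ} (K : C(Fin (n + 1) → I, W)) (hK : Good w K) (i : Fin (n + 1)) (e : I)
    (he : e = 0 ∨ e = 1) : GenLoop (Fin n) W w :=
  ⟨K.comp (ins i e), by
    rintro z ⟨j, hj⟩
    refine hK _ i (i.succAbove j) (Fin.succAbove_ne i j).symm ?_ ?_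
    · simpa using he
    · simpa using hj⟩

theorem fc_apply {n : ℕ} (K : C(Fin (n + 1) → I, W)) (hK : Good w K) (i : Fin (n + 1)) (e : I)
    (he : e = 0 ∨ e = 1) (z : Fin n → I) : fc K hK i e he z = K (ins i e z) := rfl

/-! ### gluing -/

noncomputable def db0 (t : I) : I := Set.projIcc 0 1 zero_le_one (2 * (t : ℝ))
noncomputable def db1 (t : I) : I := Set.projIcc 0 1 zero_le_one (2 * (t : ℝ) - 1)

theorem continuous_db0 : Continuous db0 := by unfold db0; fun_prop
theorem continuous_db1 : Continuous db1 := by unfold db1; fun_prop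

theorem db0_zero : db0 0 = 0 := by
  unfold db0; apply Set.projIcc_of_le_left; simp
theorem db1_one : db1 1 = 1 := by
  unfold db1; apply Set.projIcc_of_right_le; norm_num
theorem db0_half {t : I} (h : (t : ℝ) = 1 / 2) : db0 t = 1 := by
  unfold db0; apply Set.projIcc_of_right_le; rw [h]; norm_num
theorem db1_half {t : I} (h : (t : ℝ) = 1 / 2) : db1 t = 0 := by
  unfold db1; apply Set.projIcc_of_le_left; rw [h]; norm_num

/-- glue two cubes along the `i`-th coordinate -/
noncomputable def glue {n : ℕ} (i : Fin (n + 1)) (K L : C(Fin (n + 1) → I, W))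
    (h : ∀ z, K (ins i 1 z) = L (ins i 0 z)) : C(Fin (n + 1) → I, W) where
  toFun x := if (x i : ℝ) ≤ 1 / 2 then K (Function.update x i (db0 (x i)))
    else L (Function.update x i (db1 (x i)))
  continuous_toFun := by
    have c1 : Continuous fun x : Fin (n + 1) → I => Function.update x i (db0 (x i)) :=
      continuous_id.update i (continuous_db0.comp (continuous_apply i))
    have c2 : Continuous fun x : Fin (n + 1) → I => Function.update x i (db1 (x i)) :=
      continuous_id.update i (continuous_db1.comp (continuous_apply i))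
    refine Continuous.if_le (K.continuous.comp c1) (L.continuous.comp c2)
      (continuous_subtype_val.comp (continuous_apply i)) continuous_const ?_
    intro x hx
    have e1 : Function.update x i (1 : I) = ins i 1 (fun j => x (i.succAbove j)) := by
      conv_lhs => rw [eq_ins i x]
      exact update_ins_same _ _ _ _
    have e2 : Function.update x i (0 : I) = ins i 0 (fun j => x (i.succAbove j)) := by
      conv_lhs => rw [eq_ins i x]
      exact update_ins_same _ _ _ _
    show K (Function.update x i (db0 (x i))) = L (Function.update x i (db1 (x i)))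
    rw [db0_half hx, db1_half hx, e1, e2]
    exact h _

theorem glue_apply {n : ℕ} (i : Fin (n + 1)) (K L : C(Fin (n + 1) → I, W))
    (h : ∀ z, K (ins i 1 z) = L (ins i 0 z)) (x : Fin (n + 1) → I) :
    glue i K L h x = if (x i : ℝ) ≤ 1 / 2 then K (Function.update x i (db0 (x i)))
      else L (Function.update x i (db1 (x i))) := rfl

theorem glue_zero {n : ℕ} (i : Fin (n + 1)) (K L : C(Fin (n + 1) → I, W))
    (h : ∀ z, K (ins i 1 z) = L (ins i 0 z)) (z : Fin n → I) :
    glue i K L h (ins i 0 z) = K (ins i 0 z) := by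
  rw [glue_apply, ins_same, if_pos (by simp), db0_zero, update_ins_same]

theorem glue_one {n : ℕ} (i : Fin (n + 1)) (K L : C(Fin (n + 1) → I, W))
    (h : ∀ z, K (ins i 1 z) = L (ins i 0 z)) (z : Fin n → I) :
    glue i K L h (ins i 1 z) = L (ins i 1 z) := by
  rw [glue_apply, ins_same, if_neg (by norm_num), db1_one, update_ins_same]

theorem glue_good {n : ℕ} {i : Fin (n + 1)} {K L : C(Fin (n + 1) → I, W)}
    (hK : Good w K) (hL : Good w L) (h : ∀ z, K (ins i 1 z) = L (ins i 0 z)) :
    Good w (glue i K L h) := by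
  intro y a b hab ha hb
  -- reduce to `b ≠ i`
  wlog hbi : b ≠ i generalizing a b
  · push Not at hbi
    exact this b a hab.symm hb ha (by rw [← hbi]; exact hab)
  by_cases hai : a = i
  · subst hai
    rcases ha with ha | ha
    · rw [glue_apply, ha, if_pos (by simp), db0_zero]
      exact hK _ a b hab (by simp) (by rw [Function.update_of_ne hbi]; exact hb)
    · rw [glue_apply, ha, if_neg (by norm_num), db1_one]
      exact hL _ a b hab (by simp) (by rw [Function.update_of_ne hbi]; exact hb)
  · rw [glue_apply]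
    split_ifs
    · exact hK _ a b hab (by rw [Function.update_of_ne hai]; exact ha)
        (by rw [Function.update_of_ne hbi]; exact hb)
    · exact hL _ a b hab (by rw [Function.update_of_ne hai]; exact ha)
        (by rw [Function.update_of_ne hbi]; exact hb)

theorem glue_face {n : ℕ} {a : Fin (n + 1)} (k : Fin (n + 1)) (p : Fin n) (hkp : k.succAbove p = a)
    {K L : C(Fin (n + 1) → I, W)}
    (hK : Good w K) (hL : Good w L) (h : ∀ z, K (ins a 1 z) = L (ins a 0 z))
    (e : I) (he : e = 0 ∨ e = 1) :
    fc (glue a K L h) (glue_good hK hL h) k e he =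
      GenLoop.transAt p (fc K hK k e he) (fc L hL k e he) := by
  subst hkp
  apply GenLoop.ext
  intro z
  rw [fc_apply, glue_apply, ins_succAbove, update_ins, update_ins]
  rfl

/-! ### the elementary cubes -/

/-- `x ↦ g (.., max (σ x_i) x_{i+1}, ..)` (for `r = σ`) or `g (.., max x_i x_{i+1}, ..)` (for `r = id`) -/
noncomputable def elm {n : ℕ} (i : Fin n) (r : C(I, I)) (g : GenLoop (Fin n) W w) :
    C(Fin (n + 1) → I, W) where
  toFun x := g (Function.update (fun j => x (i.castSucc.succAbove j)) i
    (max (r (x i.castSucc)) (x i.succ)))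
  continuous_toFun := by
    refine g.1.continuous.comp ?_
    refine Continuous.update (continuous_pi fun j => continuous_apply _) i ?_
    have h1 : Continuous fun x : Fin (n + 1) → I => r (x i.castSucc) :=
      r.continuous.comp (continuous_apply _)
    have h2 : Continuous fun x : Fin (n + 1) → I => x i.succ := continuous_apply _
    exact h1.max h2

theorem elm_apply {n : ℕ} (i : Fin n) (r : C(I, I)) (g : GenLoop (Fin n) W w)
    (x : Fin (n + 1) → I) : elm i r g x =
      g (Function.update (fun j => x (i.castSucc.succAbove j)) i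
        (max (r (x i.castSucc)) (x i.succ))) := rfl

/-- endpoint preserving -/
def Bdp (r : C(I, I)) : Prop := ∀ t, (t = 0 ∨ t = 1) → (r t = 0 ∨ r t = 1)

theorem castSucc_succAbove_self {n : ℕ} (i : Fin n) : i.castSucc.succAbove i = i.succ :=
  Fin.succAbove_castSucc_self i

/-- any coordinate other than `i, i+1` on the boundary gives the base point -/
theorem elm_other {n : ℕ} (i : Fin n) (r : C(I, I)) (g : GenLoop (Fin n) W w)
    (x : Fin (n + 1) → I) (a : Fin (n + 1)) (h1 : a ≠ i.castSucc) (h2 : a ≠ i.succ)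
    (ha : x a = 0 ∨ x a = 1) : elm i r g x = w := by
  obtain ⟨j, rfl⟩ := Fin.exists_succAbove_eq h1
  rw [elm_apply]
  refine g.2 _ ⟨j, ?_⟩
  have hj : j ≠ i := by
    rintro rfl
    exact h2 (castSucc_succAbove_self j)
  rw [Function.update_of_ne hj]
  exact ha

theorem elm_good {n : ℕ} (i : Fin n) {r : C(I, I)} (hr : Bdp r) (g : GenLoop (Fin n) W w) :
    Good w (elm i r g) := by
  intro y a b hab ha hb
  by_cases h1 : a ≠ i.castSucc ∧ a ≠ i.succ
  · exact elm_other i r g y a h1.1 h1.2 ha
  by_cases h2 : b ≠ i.castSucc ∧ b ≠ i.succ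
  · exact elm_other i r g y b h2.1 h2.2 hb
  have h3 : (y i.castSucc = 0 ∨ y i.castSucc = 1) ∧ (y i.succ = 0 ∨ y i.succ = 1) := by
    rw [not_and_or, not_not, not_not] at h1 h2
    rcases h1 with rfl | rfl
    · rcases h2 with rfl | rfl
      · exact absurd rfl hab
      · exact ⟨ha, hb⟩
    · rcases h2 with rfl | rfl
      · exact ⟨hb, ha⟩
      · exact absurd rfl hab
  rw [elm_apply]
  refine g.2 _ ⟨i, ?_⟩
  rw [Function.update_self]
  rcases hr _ h3.1 with h4 | h4 <;> rcases h3.2 with h5 | h5 <;> rw [h4, h5] <;> simp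

/-- the face where `r x_i = 0` -/
theorem elm_face_zero {n : ℕ} (i : Fin n) {r : C(I, I)} (g : GenLoop (Fin n) W w) {e : I}
    (he : r e = 0) (z : Fin n → I) : elm i r g (ins i.castSucc e z) = g z := by
  rw [elm_apply]
  congr 1
  have h1 : (fun j => ins i.castSucc e z (i.castSucc.succAbove j)) = z := by
    funext j; simp
  rw [h1, ins_same, he]
  have h2 : ins i.castSucc e z i.succ = z i := by
    have h3 := ins_succAbove i.castSucc e z i
    rwa [castSucc_succAbove_self] at h3
  rw [h2, max_eq_right (unitInterval.nonneg' : (0 : I) ≤ z i)]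
  exact Function.update_eq_self i z

/-- the face where `r x_i = 1` -/
theorem elm_face_one {n : ℕ} (i : Fin n) {r : C(I, I)} (g : GenLoop (Fin n) W w) {e : I}
    (he : r e = 1) (z : Fin n → I) : elm i r g (ins i.castSucc e z) = w := by
  rw [elm_apply]
  refine g.2 _ ⟨i, Or.inr ?_⟩
  rw [Function.update_self, ins_same, he]
  exact max_eq_left le_one'

/-- the face `x_{i+1} = 1` -/
theorem elm_succ_one {n : ℕ} (i : Fin n) (r : C(I, I)) (g : GenLoop (Fin n) W w)
    (z : Fin n → I) : elm i r g (ins i.succ 1 z) = w := by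
  rw [elm_apply]
  refine g.2 _ ⟨i, Or.inr ?_⟩
  rw [Function.update_self, ins_same]
  exact max_eq_right le_one'

theorem succ_succAbove_self {n : ℕ} (i : Fin n) : i.succ.succAbove i = i.castSucc :=
  Fin.succAbove_succ_self i

/-- the face `x_{i+1} = 0` -/
theorem elm_succ_zero {n : ℕ} (i : Fin n) (r : C(I, I)) (g : GenLoop (Fin n) W w)
    (z : Fin n → I) : elm i r g (ins i.succ 0 z) = g (Function.update z i (r (z i))) := by
  rw [elm_apply]
  congr 1
  funext j
  by_cases h : j = i
  · subst h
    rw [Function.update_self, Function.update_self, ins_same]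
    have : ins j.succ 0 z j.castSucc = z j := by
      have h3 := ins_succAbove j.succ 0 z j
      rwa [succ_succAbove_self] at h3
    rw [this]
    exact max_eq_left unitInterval.nonneg'
  · rw [Function.update_of_ne h, Function.update_of_ne h]
    have : i.castSucc.succAbove j = i.succ.succAbove j := by
      rcases lt_or_gt_of_ne h with h1 | h1
      · rw [Fin.succAbove_castSucc_of_lt _ _ h1, Fin.succAbove_succ_of_le _ _ h1.le]
      · rw [Fin.succAbove_castSucc_of_le _ _ h1.le, Fin.succAbove_succ_of_lt _ _ h1]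
    rw [this]
    simp

/-! ### classes -/

def cl {n : ℕ} (f : GenLoop (Fin n) W w) : HomotopyGroup (Fin n) W w := Quotient.mk _ f

theorem cl_eq_iff {n : ℕ} {f g : GenLoop (Fin n) W w} : cl f = cl g ↔ GenLoop.Homotopic f g :=
  Quotient.eq

theorem cl_surj {n : ℕ} (a : HomotopyGroup (Fin n) W w) : ∃ f, cl f = a := Quotient.exists_rep a

section comm

variable {n : ℕ} [Nontrivial (Fin n)]

theorem cl_const : cl (GenLoop.const : GenLoop (Fin n) W w) = 1 := rfl

theorem cl_trans (p : Fin n) (f g : GenLoop (Fin n) W w) :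
    cl (GenLoop.transAt p f g) = cl f * cl g := by
  rw [mul_comm]
  exact (HomotopyGroup.mul_spec (i := p) (p := g) (q := f)).symm

theorem cl_symm (p : Fin n) (f : GenLoop (Fin n) W w) :
    cl (GenLoop.symmAt p f) = (cl f)⁻¹ :=
  (HomotopyGroup.inv_spec (i := p) (p := f)).symm

/-- the alternating product of the faces -/
noncomputable def alt (a : Fin (n + 1) → Bool → GenLoop (Fin n) W w) : HomotopyGroup (Fin n) W w :=
  ∏ k : Fin (n + 1), (cl (a k true) / cl (a k false)) ^ ((-1 : ℤ) ^ (k : ℕ))

def en (b : Bool) : I := if b then 1 else 0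

theorem en_mem (b : Bool) : en b = 0 ∨ en b = 1 := by cases b <;> simp [en]

/-- the family of faces of a good cube -/
def fcs (K : C(Fin (n + 1) → I, W)) (hK : Good w K) (k : Fin (n + 1)) (b : Bool) :
    GenLoop (Fin n) W w := fc K hK k (en b) (en_mem b)

theorem alt_aux {A : Type*} [CommGroup A] (x0 x1 g0 g1 : A) (i : ℕ) :
    (1 / 1 : A) ^ ((-1 : ℤ) ^ i) * (x1 / (g0⁻¹ * x0 * g1)) ^ ((-1 : ℤ) ^ (i + 1)) =
      (g1 / g0) ^ ((-1 : ℤ) ^ i) * (x1 / x0) ^ ((-1 : ℤ) ^ (i + 1)) := by
  have h : x1 / (g0⁻¹ * x0 * g1) = (g1 / g0)⁻¹ * (x1 / x0) := by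
    simp only [div_eq_mul_inv, mul_inv, inv_inv]; ac_rfl
  rw [h, mul_zpow, div_one, one_zpow, one_mul, pow_succ, mul_neg_one, inv_zpow, zpow_neg, inv_inv]

theorem alt_congr_step {a a' : Fin (n + 1) → Bool → GenLoop (Fin n) W w} (i : Fin n)
    (h1 : ∀ k, k ≠ i.castSucc → k ≠ i.succ → ∀ b, cl (a' k b) = cl (a k b))
    (h2 : ∀ b, cl (a' i.castSucc b) = 1)
    (h3 : cl (a' i.succ true) = cl (a i.succ true))
    (h4 : cl (a' i.succ false) = (cl (a i.castSucc false))⁻¹ * cl (a i.succ false) *
      cl (a i.castSucc true)) : alt a' = alt a := by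
  classical
  have hne : i.castSucc ≠ i.succ := (Fin.castSucc_lt_succ).ne
  have key : ∀ b : Fin (n + 1) → Bool → GenLoop (Fin n) W w, alt b =
      (cl (b i.castSucc true) / cl (b i.castSucc false)) ^ ((-1 : ℤ) ^ (i : ℕ)) *
      (cl (b i.succ true) / cl (b i.succ false)) ^ ((-1 : ℤ) ^ ((i : ℕ) + 1)) *
      ∏ k ∈ (Finset.univ.erase i.castSucc).erase i.succ,
        (cl (b k true) / cl (b k false)) ^ ((-1 : ℤ) ^ (k : ℕ)) := by
    intro b
    unfold alt
    rw [← Finset.mul_prod_erase _ _ (Finset.mem_univ i.castSucc),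
      ← Finset.mul_prod_erase _ _ (Finset.mem_erase.2 ⟨hne.symm, Finset.mem_univ i.succ⟩), mul_assoc]
    simp only [Fin.val_castSucc, Fin.val_succ]
  rw [key, key a, h2, h2, h3, h4]
  congr 1
  · exact alt_aux _ _ _ _ _
  · refine Finset.prod_congr rfl fun k hk => ?_
    rw [Finset.mem_erase, Finset.mem_erase] at hk
    rw [h1 k hk.2.1 hk.1, h1 k hk.2.1 hk.1]

omit [Nontrivial (Fin n)] in
theorem transAt_const (p : Fin n) : GenLoop.transAt p (GenLoop.const : GenLoop (Fin n) W w)
    GenLoop.const = GenLoop.const := by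
  apply GenLoop.ext
  intro y
  show (if (y p : ℝ) ≤ 1 / 2 then w else w) = w
  rw [ite_self]

/-- **One step**: the two faces `x_i = 0, 1` are made constant -/
theorem step (i : Fin n) (K : C(Fin (n + 1) → I, W)) (hK : Good w K)
    (hp : ∀ a : Fin (n + 1), a < i.castSucc → ∀ b z, K (ins a (en b) z) = w) :
    ∃ (K' : C(Fin (n + 1) → I, W)) (hK' : Good w K'),
      (∀ a : Fin (n + 1), a < i.succ → ∀ b z, K' (ins a (en b) z) = w) ∧
      alt (fcs K' hK') = alt (fcs K hK) := by
  set a := i.castSucc with ha
  let r0 : C(I, I) := ⟨σ, continuous_symm⟩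
  let r1 : C(I, I) := ContinuousMap.id I
  have hr0 : Bdp r0 := by
    rintro t (rfl | rfl)
    · right; exact symm_zero
    · left; exact symm_one
  have hr1 : Bdp r1 := fun t ht => ht
  let g0 := fcs K hK a false
  let g1 := fcs K hK a true
  let A0 := elm i r0 g0
  let A1 := elm i r1 g1
  have hA0 : Good w A0 := elm_good i hr0 g0
  have hA1 : Good w A1 := elm_good i hr1 g1
  have h1 : ∀ z, K (ins a 1 z) = A1 (ins a 0 z) := by
    intro z
    exact (elm_face_zero i g1 (e := 0) rfl z).symm
  let L := glue a K A1 h1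
  have hL : Good w L := glue_good hK hA1 h1
  have h2 : ∀ z, A0 (ins a 1 z) = L (ins a 0 z) := by
    intro z
    rw [glue_zero]
    exact elm_face_zero i g0 (e := 1) symm_one z
  let K' := glue a A0 L h2
  have hK' : Good w K' := glue_good hA0 hL h2
  -- faces of `K'`
  have f0 : ∀ z, K' (ins a 0 z) = w := by
    intro z
    rw [glue_zero]
    exact elm_face_one i g0 (e := 0) symm_zero z
  have f1 : ∀ z, K' (ins a 1 z) = w := by
    intro z
    rw [glue_one, glue_one]
    exact elm_face_one i g1 (e := 1) rfl z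
  have fab : ∀ b z, K' (ins a (en b) z) = w := by
    intro b
    cases b
    · exact f0
    · exact f1
  have fk : ∀ (k : Fin (n + 1)) (p : Fin n), k.succAbove p = a → ∀ b, fcs K' hK' k b =
      GenLoop.transAt p (fcs A0 hA0 k b) (GenLoop.transAt p (fcs K hK k b) (fcs A1 hA1 k b)) := by
    intro k p hkp b
    have e1 := glue_face k p hkp hA0 hL h2 (en b) (en_mem b)
    have e2 := glue_face k p hkp hK hA1 h1 (en b) (en_mem b)
    unfold fcs
    rw [e1, e2]
  have other : ∀ (k : Fin (n + 1)), k ≠ a → k ≠ i.succ → ∀ b (r : C(I, I)) (g : GenLoop (Fin n) W w)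
      (h : Good w (elm i r g)), fcs (elm i r g) h k b = GenLoop.const := by
    intro k hk1 hk2 b r g h
    apply GenLoop.ext
    intro z
    exact elm_other i r g _ k hk1 hk2 (by rw [ins_same]; exact en_mem b)
  refine ⟨K', hK', ?_, ?_⟩
  · intro k hk b z
    rcases eq_or_ne k a with rfl | hka
    · exact fab b z
    have hlt : k < a := by
      refine lt_of_le_of_ne ?_ hka
      rw [Fin.le_def, ha, Fin.val_castSucc]
      rw [Fin.lt_def, Fin.val_succ] at hk
      omega
    obtain ⟨p, hp'⟩ := Fin.exists_succAbove_eq hka.symm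
    have hks : k ≠ i.succ := ne_of_lt hk
    have h3 : K' (ins k (en b) z) = fcs K' hK' k b z := rfl
    have h4 : fcs K hK k b = GenLoop.const := by
      apply GenLoop.ext
      intro z
      exact hp k hlt b z
    rw [h3, fk k p hp' b, other k hka hks, other k hka hks, h4, transAt_const, transAt_const]
    rfl
  · refine alt_congr_step i ?_ ?_ ?_ ?_
    · intro k hka hks b
      obtain ⟨p, hp'⟩ := Fin.exists_succAbove_eq hka.symm
      rw [fk k p hp', other k hka hks, other k hka hks, cl_trans, cl_trans, cl_const, one_mul, mul_one]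
    · intro b
      have : fcs K' hK' i.castSucc b = GenLoop.const := by
        apply GenLoop.ext
        intro z
        exact fab b z
      rw [this, cl_const]
    · rw [fk i.succ i (succ_succAbove_self i), cl_trans, cl_trans]
      have e0 : fcs A0 hA0 i.succ true = GenLoop.const := GenLoop.ext _ _ (elm_succ_one i r0 g0)
      have e1 : fcs A1 hA1 i.succ true = GenLoop.const := GenLoop.ext _ _ (elm_succ_one i r1 g1)
      rw [e0, e1, cl_const, one_mul, mul_one]
    · rw [fk i.succ i (succ_succAbove_self i), cl_trans, cl_trans]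
      have e0 : fcs A0 hA0 i.succ false = GenLoop.symmAt i g0 := GenLoop.ext _ _ fun z => by
        refine (elm_succ_zero i r0 g0 z).trans ?_
        show g0 _ = g0 _
        congr 1
        funext j
        rw [Function.update_apply]
        rfl
      have e1 : fcs A1 hA1 i.succ false = g1 := GenLoop.ext _ _ fun z => by
        refine (elm_succ_zero i r1 g1 z).trans ?_
        congr 1
        exact Function.update_eq_self i z
      rw [e0, e1, cl_symm, mul_assoc]

/-- the side faces can be made constant -/
theorem steps (K : C(Fin (n + 1) → I, W)) (hK : Good w K) (m : ℕ) (hm : m ≤ n) :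
    ∃ (K' : C(Fin (n + 1) → I, W)) (hK' : Good w K'),
      (∀ a : Fin (n + 1), (a : ℕ) < m → ∀ b z, K' (ins a (en b) z) = w) ∧
      alt (fcs K' hK') = alt (fcs K hK) := by
  induction m with
  | zero => exact ⟨K, hK, fun a ha => absurd ha (Nat.not_lt_zero _), rfl⟩
  | succ m ih =>
    obtain ⟨K1, hK1, h1, h2⟩ := ih (Nat.le_of_succ_le hm)
    obtain ⟨K2, hK2, h3, h4⟩ := step (⟨m, hm⟩ : Fin n) K1 hK1 (fun a ha => h1 a (by
      rw [Fin.lt_def] at ha; exact ha))
    exact ⟨K2, hK2, fun a ha => h3 a (by rw [Fin.lt_def]; exact ha), h4.trans h2⟩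

/-- **homotopy addition for cubes** -/
theorem alt_eq_one (K : C(Fin (n + 1) → I, W)) (hK : Good w K) : alt (fcs K hK) = 1 := by
  obtain ⟨K', hK', h1, h2⟩ := steps K hK n le_rfl
  rw [← h2]
  unfold alt
  refine Finset.prod_eq_one fun k _ => ?_
  have hk : cl (fcs K' hK' k true) = cl (fcs K' hK' k false) := by
    by_cases hkn : (k : ℕ) < n
    · have : fcs K' hK' k true = fcs K' hK' k false := by
        apply GenLoop.ext
        intro z
        exact (h1 k hkn true z).trans (h1 k hkn false z).symm
      rw [this]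
    · have hlast : k = Fin.last n := Fin.ext (by rw [Fin.val_last]; omega)
      subst hlast
      symm
      rw [cl_eq_iff]
      refine ⟨⟨⟨⟨fun p => K' (ins (Fin.last n) p.1 p.2), ?_⟩, ?_, ?_⟩, ?_⟩⟩
      · refine K'.continuous.comp ?_
        refine continuous_pi fun j => ?_
        refine Fin.succAboveCases (Fin.last n) ?_ (fun l => ?_) j
        · simp only [ins_same]; exact continuous_fst
        · simp only [ins_succAbove]; fun_prop
      · intro z; rfl
      · intro z; rfl
      · rintro t z ⟨j, hj⟩
        show K' (ins (Fin.last n) t z) = fcs K' hK' (Fin.last n) false z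
        rw [GenLoop.boundary _ z ⟨j, hj⟩]
        have h3 : (ins (Fin.last n) t z) j.castSucc = z j := by
          have := ins_succAbove (Fin.last n) t z j
          rwa [Fin.succAbove_last] at this
        have h4 : ∃ b, z j = en b := by
          rcases hj with hj | hj
          · exact ⟨false, hj⟩
          · exact ⟨true, hj⟩
        obtain ⟨b, hb⟩ := h4
        rw [eq_ins j.castSucc (ins (Fin.last n) t z), h3, hb]
        exact h1 _ (by rw [Fin.val_castSucc]; exact j.2) b _
  rw [hk, div_self', one_zpow]

end comm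

/-! ### filling -/

theorem isClosed_boundary {N : ℕ} : IsClosed (Cube.boundary (Fin N)) := by
  have : Cube.boundary (Fin N) = ⋃ i : Fin N, {y | y i = 0 ∨ y i = 1} := by
    ext y; simp [Cube.boundary]
  rw [this]
  refine isClosed_iUnion_of_finite fun i => ?_
  exact (isClosed_eq (continuous_apply i) continuous_const).union
    (isClosed_eq (continuous_apply i) continuous_const)

/-- homotopy extension for the cube and its boundary -/
theorem cube_hep {N : ℕ} (K0 : C(Fin N → I, W)) (H : I × (Fin N → I) → W)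
    (hH : ContinuousOn H {p | p.2 ∈ Cube.boundary (Fin N)})
    (h0 : ∀ y ∈ Cube.boundary (Fin N), H (0, y) = K0 y) :
    ∃ U : C(I × (Fin N → I), W), (∀ y, U (0, y) = K0 y) ∧
      ∀ t, ∀ y ∈ Cube.boundary (Fin N), U (t, y) = H (t, y) := by
  classical
  let g : I × (Fin N → I) → W := fun p => if p.2 ∈ Cube.boundary (Fin N) then H p else K0 p.2
  have hcl : IsClosed {p : I × (Fin N → I) | p.2 ∈ Cube.boundary (Fin N)} :=
    isClosed_boundary.preimage continuous_snd
  have hcl0 : IsClosed {p : I × (Fin N → I) | p.1 = 0} := isClosed_eq continuous_fst continuous_const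
  have hg : ContinuousOn g (Box N) := by
    have e : Box N = {p : I × (Fin N → I) | p.1 = 0} ∪
        {p : I × (Fin N → I) | p.2 ∈ Cube.boundary (Fin N)} := rfl
    rw [e]
    refine ContinuousOn.union_of_isClosed ?_ ?_ hcl0 hcl
    · refine (K0.continuous.comp continuous_snd).continuousOn.congr ?_
      rintro ⟨t, y⟩ (rfl : t = 0)
      show (if y ∈ Cube.boundary (Fin N) then H (0, y) else K0 y) = K0 y
      split_ifs with h
      · exact h0 y h
      · rfl
    · refine hH.congr ?_
      rintro p hp
      exact if_pos hp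
  obtain ⟨U, hU⟩ := exists_box_ext g hg
  refine ⟨U, fun y => ?_, fun t y hy => ?_⟩
  · rw [hU _ (Or.inl rfl)]
    show (if y ∈ Cube.boundary (Fin N) then H (0, y) else K0 y) = K0 y
    split_ifs with h
    · exact h0 y h
    · rfl
  · rw [hU _ (Or.inr hy)]
    exact if_pos hy

section fill

variable {n : ℕ}

theorem en_inj {b c : Bool} (h : en b = en c) : b = c := by
  cases b <;> cases c <;> simp_all [en]

theorem exists_en {t : I} (h : t = 0 ∨ t = 1) : ∃ b, t = en b := by
  rcases h with h | h
  · exact ⟨false, h⟩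
  · exact ⟨true, h⟩

open Classical in
/-- the boundary map of a family of faces -/
noncomputable def bmap (w : W) (a : Fin (n + 1) → Bool → GenLoop (Fin n) W w)
    (y : Fin (n + 1) → I) : W :=
  if h : ∃ p : Fin (n + 1) × Bool, y p.1 = en p.2 then
    a h.choose.1 h.choose.2 (fun j => y (h.choose.1.succAbove j)) else w

theorem bmap_eq (a : Fin (n + 1) → Bool → GenLoop (Fin n) W w) (y : Fin (n + 1) → I)
    (k : Fin (n + 1)) (b : Bool) (hy : y k = en b) :
    bmap w a y = a k b (fun j => y (k.succAbove j)) := by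
  have h : ∃ p : Fin (n + 1) × Bool, y p.1 = en p.2 := ⟨(k, b), hy⟩
  unfold bmap
  rw [dif_pos h]
  set q := h.choose with hq
  have hqs : y q.1 = en q.2 := h.choose_spec
  by_cases hk : q.1 = k
  · have hb : q.2 = b := by
      apply en_inj
      rw [← hqs, hk, hy]
    have : q = (k, b) := Prod.ext hk hb
    rw [this]
  · obtain ⟨j, hj⟩ := Fin.exists_succAbove_eq hk
    obtain ⟨j', hj'⟩ := Fin.exists_succAbove_eq (Ne.symm hk)
    rw [GenLoop.boundary (a k b) _ ⟨j, ?_⟩, GenLoop.boundary _ _ ⟨j', ?_⟩]
    · show y (q.1.succAbove j') = 0 ∨ y (q.1.succAbove j') = 1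
      rw [hj', hy]; exact en_mem b
    · show y (k.succAbove j) = 0 ∨ y (k.succAbove j) = 1
      rw [hj, hqs]; exact en_mem _

theorem bmap_continuousOn (a : Fin (n + 1) → Bool → GenLoop (Fin n) W w) :
    ContinuousOn (bmap w a) (Cube.boundary (Fin (n + 1))) := by
  have e : Cube.boundary (Fin (n + 1)) =
      ⋃ p : Fin (n + 1) × Bool, {y : Fin (n + 1) → I | y p.1 = en p.2} := by
    ext y
    simp only [mem_iUnion, Cube.boundary]
    constructor
    · rintro ⟨i, hi⟩
      obtain ⟨b, hb⟩ := exists_en hi
      exact ⟨(i, b), hb⟩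
    · rintro ⟨p, hp⟩
      exact ⟨p.1, by rw [hp]; exact en_mem _⟩
  rw [e]
  refine (locallyFinite_of_finite _).continuousOn_iUnion
    (fun p => isClosed_eq (continuous_apply _) continuous_const) fun p => ?_
  have hc : Continuous fun y : Fin (n + 1) → I => a p.1 p.2 (fun j => y (p.1.succAbove j)) :=
    (a p.1 p.2).1.continuous.comp (continuous_pi fun j => continuous_apply _)
  exact hc.continuousOn.congr fun y hy => bmap_eq a y p.1 p.2 hy

theorem bmap_two (a : Fin (n + 1) → Bool → GenLoop (Fin n) W w) (y : Fin (n + 1) → I)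
    (i j : Fin (n + 1)) (hij : i ≠ j) (hi : y i = 0 ∨ y i = 1) (hj : y j = 0 ∨ y j = 1) :
    bmap w a y = w := by
  obtain ⟨b, hb⟩ := exists_en hi
  rw [bmap_eq a y i b hb]
  obtain ⟨l, hl⟩ := Fin.exists_succAbove_eq hij.symm
  refine GenLoop.boundary _ _ ⟨l, ?_⟩
  show y (i.succAbove l) = 0 ∨ y (i.succAbove l) = 1
  rw [hl]; exact hj

variable [Nontrivial (Fin n)]

/-- **filling**: a family of faces with alternating product one bounds a cube -/
theorem exists_fill (a : Fin (n + 1) → Bool → GenLoop (Fin n) W w) (ha : alt a = 1) :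
    ∃ K : C(Fin (n + 1) → I, W), ∀ y ∈ Cube.boundary (Fin (n + 1)), K y = bmap w a y := by
  classical
  -- the box
  obtain ⟨U, hU⟩ := exists_box_ext (N := n) (fun p => bmap w a (ins 0 p.1 p.2)) (by
    refine (bmap_continuousOn a).comp ?_ ?_
    · refine Continuous.continuousOn ?_
      refine continuous_pi fun j => ?_
      refine Fin.succAboveCases 0 ?_ (fun l => ?_) j
      · simp only [ins_same]; exact continuous_fst
      · simp only [ins_succAbove]; fun_prop
    · rintro p (hp | ⟨j, hp⟩)
      · refine ⟨0, Or.inl ?_⟩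
        show ins 0 p.1 p.2 0 = 0
        rw [ins_same]; exact hp
      · refine ⟨(0 : Fin (n + 1)).succAbove j, ?_⟩
        show ins 0 p.1 p.2 ((0 : Fin (n + 1)).succAbove j) = 0 ∨
          ins 0 p.1 p.2 ((0 : Fin (n + 1)).succAbove j) = 1
        rw [ins_succAbove]; exact hp)
  let K0 : C(Fin (n + 1) → I, W) :=
    U.comp ⟨fun y => (y 0, fun j => y ((0 : Fin (n + 1)).succAbove j)), by fun_prop⟩
  have hK0 : ∀ y, (y 0 = 0 ∨ ∃ j, (y ((0 : Fin (n + 1)).succAbove j) = 0 ∨
      y ((0 : Fin (n + 1)).succAbove j) = 1)) → K0 y = bmap w a y := by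
    intro y hy
    show U (y 0, fun j => y ((0 : Fin (n + 1)).succAbove j)) = _
    rw [hU _ hy]
    show bmap w a (ins 0 (y 0) (fun j => y ((0 : Fin (n + 1)).succAbove j))) = _
    rw [← eq_ins]
  have good : Good w K0 := by
    intro y i j hij hi hj
    wlog h0 : i ≠ 0 generalizing i j
    · push Not at h0
      exact this j i hij.symm hj hi (by rw [← h0]; exact hij.symm)
    obtain ⟨l, hl⟩ := Fin.exists_succAbove_eq h0
    rw [hK0 y (Or.inr ⟨l, by rw [hl]; exact hi⟩), bmap_two a y i j hij hi hj]
  -- the class of the top face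
  have hf : ∀ k b, (k, b) ≠ ((0 : Fin (n + 1)), true) → fcs K0 good k b = a k b := by
    intro k b hkb
    apply GenLoop.ext
    intro z
    show K0 (ins k (en b) z) = _
    rw [hK0, bmap_eq a _ k b (ins_same _ _ _)]
    · congr 1
      funext j
      rw [ins_succAbove]
    · by_cases hk : k = 0
      · subst hk
        left
        rw [ins_same]
        cases b
        · rfl
        · exact absurd rfl hkb
      · right
        obtain ⟨l, hl⟩ := Fin.exists_succAbove_eq hk
        exact ⟨l, by rw [hl, ins_same]; exact en_mem b⟩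
  have htop : cl (fcs K0 good 0 true) = cl (a 0 true) := by
    have h1 := alt_eq_one K0 good
    rw [← ha] at h1
    unfold alt at h1
    rw [Fin.prod_univ_succ, Fin.prod_univ_succ] at h1
    have h2 : ∀ k : Fin n, ∀ b, fcs K0 good k.succ b = a k.succ b := fun k b =>
      hf _ _ (fun h => Fin.succ_ne_zero k (Prod.ext_iff.1 h).1)
    simp only [h2] at h1
    have h3 := mul_right_cancel h1
    rw [hf 0 false (by simp)] at h3
    simpa using h3
  rw [cl_eq_iff] at htop
  obtain ⟨H⟩ := htop
  -- change the top face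
  have htl : ∀ y : Fin (n + 1) → I, y = ins 0 (y 0) (fun j => y ((0 : Fin (n + 1)).succAbove j)) :=
    eq_ins 0
  have hH0 : ∀ t (z : Fin n → I), z ∈ Cube.boundary (Fin n) → H (t, z) = w := by
    intro t z hz
    rw [H.eq_fst t hz]
    exact GenLoop.boundary _ z hz
  obtain ⟨V, hV0, hV⟩ := cube_hep K0
    (fun p => if p.2 0 = 1 then H (p.1, fun j => p.2 ((0 : Fin (n + 1)).succAbove j)) else K0 p.2) (by
      have e : {p : I × (Fin (n + 1) → I) | p.2 ∈ Cube.boundary (Fin (n + 1))} ⊆
          {p : I × (Fin (n + 1) → I) | p.2 0 = 1} ∪ {p : I × (Fin (n + 1) → I) | p.2 0 = 0 ∨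
            (fun j => p.2 ((0 : Fin (n + 1)).succAbove j)) ∈ Cube.boundary (Fin n)} := by
        rintro p ⟨i, hi⟩
        by_cases h0 : i = 0
        · subst h0
          rcases hi with hi | hi
          · exact Or.inr (Or.inl hi)
          · exact Or.inl hi
        · obtain ⟨l, hl⟩ := Fin.exists_succAbove_eq h0
          refine Or.inr (Or.inr ⟨l, ?_⟩)
          show p.2 ((0 : Fin (n + 1)).succAbove l) = 0 ∨ p.2 ((0 : Fin (n + 1)).succAbove l) = 1
          rw [hl]; exact hi
      refine ContinuousOn.mono ?_ e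
      refine ContinuousOn.union_of_isClosed ?_ ?_ ?_ ?_
      · have hc : Continuous fun p : I × (Fin (n + 1) → I) =>
            H (p.1, fun j => p.2 ((0 : Fin (n + 1)).succAbove j)) := by
          refine H.continuous.comp ?_
          fun_prop
        exact hc.continuousOn.congr fun p hp => if_pos hp
      · have hc : Continuous fun p : I × (Fin (n + 1) → I) => K0 p.2 :=
          K0.continuous.comp continuous_snd
        refine hc.continuousOn.congr fun p hp => ?_
        show (if p.2 0 = 1 then _ else _) = _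
        split_ifs with h
        · rcases hp with hp | hp
          · rw [hp] at h; exact absurd h zero_ne_one
          · rw [hH0 _ _ hp]
            obtain ⟨l, hl⟩ := hp
            exact (good p.2 0 _ (Fin.succAbove_ne 0 l).symm (Or.inr h) hl).symm
        · rfl
      · exact isClosed_eq (by fun_prop) continuous_const
      · refine IsClosed.union (isClosed_eq (by fun_prop) continuous_const) ?_
        exact isClosed_boundary.preimage (by fun_prop)) (by
      intro y hy
      show (if y 0 = 1 then _ else _) = _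
      split_ifs with h
      · rw [H.apply_zero]
        show K0 (ins 0 1 _) = K0 y
        rw [← h, ← htl]
      · rfl)
  refine ⟨V.comp ⟨fun y => ((1 : I), y), by fun_prop⟩, fun y hy => ?_⟩
  show V (1, y) = _
  rw [hV 1 y hy]
  show (if y 0 = 1 then _ else _) = _
  split_ifs with h
  · rw [bmap_eq a y 0 true h, H.apply_one]
    rfl
  · refine hK0 y ?_
    obtain ⟨i, hi⟩ := hy
    by_cases h0 : i = 0
    · subst h0
      rcases hi with hi | hi
      · exact Or.inl hi
      · exact absurd hi h
    · obtain ⟨l, hl⟩ := Fin.exists_succAbove_eq h0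
      exact Or.inr ⟨l, by rw [hl]; exact hi⟩

end fill

end Crest.Agent.R185.Hur
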