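import Crest.Agent.R185.Hur2
import Crest.Agent.R185.BldDefs

/-!
# Row 185, T6: the parametrisation of a simplex by a cube and the extension lemma
-/

set_option autoImplicit false
set_option linter.unusedSectionVars false

open Set Metric Topology unitInterval

namespace Crest.Agent.R185.Hur

/-- barycentric weights -/
noncomputable def wt : ∀ {k : ℕ}, (Fin k → I) → Fin (k + 1) → ℝ
  | 0, _ => fun _ => 1
  | _ + 1, x => Fin.cons (1 - (x 0 : ℝ)) (fun i => (x 0 : ℝ) * wt (fun j => x j.succ) i)

theorem wt_base (x : Fin 0 → I) (i : Fin 1) : wt x i = 1 := rfl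

theorem wt_zero {k : ℕ} (x : Fin (k + 1) → I) : wt x 0 = 1 - (x 0 : ℝ) := rfl

theorem wt_succ {k : ℕ} (x : Fin (k + 1) → I) (i : Fin (k + 1)) :
    wt x i.succ = (x 0 : ℝ) * wt (fun j => x j.succ) i := rfl

theorem wt_nonneg {k : ℕ} (x : Fin k → I) (i : Fin (k + 1)) : 0 ≤ wt x i := by
  induction k with
  | zero => exact zero_le_one
  | succ k ih =>
    refine Fin.cases ?_ (fun j => ?_) i
    · rw [wt_zero]; linarith [(x 0).2.2]
    · rw [wt_succ]; exact mul_nonneg (x 0).2.1 (ih _ _)

theorem wt_sum {k : ℕ} (x : Fin k → I) : ∑ i, wt x i = 1 := by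
  induction k with
  | zero => simp [wt_base]
  | succ k ih =>
    rw [Fin.sum_univ_succ, wt_zero]
    simp only [wt_succ]
    rw [← Finset.mul_sum, ih]
    ring

theorem continuous_wt {k : ℕ} (i : Fin (k + 1)) : Continuous fun x : Fin k → I => wt x i := by
  induction k with
  | zero => exact continuous_const
  | succ k ih =>
    refine Fin.cases ?_ (fun j => ?_) i
    · simp only [wt_zero]; fun_prop
    · simp only [wt_succ]
      refine Continuous.mul (by fun_prop) ((ih j).comp ?_)
      fun_prop

/-- the interior is mapped to the interior -/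
theorem wt_pos {k : ℕ} (x : Fin k → I) (h : x ∉ Cube.boundary (Fin k)) (i : Fin (k + 1)) :
    0 < wt x i := by
  induction k with
  | zero => exact zero_lt_one
  | succ k ih =>
    have h0 : x 0 ≠ 0 ∧ x 0 ≠ 1 := by
      constructor
      · intro h1; exact h ⟨0, Or.inl h1⟩
      · intro h1; exact h ⟨0, Or.inr h1⟩
    refine Fin.cases ?_ (fun j => ?_) i
    · rw [wt_zero, sub_pos]
      exact lt_of_le_of_ne (x 0).2.2 fun h1 => h0.2 (Subtype.ext h1)
    · rw [wt_succ]
      refine mul_pos (lt_of_le_of_ne (x 0).2.1 fun h1 => h0.1 (Subtype.ext h1.symm)) (ih _ ?_ _)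
      rintro ⟨j, hj⟩
      exact h ⟨j.succ, hj⟩

/-- zero coordinates -/
theorem wt_eq_zero_of_zero {k : ℕ} (x : Fin k → I) (j : Fin k) (h : x j = 0) (i : Fin (k + 1))
    (hi : (j : ℕ) < i) : wt x i = 0 := by
  induction k with
  | zero => exact j.elim0
  | succ k ih =>
    revert hi
    refine Fin.cases (fun hi => absurd hi (Nat.not_lt_zero _)) (fun l hi => ?_) i
    rw [wt_succ]
    revert h hi
    refine Fin.cases (fun h _ => ?_) (fun j' h hi => ?_) j
    · rw [h]; simp
    · rw [ih _ j' h l (by simpa using hi), mul_zero]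

/-- one coordinates -/
theorem wt_eq_zero_of_one {k : ℕ} (x : Fin k → I) (j : Fin k) (h : x j = 1) :
    wt x j.castSucc = 0 := by
  induction k with
  | zero => exact j.elim0
  | succ k ih =>
    revert h
    refine Fin.cases (fun h => ?_) (fun j' h => ?_) j
    · rw [Fin.castSucc_zero, wt_zero, h]; simp
    · rw [Fin.castSucc_succ, wt_succ, ih _ j' h, mul_zero]

/-- the face `x_j = 1` -/
theorem wt_ins_one {k : ℕ} (j : Fin (k + 1)) (z : Fin k → I) (i : Fin (k + 1)) :
    wt (ins j 1 z) (j.castSucc.succAbove i) = wt z i := by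
  induction k with
  | zero =>
    have hj : j = 0 := Fin.ext (by omega)
    have hi : i = 0 := Fin.ext (by omega)
    subst hj hi
    show wt (ins 0 1 z) ((0 : Fin 2).succAbove 0) = _
    rw [Fin.succAbove_zero, wt_succ, ins_same, wt_base, wt_base]
    simp
  | succ k ih =>
    revert i
    refine Fin.cases (fun i => ?_) (fun j' i => ?_) j
    · rw [Fin.castSucc_zero, Fin.succAbove_zero, wt_succ, ins_same]
      have : (fun l : Fin (k + 1) => ins 0 1 z l.succ) = z := by
        funext l
        have := ins_succAbove 0 1 z l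
        rwa [Fin.succAbove_zero] at this
      rw [this]; simp
    · have h0 : ins j'.succ 1 z 0 = z 0 := by
        have := ins_succAbove j'.succ 1 z 0
        rwa [Fin.succ_succAbove_zero] at this
      have h1 : (fun l : Fin (k + 1) => ins j'.succ 1 z l.succ) = ins j' 1 (fun l => z l.succ) := by
        symm
        rw [ins_eq_iff]
        constructor
        · rw [ins_same]
        · intro l
          have := ins_succAbove j'.succ 1 z l.succ
          rw [Fin.succ_succAbove_succ] at this
          exact this.symm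
      rw [Fin.castSucc_succ]
      refine Fin.cases ?_ (fun i' => ?_) i
      · rw [Fin.succ_succAbove_zero, wt_zero, wt_zero, h0]
      · rw [Fin.succ_succAbove_succ, wt_succ, wt_succ, h0, h1, ih]

/-- the face `x_last = 0` -/
theorem wt_ins_zero {k : ℕ} (z : Fin k → I) (i : Fin (k + 1)) :
    wt (ins (Fin.last k) 0 z) i.castSucc = wt z i := by
  induction k with
  | zero =>
    have hi : i = 0 := Fin.ext (by omega)
    subst hi
    show wt (ins 0 0 z) 0 = _
    rw [wt_zero, ins_same, wt_base]
    simp
  | succ k ih =>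
    have h0 : ins (Fin.last (k + 1)) 0 z 0 = z 0 := by
      have := ins_succAbove (Fin.last (k + 1)) 0 z 0
      rwa [Fin.succAbove_last, Fin.castSucc_zero] at this
    have h1 : (fun l : Fin (k + 1) => ins (Fin.last (k + 1)) 0 z l.succ) =
        ins (Fin.last k) 0 (fun l => z l.succ) := by
      symm
      rw [ins_eq_iff]
      constructor
      · rw [Fin.succ_last, ins_same]
      · intro l
        have := ins_succAbove (Fin.last (k + 1)) 0 z l.succ
        rw [Fin.succAbove_last, Fin.castSucc_succ] at this
        rw [Fin.succAbove_last]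
        exact this.symm
    refine Fin.cases ?_ (fun i' => ?_) i
    · rw [Fin.castSucc_zero, wt_zero, wt_zero, h0]
    · rw [Fin.castSucc_succ, wt_succ, wt_succ, h0, h1, ih]

/-- every point is hit -/
theorem exists_wt {k : ℕ} (p : Fin (k + 1) → ℝ) (h0 : ∀ i, 0 ≤ p i) (h1 : ∑ i, p i = 1) :
    ∃ x : Fin k → I, wt x = p := by
  induction k with
  | zero =>
    refine ⟨fun i => 0, funext fun i => ?_⟩
    rw [wt_base]
    have : i = 0 := Fin.ext (by omega)
    subst this
    simpa using h1.symm
  | succ k ih =>
    rw [Fin.sum_univ_succ] at h1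
    have hs : 0 ≤ ∑ i : Fin (k + 1), p i.succ := Finset.sum_nonneg fun i _ => h0 _
    let t : I := ⟨1 - p 0, by linarith, by linarith [h0 0]⟩
    have ht : (t : ℝ) = ∑ i : Fin (k + 1), p i.succ := by
      show 1 - p 0 = _; linarith
    by_cases hz : (t : ℝ) = 0
    · refine ⟨Fin.cons t fun _ => 0, funext fun i => ?_⟩
      refine Fin.cases ?_ (fun j => ?_) i
      · rw [wt_zero, Fin.cons_zero]; show 1 - (1 - p 0) = _; ring
      · rw [wt_succ, Fin.cons_zero, hz, zero_mul]
        rw [hz] at ht
        exact ((Finset.sum_eq_zero_iff_of_nonneg fun i _ => h0 _).1 ht.symm j (Finset.mem_univ _)).symm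
    · obtain ⟨x, hx⟩ := ih (fun i => p i.succ / t) (fun i => div_nonneg (h0 _) t.2.1) (by
        rw [← Finset.sum_div, ← ht, div_self hz])
      refine ⟨Fin.cons t x, funext fun i => ?_⟩
      refine Fin.cases ?_ (fun j => ?_) i
      · rw [wt_zero, Fin.cons_zero]; show 1 - (1 - p 0) = _; ring
      · rw [wt_succ, Fin.cons_zero]
        simp only [Fin.cons_succ]
        rw [hx]
        field_simp

/-- injectivity over the interior -/
theorem wt_inj {k : ℕ} (x y : Fin k → I) (h : wt x = wt y) (hp : ∀ i, 0 < wt x i) : x = y := by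
  induction k with
  | zero => exact Subsingleton.elim _ _
  | succ k ih =>
    have h0 : x 0 = y 0 := by
      have := congrFun h 0
      rw [wt_zero, wt_zero] at this
      exact Subtype.ext (by linarith)
    have hx0 : (x 0 : ℝ) ≠ 0 := by
      intro h1
      have := hp (Fin.succ 0)
      rw [wt_succ, h1, zero_mul] at this
      exact lt_irrefl _ this
    have ht : (fun j => x (Fin.succ j)) = fun j => y (Fin.succ j) := by
      refine ih _ _ ?_ ?_
      · funext i
        have := congrFun h i.succ
        rw [wt_succ, wt_succ, ← h0] at this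
        exact mul_left_cancel₀ hx0 this
      · intro i
        have := hp i.succ
        rw [wt_succ] at this
        exact pos_of_mul_pos_right this (x 0).2.1
    funext i
    refine Fin.cases h0 (fun j => ?_) i
    exact congrFun ht j

/-- the weights as a finitely supported function -/
noncomputable def wtF {k : ℕ} (x : Fin k → I) : Fin (k + 1) →₀ ℝ :=
  Finsupp.equivFunOnFinite.symm (wt x)

@[simp] theorem wtF_apply {k : ℕ} (x : Fin k → I) (i : Fin (k + 1)) : wtF x i = wt x i := rfl

theorem wtF_ins_one {k : ℕ} (j : Fin (k + 1)) (z : Fin k → I) :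
    wtF (ins j 1 z) = Finsupp.mapDomain j.castSucc.succAbove (wtF z) := by
  ext a
  by_cases ha : a = j.castSucc
  · subst ha
    rw [Finsupp.mapDomain_of_notMem_range, wtF_apply, wt_eq_zero_of_one _ _ (ins_same _ _ _)]
    rintro ⟨i, hi⟩
    exact Fin.succAbove_ne _ _ hi
  · obtain ⟨i, rfl⟩ := Fin.exists_succAbove_eq ha
    rw [Finsupp.mapDomain_apply Fin.succAbove_right_injective, wtF_apply, wtF_apply, wt_ins_one]

theorem wtF_ins_zero {k : ℕ} (z : Fin k → I) :
    wtF (ins (Fin.last k) 0 z) = Finsupp.mapDomain (Fin.last (k + 1)).succAbove (wtF z) := by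
  ext a
  by_cases ha : a = Fin.last (k + 1)
  · subst ha
    rw [Finsupp.mapDomain_of_notMem_range, wtF_apply,
      wt_eq_zero_of_zero _ (Fin.last k) (ins_same _ _ _) _ (by simp)]
    rintro ⟨i, hi⟩
    exact Fin.succAbove_ne _ _ hi
  · obtain ⟨i, rfl⟩ := Fin.exists_succAbove_eq ha
    rw [Finsupp.mapDomain_apply Fin.succAbove_right_injective, wtF_apply, wtF_apply,
      Fin.succAbove_last, wt_ins_zero]

end Crest.Agent.R185.Hur
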