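import Crest.Agent.R185.Hur3

/-!
# Row 185, T6: levelled complexes and the extension lemma
-/

set_option autoImplicit false
set_option linter.unusedSectionVars false

open Set Metric Topology
open Crest.Agent.R185.Bld

local notation "I" => unitInterval

namespace Crest.Agent.R185.Hur

variable {V : Type}

/-- skeleton: at most `m` vertices -/
def sk (m : ℕ) (K : Cx V) : Cx V where
  s := {σ | σ ∈ K.s ∧ σ.card ≤ m}
  down := fun hσ hτ hne => ⟨K.down hσ.1 hτ hne, (Finset.card_le_card hτ).trans hσ.2⟩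
  lf := fun v => (K.lf v).subset fun _ ⟨σ, hσ, h⟩ => ⟨σ, hσ.1, h⟩

/-- the level function is injective on simplices -/
def Lev (K : Cx V) (ℓ : V → ℕ) : Prop := ∀ σ ∈ K.s, ∀ a ∈ σ, ∀ b ∈ σ, ℓ a = ℓ b → a = b

/-- ordered simplices -/
def Os (K : Cx V) (ℓ : V → ℕ) {k : ℕ} (v : Fin (k + 1) → V) : Prop :=
  StrictMono (ℓ ∘ v) ∧ ∀ σ : Finset V, σ.Nonempty → (∀ a ∈ σ, ∃ i, v i = a) → σ ∈ K.s

theorem Os.inj {K : Cx V} {ℓ : V → ℕ} {k : ℕ} {v : Fin (k + 1) → V} (h : Os K ℓ v) :
    Function.Injective v := fun _ _ hab => h.1.injective (congrArg ℓ hab)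

theorem Os.face {K : Cx V} {ℓ : V → ℕ} {k : ℕ} {v : Fin (k + 2) → V} (h : Os K ℓ v)
    (j : Fin (k + 2)) : Os K ℓ (v ∘ j.succAbove) := by
  refine ⟨h.1.comp (Fin.strictMono_succAbove j), fun σ hσ hv => h.2 σ hσ fun a ha => ?_⟩
  obtain ⟨i, hi⟩ := hv a ha
  exact ⟨_, hi⟩

theorem Os.mono {K K' : Cx V} (hK : K.s ⊆ K'.s) {ℓ : V → ℕ} {k : ℕ} {v : Fin (k + 1) → V}
    (h : Os K ℓ v) : Os K' ℓ v := ⟨h.1, fun σ hσ hv => hK (h.2 σ hσ hv)⟩

/-- every simplex with `k+1` vertices is ordered -/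
theorem exists_os {K : Cx V} {ℓ : V → ℕ} (hK : Lev K ℓ) {k : ℕ} {σ : Finset V} (hσ : σ ∈ K.s)
    (hc : σ.card = k + 1) : ∃ v : Fin (k + 1) → V, Os K ℓ v ∧ ∀ a, a ∈ σ ↔ ∃ i, v i = a := by
  classical
  have hinj : Set.InjOn ℓ σ := fun a ha b hb => hK σ hσ a ha b hb
  have hc' : (σ.image ℓ).card = k + 1 := by rw [Finset.card_image_of_injOn hinj, hc]
  have hex : ∀ i : Fin (k + 1), ∃ a ∈ σ, ℓ a = (σ.image ℓ).orderEmbOfFin hc' i := fun i =>
    Finset.mem_image.1 (Finset.orderEmbOfFin_mem _ hc' i)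
  choose v hv1 hv2 using hex
  have hmono : StrictMono (ℓ ∘ v) := by
    intro i j hij
    show ℓ (v i) < ℓ (v j)
    rw [hv2, hv2]
    exact ((σ.image ℓ).orderEmbOfFin hc').strictMono hij
  have hr : ∀ a, a ∈ σ ↔ ∃ i, v i = a := by
    intro a
    constructor
    · intro ha
      have h1 : ℓ a ∈ Set.range ((σ.image ℓ).orderEmbOfFin hc') := by
        rw [Finset.range_orderEmbOfFin]
        exact Finset.mem_coe.2 (Finset.mem_image_of_mem ℓ ha)
      obtain ⟨i, hi⟩ := h1
      exact ⟨i, hinj (hv1 i) ha ((hv2 i).trans hi)⟩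
    · rintro ⟨i, rfl⟩
      exact hv1 i
  refine ⟨v, ⟨hmono, fun τ hτ h => K.down hσ (fun a ha => ?_) hτ⟩, hr⟩
  exact (hr a).2 (h a ha)

theorem os_unique {K K' : Cx V} {ℓ : V → ℕ} (hK : Lev K ℓ) {k : ℕ} {v v' : Fin (k + 1) → V}
    (h : Os K ℓ v) (h' : Os K' ℓ v') (hr : ∀ a, (∃ i, v i = a) ↔ ∃ i, v' i = a) : v = v' := by
  classical
  have h1 : ℓ ∘ v = ℓ ∘ v' := by
    refine (StrictMono.range_inj h.1 h'.1).1 ?_
    ext m
    constructor
    · rintro ⟨i, rfl⟩
      obtain ⟨j, hj⟩ := (hr (v i)).1 ⟨i, rfl⟩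
      exact ⟨j, congrArg ℓ hj⟩
    · rintro ⟨i, rfl⟩
      obtain ⟨j, hj⟩ := (hr (v' i)).2 ⟨i, rfl⟩
      exact ⟨j, congrArg ℓ hj⟩
  funext i
  have hσ : Finset.univ.image v ∈ K.s := h.2 _ ⟨v 0, by simp⟩ (fun a ha => by simpa using ha)
  obtain ⟨j, hj⟩ := (hr (v' i)).2 ⟨i, rfl⟩
  refine hK _ hσ _ (by simp) _ ?_ (congrFun h1 i)
  rw [← hj]; simp

/-- the point with weights `x` -/
noncomputable def ptm {k : ℕ} (v : Fin (k + 1) → V) (x : Fin k → I) : V →₀ ℝ :=
  Finsupp.mapDomain v (wtF x)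

theorem ptm_nn {k : ℕ} {v : Fin (k + 1) → V} (hv : Function.Injective v) (x : Fin k → I) (a : V) :
    0 ≤ ptm v x a := by
  unfold ptm
  by_cases h : a ∈ Set.range v
  · obtain ⟨i, rfl⟩ := h
    rw [Finsupp.mapDomain_apply hv]
    exact wt_nonneg x i
  · rw [Finsupp.mapDomain_of_notMem_range _ _ h]

theorem ptm_tot {k : ℕ} (v : Fin (k + 1) → V) (x : Fin k → I) :
    ((ptm v x).sum fun _ a => a) = 1 := by
  unfold ptm
  rw [Finsupp.sum_mapDomain_index (fun _ => rfl) (fun _ _ _ => rfl),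
    Finsupp.sum_fintype _ _ (fun _ => rfl)]
  exact wt_sum x

theorem ptm_support {k : ℕ} (v : Fin (k + 1) → V) (x : Fin k → I) (a : V)
    (ha : a ∈ (ptm v x).support) : ∃ i, v i = a := by
  by_contra h
  rw [Finsupp.mem_support_iff] at ha
  exact ha (Finsupp.mapDomain_of_notMem_range _ _ h)

theorem ptm_nonempty {k : ℕ} (v : Fin (k + 1) → V) (x : Fin k → I) :
    (ptm v x).support.Nonempty := by
  rw [Finset.nonempty_iff_ne_empty]
  intro h
  rw [Finsupp.support_eq_empty] at h
  have := ptm_tot v x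
  rw [h, Finsupp.sum_zero_index] at this
  exact zero_ne_one this

theorem ptm_card {k : ℕ} (v : Fin (k + 1) → V) (x : Fin k → I) : (ptm v x).support.card ≤ k + 1 := by
  classical
  refine (Finset.card_le_card (t := Finset.univ.image v) fun a ha => ?_).trans
    (Finset.card_image_le.trans (by simp))
  obtain ⟨i, hi⟩ := ptm_support v x a ha
  simp only [Finset.mem_image, Finset.mem_univ, true_and]
  exact ⟨i, hi⟩

/-- boundary points have small support -/
theorem ptm_card_boundary {k : ℕ} {v : Fin (k + 1) → V} (hv : Function.Injective v) (x : Fin k → I)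
    (hx : x ∈ Cube.boundary (Fin k)) : (ptm v x).support.card ≤ k := by
  classical
  obtain ⟨j, hj⟩ := hx
  have : ∃ i : Fin (k + 1), wt x i = 0 := by
    rcases hj with hj | hj
    · exact ⟨j.succ, wt_eq_zero_of_zero x j hj _ (by simp)⟩
    · exact ⟨_, wt_eq_zero_of_one x j hj⟩
  obtain ⟨i, hi⟩ := this
  have hc : ((Finset.univ.erase i).image v).card ≤ k := Finset.card_image_le.trans (by simp)
  refine (Finset.card_le_card fun a ha => ?_).trans hc
  obtain ⟨l, hl⟩ := ptm_support v x a ha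
  rw [Finset.mem_image]
  refine ⟨l, Finset.mem_erase.2 ⟨?_, Finset.mem_univ _⟩, hl⟩
  rintro rfl
  rw [Finsupp.mem_support_iff, ← hl] at ha
  exact ha ((Finsupp.mapDomain_apply hv _ _).trans hi)

theorem ptm_card_zero {k : ℕ} {v : Fin (k + 1) → V} (hv : Function.Injective v) (x : Fin k → I)
    (j : Fin k) (hj : x j = 0) : (ptm v x).support.card ≤ (j : ℕ) + 1 := by
  classical
  have hc : ((Finset.univ.filter fun i : Fin (k + 1) => (i : ℕ) ≤ j).image v).card ≤ (j : ℕ) + 1 := by
    refine Finset.card_image_le.trans ?_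
    have : (Finset.univ.filter fun i : Fin (k + 1) => (i : ℕ) ≤ j).card ≤
        (Finset.range ((j : ℕ) + 1)).card := by
      refine Finset.card_le_card_of_injOn (fun i => (i : ℕ)) ?_ ?_
      · intro i hi
        simp only [Finset.coe_filter, Finset.mem_univ, true_and, mem_ofPred_eq] at hi
        simp only [Finset.coe_range, mem_Iio]
        omega
      · intro a _ b _ hab
        exact Fin.ext hab
    simpa using this
  refine (Finset.card_le_card fun a ha => ?_).trans hc
  obtain ⟨l, hl⟩ := ptm_support v x a ha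
  rw [Finset.mem_image]
  refine ⟨l, Finset.mem_filter.2 ⟨Finset.mem_univ _, ?_⟩, hl⟩
  by_contra hlt
  push Not at hlt
  rw [Finsupp.mem_support_iff, ← hl] at ha
  exact ha ((Finsupp.mapDomain_apply hv _ _).trans (wt_eq_zero_of_zero x j hj l hlt))

theorem ptm_ins_one {k : ℕ} (v : Fin (k + 2) → V) (j : Fin (k + 1)) (z : Fin k → I) :
    ptm v (ins j 1 z) = ptm (v ∘ j.castSucc.succAbove) z := by
  unfold ptm
  rw [wtF_ins_one, ← Finsupp.mapDomain_comp]

theorem ptm_ins_zero {k : ℕ} (v : Fin (k + 2) → V) (z : Fin k → I) :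
    ptm v (ins (Fin.last k) 0 z) = ptm (v ∘ (Fin.last (k + 1)).succAbove) z := by
  unfold ptm
  rw [wtF_ins_zero, ← Finsupp.mapDomain_comp]

theorem ptm_mem {K : Cx V} {ℓ : V → ℕ} {k : ℕ} {v : Fin (k + 1) → V} (h : Os K ℓ v)
    (x : Fin k → I) : (ptm v x).support ∈ K.s :=
  h.2 _ (ptm_nonempty v x) (ptm_support v x)

theorem continuous_ptm {k : ℕ} {v : Fin (k + 1) → V} (hv : Function.Injective v) (a : V) :
    Continuous fun x : Fin k → I => ptm v x a := by
  unfold ptm
  by_cases h : a ∈ Set.range v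
  · obtain ⟨i, rfl⟩ := h
    simp only [Finsupp.mapDomain_apply hv]
    exact continuous_wt i
  · simp only [Finsupp.mapDomain_of_notMem_range _ _ h]
    exact continuous_const

/-- the characteristic map of an ordered simplex -/
noncomputable def pt {K : Cx V} {ℓ : V → ℕ} {k : ℕ} (v : Fin (k + 1) → V) (h : Os K ℓ v) (m : ℕ)
    (hm : k + 1 ≤ m) : C(Fin k → I, (sk m K).R) where
  toFun x := ⟨ptm v x, ptm_nn h.inj x, ptm_tot v x, ptm_mem h x, (ptm_card v x).trans hm⟩
  continuous_toFun := Cx.continuous_iff_eval.2 fun a => continuous_ptm h.inj a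

theorem pt_m {K : Cx V} {ℓ : V → ℕ} {k : ℕ} (v : Fin (k + 1) → V) (h : Os K ℓ v) (m : ℕ)
    (hm : k + 1 ≤ m) (x : Fin k → I) : (pt v h m hm x).m = ptm v x := rfl

/-- every point is on some simplex -/
theorem exists_ptm {K : Cx V} {ℓ : V → ℕ} (hK : Lev K ℓ) {k m : ℕ} (p : (sk m K).R)
    (hp : p.m.support.card = k + 1) : ∃ v : Fin (k + 1) → V, Os K ℓ v ∧ ∃ x, p.m = ptm v x := by
  classical
  obtain ⟨v, hv, hr⟩ := exists_os hK p.mem.1 hp
  refine ⟨v, hv, ?_⟩
  obtain ⟨x, hx⟩ := exists_wt (fun i => p (v i)) (fun i => p.nn _) (by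
    have h1 := p.sum_eq (T := Finset.univ.image v) (fun a ha => by
      obtain ⟨i, hi⟩ := (hr a).1 ha
      simp only [Finset.mem_image, Finset.mem_univ, true_and]
      exact ⟨i, hi⟩)
    rwa [Finset.sum_image fun a _ b _ hab => hv.inj hab] at h1)
  refine ⟨x, Finsupp.ext fun a => ?_⟩
  unfold ptm
  by_cases h : a ∈ Set.range v
  · obtain ⟨i, rfl⟩ := h
    rw [Finsupp.mapDomain_apply hv.inj, wtF_apply, hx]
  · rw [Finsupp.mapDomain_of_notMem_range _ _ h]
    by_contra h1
    exact h ((hr a).1 (Finsupp.mem_support_iff.2 h1))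

/-- uniqueness over the interior -/
theorem ptm_unique {K K' : Cx V} {ℓ : V → ℕ} (hK : Lev K ℓ) {k : ℕ} {v v' : Fin (k + 1) → V}
    (h : Os K ℓ v) (h' : Os K' ℓ v') {x x' : Fin k → I} (he : ptm v x = ptm v' x')
    (hc : (ptm v x).support.card = k + 1) : v = v' ∧ x = x' := by
  classical
  -- full support
  have full : ∀ (v : Fin (k + 1) → V), Function.Injective v → ∀ x,
      (ptm v x).support.card = k + 1 → ∀ a, a ∈ (ptm v x).support ↔ ∃ i, v i = a := by
    intro v hv x hc a
    have hsub : (ptm v x).support ⊆ Finset.univ.image v := fun a ha => by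
      obtain ⟨i, hi⟩ := ptm_support v x a ha
      simp only [Finset.mem_image, Finset.mem_univ, true_and]
      exact ⟨i, hi⟩
    have := Finset.eq_of_subset_of_card_le hsub (by
      rw [hc, Finset.card_image_of_injective _ hv]; simp)
    rw [this]; simp
  have hv : v = v' := os_unique hK h h' fun a => by
    rw [← full v h.inj x hc a, he, full v' h'.inj x' (he ▸ hc) a]
  subst hv
  refine ⟨rfl, ?_⟩
  have hw : wt x = wt x' := by
    funext i
    have := DFunLike.congr_fun he (v i)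
    unfold ptm at this
    rwa [Finsupp.mapDomain_apply h.inj, Finsupp.mapDomain_apply h.inj] at this
  refine wt_inj x x' hw fun i => ?_
  have h1 : v i ∈ (ptm v x).support := (full v h.inj x hc _).2 ⟨i, rfl⟩
  rw [Finsupp.mem_support_iff] at h1
  unfold ptm at h1
  rw [Finsupp.mapDomain_apply h.inj] at h1
  exact lt_of_le_of_ne (wt_nonneg x i) (Ne.symm h1)

/-- a map on the image of a compact space is continuous if it is so upstairs -/
theorem continuousOn_range {A B C : Type*} [TopologicalSpace A] [CompactSpace A]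
    [TopologicalSpace B] [T2Space B] [TopologicalSpace C] (Q : A → B) (hQ : Continuous Q)
    (f : B → C) (hf : Continuous fun a => f (Q a)) : ContinuousOn f (Set.range Q) := by
  rw [continuousOn_iff_continuous_domRestrict]
  have h1 : Continuous (Set.rangeFactorization Q) := hQ.subtype_mk _
  have h2 : IsQuotientMap (Set.rangeFactorization Q) :=
    h1.isClosedMap.isQuotientMap h1 Set.rangeFactorization_surjective
  rw [h2.continuous_iff]
  exact hf

/-- **Extension lemma**: one skeleton. -/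
theorem extend {Y : Type*} [TopologicalSpace Y] (K : Cx V) (ℓ : V → ℕ) (hK : Lev K ℓ) (m : ℕ)
    (Φ0 : C((sk m K).R, Y)) (φ : ∀ v : Fin (m + 1) → V, Os K ℓ v → C(Fin m → I, Y))
    (hφ : ∀ v hv x, x ∈ Cube.boundary (Fin m) → ∀ p : (sk m K).R, p.m = ptm v x →
      φ v hv x = Φ0 p) :
    ∃ Φ : C((sk (m + 1) K).R, Y), (∀ (p : (sk (m + 1) K).R) (q : (sk m K).R), p.m = q.m →
      Φ p = Φ0 q) ∧ ∀ (p : (sk (m + 1) K).R) v hv x, p.m = ptm v x → Φ p = φ v hv x := by
  classical
  have hex : ∀ p : (sk (m + 1) K).R, ¬ p.m.support.card ≤ m →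
      ∃ v : Fin (m + 1) → V, ∃ _ : Os K ℓ v, ∃ x, p.m = ptm v x := by
    intro p hp
    obtain ⟨v, hv, x, hx⟩ := exists_ptm hK p (le_antisymm p.mem.2 (by omega))
    exact ⟨v, hv, x, hx⟩
  choose fv fos fx hfx using hex
  let F : (sk (m + 1) K).R → Y := fun p =>
    if h : p.m.support.card ≤ m then Φ0 ⟨p.m, p.nn, p.tot, ⟨p.mem.1, h⟩⟩
    else φ (fv p h) (fos p h) (fx p h)
  have hF0 : ∀ (p : (sk (m + 1) K).R) (q : (sk m K).R), p.m = q.m → F p = Φ0 q := by
    intro p q hpq
    have h : p.m.support.card ≤ m := by rw [hpq]; exact q.mem.2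
    show dite _ _ _ = _
    rw [dif_pos h]
    congr 1
    exact Cx.R.ext_m hpq
  have hF1 : ∀ (p : (sk (m + 1) K).R) v hv x, p.m = ptm v x → F p = φ v hv x := by
    intro p v hv x hpx
    by_cases hx : x ∈ Cube.boundary (Fin m)
    · have hc := ptm_card_boundary hv.inj x hx
      have h : p.m.support.card ≤ m := by rw [hpx]; exact hc
      rw [hF0 p ⟨p.m, p.nn, p.tot, ⟨p.mem.1, h⟩⟩ rfl]
      exact (hφ v hv x hx _ hpx).symm
    · by_cases h : p.m.support.card ≤ m
      · rw [hF0 p ⟨p.m, p.nn, p.tot, ⟨p.mem.1, h⟩⟩ rfl]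
        exfalso
        -- interior points have full support
        have h1 : (Finset.univ.image v) ⊆ p.m.support := by
          intro a ha
          simp only [Finset.mem_image, Finset.mem_univ, true_and] at ha
          obtain ⟨i, rfl⟩ := ha
          rw [Finsupp.mem_support_iff, hpx]
          unfold ptm
          rw [Finsupp.mapDomain_apply hv.inj]
          exact (wt_pos x hx i).ne'
        have h2 := Finset.card_le_card h1
        rw [Finset.card_image_of_injective _ hv.inj] at h2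
        simp only [Finset.card_univ, Fintype.card_fin] at h2
        omega
      · show dite _ _ _ = _
        rw [dif_neg h]
        have h3 : (ptm v x).support.card = m + 1 := by
          rw [← hpx]; exact le_antisymm p.mem.2 (by omega)
        obtain ⟨h4, h5⟩ := ptm_unique hK hv (fos p h) (hpx.symm.trans (hfx p h)) h3
        have key : ∀ v' hv' x', v = v' → x = x' → φ v' hv' x' = φ v hv x := by
          rintro v' hv' x' rfl rfl; rfl
        exact key _ _ _ h4 h5
  refine ⟨⟨F, ?_⟩, hF0, hF1⟩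
  refine Cx.continuous_of_face fun σ hσ => ?_
  by_cases hc : σ.card ≤ m
  · rw [continuousOn_iff_continuous_domRestrict]
    have h : ∀ p : (sk (m + 1) K).face σ, p.1.m.support.card ≤ m := fun p =>
      (Finset.card_le_card p.2).trans hc
    let G : (sk (m + 1) K).face σ → (sk m K).R := fun p =>
      ⟨p.1.m, p.1.nn, p.1.tot, ⟨p.1.mem.1, h p⟩⟩
    have hG : Continuous G := Cx.continuous_iff_eval.2 fun v =>
      ((Cx.continuous_eval v).comp continuous_subtype_val :
        Continuous fun p : (sk (m + 1) K).face σ => p.1 v)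
    refine (Φ0.continuous.comp hG).congr fun p => ?_
    exact (hF0 p.1 (G p) rfl).symm
  · obtain ⟨v, hv, hr⟩ := exists_os hK hσ.1 (le_antisymm hσ.2 (by omega) : σ.card = m + 1)
    refine (continuousOn_range (pt v hv (m + 1) le_rfl) (pt v hv (m + 1) le_rfl).continuous F ?_).mono ?_
    · exact (φ v hv).continuous.congr fun x => (hF1 _ v hv x rfl).symm
    · intro p hp
      obtain ⟨x, hx⟩ := exists_wt (fun i => p (v i)) (fun i => p.nn _) (by
        have h1 := p.sum_eq (T := Finset.univ.image v) (fun a ha => by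
          obtain ⟨i, hi⟩ := (hr a).1 (hp ha)
          simp only [Finset.mem_image, Finset.mem_univ, true_and]
          exact ⟨i, hi⟩)
        rwa [Finset.sum_image fun a _ b _ hab => hv.inj hab] at h1)
      refine ⟨x, Cx.R.ext_m (Finsupp.ext fun a => ?_)⟩
      show ptm v x a = p a
      unfold ptm
      by_cases h : a ∈ Set.range v
      · obtain ⟨i, rfl⟩ := h
        rw [Finsupp.mapDomain_apply hv.inj, wtF_apply, hx]
      · rw [Finsupp.mapDomain_of_notMem_range _ _ h]
        by_contra h1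
        exact h ((hr a).1 (hp (Finsupp.mem_support_iff.2 (Ne.symm h1))))

end Crest.Agent.R185.Hur
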