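import Crest.Agent.R185.Hur4

/-!
# Row 185, T6: homotopy extension for skeleta, normalisation
-/

set_option autoImplicit false
set_option linter.unusedSectionVars false

open Set Metric Topology
open Crest.Agent.R185.Bld

local notation "I" => unitInterval

namespace Crest.Agent.R185.Hur

variable {V : Type} {W : Type*} [TopologicalSpace W]

/-- inclusions as continuous maps -/
def inc {K K' : Cx V} (h : K.s ⊆ K'.s) : C(K.R, K'.R) := ⟨Cx.R.incl h, Cx.continuous_incl h⟩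

theorem inc_m {K K' : Cx V} (h : K.s ⊆ K'.s) (p : K.R) : (inc h p).m = p.m := rfl

theorem sk_sub (K : Cx V) {m m' : ℕ} (h : m ≤ m') : (sk m K).s ⊆ (sk m' K).s :=
  fun _ hσ => ⟨hσ.1, hσ.2.trans h⟩

theorem sk_sub' {K K' : Cx V} (h : K.s ⊆ K'.s) (m : ℕ) : (sk m K).s ⊆ (sk m K').s :=
  fun _ hσ => ⟨h hσ.1, hσ.2⟩

theorem homotopic_iff {X : Type*} [TopologicalSpace X] (f g : C(X, W)) : f.Homotopic g ↔
    ∃ F : C(X, C(I, W)), (∀ x, F x 0 = f x) ∧ ∀ x, F x 1 = g x := by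
  constructor
  · rintro ⟨H⟩
    refine ⟨ContinuousMap.curry ⟨fun p : X × I => H (p.2, p.1), by fun_prop⟩, fun x => ?_, fun x => ?_⟩
    · exact H.apply_zero x
    · exact H.apply_one x
  · rintro ⟨F, h0, h1⟩
    refine ⟨⟨⟨fun p => F p.2 p.1, by fun_prop⟩, h0, h1⟩⟩

/-- boundary points of a simplex, in the lower skeleton -/
noncomputable def bpt {K : Cx V} {ℓ : V → ℕ} {m : ℕ} (v : Fin (m + 1) → V) (h : Os K ℓ v) :
    C(Cube.boundary (Fin m), (sk m K).R) where
  toFun x := ⟨ptm v x, ptm_nn h.inj x, ptm_tot v x, ptm_mem h x, ptm_card_boundary h.inj x.1 x.2⟩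
  continuous_toFun := Cx.continuous_iff_eval.2 fun a =>
    (continuous_ptm h.inj a).comp continuous_subtype_val

/-- homotopy extension, one skeleton -/
theorem hep (K : Cx V) (ℓ : V → ℕ) (hK : Lev K ℓ) (m : ℕ) (J : C((sk (m + 1) K).R, W))
    (H : C((sk m K).R, C(I, W)))
    (h0 : ∀ (p : (sk (m + 1) K).R) (q : (sk m K).R), p.m = q.m → H q 0 = J p) :
    ∃ H' : C((sk (m + 1) K).R, C(I, W)), (∀ p, H' p 0 = J p) ∧
      ∀ (p : (sk (m + 1) K).R) (q : (sk m K).R), p.m = q.m → H' p = H q := by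
  classical
  have hex : ∀ (v : Fin (m + 1) → V) (hv : Os K ℓ v), ∃ φ : C(Fin m → I, C(I, W)),
      (∀ x, φ x 0 = J (pt v hv (m + 1) le_rfl x)) ∧
      ∀ x (hx : x ∈ Cube.boundary (Fin m)), φ x = H (bpt v hv ⟨x, hx⟩) := by
    intro v hv
    obtain ⟨U, hU0, hU⟩ := cube_hep (J.comp (pt v hv (m + 1) le_rfl))
      (fun p => if h : p.2 ∈ Cube.boundary (Fin m) then H (bpt v hv ⟨p.2, h⟩) p.1
        else J (pt v hv (m + 1) le_rfl p.2)) (by
        rw [continuousOn_iff_continuous_domRestrict]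
        let b : {p : I × (Fin m → I) | p.2 ∈ Cube.boundary (Fin m)} → Cube.boundary (Fin m) :=
          fun p => ⟨p.1.2, p.2⟩
        have hb : Continuous b := by
          apply Continuous.subtype_mk
          fun_prop
        have : Continuous fun p : {p : I × (Fin m → I) | p.2 ∈ Cube.boundary (Fin m)} =>
            H (bpt v hv (b p)) p.1.1 := by fun_prop
        refine this.congr fun p => ?_
        have hp : p.1.2 ∈ Cube.boundary (Fin m) := p.2
        show _ = dite _ _ _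
        rw [dif_pos hp]) (by
        intro y hy
        show dite _ _ _ = _
        rw [dif_pos hy]
        exact h0 _ _ rfl)
    refine ⟨ContinuousMap.curry ⟨fun p : (Fin m → I) × I => U (p.2, p.1), by fun_prop⟩,
      fun x => hU0 x, fun x hx => ?_⟩
    ext t
    show U (t, x) = _
    rw [hU t x hx]
    exact dif_pos hx
  choose φ hφ0 hφ using hex
  obtain ⟨Φ, hΦ0, hΦ1⟩ := extend K ℓ hK m H φ (by
    intro v hv x hx p hp
    rw [hφ v hv x hx]
    congr 1
    exact Cx.R.ext_m hp.symm)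
  refine ⟨Φ, fun p => ?_, hΦ0⟩
  by_cases h : p.m.support.card ≤ m
  · rw [hΦ0 p ⟨p.m, p.nn, p.tot, ⟨p.mem.1, h⟩⟩ rfl]
    exact h0 _ _ rfl
  · obtain ⟨v, hv, x, hx⟩ := exists_ptm hK p (le_antisymm p.mem.2 (by omega))
    rw [hΦ1 p v hv x hx, hφ0 v hv x]
    congr 1
    exact Cx.R.ext_m hx.symm

/-- normalisation: two skeleta -/
theorem normalise (K : Cx V) (ℓ : V → ℕ) (hK : Lev K ℓ) (m : ℕ) (J : C((sk (m + 2) K).R, W)) (w : W)
    (hJ : (J.comp (inc (sk_sub K (Nat.le_add_right m 2)))).Homotopic (ContinuousMap.const _ w)) :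
    ∃ κ : C((sk (m + 2) K).R, W), J.Homotopic κ ∧ ∀ p, p.m.support.card ≤ m → κ p = w := by
  obtain ⟨F, h0, h1⟩ := (homotopic_iff _ _).1 hJ
  obtain ⟨F1, h2, h3⟩ := hep K ℓ hK m (J.comp (inc (sk_sub K (Nat.le_succ (m + 1))))) F (by
    intro p q hpq
    rw [h0 q]
    show J _ = J _
    congr 1
    exact Cx.R.ext_m hpq.symm)
  obtain ⟨F2, h4, h5⟩ := hep K ℓ hK (m + 1) J F1 (by
    intro p q hpq
    rw [h2 q]
    show J _ = J _
    congr 1
    exact Cx.R.ext_m hpq.symm)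
  refine ⟨⟨fun p => F2 p 1, by fun_prop⟩, (homotopic_iff _ _).2 ⟨F2, h4, fun p => rfl⟩, ?_⟩
  intro p hp
  show F2 p 1 = w
  have hp' : p.m.support ∈ (sk (m + 1) K).s := ⟨p.mem.1, hp.trans (Nat.le_succ m)⟩
  have hp'' : p.m.support ∈ (sk m K).s := ⟨p.mem.1, hp⟩
  rw [h5 p ⟨p.m, p.nn, p.tot, hp'⟩ rfl, h3 ⟨p.m, p.nn, p.tot, hp'⟩ ⟨p.m, p.nn, p.tot, hp''⟩ rfl, h1]
  rfl

/-! ### the classes of the `n`-simplices -/

section cochain

variable {K : Cx V} {ℓ : V → ℕ} {n : ℕ} {w : W}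

/-- the loop of an ordered simplex -/
noncomputable def gl (κ : C((sk (n + 2) K).R, W)) (hκ : ∀ p, p.m.support.card ≤ n → κ p = w)
    (v : Fin (n + 1) → V) (h : Os K ℓ v) : GenLoop (Fin n) W w :=
  ⟨κ.comp (pt v h (n + 2) (Nat.le_succ (n + 1))), fun x hx =>
    hκ _ (ptm_card_boundary h.inj x hx)⟩

open Classical in
/-- the obstruction cochain -/
noncomputable def oc (ℓ : V → ℕ) (κ : C((sk (n + 2) K).R, W))
    (hκ : ∀ p, p.m.support.card ≤ n → κ p = w)
    (v : Fin (n + 1) → V) : HomotopyGroup (Fin n) W w :=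
  if h : Os K ℓ v then cl (gl κ hκ v h) else cl GenLoop.const

theorem oc_of (κ : C((sk (n + 2) K).R, W)) (hκ : ∀ p, p.m.support.card ≤ n → κ p = w)
    (v : Fin (n + 1) → V) (h : Os K ℓ v) : oc ℓ κ hκ v = cl (gl κ hκ v h) := dif_pos h

variable [Nontrivial (Fin n)]

theorem alt_special (a : Fin (n + 1) → Bool → GenLoop (Fin n) W w)
    (h : ∀ k : Fin n, a k.castSucc false = GenLoop.const) :
    alt a = (∏ k : Fin (n + 1), cl (a k true) ^ ((-1 : ℤ) ^ (k : ℕ))) *
      cl (a (Fin.last n) false) ^ ((-1 : ℤ) ^ (n + 1)) := by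
  unfold alt
  simp only [div_zpow]
  rw [Finset.prod_div_distrib, div_eq_mul_inv]
  congr 1
  rw [Fin.prod_univ_castSucc (fun k : Fin (n + 1) => cl (a k false) ^ ((-1 : ℤ) ^ (k : ℕ))),
    Finset.prod_eq_one (fun k _ => by rw [h k, cl_const, one_zpow]), one_mul, Fin.val_last,
    pow_succ, mul_neg_one, zpow_neg]

/-- the cocycle condition -/
theorem oc_boundary (κ : C((sk (n + 2) K).R, W)) (hκ : ∀ p, p.m.support.card ≤ n → κ p = w)
    (τ : Fin (n + 2) → V) (h : Os K ℓ τ) :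
    ∏ j : Fin (n + 2), oc ℓ κ hκ (τ ∘ j.succAbove) ^ ((-1 : ℤ) ^ (j : ℕ)) = 1 := by
  let Q : C(Fin (n + 1) → I, W) := κ.comp (pt τ h (n + 2) le_rfl)
  have hQ : Good w Q := by
    intro y i j hij hi hj
    refine hκ _ ?_
    -- two coordinates on the boundary
    obtain ⟨b, hb⟩ := exists_en hi
    obtain ⟨l, hl⟩ := Fin.exists_succAbove_eq hij.symm
    have e1 : y = ins i (en b) (fun l => y (i.succAbove l)) := by
      rw [← hb]; exact eq_ins i y
    have e2 : (fun l => y (i.succAbove l)) ∈ Cube.boundary (Fin n) :=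
      ⟨l, by show y (i.succAbove l) = 0 ∨ y (i.succAbove l) = 1; rw [hl]; exact hj⟩
    show (ptm τ y).support.card ≤ n
    rw [e1]
    cases b
    · rcases Fin.eq_castSucc_or_eq_last i with ⟨i', rfl⟩ | rfl
      · exact (ptm_card_zero h.inj _ i'.castSucc (by rw [ins_same]; rfl)).trans i'.2
      · show (ptm τ (ins (Fin.last n) 0 _)).support.card ≤ n
        rw [ptm_ins_zero]
        exact ptm_card_boundary (h.face _).inj _ e2
    · show (ptm τ (ins i 1 _)).support.card ≤ n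
      rw [ptm_ins_one]
      exact ptm_card_boundary (h.face _).inj _ e2
  have h1 := alt_eq_one Q hQ
  have hT : ∀ k : Fin (n + 1), fcs Q hQ k true = gl κ hκ (τ ∘ k.castSucc.succAbove) (h.face _) := by
    intro k
    apply GenLoop.ext
    intro z
    show κ _ = κ _
    congr 1
    exact Cx.R.ext_m (ptm_ins_one τ k z)
  have hF : fcs Q hQ (Fin.last n) false = gl κ hκ (τ ∘ (Fin.last (n + 1)).succAbove) (h.face _) := by
    apply GenLoop.ext
    intro z
    show κ _ = κ _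
    congr 1
    exact Cx.R.ext_m (ptm_ins_zero τ z)
  rw [alt_special _ (fun k => ?_)] at h1
  · rw [Fin.prod_univ_castSucc]
    simp only [Fin.val_castSucc, Fin.val_last]
    rw [oc_of κ hκ _ (h.face (Fin.last (n + 1)))]
    rw [← h1, hF]
    congr 1
    refine Finset.prod_congr rfl fun k _ => ?_
    rw [hT, oc_of κ hκ _ (h.face _)]
  · apply GenLoop.ext
    intro z
    refine hκ _ ?_
    exact (ptm_card_zero h.inj _ k.castSucc (ins_same _ _ _)).trans k.2

end cochain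

end Crest.Agent.R185.Hur
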