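import Crest.Agent.R185.Hur5

/-!
# Row 185, T6: filling the prisms
-/

set_option autoImplicit false
set_option linter.unusedSectionVars false

open Set Metric Topology
open Crest.Agent.R185.Bld

local notation "I" => unitInterval

namespace Crest.Agent.R185.Hur

variable {V : Type} {W : Type*} [TopologicalSpace W]

theorem continuous_ins {n : ℕ} {X : Type*} [TopologicalSpace X] (i : Fin (n + 1)) {e : X → I}
    {z : X → Fin n → I} (he : Continuous e) (hz : Continuous z) :
    Continuous fun x => ins i (e x) (z x) := by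
  refine continuous_pi fun j => ?_
  refine Fin.succAboveCases i ?_ (fun l => ?_) j
  · simpa only [ins_same] using he
  · simp only [ins_succAbove]
    exact (continuous_apply l).comp hz

/-- currying the zeroth coordinate -/
noncomputable def cur {n : ℕ} (f : C(Fin (n + 1) → I, W)) : C(Fin n → I, C(I, W)) :=
  ContinuousMap.curry ⟨fun p : (Fin n → I) × I => f (ins 0 p.2 p.1),
    f.continuous.comp (continuous_ins 0 continuous_snd continuous_fst)⟩

theorem cur_apply {n : ℕ} (f : C(Fin (n + 1) → I, W)) (x : Fin n → I) (t : I) :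
    cur f x t = f (ins 0 t x) := rfl

theorem ins_zero_comp {k : ℕ} (t : I) (x : Fin (k + 1) → I) (j : Fin (k + 1)) :
    (fun l => ins 0 t x (j.succ.succAbove l)) = ins 0 t (fun l => x (j.succAbove l)) := by
  symm
  rw [ins_eq_iff]
  constructor
  · rw [Fin.succ_succAbove_zero, ins_same]
  · intro l
    rw [Fin.succAbove_zero, Fin.succ_succAbove_succ]
    have := ins_succAbove 0 t x (j.succAbove l)
    rw [Fin.succAbove_zero] at this
    exact this.symm

theorem prism_aux {A : Type*} [CommGroup A] {k : ℕ} (L : Fin (k + 2) → A) (x : Fin (k + 1) → A)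
    (h1 : ∀ j, j ≠ Fin.last k → x j = 1) (h2 : x (Fin.last k) = (L (Fin.last (k + 1)))⁻¹) :
    (1 / ∏ j : Fin (k + 2), L j ^ ((-1 : ℤ) ^ (j : ℕ))) *
      ∏ j : Fin (k + 1), ((L j.castSucc)⁻¹ / x j) ^ ((-1 : ℤ) ^ ((j : ℕ) + 1)) = 1 := by
  have e1 : ∀ j : Fin (k + 1), ((L j.castSucc)⁻¹ / x j) ^ ((-1 : ℤ) ^ ((j : ℕ) + 1)) =
      (L j.castSucc) ^ ((-1 : ℤ) ^ (j : ℕ)) * (x j) ^ ((-1 : ℤ) ^ (j : ℕ)) := by
    intro j
    rw [pow_succ, mul_neg_one, zpow_neg, ← inv_zpow, inv_div, div_inv_eq_mul, mul_zpow, mul_comm]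
  have e2 : ∏ j : Fin (k + 1), (x j) ^ ((-1 : ℤ) ^ (j : ℕ)) =
      L (Fin.last (k + 1)) ^ ((-1 : ℤ) ^ (k + 1)) := by
    rw [Fin.prod_univ_castSucc, Finset.prod_eq_one (fun j _ => by
      rw [h1 _ (Fin.castSucc_lt_last j).ne, one_zpow]), one_mul, h2, Fin.val_last, pow_succ,
      mul_neg_one, zpow_neg, inv_zpow]
  rw [Finset.prod_congr rfl (fun j _ => e1 j), Finset.prod_mul_distrib, e2, Fin.prod_univ_castSucc]
  simp only [Fin.val_castSucc, Fin.val_last]
  rw [one_div, inv_mul_cancel]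

variable {ℓ : V → ℕ} {k : ℕ} {w : W}

theorem fill_prisms [Nontrivial (Fin (k + 1))] (K K1 : Cx V) (hKK : K.s ⊆ K1.s)
    (hK1 : Lev K1 ℓ) (κ : C((sk (k + 1 + 2) K1).R, W)) (hκ : ∀ p, p.m.support.card ≤ k + 1 → κ p = w)
    (lam : (Fin (k + 1) → V) → HomotopyGroup (Fin (k + 1)) W w)
    (hlam : ∀ s : Fin (k + 2) → V, Os K ℓ s →
      oc ℓ κ hκ s = ∏ j : Fin (k + 2), lam (s ∘ j.succAbove) ^ ((-1 : ℤ) ^ (j : ℕ))) :
    ∃ H : C((sk (k + 2) K).R, C(I, W)),
      (∀ (p : (sk (k + 2) K).R) (q : (sk (k + 1 + 2) K1).R), p.m = q.m → H p 0 = κ q) ∧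
      ∀ p, H p 1 = w := by
  classical
  have hK : Lev K ℓ := fun s hs => hK1 s (hKK hs)
  -- the loops on the `(n-1)`-simplices
  have hloop : ∀ r : Fin (k + 1) → V, ∃ f : GenLoop (Fin (k + 1)) W w, cl f = (lam r)⁻¹ := fun r =>
    cl_surj _
  choose lo hlo using hloop
  obtain ⟨Ha, Ha0, Ha1⟩ := extend K ℓ hK k (ContinuousMap.const _ (ContinuousMap.const I w))
    (fun r _ => cur (lo r).1) (by
      intro r hr x hx p hp
      ext t
      show lo r (ins 0 t x) = w
      obtain ⟨j, hj⟩ := hx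
      refine GenLoop.boundary _ _ ⟨(0 : Fin (k + 1)).succAbove j, ?_⟩
      rw [ins_succAbove]; exact hj)
  have Haend : ∀ (e : I), (e = 0 ∨ e = 1) → ∀ p, Ha p e = w := by
    intro e he p
    by_cases h : p.m.support.card ≤ k
    · rw [Ha0 p ⟨p.m, p.nn, p.tot, ⟨p.mem.1, h⟩⟩ rfl]
      rfl
    · obtain ⟨v, hv, x, hx⟩ := exists_ptm hK p (le_antisymm p.mem.2 (by omega))
      rw [Ha1 p v hv x hx]
      show lo v (ins 0 e x) = w
      exact GenLoop.boundary _ _ ⟨0, by rw [ins_same]; exact he⟩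
  -- the prisms
  let fam : ∀ s : Fin (k + 2) → V, Os K ℓ s → Fin (k + 2) → Bool → GenLoop (Fin (k + 1)) W w :=
    fun s hs i => Fin.cases (motive := fun _ => Bool → GenLoop (Fin (k + 1)) W w)
      (fun b => if b then GenLoop.const else gl κ hκ s (hs.mono hKK))
      (fun j b => if b then lo (s ∘ j.castSucc.succAbove) else
        if j = Fin.last k then lo (s ∘ (Fin.last (k + 1)).succAbove) else GenLoop.const) i
  have f00 : ∀ s hs, fam s hs 0 false = gl κ hκ s (hs.mono hKK) := fun _ _ => rfl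
  have f01 : ∀ s hs, fam s hs 0 true = GenLoop.const := fun _ _ => rfl
  have f1 : ∀ s hs (j : Fin (k + 1)), fam s hs j.succ true = lo (s ∘ j.castSucc.succAbove) :=
    fun _ _ _ => rfl
  have f0l : ∀ s hs, fam s hs (Fin.last k).succ false = lo (s ∘ (Fin.last (k + 1)).succAbove) := by
    intro s hs
    show (if Fin.last k = Fin.last k then _ else _) = _
    rw [if_pos rfl]
  have f0 : ∀ s hs (j : Fin (k + 1)), j ≠ Fin.last k → fam s hs j.succ false = GenLoop.const := by
    intro s hs j hj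
    show (if j = Fin.last k then _ else _) = _
    rw [if_neg hj]
  have halt : ∀ s hs, alt (fam s hs) = 1 := by
    intro s hs
    unfold alt
    rw [Fin.prod_univ_succ, f00 s hs, f01 s hs, cl_const, ← oc_of κ hκ s (hs.mono hKK), hlam s hs]
    simp only [f1 s hs, hlo, Fin.val_zero, pow_zero, zpow_one, Fin.val_succ]
    refine prism_aux (fun j => lam (s ∘ j.succAbove)) (fun j => cl (fam s hs j.succ false)) ?_ ?_
    · intro j hj
      show cl (fam s hs j.succ false) = 1
      rw [f0 s hs j hj, cl_const]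
    · show cl (fam s hs (Fin.last k).succ false) = _
      rw [f0l s hs, hlo]
  have hfill : ∀ s hs, ∃ U : C(Fin (k + 2) → I, W), ∀ y ∈ Cube.boundary (Fin (k + 2)),
      U y = bmap w (fam s hs) y := fun s hs => exists_fill _ (halt s hs)
  choose U hU using hfill
  obtain ⟨H, H0, H1⟩ := extend K ℓ hK (k + 1) Ha (fun s hs => cur (U s hs)) (by
    intro s hs x hx p hp
    ext t
    show U s hs (ins 0 t x) = _
    obtain ⟨j, hj⟩ := hx
    obtain ⟨b, hb⟩ := exists_en hj
    have hjs : ins 0 t x j.succ = en b := by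
      have := ins_succAbove 0 t x j
      rw [Fin.succAbove_zero] at this
      rw [this, hb]
    rw [hU s hs _ ⟨j.succ, by rw [hjs]; exact en_mem b⟩, bmap_eq _ _ j.succ b hjs, ins_zero_comp]
    have hx' : x = ins j (en b) (fun l => x (j.succAbove l)) := by
      rw [← hb]; exact eq_ins j x
    cases b
    · by_cases hjl : j = Fin.last k
      · subst hjl
        rw [f0l s hs]
        have e : p.m = ptm (s ∘ (Fin.last (k + 1)).succAbove)
            (fun l => x ((Fin.last k).succAbove l)) := by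
          rw [hp, ← ptm_ins_zero]
          exact congrArg _ hx'
        rw [Ha1 p _ (hs.face _) _ e]
        rfl
      · rw [f0 s hs j hjl]
        have hc : p.m.support.card ≤ k := by
          rw [hp]
          refine (ptm_card_zero hs.inj x j hb).trans ?_
          have h1 := j.2
          have h2 : (j : ℕ) ≠ k := fun h => hjl (Fin.ext h)
          omega
        rw [Ha0 p ⟨p.m, p.nn, p.tot, ⟨p.mem.1, hc⟩⟩ rfl]
        rfl
    · rw [f1 s hs]
      have e : p.m = ptm (s ∘ j.castSucc.succAbove) (fun l => x (j.succAbove l)) := by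
        rw [hp, ← ptm_ins_one]
        exact congrArg _ hx'
      rw [Ha1 p _ (hs.face _) _ e]
      rfl)
  refine ⟨H, fun p q hpq => ?_, fun p => ?_⟩
  · by_cases h : p.m.support.card ≤ k + 1
    · rw [H0 p ⟨p.m, p.nn, p.tot, ⟨p.mem.1, h⟩⟩ rfl, Haend 0 (Or.inl rfl), hκ q (by rw [← hpq]; exact h)]
    · obtain ⟨v, hv, x, hx⟩ := exists_ptm hK p (le_antisymm p.mem.2 (by omega))
      rw [H1 p v hv x hx]
      show U v hv (ins 0 0 x) = _
      rw [hU v hv _ ⟨0, by rw [ins_same]; exact Or.inl rfl⟩, bmap_eq _ _ 0 false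
        (show ins 0 0 x 0 = en false from ins_same _ _ _), f00 v hv]
      show κ _ = κ q
      congr 1
      apply Cx.R.ext_m
      rw [← hpq, hx]
      show ptm v _ = ptm v x
      congr 1
  · by_cases h : p.m.support.card ≤ k + 1
    · rw [H0 p ⟨p.m, p.nn, p.tot, ⟨p.mem.1, h⟩⟩ rfl, Haend 1 (Or.inr rfl)]
    · obtain ⟨v, hv, x, hx⟩ := exists_ptm hK p (le_antisymm p.mem.2 (by omega))
      rw [H1 p v hv x hx]
      show U v hv (ins 0 1 x) = _
      rw [hU v hv _ ⟨0, by rw [ins_same]; exact Or.inr rfl⟩, bmap_eq _ _ 0 true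
        (show ins 0 1 x 0 = en true from ins_same _ _ _), f01 v hv]
      rfl

end Crest.Agent.R185.Hur
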