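import Crest.Agent.R185.Hur6

/-!
# Row 185, T6: chains of ordered simplices; one step of the null-homotopy
-/

set_option autoImplicit false
set_option linter.unusedSectionVars false

open Set Metric Topology
open Crest.Agent.R185.Bld

local notation "I" => unitInterval

namespace Crest.Agent.R185.Hur

section chains

variable (V : Type)

/-- chains on ordered tuples -/
abbrev Chn (k : ℕ) : Type := (Fin (k + 1) → V) →₀ ℤ

variable {V}

/-- boundary of a tuple -/
noncomputable def ddt {k : ℕ} (v : Fin (k + 2) → V) : Chn V k :=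
  ∑ j : Fin (k + 2), ((-1 : ℤ) ^ (j : ℕ)) • Finsupp.single (v ∘ j.succAbove) (1 : ℤ)

/-- the boundary -/
noncomputable def dd (k : ℕ) : Chn V (k + 1) →ₗ[ℤ] Chn V k :=
  Finsupp.linearCombination ℤ ddt

theorem dd_single {k : ℕ} (v : Fin (k + 2) → V) : dd k (Finsupp.single v 1) = ddt v := by
  simp [dd]

theorem map_ddt {M : Type*} [AddCommGroup M] {k : ℕ} (f : Chn V k →ₗ[ℤ] M) (v : Fin (k + 2) → V) :
    f (ddt v) = ∑ j : Fin (k + 2), ((-1 : ℤ) ^ (j : ℕ)) • f (Finsupp.single (v ∘ j.succAbove) 1) := by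
  unfold ddt
  rw [map_sum]
  simp only [map_smul]

theorem comp_succAbove_swap {k : ℕ} (v : Fin (k + 3) → V) (i : Fin (k + 3)) (j : Fin (k + 2)) :
    (v ∘ i.succAbove) ∘ j.succAbove =
      (v ∘ (i.succAbove j).succAbove) ∘ (j.predAbove i).succAbove := by
  funext l
  simp only [Function.comp_apply]
  rw [Fin.succAbove_succAbove_succAbove_predAbove]

theorem dd_ddt {k : ℕ} (v : Fin (k + 3) → V) : dd k (ddt v) = 0 := by
  rw [map_ddt]
  simp only [dd_single]
  unfold ddt
  simp only [Finset.smul_sum, smul_smul]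
  rw [← Finset.sum_product']
  refine Finset.sum_involution (fun p _ => (p.1.succAbove p.2, p.2.predAbove p.1)) ?_ ?_ ?_ ?_
  · rintro ⟨i, j⟩ _
    dsimp only
    rw [← comp_succAbove_swap, ← add_smul, ← pow_add, ← pow_add,
      Fin.neg_one_pow_succAbove_add_predAbove, add_neg_cancel, zero_smul]
  · rintro ⟨i, j⟩ _ _ h
    exact Fin.succAbove_ne i j (Prod.ext_iff.1 h).1
  · intro _ _
    exact Finset.mem_product.2 ⟨Finset.mem_univ _, Finset.mem_univ _⟩
  · rintro ⟨i, j⟩ _
    dsimp only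
    rw [Fin.succAbove_succAbove_predAbove, Fin.predAbove_predAbove_succAbove]

/-- two linear maps agreeing on the basis elements of a set agree on the chains supported there -/
theorem lin_eq_zero {M : Type*} [AddCommGroup M] {B : Type*} (f : (B →₀ ℤ) →ₗ[ℤ] M) (s : Set B)
    (h : ∀ x ∈ s, f (Finsupp.single x 1) = 0) (c : B →₀ ℤ) (hc : c ∈ Finsupp.supported ℤ ℤ s) :
    f c = 0 := by
  classical
  have hc' : ↑c.support ⊆ s := (Finsupp.mem_supported ℤ c).1 hc
  rw [← Finsupp.sum_single c, Finsupp.sum, map_sum]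
  refine Finset.sum_eq_zero fun x hx => ?_
  have : (Finsupp.single x (c x) : B →₀ ℤ) = c x • Finsupp.single x 1 := by simp
  rw [this, map_smul, h x (hc' hx), smul_zero]

end chains

variable {V : Type} {W : Type*} [TopologicalSpace W] {ℓ : V → ℕ} {k : ℕ}

/-- **The inductive step.** -/
theorem step_null [Nontrivial (Fin (k + 1))] (K K1 : Cx V) (hKK : K.s ⊆ K1.s)
    (hK1 : Lev K1 ℓ) (J : C((sk (k + 1 + 2) K1).R, W)) (w : W)
    (hJ : (J.comp (inc (sk_sub K1 (Nat.le_add_right (k + 1) 2)))).Homotopic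
      (ContinuousMap.const _ w))
    (f : (Fin (k + 1) → V) → Chn V (k + 1))
    (hf : ∀ s : Fin (k + 2) → V, Os K ℓ s → ∃ b ∈ Finsupp.supported ℤ ℤ {t | Os K1 ℓ t},
      dd (k + 1) b = Finsupp.single s 1 -
        ∑ j : Fin (k + 2), ((-1 : ℤ) ^ (j : ℕ)) • f (s ∘ j.succAbove)) :
    ∃ H : C((sk (k + 2) K).R, C(I, W)),
      (∀ (p : (sk (k + 2) K).R) (q : (sk (k + 1 + 2) K1).R), p.m = q.m → H p 0 = J q) ∧
      ∀ p, H p 1 = w := by
  classical
  obtain ⟨κ, hκ0, hκ⟩ := normalise K1 ℓ hK1 (k + 1) J w hJ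
  let A := Additive (HomotopyGroup (Fin (k + 1)) W w)
  let Cc : Chn V (k + 1) →ₗ[ℤ] A :=
    Finsupp.linearCombination ℤ (fun v => (Additive.ofMul (oc ℓ κ hκ v) : A))
  have hCs : ∀ v, Cc (Finsupp.single v 1) = Additive.ofMul (oc ℓ κ hκ v) := fun v => by
    simp [Cc]
  have hC0 : ∀ b ∈ Finsupp.supported ℤ ℤ {t : Fin (k + 3) → V | Os K1 ℓ t},
      Cc (dd (k + 1) b) = 0 := by
    intro b hb
    refine lin_eq_zero (Cc.comp (dd (k + 1))) _ (fun t ht => ?_) b hb
    rw [LinearMap.comp_apply, dd_single, map_ddt]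
    simp only [hCs]
    have := oc_boundary κ hκ t ht
    have h2 := congrArg Additive.ofMul this
    rw [ofMul_prod, ofMul_one] at h2
    simpa only [ofMul_zpow] using h2
  let lam : (Fin (k + 1) → V) → HomotopyGroup (Fin (k + 1)) W w := fun r =>
    Additive.toMul (Cc (f r))
  obtain ⟨H, hH0, hH1⟩ := fill_prisms K K1 hKK hK1 κ hκ lam (by
    intro s hs
    obtain ⟨b, hb, hbs⟩ := hf s hs
    have h1 := hC0 b hb
    rw [hbs, map_sub, sub_eq_zero, hCs, map_sum] at h1
    simp only [map_smul] at h1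
    apply Additive.ofMul.injective
    rw [h1, ofMul_prod]
    simp only [ofMul_zpow]
    rfl)
  -- compose the homotopies
  have hsub : (sk (k + 2) K).s ⊆ (sk (k + 1 + 2) K1).s := fun s hs =>
    ⟨hKK hs.1, hs.2.trans (Nat.le_succ _)⟩
  have h2 : (J.comp (inc hsub)).Homotopic (ContinuousMap.const _ w) := by
    refine ContinuousMap.Homotopic.trans (g := κ.comp (inc hsub))
      (ContinuousMap.Homotopic.comp hκ0 (ContinuousMap.Homotopic.refl _)) ?_
    rw [homotopic_iff]
    exact ⟨H, fun p => hH0 p _ rfl, hH1⟩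
  obtain ⟨H', h3, h4⟩ := (homotopic_iff _ _).1 h2
  refine ⟨H', fun p q hpq => ?_, h4⟩
  rw [h3]
  show J _ = J _
  congr 1
  exact Cx.R.ext_m hpq

end Crest.Agent.R185.Hur
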