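import Crest.Agent.R185.Null1

/-!
# Row 185, levelled chains, part 1: the boundary on lists, the complex `J` of levelled simplices
-/

set_option autoImplicit false
set_option linter.unusedSectionVars false

namespace Crest.Agent.R185.Lev

open Finsupp Crest.Agent.R185.Null

section lists

variable {α β : Type}

/-- chains on lists -/
abbrev Ch (α : Type) : Type := List α →₀ ℤ

/-- the boundary of a list: alternating sum of deletions; `dl [a] = []` (augmentation) -/
noncomputable def dl : List α → Ch α
  | [] => 0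
  | a :: x => single x 1 - (dl x).mapDomain (List.cons a)

@[simp] theorem dl_nil : dl ([] : List α) = 0 := rfl
theorem dl_cons (a : α) (x : List α) : dl (a :: x) = single x 1 - (dl x).mapDomain (List.cons a) := rfl

/-- linear extension -/
noncomputable def Dl : Ch α →ₗ[ℤ] Ch α := Finsupp.linearCombination ℤ dl

@[simp] theorem Dl_single (x : List α) (n : ℤ) : Dl (single x n) = n • dl x := by simp [Dl]

/-- prepending, appending -/
noncomputable def pre (a : α) : Ch α →ₗ[ℤ] Ch α := Finsupp.lmapDomain ℤ ℤ (List.cons a)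
noncomputable def app (a : α) : Ch α →ₗ[ℤ] Ch α := Finsupp.lmapDomain ℤ ℤ (fun x => x ++ [a])

@[simp] theorem pre_single (a : α) (x : List α) (n : ℤ) : pre a (single x n) = single (a :: x) n := by
  simp [pre]
@[simp] theorem app_single (a : α) (x : List α) (n : ℤ) :
    app a (single x n) = single (x ++ [a]) n := by simp [app]

theorem Dl_pre (a : α) (c : Ch α) : Dl (pre a c) = c - pre a (Dl c) := by
  have : Dl.comp (pre a) = LinearMap.id - (pre a).comp Dl := lin_ext fun x => by
    simp only [LinearMap.comp_apply, LinearMap.sub_apply, LinearMap.id_apply, pre_single, Dl_single,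
      one_smul, dl_cons]
    rfl
  exact LinearMap.congr_fun this c

theorem Dl_dl (x : List α) : Dl (dl x) = 0 := by
  induction x with
  | nil => simp
  | cons a x ih =>
    have h : dl (a :: x) = single x 1 - pre a (dl x) := rfl
    rw [h, map_sub, Dl_single, one_smul, Dl_pre, ih, map_zero, sub_zero, sub_self]

theorem Dl_Dl (c : Ch α) : Dl (Dl c) = 0 := by
  have : Dl.comp Dl = (0 : Ch α →ₗ[ℤ] Ch α) := lin_ext fun x => by
    simp only [LinearMap.comp_apply, Dl_single, one_smul, LinearMap.zero_apply]
    exact Dl_dl x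
  exact LinearMap.congr_fun this c

theorem dl_append (a : α) (x : List α) :
    dl (x ++ [a]) = app a (dl x) + (-1) ^ x.length • single x 1 := by
  induction x with
  | nil =>
    simp [dl_cons]
  | cons b x ih =>
    have h1 : dl (b :: x ++ [a]) = single (x ++ [a]) 1 - pre b (dl (x ++ [a])) := rfl
    have h2 : dl (b :: x) = single x 1 - pre b (dl x) := rfl
    have h3 : ∀ c : Ch α, pre b (app a c) = app a (pre b c) := by
      intro c
      have : (pre b).comp (app a) = (app a).comp (pre b) := lin_ext fun x => by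
        simp
      exact LinearMap.congr_fun this c
    rw [h1, h2, ih, map_add, h3, map_sub, app_single]
    simp only [map_smul, pre_single, List.length_cons, pow_succ, mul_neg, mul_one, neg_smul]
    abel

theorem mem_dl {x y : List α} (h : y ∈ (dl x).support) : y.Sublist x ∧ y.length + 1 = x.length := by
  classical
  induction x generalizing y with
  | nil => simp at h
  | cons a x ih =>
    rw [dl_cons] at h
    have h1 := Finsupp.support_sub h
    rw [Finset.mem_union] at h1
    rcases h1 with h1 | h1
    · have h2 : y = x := by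
        have := Finsupp.support_single_subset h1
        simpa using this
      subst h2
      exact ⟨List.sublist_cons_self _ _, by simp⟩
    · have h2 := Finsupp.mapDomain_support h1
      rw [Finset.mem_image] at h2
      obtain ⟨z, hz, rfl⟩ := h2
      obtain ⟨h3, h4⟩ := ih hz
      exact ⟨h3.cons_cons a, by simp; omega⟩

theorem dl_map (f : α → β) (x : List α) : dl (x.map f) = (dl x).mapDomain (List.map f) := by
  induction x with
  | nil => simp
  | cons a x ih =>
    rw [List.map_cons, dl_cons, dl_cons, ih]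
    have h : ∀ (u v : Ch α), (u - v).mapDomain (List.map f) = u.mapDomain (List.map f) -
        v.mapDomain (List.map f) := fun u v => map_sub (Finsupp.lmapDomain ℤ ℤ (List.map f)) u v
    rw [h, Finsupp.mapDomain_single, ← Finsupp.mapDomain_comp, ← Finsupp.mapDomain_comp]
    rfl

end lists

/-! ### the complex of levelled simplices -/

section J

variable (G : Type) [Group G]

/-- strictly increasing levels -/
def Srt {G : Type} (x : List (G × ℕ)) : Prop := x.Pairwise fun a b => a.2 < b.2

/-- the basis -/
abbrev JX : Type := {x : List (G × ℕ) // Srt x ∧ x ≠ []}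

variable {G}

/-- translation of lists -/
def mv (g : G) (x : List (G × ℕ)) : List (G × ℕ) := x.map fun a => (g * a.1, a.2)

theorem srt_mv {g : G} {x : List (G × ℕ)} (h : Srt x) : Srt (mv g x) := by
  unfold Srt mv
  rw [List.pairwise_map]
  exact h

/-- translation of simplices -/
def mJ (g : G) (x : JX G) : JX G := ⟨mv g x.1, srt_mv x.2.1, by
  unfold mv
  rw [Ne, List.map_eq_nil_iff]
  exact x.2.2⟩

/-- embedding of chains -/
noncomputable def em : (JX G →₀ ℤ) →ₗ[ℤ] Ch (G × ℕ) := Finsupp.lmapDomain ℤ ℤ Subtype.val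

theorem em_inj : Function.Injective (em : (JX G →₀ ℤ) → Ch (G × ℕ)) :=
  Finsupp.mapDomain_injective Subtype.val_injective

@[simp] theorem em_single (x : JX G) (n : ℤ) : em (single x n) = single x.1 n := by simp [em]

theorem em_nil (c : JX G →₀ ℤ) : em c [] = 0 := by
  show Finsupp.mapDomain Subtype.val c [] = 0
  refine Finsupp.mapDomain_of_notMem_range _ _ ?_
  rintro ⟨x, hx⟩
  exact x.2.2 hx

/-- restriction of chains -/
noncomputable def re (c : Ch (G × ℕ)) : JX G →₀ ℤ :=
  Finsupp.comapDomain Subtype.val c Subtype.val_injective.injOn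

theorem em_re {c : Ch (G × ℕ)} (h : ∀ y ∈ c.support, Srt y ∧ y ≠ []) : em (re c) = c := by
  refine Finsupp.mapDomain_comapDomain _ Subtype.val_injective c ?_
  intro y hy
  exact ⟨⟨y, h y hy⟩, rfl⟩

theorem mem_re {c : Ch (G × ℕ)} {y : JX G} : y ∈ (re c).support ↔ y.1 ∈ c.support := by
  unfold re
  rw [Finsupp.mem_support_iff, Finsupp.comapDomain_apply, Finsupp.mem_support_iff]

theorem re_dl_one {x : JX G} (h : x.1.length = 1) : re (dl x.1) = 0 := by
  classical
  rw [← Finsupp.support_eq_empty, Finset.eq_empty_iff_forall_notMem]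
  intro y hy
  have h1 := (mem_dl (mem_re.1 hy)).2
  have h2 : y.1.length = 0 := by omega
  exact y.2.2 (List.length_eq_zero_iff.1 h2)

theorem em_bd {x : JX G} (h : x.1.length ≠ 1) : em (re (dl x.1)) = dl x.1 := by
  refine em_re fun y hy => ?_
  obtain ⟨h1, h2⟩ := mem_dl hy
  refine ⟨List.Pairwise.sublist h1 x.2.1, ?_⟩
  rintro rfl
  simp at h2
  exact h h2.symm

/-- augmentation -/
def jep (x : JX G) : ℤ := if x.1.length = 1 then 1 else 0

noncomputable def DJ : (JX G →₀ ℤ) →ₗ[ℤ] (JX G →₀ ℤ) :=
  Finsupp.linearCombination ℤ (fun x : JX G => re (dl x.1))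
noncomputable def EJ : (JX G →₀ ℤ) →ₗ[ℤ] ℤ := Finsupp.linearCombination ℤ (jep : JX G → ℤ)

theorem em_DJ (c : JX G →₀ ℤ) :
    em (DJ c) = Dl (em c) - EJ c • single ([] : List (G × ℕ)) 1 := by
  have : (em (G := G)).comp DJ = Dl.comp em - (LinearMap.toSpanSingleton ℤ (Ch (G × ℕ))
      (single ([] : List (G × ℕ)) 1)).comp EJ :=
    lin_ext fun x => by
      simp only [LinearMap.comp_apply, LinearMap.sub_apply, DJ, EJ,
        Finsupp.linearCombination_single, one_smul, em_single, Dl_single,
        LinearMap.toSpanSingleton_apply]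
      by_cases h : x.1.length = 1
      · rw [re_dl_one h, map_zero]
        obtain ⟨a, ha⟩ := List.length_eq_one_iff.1 h
        rw [jep, if_pos h, ha, dl_cons, dl_nil]
        simp
      · rw [em_bd h, jep, if_neg h]
        simp
  exact LinearMap.congr_fun this c

theorem EJ_bd (x : JX G) : EJ (re (dl x.1)) = 0 := by
  by_cases h : x.1.length = 1
  · rw [re_dl_one h, map_zero]
  · have h1 := em_DJ (re (dl x.1))
    rw [em_bd h, Dl_dl, zero_sub] at h1
    have h2 := DFunLike.congr_fun h1 []
    rw [em_nil] at h2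
    simpa using h2

theorem DJ_bd (x : JX G) : DJ (re (dl x.1)) = 0 := by
  by_cases h : x.1.length = 1
  · rw [re_dl_one h, map_zero]
  · apply em_inj
    rw [em_DJ, em_bd h, Dl_dl, EJ_bd]
    simp

variable (G) in
/-- **The complex of levelled simplices** as a free based augmented complex. -/
@[reducible] noncomputable def J : FCx G where
  X := JX G
  sm := mJ
  sm_one x := by
    apply Subtype.ext
    simp [mJ, mv]
  sm_mul g h x := by
    apply Subtype.ext
    simp [mJ, mv, mul_assoc, Function.comp_def]
  deg x := x.1.length - 1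
  deg_sm g x := by simp [mJ, mv]
  bd x := re (dl x.1)
  bd_sm g x := by
    by_cases h : x.1.length = 1
    · have h' : (mJ g x).1.length = 1 := by simpa [mJ, mv] using h
      rw [re_dl_one h, re_dl_one h', Finsupp.mapDomain_zero]
    · have h' : (mJ g x).1.length ≠ 1 := by simpa [mJ, mv] using h
      apply em_inj
      rw [em_bd h']
      have h0 : dl (mJ g x).1 = (dl x.1).mapDomain (mv g) := dl_map _ _
      have h1 : em ((re (dl x.1)).mapDomain (mJ g)) = (em (re (dl x.1))).mapDomain (mv g) := by
        show Finsupp.mapDomain _ (Finsupp.mapDomain _ _) = Finsupp.mapDomain _ (Finsupp.mapDomain _ _)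
        rw [← Finsupp.mapDomain_comp, ← Finsupp.mapDomain_comp]
        rfl
      rw [h0, h1, em_bd h]
  bd_deg x y hy := by
    have h1 := (mem_dl (mem_re.1 hy)).2
    have h2 : y.1.length ≠ 0 := fun h => y.2.2 (List.length_eq_zero_iff.1 h)
    omega
  bd_bd x := DJ_bd x
  ep := jep
  ep_sm g x := by simp [jep, mJ, mv]
  ep_deg x hx := by
    rw [jep, if_neg]
    omega
  ep_bd x := EJ_bd x
  base x := (x.1.head x.2.2).1
  base_sm g x := by
    obtain ⟨x, h, hx⟩ := x
    cases x with
    | nil => exact absurd rfl hx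
    | cons a x => rfl

theorem em_D (c : JX G →₀ ℤ) :
    em ((J G).D c) = Dl (em c) - (J G).E c • single ([] : List (G × ℕ)) 1 := em_DJ c

theorem mem_em {c : JX G →₀ ℤ} {y : List (G × ℕ)} (h : y ∈ (em c).support) :
    ∃ x ∈ c.support, x.1 = y := by
  classical
  have := Finsupp.mapDomain_support h
  rw [Finset.mem_image] at this
  exact this

theorem len_of_mem {c : JX G →₀ ℤ} {n : ℕ} (hc : c ∈ (J G).Dg n) {x : JX G} (hx : x ∈ c.support) :
    x.1.length = n + 1 := by
  have h1 : x.1.length - 1 = n := (Finsupp.mem_supported ℤ c).1 hc hx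
  have h2 : x.1.length ≠ 0 := fun h => x.2.2 (List.length_eq_zero_iff.1 h)
  omega

theorem J_acyclic : (J G).Acyclic := by
  classical
  refine ⟨⟨single ⟨[(1, 0)], List.pairwise_singleton _ _, by simp⟩ 1,
    (J G).single_mem_Dg rfl 1, ?_⟩, ?_⟩
  · rw [PCx.E_single]
    simp [jep]
  intro n z hz h0 h0'
  -- a level above everything
  let M : ℕ := z.support.sup fun x => (x.1.map Prod.snd).sum + 1
  have hM : ∀ x ∈ z.support, ∀ a ∈ x.1, a.2 < M := by
    intro x hx a ha
    have h1 : (x.1.map Prod.snd).sum + 1 ≤ M := Finset.le_sup (f := fun x : JX G =>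
      (x.1.map Prod.snd).sum + 1) hx
    have h2 : a.2 ≤ (x.1.map Prod.snd).sum := List.single_le_sum (by simp) _ (List.mem_map_of_mem ha)
    omega
  set c := (-1 : ℤ) ^ (n + 1) • app ((1 : G), M) (em z) with hc
  have hcs : ∀ y ∈ c.support, ∃ x ∈ z.support, y = x.1 ++ [((1 : G), M)] := by
    intro y hy
    have h1 : y ∈ (app ((1 : G), M) (em z)).support := Finsupp.support_smul hy
    have h2 := Finsupp.mapDomain_support h1
    rw [Finset.mem_image] at h2
    obtain ⟨w, hw, rfl⟩ := h2
    obtain ⟨x, hx, rfl⟩ := mem_em hw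
    exact ⟨x, hx, rfl⟩
  have hsrt : ∀ y ∈ c.support, Srt y ∧ y ≠ [] := by
    intro y hy
    obtain ⟨x, hx, rfl⟩ := hcs y hy
    refine ⟨?_, by simp⟩
    unfold Srt
    rw [List.pairwise_append]
    refine ⟨x.2.1, List.pairwise_singleton _ _, fun a ha b hb => ?_⟩
    rw [List.mem_singleton] at hb
    subst hb
    exact hM x hx a ha
  have hdg : re c ∈ (J G).Dg (n + 1) := by
    refine (Finsupp.mem_supported ℤ _).2 fun y hy => ?_
    obtain ⟨x, hx, h1⟩ := hcs y.1 (mem_re.1 hy)
    show y.1.length - 1 = n + 1
    rw [h1]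
    have := len_of_mem hz hx
    simp [this]
  refine ⟨re c, hdg, ?_⟩
  apply em_inj
  rw [em_D, (J G).E_eq_zero (Nat.succ_ne_zero n) hdg, zero_smul, sub_zero, em_re hsrt, hc, map_smul]
  have hD' : Dl (em z) = 0 := by
    have h1 := em_D z
    rw [h0, h0', zero_smul, sub_zero, map_zero] at h1
    exact h1.symm
  have h1 : Dl (app ((1 : G), M) (em z)) =
      app ((1 : G), M) (Dl (em z)) + (-1) ^ (n + 1) • em z := by
    have h2 : ∀ c ∈ Finsupp.supported ℤ ℤ {x : List (G × ℕ) | x.length = n + 1},
        (Dl.comp (app ((1 : G), M))) c =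
          (((app ((1 : G), M)).comp Dl + ((-1) ^ (n + 1) : ℤ) • LinearMap.id :
            Ch (G × ℕ) →ₗ[ℤ] Ch (G × ℕ))) c := by
      intro c hc
      refine lin_ext_on _ (fun x hx => ?_) c hc
      have hx' : x.length = n + 1 := hx
      simp only [LinearMap.comp_apply, LinearMap.add_apply, LinearMap.smul_apply,
        LinearMap.id_apply, app_single, Dl_single, one_smul, dl_append, hx']
    refine h2 (em z) ((Finsupp.mem_supported ℤ _).2 fun y hy => ?_)
    obtain ⟨x, hx, rfl⟩ := mem_em hy
    exact len_of_mem hz hx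
  rw [h1, hD', map_zero, zero_add, smul_smul, ← mul_pow]
  simp

end J

end Crest.Agent.R185.Lev
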