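import Crest.Agent.R185.Md191E
import Crest.Agent.R185.Hub2

/-!
# R185 / LOC (1): points on sheets, and the main local lemma

`Q = D × P`, sheets as in `Md191A`.  `ptS s x z p` is the point `[x, (z, p)]` on the sheet `s ∈ ℤ`
(`s ≤ 0`), resp. `(x z, p)` on the sheet `s ≥ 1`.
-/

set_option autoImplicit false

namespace Crest.Agent.R185.Loc

open Equiv Crest.Agent.R185.Md191A Crest.Agent.R185.Md191B Crest.Agent.R185.Md191E
  Crest.Agent.R185.Hub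

/-! ### points -/

section pts

variable {D : Type} [Group D] {S : Subgroup D} {Pp : Type} (χ : S →* Perm Pp)

/-- the set of points -/
abbrev YP : Type := YQ S (starQ χ)

/-- the point `[x, (z, p)]` on the sheet `s` -/
def ptS (s : ℤ) (x z : D) (p : Pp) : YP χ :=
  if 0 < s then Sum.inr ((s - 1).toNat, (x * z, p)) else Sum.inl ((-s).toNat, mkI S _ x (z, p))

theorem ptS_pos {s : ℤ} (hs : 0 < s) (x z : D) (p : Pp) :
    ptS χ s x z p = Sum.inr ((s - 1).toNat, (x * z, p)) := by simp [ptS, hs]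

theorem ptS_neg {s : ℤ} (hs : s ≤ 0) (x z : D) (p : Pp) :
    ptS χ s x z p = Sum.inl ((-s).toNat, mkI S _ x (z, p)) := by simp [ptS, not_lt.2 hs]

/-- the letters of `D` -/
abbrev dP (d : D) : Perm (YP χ) := dY S (dQ D Pp) (starQ χ) d

/-- the letters of `J` -/
abbrev jP (j : Perm Pp) : Perm (YP χ) := jY S (starQ χ) (jQ D j)

/-- the shift letter -/
noncomputable abbrev sP : Perm (YP χ) := sh S (starQ χ)

variable {χ}

theorem dP_pt (d : D) (s : ℤ) (x z : D) (p : Pp) :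
    dP χ d (ptS χ s x z p) = ptS χ s (d * x) z p := by
  by_cases hs : 0 < s
  · rw [ptS_pos χ hs, ptS_pos χ hs, dY_inr, dQ_apply, mul_assoc]
  · rw [ptS_neg χ (not_lt.1 hs), ptS_neg χ (not_lt.1 hs), dY_inl]

theorem sP_pos {s : ℤ} (hs : 0 < s) (x z : D) (p : Pp) :
    sP χ (ptS χ s x z p) = ptS χ (s + 1) x z p := by
  rw [ptS_pos χ hs, ptS_pos χ (by omega), sh_inr]
  congr 2
  omega

theorem sP_neg {s : ℤ} (hs : s < 0) {x : D} (hx : x ∈ S) (z : D) (p : Pp) :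
    sP χ (ptS χ s x z p) = ptS χ (s + 1) x z p := by
  obtain ⟨n, rfl⟩ : ∃ n : ℕ, s = -((n : ℤ) + 1) := ⟨(-s - 1).toNat, by omega⟩
  rw [ptS_neg χ (by omega), ptS_neg χ (by omega)]
  have h1 : (- -((n : ℤ) + 1)).toNat = n + 1 := by omega
  have h2 : (-(-((n : ℤ) + 1) + 1)).toNat = n := by omega
  rw [h1, h2]
  exact sh_succ S _ hx n _

theorem sP_zero {x : D} (hx : x ∈ S) (z : D) (p : Pp) :
    sP χ (ptS χ 0 x z p) = ptS χ 1 1 (x * z) (χ ⟨x, hx⟩ p) := by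
  rw [ptS_neg χ le_rfl, ptS_pos χ one_pos]
  have := sh_zero S (starQ χ) hx (z, p)
  simpa using this

theorem sP_else {s : ℤ} (hs : s ≤ 0) {x : D} (hx : x ∉ S) (z : D) (p : Pp) :
    sP χ (ptS χ s x z p) = ptS χ s x z p := by
  rw [ptS_neg χ hs]
  exact sh_else S _ hx _ _

theorem ptS_reset {s : ℤ} (hs : 0 < s) (x z : D) (p : Pp) :
    ptS χ s x z p = ptS χ s 1 (x * z) p := by
  rw [ptS_pos χ hs, ptS_pos χ hs, one_mul]

theorem sPi_pos {s : ℤ} (hs : 1 < s) (x z : D) (p : Pp) :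
    (sP χ)⁻¹ (ptS χ s x z p) = ptS χ (s - 1) x z p := by
  rw [Perm.inv_eq_iff_eq, sP_pos (by omega)]
  congr 1; omega

theorem sPi_one (x z : D) (p : Pp) :
    (sP χ)⁻¹ (ptS χ 1 x z p) = ptS χ 0 1 (x * z) p := by
  rw [Perm.inv_eq_iff_eq, sP_zero S.one_mem, ptS_reset one_pos]
  have : (⟨1, S.one_mem⟩ : S) = 1 := rfl
  rw [this, map_one]
  simp

theorem sPi_neg {s : ℤ} (hs : s ≤ 0) {x : D} (hx : x ∈ S) (z : D) (p : Pp) :
    (sP χ)⁻¹ (ptS χ s x z p) = ptS χ (s - 1) x z p := by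
  rw [Perm.inv_eq_iff_eq, sP_neg (by omega) hx]
  congr 1; omega

theorem sPi_else {s : ℤ} (hs : s ≤ 0) {x : D} (hx : x ∉ S) (z : D) (p : Pp) :
    (sP χ)⁻¹ (ptS χ s x z p) = ptS χ s x z p := by
  rw [Perm.inv_eq_iff_eq, sP_else hs hx]

theorem jP_one (j : Perm Pp) (x z : D) (p : Pp) :
    jP χ j (ptS χ 1 x z p) = ptS χ 1 x z (j p) := by
  rw [ptS_pos χ one_pos, ptS_pos χ one_pos]
  exact jY_zero S _ _ _

theorem jP_ne (j : Perm Pp) {s : ℤ} (hs : s ≠ 1) (x z : D) (p : Pp) :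
    jP χ j (ptS χ s x z p) = ptS χ s x z p := by
  by_cases h : 0 < s
  · obtain ⟨n, rfl⟩ : ∃ n : ℕ, s = (n : ℤ) + 2 := ⟨(s - 2).toNat, by omega⟩
    rw [ptS_pos χ h]
    have h1 : ((n : ℤ) + 2 - 1).toNat = n + 1 := by omega
    rw [h1]
    exact jY_succ S _ _ _ _
  · rw [ptS_neg χ (not_lt.1 h)]
    exact jY_inl S _ _ _

theorem jPi_one (j : Perm Pp) (x z : D) (p : Pp) :
    (jP χ j)⁻¹ (ptS χ 1 x z p) = ptS χ 1 x z (j⁻¹ p) := by
  rw [Perm.inv_eq_iff_eq, jP_one]; simp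

theorem jPi_ne (j : Perm Pp) {s : ℤ} (hs : s ≠ 1) (x z : D) (p : Pp) :
    (jP χ j)⁻¹ (ptS χ s x z p) = ptS χ s x z p := by
  rw [Perm.inv_eq_iff_eq, jP_ne j hs]

theorem dPi_pt (d : D) (s : ℤ) (x z : D) (p : Pp) :
    (dP χ d)⁻¹ (ptS χ s x z p) = ptS χ s (d⁻¹ * x) z p := by
  rw [Perm.inv_eq_iff_eq, dP_pt]; simp

theorem ptS_eq_pos {s s' : ℤ} (hs : 0 < s) {x x' z z' : D} {p p' : Pp} :
    ptS χ s x z p = ptS χ s' x' z' p' ↔ s = s' ∧ x * z = x' * z' ∧ p = p' := by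
  rw [ptS_pos χ hs]
  by_cases hs' : 0 < s'
  · rw [ptS_pos χ hs']
    simp only [Sum.inr.injEq, Prod.mk.injEq]
    constructor
    · rintro ⟨h1, h2, h3⟩; exact ⟨by omega, h2, h3⟩
    · rintro ⟨h1, h2, h3⟩; exact ⟨by omega, h2, h3⟩
  · rw [ptS_neg χ (not_lt.1 hs')]
    constructor
    · intro h; cases h
    · rintro ⟨h1, -⟩; omega

theorem ptS_eq_neg {s s' : ℤ} (hs : s ≤ 0) {x x' z z' : D} {p p' : Pp} :
    ptS χ s x z p = ptS χ s' x' z' p' ↔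
      s = s' ∧ ∃ e : S, (e : D) = x'⁻¹ * x ∧ z' = (e : D) * z ∧ p' = χ e p := by
  rw [ptS_neg χ hs]
  by_cases hs' : 0 < s'
  · rw [ptS_pos χ hs']
    constructor
    · intro h; cases h
    · rintro ⟨h1, -⟩; omega
  · rw [ptS_neg χ (not_lt.1 hs')]
    simp only [Sum.inl.injEq, Prod.mk.injEq]
    rw [mkI_eq]
    constructor
    · rintro ⟨h1, e, h2, h3⟩
      rw [starQ_apply] at h3
      refine ⟨by omega, e, ?_, congrArg Prod.fst h3, congrArg Prod.snd h3⟩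
      rw [h2]; group
    · rintro ⟨h1, e, h2, h3, h4⟩
      refine ⟨by omega, e, ?_, ?_⟩
      · rw [h2]; group
      · rw [starQ_apply, h3, h4]

theorem ptS_cases (y : YP χ) : ∃ s x z p, y = ptS χ s x z p := by
  rcases y with ⟨n, w⟩ | ⟨n, z, p⟩
  · obtain ⟨x, ⟨z, p⟩, rfl⟩ := Ind_cases w
    refine ⟨-(n : ℤ), x, z, p, ?_⟩
    rw [ptS_neg χ (by omega)]
    congr 2; omega
  · refine ⟨(n : ℤ) + 1, 1, z, p, ?_⟩
    rw [ptS_pos χ (by omega)]
    simp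

end pts

end Crest.Agent.R185.Loc
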