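import Crest.Agent.R185.Loc2
import Crest.Agent.R185.Smp6

/-!
# R185 / LOC (3): types of single points of `Y(X)`
-/

set_option autoImplicit false

namespace Crest.Agent.R185.Loc

open Equiv Crest.Agent.R185.Md191A Crest.Agent.R185.Md191B Crest.Agent.R185.Md191E
  Crest.Agent.R185.Hub Crest.Agent.R185.Smp

/-! ### the height -/

section height

variable {D : Type} [Group D] {S : Subgroup D} {Pp : Type} {χ : S →* Perm Pp}

/-- `[x, (z, p)] ↦ x z` -/
def zeI : Ind S (starQ χ) → D :=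
  Quotient.lift (fun q : D × (D × Pp) => q.1 * q.2.1) (by
    rintro ⟨x, z, p⟩ ⟨x', z', p'⟩ ⟨e, h1, h2⟩
    simp only at h1 h2 ⊢
    rw [starQ_apply] at h2
    have h3 : z' = (e : D) * z := congrArg Prod.fst h2
    rw [h1, h3]; group)

/-- `ζ : Y → D` -/
def ze : YP χ → D
  | Sum.inl (_, w) => zeI w
  | Sum.inr (_, (z, _)) => z

@[simp] theorem ze_pt (s : ℤ) (x z : D) (p : Pp) : ze (ptS χ s x z p) = x * z := by
  by_cases hs : 0 < s
  · rw [ptS_pos χ hs]; rfl
  · rw [ptS_neg χ (not_lt.1 hs)]; rfl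

theorem ze_d (d : D) (y : YP χ) : ze (dP χ d y) = d * ze y := by
  obtain ⟨s, x, z, p, rfl⟩ := ptS_cases y
  rw [dP_pt, ze_pt, ze_pt, mul_assoc]

theorem ze_di (d : D) (y : YP χ) : ze ((dP χ d)⁻¹ y) = d⁻¹ * ze y := by
  obtain ⟨s, x, z, p, rfl⟩ := ptS_cases y
  rw [dPi_pt, ze_pt, ze_pt, mul_assoc]

theorem ze_j (j : Perm Pp) (y : YP χ) : ze (jP χ j y) = ze y := by
  obtain ⟨s, x, z, p, rfl⟩ := ptS_cases y
  by_cases hs : s = 1
  · rw [hs, jP_one, ze_pt, ze_pt]
  · rw [jP_ne _ hs]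

theorem ze_s (y : YP χ) : ze (sP χ y) = ze y := by
  obtain ⟨s, x, z, p, rfl⟩ := ptS_cases y
  by_cases hs : 0 < s
  · rw [sP_pos hs, ze_pt, ze_pt]
  · by_cases hx : x ∈ S
    · by_cases h0 : s = 0
      · rw [h0, sP_zero hx, ze_pt, ze_pt, one_mul]
      · rw [sP_neg (by omega) hx, ze_pt, ze_pt]
    · rw [sP_else (by omega) hx]

theorem ze_si (y : YP χ) : ze ((sP χ)⁻¹ y) = ze y := by
  have h1 : sP χ ((sP χ)⁻¹ y) = y := by simp
  have := ze_s ((sP χ)⁻¹ y)
  rw [h1] at this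
  exact this.symm

theorem ze_ji (j : Perm Pp) (y : YP χ) : ze ((jP χ j)⁻¹ y) = ze y := by
  rw [jP_inv, ze_j]

end height

section single

variable {A : Type} [DecidableEq A] {D J : Type} [Group D] {dl : J → D} {S : Subgroup D}
  {chi : ∀ (X : Type) [MulAction (FreeGroup A) X], S →* Perm (P A X)}
  {Acc : Set (FreeGroup A)} {C : ℕ}

/-- the action of an alphabet -/
noncomputable abbrev pa {B : Type} (kd : B → Kd D A)
    (chi : ∀ (X : Type) [MulAction (FreeGroup A) X], S →* Perm (P A X))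
    (X : Type) [MulAction (FreeGroup A) X] : B → Perm (YP (chi X)) :=
  fun b => kAct chi X (kd b)

theorem sg_sgn {B Z : Type} (p : B → Perm Z) (a : B × Bool) (z : Z) :
    sg p a z = sgn (p a.1) a.2 z := by
  obtain ⟨a, b⟩ := a
  cases b
  · rw [sg_false, sgn_false]
  · rw [sg_true, sgn_true]

/-- a height on `D` -/
structure Hgt (dl : J → D) (S : Subgroup D) (η : D →* Multiplicative ℤ) : Prop where
  one : ∀ e ∈ S, η e = 1
  le : ∀ j, (Multiplicative.toAdd (η (dl j))).natAbs ≤ 1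

theorem Hgt.ball {η : D →* Multiplicative ℤ} (h : Hgt dl S η) {n : ℕ} {x : D}
    (hx : Ball dl n x) : (Multiplicative.toAdd (η x)).natAbs ≤ n := by
  obtain ⟨l, hl, rfl⟩ := hx
  refine le_trans ?_ hl
  clear hl
  induction l with
  | nil => rw [← FreeGroup.one_eq_mk, map_one, map_one]; simp
  | cons a l ih =>
    have h1 : (FreeGroup.mk (a :: l) : FreeGroup J) = FreeGroup.mk [a] * FreeGroup.mk l := by
      rw [FreeGroup.mul_mk]; rfl
    rw [h1, map_mul, map_mul, toAdd_mul]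
    have h2 := h.le a.1
    have h3 : (Multiplicative.toAdd (η (FreeGroup.lift dl (FreeGroup.mk [a])))).natAbs ≤ 1 := by
      obtain ⟨a, b⟩ := a
      cases b
      · simpa using h2
      · simpa using h2
    have h4 := Int.natAbs_add_le (Multiplicative.toAdd (η (FreeGroup.lift dl (FreeGroup.mk [a]))))
      (Multiplicative.toAdd (η (FreeGroup.lift dl (FreeGroup.mk l))))
    simp only [List.length_cons]
    omega

variable {X X' : Type} [MulAction (FreeGroup A) X] [MulAction (FreeGroup A) X']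
  {B₀ : Type} {kd : B₀ → Kd D A}

/-- the height of a point -/
def hty (η : D →* Multiplicative ℤ) {Pp : Type} {χ : S →* Perm Pp} (y : YP χ) : ℤ :=
  Multiplicative.toAdd (η (ze y))

theorem hty_step {η : D →* Multiplicative ℤ} (h : Hgt dl S η) (hkd : ∀ b, (kd b).Ok dl)
    (a : B₀ × Bool) (y : YP (chi X)) :
    |hty η (sg (pa kd chi X) a y) - hty η y| ≤ 1 := by
  obtain ⟨b, ε⟩ := a
  rw [sg_sgn]
  simp only [pa]
  have hb := hkd b
  cases hk : kd b with
  | d x =>
    rw [hk] at hb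
    have hx := h.ball (n := 1) (x := x) hb
    cases ε
    · rw [sgn_false, kAct, hty, hty, ze_di, map_mul, toAdd_mul, map_inv, toAdd_inv]
      rw [add_sub_cancel_right, abs_neg, abs_le]
      omega
    · rw [sgn_true, kAct, hty, hty, ze_d, map_mul, toAdd_mul]
      rw [add_sub_cancel_right, abs_le]
      omega
  | s =>
    cases ε
    · rw [sgn_false, kAct, hty, hty, ze_si]; simp
    · rw [sgn_true, kAct, hty, hty, ze_s]; simp
  | b a =>
    cases ε
    · rw [sgn_false, kAct, hty, hty, ze_ji]; simp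
    · rw [sgn_true, kAct, hty, hty, ze_j]; simp
  | g a =>
    cases ε
    · rw [sgn_false, kAct, hty, hty, ze_ji]; simp
    · rw [sgn_true, kAct, hty, hty, ze_j]; simp
  | t =>
    cases ε
    · rw [sgn_false, kAct, hty, hty, ze_ji]; simp
    · rw [sgn_true, kAct, hty, hty, ze_j]; simp

theorem hty_ev {η : D →* Multiplicative ℤ} (h : Hgt dl S η) (hkd : ∀ b, (kd b).Ok dl)
    (w : List (B₀ × Bool)) (y : YP (chi X)) :
    |hty η (ev (sg (pa kd chi X)) w y) - hty η y| ≤ w.length := by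
  induction w with
  | nil => simp
  | cons a w ih =>
    rw [ev_cons]
    have h1 := hty_step h hkd a (ev (sg (pa kd chi X)) w y)
    rw [abs_le] at h1 ih ⊢
    simp only [List.length_cons]
    push_cast
    constructor <;> linarith [h1.1, h1.2, ih.1, ih.2]

/-! ### paths -/

theorem Rel.path {q : Pair A D X X'} {k₀ n B : ℕ} (hq : q.Ok dl Acc C k₀ n B)
    (hlin : LinH dl S chi Acc C) (hB : 3 * (C * k₀) + 3 * (C * n) + n ≤ B)
    (hkd : ∀ b, (kd b).Ok dl) {y : YP (chi X)} {y' : YP (chi X')}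
    (h : Rel dl chi C k₀ q 0 y y') (w : List (B₀ × Bool)) (hw : w.length ≤ n) :
    Rel dl chi C k₀ q w.length (ev (sg (pa kd chi X)) w y) (ev (sg (pa kd chi X')) w y') := by
  induction w with
  | nil => exact h
  | cons a w ih =>
    rw [ev_cons, ev_cons, sg_sgn, sg_sgn]
    simp only [List.length_cons] at hw
    exact Rel.step hq hlin hB (by omega) (ih (by omega)) _ (hkd _) _

theorem Rel.start (q : Pair A D X X') {k₀ : ℕ} (hx : Ball dl k₀ q.x) :
    Rel dl chi C k₀ q 0 (ptS (chi X) q.s q.x q.z (q.g, q.m, q.ξ))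
      (ptS (chi X') q.s' q.x q.z' (q.g', q.m', q.ξ')) :=
  ⟨0, q.x, 1, 1, 0, 1, k₀, by simp, ⟨hx, by omega⟩, by simp, by simp, by simp⟩

/-- **the two points of an `Ok` pair have the same `n`-type** -/
theorem Pair.Ok.type {q : Pair A D X X'} {k₀ n B : ℕ} (hq : q.Ok dl Acc C k₀ n B)
    (hlin : LinH dl S chi Acc C) (hB : 3 * (C * k₀) + 3 * (C * n) + n ≤ B)
    (hkd : ∀ b, (kd b).Ok dl) (w : List (B₀ × Bool)) (hw : w.length ≤ n) :
    ev (sg (pa kd chi X)) w (ptS (chi X) q.s q.x q.z (q.g, q.m, q.ξ)) =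
        ptS (chi X) q.s q.x q.z (q.g, q.m, q.ξ) ↔
      ev (sg (pa kd chi X')) w (ptS (chi X') q.s' q.x q.z' (q.g', q.m', q.ξ')) =
        ptS (chi X') q.s' q.x q.z' (q.g', q.m', q.ξ') :=
  Rel.fin hq hlin hB hw (Rel.path hq hlin hB hkd (Rel.start q hq.hx) w hw)

/-- the base point -/
noncomputable def y₀ (chi : ∀ (X : Type) [MulAction (FreeGroup A) X], S →* Perm (P A X))
    {X : Type} [MulAction (FreeGroup A) X] (x₀ : X) : YP (chi X) :=
  ptS (chi X) 1 1 1 (1, 0, x₀)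

/-- the budget -/
def bud (C k₀ n : ℕ) : ℕ := 3 * (C * k₀) + 3 * (C * n) + n

/-- **(A')** the type of the base point only depends on the type of `x₀` -/
theorem type_base (hlin : LinH dl S chi Acc C) (hkd : ∀ b, (kd b).Ok dl) {n : ℕ} {x₀ : X}
    {x₀' : X'} (h : GoodAt Acc x₀ (C * bud C 0 n + 3 * bud C 0 n))
    (h' : GoodAt Acc x₀' (C * bud C 0 n + 3 * bud C 0 n))
    (hty : ∀ u : FreeGroup A, u.norm ≤ 2 * bud C 0 n → (u • x₀ = x₀ ↔ u • x₀' = x₀')) :
    TyEq (sg (pa kd chi X)) (sg (pa kd chi X')) n (fun _ : Fin 1 => y₀ chi x₀)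
      (fun _ => y₀ chi x₀') := by
  intro _ _ w hw
  let q : Pair A D X X' := ⟨1, 1, 1, 1, 1, 1, 1, 0, 0, x₀, x₀'⟩
  have hq : q.Ok dl Acc C 0 n (bud C 0 n) :=
    ⟨Or.inl rfl, Or.inl rfl, Or.inl rfl, Ball.one 0, h.mono (by simp [q]), h'.mono (by simp [q]),
      hty⟩
  exact hq.type hlin le_rfl hkd w hw

end single

end Crest.Agent.R185.Loc
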