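import Crest.Agent.R185.Loc3

/-!
# R185 / LOC (4): small witnesses for types of single points of `Y(X)`
-/

set_option autoImplicit false
set_option linter.unusedSectionVars false

namespace Crest.Agent.R185.Loc

open Equiv Crest.Agent.R185.Md191A Crest.Agent.R185.Md191B Crest.Agent.R185.Md191E
  Crest.Agent.R185.Hub Crest.Agent.R185.Smp

/-! ### clamps -/

theorem clampS (n : ℕ) (s : ℤ) : ∃ s' : ℤ, (s = s' ∨ (s < -(n : ℤ) ∧ s' < -(n : ℤ)) ∨
    ((n : ℤ) + 1 < s ∧ (n : ℤ) + 1 < s')) ∧ s'.natAbs ≤ n + 2 := by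
  rcases lt_trichotomy s 0 with h | h | h
  · by_cases h1 : s < -(n : ℤ)
    · exact ⟨-(n : ℤ) - 1, Or.inr (Or.inl (by omega)), by omega⟩
    · exact ⟨s, Or.inl rfl, by omega⟩
  · exact ⟨s, Or.inl rfl, by omega⟩
  · by_cases h1 : (n : ℤ) + 1 < s
    · exact ⟨(n : ℤ) + 2, Or.inr (Or.inr (by omega)), by omega⟩
    · exact ⟨s, Or.inl rfl, by omega⟩

theorem clampM (B : ℕ) (m : ℤ) : ∃ m' : ℤ, (m = m' ∨ (2 * (B : ℤ) < m ∧ 2 * (B : ℤ) < m') ∨
    (m < -(2 * (B : ℤ)) ∧ m' < -(2 * (B : ℤ)))) ∧ m'.natAbs ≤ 2 * B + 1 := by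
  by_cases h1 : 2 * (B : ℤ) < m
  · exact ⟨2 * B + 1, Or.inr (Or.inl (by omega)), by omega⟩
  · by_cases h2 : m < -(2 * (B : ℤ))
    · exact ⟨-(2 * B + 1), Or.inr (Or.inr (by omega)), by omega⟩
    · exact ⟨m, Or.inl rfl, by omega⟩

theorem exists_norm {A : Type} [DecidableEq A] (k : ℕ) (g : FreeGroup A) (hg : k ≤ g.norm) :
    ∃ g' : FreeGroup A, g'.norm = k := by
  induction hn : g.norm generalizing g with
  | zero => exact ⟨g, by omega⟩
  | succ n ih =>
    by_cases hk : k = n + 1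
    · exact ⟨g, by omega⟩
    · have h1 : g = FreeGroup.mk g.toWord := FreeGroup.mk_toWord.symm
      have h2 : g.toWord.length = n + 1 := hn
      cases hw : g.toWord with
      | nil => rw [hw] at h2; simp at h2
      | cons a w =>
        rw [hw] at h1 h2
        have h3 : g = FreeGroup.mk [a] * FreeGroup.mk w := by rw [h1, FreeGroup.mul_mk]; rfl
        have h4 : (FreeGroup.mk w).norm ≤ n := by
          have := FreeGroup.norm_mk_le (L₁ := w)
          simp only [List.length_cons] at h2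
          omega
        have h5 : (FreeGroup.mk [a]).norm ≤ 1 := by
          have := FreeGroup.norm_mk_le (L₁ := [a])
          simpa using this
        have h6 := FreeGroup.norm_mul_le (FreeGroup.mk [a]) (FreeGroup.mk w)
        rw [← h3] at h6
        exact ih (FreeGroup.mk w) (by omega) (by omega)

theorem clampG {A : Type} [DecidableEq A] (B : ℕ) (g : FreeGroup A) : ∃ g' : FreeGroup A,
    (g = g' ∨ (2 * B < g.norm ∧ 2 * B < g'.norm)) ∧ g'.norm ≤ 2 * B + 1 := by
  by_cases h : 2 * B < g.norm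
  · obtain ⟨g', hg'⟩ := exists_norm (2 * B + 1) g (by omega)
    exact ⟨g', Or.inr (by omega), by omega⟩
  · exact ⟨g, Or.inl rfl, by omega⟩

theorem Ball.zpow {D J : Type} [Group D] {dl : J → D} (j : J) (i : ℤ) :
    Ball dl i.natAbs (dl j ^ i) := by
  have h : ∀ n : ℕ, Ball dl n (dl j ^ n) := by
    intro n
    induction n with
    | zero => simpa using Ball.one 0
    | succ n ih => rw [pow_succ]; exact ih.mul (Ball.letter j)
  obtain ⟨n, rfl | rfl⟩ := i.eq_nat_or_neg
  · have := h n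
    simpa using this
  · have := (h n).inv
    simpa using this

section single

variable {A : Type} [DecidableEq A] {D J : Type} [Group D] {dl : J → D} {S : Subgroup D}
  {chi : ∀ (X : Type) [MulAction (FreeGroup A) X], S →* Perm (P A X)}
  {Acc : Set (FreeGroup A)} {C : ℕ}
  {X : Type} [MulAction (FreeGroup A) X] {B₀ : Type} {kd : B₀ → Kd D A}

/-- all the letters are available -/
structure Full (dl : J → D) (kd : B₀ → Kd D A) : Prop where
  d : ∀ j, ∃ b, kd b = Kd.d (dl j)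
  s : ∃ b, kd b = Kd.s
  b : ∀ a, ∃ b, kd b = Kd.b a
  g : ∀ a, ∃ b, kd b = Kd.g a
  t : ∃ b, kd b = Kd.t
  ok : ∀ b, (kd b).Ok dl

/-! ### reaching points -/

theorem Ent.letter {x₀ : X} {f : Kd D A} (hf : ∃ b, kd b = f) (ε : Bool) {ρ : ℕ} {y : YP (chi X)}
    (h : Ent (pa kd chi X) (y₀ chi x₀) ρ y) :
    Ent (pa kd chi X) (y₀ chi x₀) (ρ + 1) (sgn (kAct chi X f) ε y) := by
  obtain ⟨b, rfl⟩ := hf
  have := h.step (b, ε)
  rw [sg_sgn] at this
  exact this

theorem Ent.dword (hF : Full dl kd) {x₀ : X} {ρ k : ℕ} {s : ℤ} {x z : D} {p : P A X} {d : D}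
    (hd : Ball dl k d) (h : Ent (pa kd chi X) (y₀ chi x₀) ρ (ptS (chi X) s x z p)) :
    Ent (pa kd chi X) (y₀ chi x₀) (ρ + k) (ptS (chi X) s (d * x) z p) := by
  obtain ⟨l, hl, rfl⟩ := hd
  suffices h' : Ent (pa kd chi X) (y₀ chi x₀) (ρ + l.length)
      (ptS (chi X) s (FreeGroup.lift dl (FreeGroup.mk l) * x) z p) from h'.mono (by omega)
  clear hl
  induction l with
  | nil => simpa [← FreeGroup.one_eq_mk] using h
  | cons a l ih =>
    have h1 : (FreeGroup.mk (a :: l) : FreeGroup J) = FreeGroup.mk [a] * FreeGroup.mk l := by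
      rw [FreeGroup.mul_mk]; rfl
    rw [h1, map_mul, mul_assoc]
    obtain ⟨a, b⟩ := a
    have h2 := Ent.letter (hF.d a) b ih
    rw [add_assoc] at h2
    cases b
    · rw [sgn_false, kAct, dPi_pt] at h2
      simpa using h2
    · rw [sgn_true, kAct, dP_pt] at h2
      simpa using h2

/-- words in letters of `J` indexed by `A` -/
theorem Ent.aword {x₀ : X} {ρ : ℕ} {p : P A X} (f : FreeGroup A →* Perm (P A X))
    (K : A → Kd D A) (hK : ∀ a, ∃ b, kd b = K a)
    (hf : ∀ a, kAct chi X (K a) = jP (chi X) (f (FreeGroup.of a))) (g : FreeGroup A)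
    (h : Ent (pa kd chi X) (y₀ chi x₀) ρ (ptS (chi X) 1 1 1 p)) :
    Ent (pa kd chi X) (y₀ chi x₀) (ρ + g.norm) (ptS (chi X) 1 1 1 (f g p)) := by
  have key : ∀ l : List (A × Bool), Ent (pa kd chi X) (y₀ chi x₀) (ρ + l.length)
      (ptS (chi X) 1 1 1 (f (FreeGroup.mk l) p)) := by
    intro l
    induction l with
    | nil => simpa [← FreeGroup.one_eq_mk] using h
    | cons a l ih =>
      have h1 : (FreeGroup.mk (a :: l) : FreeGroup A) = FreeGroup.mk [a] * FreeGroup.mk l := by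
        rw [FreeGroup.mul_mk]; rfl
      rw [h1, map_mul, Perm.mul_apply]
      obtain ⟨a, b⟩ := a
      have h2 := Ent.letter (hK a) b ih
      rw [add_assoc] at h2
      cases b
      · have h3 : (FreeGroup.mk [(a, false)] : FreeGroup A) = (FreeGroup.of a)⁻¹ := rfl
        rw [sgn_false, hf, jPi_one] at h2
        rw [h3, map_inv]
        exact h2
      · have h3 : (FreeGroup.mk [(a, true)] : FreeGroup A) = FreeGroup.of a := rfl
        rw [sgn_true, hf, jP_one] at h2
        rw [h3]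
        exact h2
  have := key g.toWord
  rwa [FreeGroup.mk_toWord] at this

theorem Ent.tword (hF : Full dl kd) {x₀ x : X} {ρ : ℕ} {m : ℤ} (i : ℤ)
    (h : Ent (pa kd chi X) (y₀ chi x₀) ρ (ptS (chi X) 1 1 1 (1, m, x))) :
    Ent (pa kd chi X) (y₀ chi x₀) (ρ + i.natAbs) (ptS (chi X) 1 1 1 (1, m + i, x)) := by
  have key : ∀ n : ℕ, Ent (pa kd chi X) (y₀ chi x₀) (ρ + n) (ptS (chi X) 1 1 1 (1, m + n, x)) ∧
      Ent (pa kd chi X) (y₀ chi x₀) (ρ + n) (ptS (chi X) 1 1 1 (1, m - n, x)) := by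
    intro n
    induction n with
    | zero => simpa using h
    | succ n ih =>
      obtain ⟨h1, h2⟩ := ih
      constructor
      · have h3 := Ent.letter hF.t true h1
        rw [sgn_true, kAct, jP_one, dd_one] at h3
        have e : m + ((n + 1 : ℕ) : ℤ) = m + n + 1 := by push_cast; ring
        rw [e]; exact h3
      · have h3 := Ent.letter hF.t false h2
        rw [sgn_false, kAct, jPi_one, dd_inv_one] at h3
        have e : m - ((n + 1 : ℕ) : ℤ) = m - n - 1 := by push_cast; ring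
        rw [e]; exact h3
  rcases Int.natAbs_eq i with h1 | h1
  · have := (key i.natAbs).1
    rw [← h1] at this
    exact this
  · have := (key i.natAbs).2
    have e : m - (i.natAbs : ℤ) = m + i := by omega
    rw [e] at this
    exact this

theorem Ent.sword (hF : Full dl kd) {x₀ : X} {ρ : ℕ} {z : D} {p : P A X} (s : ℤ)
    (h : Ent (pa kd chi X) (y₀ chi x₀) ρ (ptS (chi X) 1 1 z p)) :
    Ent (pa kd chi X) (y₀ chi x₀) (ρ + (s - 1).natAbs) (ptS (chi X) s 1 z p) := by
  have key : ∀ n : ℕ, Ent (pa kd chi X) (y₀ chi x₀) (ρ + n) (ptS (chi X) (1 + n) 1 z p) ∧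
      Ent (pa kd chi X) (y₀ chi x₀) (ρ + n) (ptS (chi X) (1 - n) 1 z p) := by
    intro n
    induction n with
    | zero => simpa using h
    | succ n ih =>
      obtain ⟨h1, h2⟩ := ih
      constructor
      · have h3 := Ent.letter hF.s true h1
        rw [sgn_true, kAct, sP_pos (by omega)] at h3
        have e : (1 : ℤ) + ((n + 1 : ℕ) : ℤ) = 1 + n + 1 := by push_cast; ring
        rw [e]; exact h3
      · have h3 := Ent.letter hF.s false h2
        rw [sgn_false, kAct] at h3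
        have e : (1 : ℤ) - ((n + 1 : ℕ) : ℤ) = 1 - n - 1 := by push_cast; ring
        rw [e]
        by_cases hn : n = 0
        · subst hn
          simp only [Nat.cast_zero, sub_zero] at h3 ⊢
          rw [sPi_one, one_mul] at h3
          exact h3
        · rw [sPi_neg (by omega) S.one_mem] at h3
          exact h3
  rcases Int.natAbs_eq (s - 1) with h1 | h1
  · have := (key (s - 1).natAbs).1
    have e : 1 + ((s - 1).natAbs : ℤ) = s := by omega
    rw [e] at this
    exact this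
  · have := (key (s - 1).natAbs).2
    have e : 1 - ((s - 1).natAbs : ℤ) = s := by omega
    rw [e] at this
    exact this

/-- **reaching a point** -/
theorem Ent.reach (hF : Full dl kd) {x₀ : X} {s : ℤ} {x z : D} {k k' : ℕ} (hx : Ball dl k x)
    (hz : Ball dl k' z) (g : FreeGroup A) (m : ℤ) (l : FreeGroup A) :
    Ent (pa kd chi X) (y₀ chi x₀) (3 + l.norm + m.natAbs + g.norm + k' + s.natAbs + k)
      (ptS (chi X) s x z (g, m, l • x₀)) := by
  have h0 : Ent (pa kd chi X) (y₀ chi x₀) 0 (ptS (chi X) 1 1 1 (1, 0, x₀)) := Ent.base _ _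
  have h1 := Ent.tword hF (-1) h0
  have h2 := Ent.aword (ga A X) Kd.g hF.g (fun _ => rfl) l h1
  rw [ga_neg _ _ _ _ (by norm_num)] at h2
  have h3 := Ent.tword hF (m + 1) h2
  have h4 := Ent.aword (bp A X) Kd.b hF.b (fun _ => rfl) g h3
  rw [bp_apply] at h4
  have h5 := Ent.dword hF hz h4
  rw [ptS_reset one_pos, mul_one, mul_one] at h5
  have h6 := Ent.sword hF s h5
  have h7 := Ent.dword hF hx h6
  rw [mul_one, mul_one] at h7
  have e : (0 : ℤ) + -1 + (m + 1) = m := by ring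
  rw [e] at h7
  refine h7.mono ?_
  omega

/-! ### small points -/

/-- `N`-types of points `l x₀`, `|l| ≤ ρ`, have witnesses `l' x₀`, `|l'| ≤ b` -/
def TLx (x₀ : X) (N ρ b : ℕ) : Prop :=
  ∀ l : FreeGroup A, l.norm ≤ ρ → ∃ l' : FreeGroup A, l'.norm ≤ b ∧
    ∀ u : FreeGroup A, u.norm ≤ N → (u • l • x₀ = l • x₀ ↔ u • l' • x₀ = l' • x₀)

/-- single points have small witnesses of any prescribed height -/
def SP (η : D →* Multiplicative ℤ) (kd : B₀ → Kd D A)
    (chi : ∀ (X : Type) [MulAction (FreeGroup A) X], S →* Perm (P A X)) (x₀ : X)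
    (n w : ℕ) (y : YP (chi X)) : Prop :=
  ∀ t : ℤ, ∃ y' : YP (chi X), Ent (pa kd chi X) (y₀ chi x₀) (w + t.natAbs) y' ∧ hty η y' = t ∧
    ∀ l : List (B₀ × Bool), l.length ≤ n →
      (ev (sg (pa kd chi X)) l y = y ↔ ev (sg (pa kd chi X)) l y' = y')

/-- near points -/
theorem sp_near (hlin : LinH dl S chi Acc C) (hF : Full dl kd) {η : D →* Multiplicative ℤ}
    {κ : J} (hκ : η (dl κ) = Multiplicative.ofAdd 1) (hη : Hgt dl S η) {n ρ b : ℕ} {x₀ : X}
    (hTL : TLx (A := A) x₀ (2 * bud C n n) ρ b) {s : ℤ} {x z : D} (hx : Ball dl n x) {g : FreeGroup A}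
    {m : ℤ} {l : FreeGroup A} (hl : l.norm ≤ ρ) {R : ℕ} (hgood : GoodAt Acc x₀ R)
    (hR : C * bud C n n + 3 * bud C n n + C * g.norm + 2 * ρ ≤ R)
    (hR' : C * bud C n n + 3 * bud C n n + C * (2 * bud C n n + 1) + 2 * b ≤ R) :
    SP η kd chi x₀ n (b + 4 * bud C n n + 3 * n + 7) (ptS (chi X) s x z (g, m, l • x₀)) := by
  intro t
  obtain ⟨l', hl', hty'⟩ := hTL l hl
  obtain ⟨s', hs, hs'⟩ := clampS n s
  obtain ⟨g', hg, hg'⟩ := clampG (bud C n n) g
  obtain ⟨m', hm, hm'⟩ := clampM (bud C n n) m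
  set i : ℤ := t - Multiplicative.toAdd (η x) with hi
  have hxh := hη.ball hx
  let q : Pair A D X X := ⟨s, s', x, z, dl κ ^ i, g, g', m, m', l • x₀, l' • x₀⟩
  have hq : q.Ok dl Acc C n n (bud C n n) := by
    refine ⟨hs, hg, hm, hx, ?_, ?_, hty'⟩
    · exact hgood.smul l (by simp only [q]; omega)
    · have : C * g'.norm ≤ C * (2 * bud C n n + 1) := Nat.mul_le_mul_left _ hg'
      exact hgood.smul l' (by simp only [q]; omega)
  refine ⟨ptS (chi X) s' x (dl κ ^ i) (g', m', l' • x₀), ?_, ?_, ?_⟩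
  · refine (Ent.reach hF hx (Ball.zpow κ i) g' m' l').mono ?_
    omega
  · rw [hty, ze_pt, map_mul, map_zpow, hκ, toAdd_mul, toAdd_zpow, toAdd_ofAdd, hi]
    simp
  · intro w hw
    exact hq.type hlin le_rfl hF.ok w hw

/-- the relation for far points -/
def FarR (dl : J → D) (chi : ∀ (X : Type) [MulAction (FreeGroup A) X], S →* Perm (P A X))
    (s s' : ℤ) (x x' z z' : D) (p p' : P A X) (j : ℕ) (y y' : YP (chi X)) : Prop :=
  ∃ d : D, Ball dl j d ∧ y = ptS (chi X) s (d * x) z p ∧ y' = ptS (chi X) s' (d * x') z' p'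

theorem FarR.path {s s' : ℤ} (hs : s ≤ 0) (hs' : s' ≤ 0) {x x' z z' : D} {p p' : P A X} {n : ℕ}
    (hx : ∀ d, Ball dl n d → d * x ∉ S) (hx' : ∀ d, Ball dl n d → d * x' ∉ S)
    (hkd : ∀ b, (kd b).Ok dl) (w : List (B₀ × Bool)) (hw : w.length ≤ n) :
    FarR dl chi s s' x x' z z' p p' w.length
      (ev (sg (pa kd chi X)) w (ptS (chi X) s x z p))
      (ev (sg (pa kd chi X)) w (ptS (chi X) s' x' z' p')) := by
  induction w with
  | nil => exact ⟨1, Ball.one 0, by simp, by simp⟩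
  | cons a w ih =>
    simp only [List.length_cons] at hw
    obtain ⟨d, hd, h1, h2⟩ := ih (by omega)
    rw [ev_cons, ev_cons, sg_sgn, sg_sgn, h1, h2]
    have hdx := hx d (hd.mono (by omega))
    have hdx' := hx' d (hd.mono (by omega))
    obtain ⟨b, ε⟩ := a
    have hb := hkd b
    simp only [pa, List.length_cons]
    have stay : FarR dl chi s s' x x' z z' p p' (w.length + 1) (ptS (chi X) s (d * x) z p)
        (ptS (chi X) s' (d * x') z' p') := ⟨d, hd.mono (by omega), rfl, rfl⟩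
    have jstay : ∀ f : Perm (P A X), FarR dl chi s s' x x' z z' p p' (w.length + 1)
        (sgn (jP (chi X) f) ε (ptS (chi X) s (d * x) z p))
        (sgn (jP (chi X) f) ε (ptS (chi X) s' (d * x') z' p')) := by
      intro f
      cases ε
      · rw [sgn_false, jPi_ne _ (by omega), jPi_ne _ (by omega)]; exact stay
      · rw [sgn_true, jP_ne _ (by omega), jP_ne _ (by omega)]; exact stay
    cases hk : kd b with
    | d c =>
      rw [hk] at hb
      have hc : Ball dl 1 c := hb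
      cases ε
      · rw [sgn_false, kAct, dPi_pt, dPi_pt]
        refine ⟨c⁻¹ * d, ?_, by rw [mul_assoc], by rw [mul_assoc]⟩
        have := hc.inv.mul hd
        rwa [add_comm] at this
      · rw [sgn_true, kAct, dP_pt, dP_pt]
        refine ⟨c * d, ?_, by rw [mul_assoc], by rw [mul_assoc]⟩
        have := hc.mul hd
        rwa [add_comm] at this
    | s =>
      cases ε
      · rw [sgn_false, kAct, sPi_else hs hdx, sPi_else hs' hdx']; exact stay
      · rw [sgn_true, kAct, sP_else hs hdx, sP_else hs' hdx']; exact stay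
    | b a => exact jstay _
    | g a => exact jstay _
    | t => exact jstay _

/-- far points -/
theorem sp_far (hF : Full dl kd) {η : D →* Multiplicative ℤ}
    {κ : J} (hκ : η (dl κ) = Multiplicative.ofAdd 1) (hη : Hgt dl S η) {n b : ℕ} {x₀ : X}
    {s : ℤ} (hs : s ≤ 0) {x z : D} (hx : ∀ d, Ball dl n d → d * x ∉ S) {p : P A X} :
    SP η kd chi x₀ n (b + 4 * bud C n n + 3 * n + 7) (ptS (chi X) s x z p) := by
  intro t
  have hx' : ∀ d, Ball dl n d → d * dl κ ^ ((n : ℤ) + 1) ∉ S := by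
    intro d hd h1
    have h2 := hη.one _ h1
    have h3 := hη.ball hd
    have h4 := congrArg Multiplicative.toAdd h2
    rw [map_mul, map_zpow, hκ, toAdd_mul, toAdd_zpow, toAdd_ofAdd, toAdd_one] at h4
    simp at h4
    omega
  refine ⟨ptS (chi X) 0 (dl κ ^ ((n : ℤ) + 1)) (dl κ ^ (t - (n + 1))) (1, 0, (1 : FreeGroup A) • x₀),
    ?_, ?_, ?_⟩
  · refine (Ent.reach hF (Ball.zpow κ _) (Ball.zpow κ _) 1 0 1).mono ?_
    simp
    omega
  · rw [hty, ze_pt, map_mul, map_zpow, map_zpow, hκ, toAdd_mul, toAdd_zpow, toAdd_zpow,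
      toAdd_ofAdd]
    simp
  · intro w hw
    obtain ⟨d, hd, h1, h2⟩ := FarR.path (chi := chi) (X := X) hs le_rfl (z := z)
      (z' := dl κ ^ (t - (n + 1))) (p := p) (p' := (1, 0, (1 : FreeGroup A) • x₀)) hx hx' hF.ok w hw
    rw [h1, h2]
    have key : ∀ {s : ℤ} (_ : s ≤ 0) (x z : D) (p : P A X),
        ptS (chi X) s (d * x) z p = ptS (chi X) s x z p ↔ d = 1 := by
      intro s hs x z p
      constructor
      · intro h
        have := congrArg ze h
        rw [ze_pt, ze_pt, mul_assoc, mul_eq_right] at this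
        exact this
      · rintro rfl; rw [one_mul]
    rw [key hs, key le_rfl]

/-- the coordinates of a point reached by a short word -/
theorem coords (hlin : LinH dl S chi Acc C) (hkd : ∀ b, (kd b).Ok dl) {ρ : ℕ} {x₀ : X}
    (hgood : GoodAt Acc x₀ (C * bud C 0 ρ + 3 * bud C 0 ρ)) {y : YP (chi X)}
    (hy : Ent (pa kd chi X) (y₀ chi x₀) ρ y) :
    ∃ (s : ℤ) (x z : D) (g : FreeGroup A) (m : ℤ) (l : FreeGroup A), Ball dl ρ x ∧
      g.norm + l.norm ≤ bud C 0 ρ ∧ y = ptS (chi X) s x z (g, m, l • x₀) := by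
  obtain ⟨w, hw, rfl⟩ := hy
  let q : Pair A D X X := ⟨1, 1, 1, 1, 1, 1, 1, 0, 0, x₀, x₀⟩
  have hq : q.Ok dl Acc C 0 ρ (bud C 0 ρ) :=
    ⟨Or.inl rfl, Or.inl rfl, Or.inl rfl, Ball.one 0, hgood.mono (by simp [q]),
      hgood.mono (by simp [q]), fun _ _ => Iff.rfl⟩
  obtain ⟨σ, x, c, a, t, l, k, hσ, ⟨hk, hkj⟩, hb, h1, -⟩ :=
    Rel.path hq hlin le_rfl hkd (Rel.start (chi := chi) q hq.hx) w hw
  refine ⟨1 + σ, x, c, a, 0 + t, l, hk.mono (by omega), ?_, ?_⟩
  · have n5 : C * w.length ≤ C * ρ := Nat.mul_le_mul_left _ hw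
    unfold bud
    omega
  · have h2 : ev (sg (pa kd chi X)) w (y₀ chi x₀) =
        ptS (chi X) (1 + σ) x (c * 1) (a * 1, 0 + t, l • x₀) := h1
    rw [h2, mul_one, mul_one]

/-- the radius of the payloads -/
def rad (C n ρ : ℕ) : ℕ := bud C 0 ρ + C * (n + ρ)

/-- **(B'), single points** -/
theorem sp_all (hlin : LinH dl S chi Acc C) (hF : Full dl kd) {η : D →* Multiplicative ℤ}
    {κ : J} (hκ : η (dl κ) = Multiplicative.ofAdd 1) (hη : Hgt dl S η) {n ρ b : ℕ} {x₀ : X}
    (hTL : TLx (A := A) x₀ (2 * bud C n n) (rad C n ρ) b) {R : ℕ} (hgood : GoodAt Acc x₀ R)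
    (hR0 : C * bud C 0 ρ + 3 * bud C 0 ρ ≤ R)
    (hR1 : C * (ρ + n + bud C 0 ρ) + 2 * bud C 0 ρ ≤ R)
    (hR : C * bud C n n + 3 * bud C n n + C * rad C n ρ + 2 * rad C n ρ ≤ R)
    (hR' : C * bud C n n + 3 * bud C n n + C * (2 * bud C n n + 1) + 2 * b ≤ R)
    {y : YP (chi X)} (hy : Ent (pa kd chi X) (y₀ chi x₀) ρ y) :
    SP η kd chi x₀ n (b + 4 * bud C n n + 3 * n + 7) y := by
  obtain ⟨s, x, z, g, m, l, hx, hgl, rfl⟩ := coords hlin hF.ok (hgood.mono hR0) hy
  by_cases hs : 0 < s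
  · rw [ptS_reset hs]
    refine sp_near hlin hF hκ hη hTL (Ball.one n) ?_ hgood ?_ hR'
    · unfold rad; omega
    · have : C * g.norm ≤ C * rad C n ρ := Nat.mul_le_mul_left _ (by unfold rad; omega)
      omega
  · have hs' : s ≤ 0 := not_lt.1 hs
    by_cases hfar : ∀ d, Ball dl n d → d * x ∉ S
    · exact sp_far hF hκ hη hs' hfar
    · push Not at hfar
      obtain ⟨d, hd, hdx⟩ := hfar
      -- the representative `d⁻¹`
      have hb : Ball dl (ρ + n) (d * x) := by
        have := hd.mul hx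
        rwa [add_comm] at this
      obtain ⟨w, τ, v, hT, hv⟩ := hlin (ρ + n) ⟨d * x, hdx⟩ hb
      have h1 : ptS (chi X) s x z (g, m, l • x₀) =
          ptS (chi X) s d⁻¹ (d * x * z) (chi X ⟨d * x, hdx⟩ (g, m, l • x₀)) := by
        rw [ptS_eq_neg hs']
        exact ⟨rfl, ⟨d * x, hdx⟩, by simp, rfl, rfl⟩
      have hCg : C * (ρ + n + g.norm) ≤ C * (ρ + n + bud C 0 ρ) :=
        Nat.mul_le_mul_left _ (by omega)
      rw [h1, hv X (l • x₀) g m (hgood.smul l (by omega)), ← mul_smul]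
      have n1 := FreeGroup.norm_mul_le w g
      have n2 := FreeGroup.norm_mul_le (v g m) l
      have n3 := hT.w_le
      have n4 := hT.v_le g m
      have n5 : C * (ρ + n) = C * (n + ρ) := by ring
      refine sp_near hlin hF hκ hη hTL hd.inv ?_ hgood ?_ hR'
      · unfold rad; omega
      · have : C * (w * g).norm ≤ C * rad C n ρ := Nat.mul_le_mul_left _ (by unfold rad; omega)
        omega

end single

end Crest.Agent.R185.Loc
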