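import Crest.Agent.R185.Loc4

/-!
# R185 / LOC (5): the cluster step, `T5` for `Y(X)`
-/

set_option autoImplicit false
set_option linter.unusedSectionVars false

namespace Crest.Agent.R185.Loc

open Equiv Crest.Agent.R185.Md191A Crest.Agent.R185.Md191B Crest.Agent.R185.Md191E
  Crest.Agent.R185.Hub Crest.Agent.R185.Smp

/-! ### partial isomorphisms -/

section iso

variable {L Y : Type} {act : L → Y → Y} {ia : L → L}

/-- `P` is an `n`-partial isomorphism -/
def Iso (act : L → Y → Y) (n : ℕ) (P : Y → Y → Prop) : Prop :=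
  ∀ w : List L, w.length ≤ n → ∀ y y' z z', P y y' → P z z' → (ev act w y = z ↔ ev act w y' = z')

/-- adding one pair -/
def addP (P : Y → Y → Prop) (y y' : Y) (a b : Y) : Prop := P a b ∨ (a = y ∧ b = y')

theorem Iso.mono {n m : ℕ} {P : Y → Y → Prop} (h : Iso act n P) (hm : m ≤ n) : Iso act m P :=
  fun w hw => h w (hw.trans hm)

theorem Iso.two (hI : Inv act ia) {n : ℕ} {P : Y → Y → Prop} (h : Iso act n P) {u v : List L}
    (huv : u.length + v.length ≤ n) {y y' z z' : Y} (h1 : P y y') (h2 : P z z') :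
    ev act u y = ev act v z ↔ ev act u y' = ev act v z' := by
  have h3 := h (iw ia v ++ u) (by simp; omega) y y' z z' h1 h2
  rw [ev_append, ev_append] at h3
  constructor
  · intro h4
    have h5 := h3.1 (by rw [h4, ev_iw_left hI])
    rw [← h5, ev_iw_right hI]
  · intro h4
    have h5 := h3.2 (by rw [h4, ev_iw_left hI])
    rw [← h5, ev_iw_right hI]

theorem Iso.add_translate (hI : Inv act ia) {n : ℕ} {P : Y → Y → Prop} (h : Iso act (3 * n) P)
    {z z' : Y} (hz : P z z') (w : List L) (hw : w.length ≤ n) :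
    Iso act n (addP P (ev act w z) (ev act w z')) := by
  rintro u hu a a' b b' (h1 | ⟨rfl, rfl⟩) (h2 | ⟨rfl, rfl⟩)
  · exact h u (by omega) _ _ _ _ h1 h2
  · exact h.two hI (by omega) h1 hz
  · have := h.two hI (u := u ++ w) (v := []) (by simp; omega) hz h2
    rw [ev_append, ev_append, ev_nil, ev_nil] at this
    exact this
  · have := h.two hI (u := u ++ w) (v := w) (by simp; omega) hz hz
    rw [ev_append, ev_append] at this
    exact this

theorem Iso.add_far (hI : Inv act ia) {n : ℕ} {P : Y → Y → Prop} (h : Iso act n P) {y y' : Y}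
    (hs : ∀ w : List L, w.length ≤ n → (ev act w y = y ↔ ev act w y' = y'))
    (h1 : ∀ z z', P z z' → ∀ w : List L, w.length ≤ n → ev act w z ≠ y)
    (h2 : ∀ z z', P z z' → ∀ w : List L, w.length ≤ n → ev act w z' ≠ y') :
    Iso act n (addP P y y') := by
  rintro u hu a a' b b' (h3 | ⟨rfl, rfl⟩) (h4 | ⟨rfl, rfl⟩)
  · exact h u hu _ _ _ _ h3 h4
  · exact iff_of_false (h1 _ _ h3 u hu) (h2 _ _ h3 u hu)
  · refine iff_of_false (fun h5 => ?_) (fun h5 => ?_)
    · apply h1 _ _ h4 (iw ia u) (by simpa using hu)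
      rw [← h5, ev_iw_left hI]
    · apply h2 _ _ h4 (iw ia u) (by simpa using hu)
      rw [← h5, ev_iw_left hI]
  · exact hs u hu

end iso

/-! ### the cluster step -/

section cluster

variable {A : Type} [DecidableEq A] {D J : Type} [Group D] {dl : J → D} {S : Subgroup D}
  {chi : ∀ (X : Type) [MulAction (FreeGroup A) X], S →* Perm (P A X)}
  {Acc : Set (FreeGroup A)} {C : ℕ}
  {X : Type} [MulAction (FreeGroup A) X] {B₀ : Type} {kd : B₀ → Kd D A}

theorem hty_y₀ (η : D →* Multiplicative ℤ) (x₀ : X) : hty η (y₀ chi x₀) = 0 := by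
  unfold hty y₀
  rw [ze_pt, mul_one, map_one, toAdd_one]

theorem hty_ent {η : D →* Multiplicative ℤ} (hη : Hgt dl S η) (hkd : ∀ b, (kd b).Ok dl)
    {x₀ : X} {ρ : ℕ} {y : YP (chi X)} (hy : Ent (pa kd chi X) (y₀ chi x₀) ρ y) :
    |hty η y| ≤ ρ := by
  obtain ⟨u, hu, rfl⟩ := hy
  have h1 := hty_ev hη hkd u (y₀ chi x₀)
  rw [hty_y₀, sub_zero] at h1
  exact h1.trans (by exact_mod_cast hu)

theorem ent_word {x₀ : X} {ρ : ℕ} {y : YP (chi X)} (hy : Ent (pa kd chi X) (y₀ chi x₀) ρ y)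
    (w : List (B₀ × Bool)) :
    Ent (pa kd chi X) (y₀ chi x₀) (ρ + w.length) (ev (sg (pa kd chi X)) w y) := by
  obtain ⟨u, hu, rfl⟩ := hy
  exact ⟨w ++ u, by simp; omega, by rw [ev_append]⟩

/-- one more point -/
theorem cluster_step {η : D →* Multiplicative ℤ} (hη : Hgt dl S η) (hkd : ∀ b, (kd b).Ok dl)
    {x₀ : X} {n N w bb : ℕ} (hn : n ≤ N) {P : YP (chi X) → YP (chi X) → Prop}
    (hP : Iso (sg (pa kd chi X)) (3 * n) P)
    (hPb : ∀ z z', P z z' → Ent (pa kd chi X) (y₀ chi x₀) bb z')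
    {y : YP (chi X)} (hy : SP η kd chi x₀ N w y) :
    ∃ y', Iso (sg (pa kd chi X)) n (addP P y y') ∧
      Ent (pa kd chi X) (y₀ chi x₀) (bb + n + 1 + w) y' := by
  have hI := sg_inv (pa kd chi X)
  by_cases h : ∃ z z', P z z' ∧ ∃ u : List (B₀ × Bool), u.length ≤ n ∧
      ev (sg (pa kd chi X)) u z = y
  · obtain ⟨z, z', hz, u, hu, rfl⟩ := h
    refine ⟨ev (sg (pa kd chi X)) u z', hP.add_translate hI hz u hu, ?_⟩
    exact (ent_word (hPb z z' hz) u).mono (by omega)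
  · push Not at h
    obtain ⟨y', h1, h2, h3⟩ := hy ((bb : ℤ) + n + 1)
    refine ⟨y', (hP.mono (by omega)).add_far hI (fun u hu => h3 u (hu.trans hn)) h ?_,
      h1.mono (by omega)⟩
    intro z z' hz u hu h4
    have h5 := hty_ev hη hkd u z'
    have h6 := hty_ent hη hkd (hPb z z' hz)
    rw [h4, h2] at h5
    rw [abs_le] at h5 h6
    have h7 : (u.length : ℤ) ≤ n := by exact_mod_cast hu
    omega

/-- **`T5` from single points** -/
theorem t5_of_sp {η : D →* Multiplicative ℤ} (hη : Hgt dl S η) (hkd : ∀ b, (kd b).Ok dl)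
    {x₀ : X} {n ρ w : ℕ}
    (hSP : ∀ y, Ent (pa kd chi X) (y₀ chi x₀) ρ y → SP η kd chi x₀ (27 * n) w y) :
    T5 (pa kd chi X) (y₀ chi x₀) n ρ (40 * n + 4 + 4 * w) := by
  intro v hv
  let P0 : YP (chi X) → YP (chi X) → Prop := fun a b => a = y₀ chi x₀ ∧ b = y₀ chi x₀
  have h0 : Iso (sg (pa kd chi X)) (3 * (27 * n)) P0 := by
    rintro u - _ _ _ _ ⟨rfl, rfl⟩ ⟨rfl, rfl⟩
    exact Iff.rfl
  have b0 : ∀ z z', P0 z z' → Ent (pa kd chi X) (y₀ chi x₀) 0 z' := by
    rintro _ _ ⟨rfl, rfl⟩; exact Ent.base _ _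
  obtain ⟨y1, i1, e1⟩ := cluster_step hη hkd (n := 27 * n) le_rfl h0 b0 (hSP _ (hv 0))
  have b1 : ∀ z z', addP P0 (v 0) y1 z z' →
      Ent (pa kd chi X) (y₀ chi x₀) (0 + 27 * n + 1 + w) z' := by
    rintro _ _ (h | ⟨rfl, rfl⟩)
    · exact (b0 _ _ h).mono (by omega)
    · exact e1
  obtain ⟨y2, i2, e2⟩ := cluster_step hη hkd (n := 9 * n) (N := 27 * n) (by omega)
    (i1.mono (by omega)) b1 (hSP _ (hv 1))
  have b2 : ∀ z z', addP (addP P0 (v 0) y1) (v 1) y2 z z' →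
      Ent (pa kd chi X) (y₀ chi x₀) (0 + 27 * n + 1 + w + 9 * n + 1 + w) z' := by
    rintro _ _ (h | ⟨rfl, rfl⟩)
    · exact (b1 _ _ h).mono (by omega)
    · exact e2
  obtain ⟨y3, i3, e3⟩ := cluster_step hη hkd (n := 3 * n) (N := 27 * n) (by omega)
    (i2.mono (by omega)) b2 (hSP _ (hv 2))
  have b3 : ∀ z z', addP (addP (addP P0 (v 0) y1) (v 1) y2) (v 2) y3 z z' →
      Ent (pa kd chi X) (y₀ chi x₀)
        (0 + 27 * n + 1 + w + 9 * n + 1 + w + 3 * n + 1 + w) z' := by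
    rintro _ _ (h | ⟨rfl, rfl⟩)
    · exact (b2 _ _ h).mono (by omega)
    · exact e3
  obtain ⟨y4, i4, e4⟩ := cluster_step hη hkd (n := n) (N := 27 * n) (by omega)
    (i3.mono (by omega)) b3 (hSP _ (hv 3))
  have b4 : ∀ z z', addP (addP (addP (addP P0 (v 0) y1) (v 1) y2) (v 2) y3) (v 3) y4 z z' →
      Ent (pa kd chi X) (y₀ chi x₀) (40 * n + 4 + 4 * w) z' := by
    rintro _ _ (h | ⟨rfl, rfl⟩)
    · exact (b3 _ _ h).mono (by omega)
    · exact e4.mono (by omega)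
  have q0 : (addP (addP (addP (addP P0 (v 0) y1) (v 1) y2) (v 2) y3) (v 3) y4)
      (y₀ chi x₀) (y₀ chi x₀) := Or.inl (Or.inl (Or.inl (Or.inl ⟨rfl, rfl⟩)))
  have q1 : (addP (addP (addP (addP P0 (v 0) y1) (v 1) y2) (v 2) y3) (v 3) y4) (v 0) y1 :=
    Or.inl (Or.inl (Or.inl (Or.inr ⟨rfl, rfl⟩)))
  have q2 : (addP (addP (addP (addP P0 (v 0) y1) (v 1) y2) (v 2) y3) (v 3) y4) (v 1) y2 :=
    Or.inl (Or.inl (Or.inr ⟨rfl, rfl⟩))
  have q3 : (addP (addP (addP (addP P0 (v 0) y1) (v 1) y2) (v 2) y3) (v 3) y4) (v 2) y3 :=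
    Or.inl (Or.inr ⟨rfl, rfl⟩)
  have q4 : (addP (addP (addP (addP P0 (v 0) y1) (v 1) y2) (v 2) y3) (v 3) y4) (v 3) y4 :=
    Or.inr ⟨rfl, rfl⟩
  refine ⟨![y1, y2, y3, y4], ?_, ?_⟩
  · intro l
    fin_cases l
    · exact b4 _ _ q1
    · exact b4 _ _ q2
    · exact b4 _ _ q3
    · exact b4 _ _ q4
  · have key : ∀ i : Fin 5, (addP (addP (addP (addP P0 (v 0) y1) (v 1) y2) (v 2) y3) (v 3) y4)
        ((Fin.cons (y₀ chi x₀) v : Fin 5 → YP (chi X)) i)
        ((Fin.cons (y₀ chi x₀) ![y1, y2, y3, y4] : Fin 5 → YP (chi X)) i) := by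
      intro i
      refine Fin.cases ?_ (fun j => ?_) i
      · exact q0
      · rw [Fin.cons_succ, Fin.cons_succ]
        fin_cases j
        · exact q1
        · exact q2
        · exact q3
        · exact q4
    intro i j u hu
    exact i4 u hu _ _ _ _ (key i) (key j)

/-- the bound for the witnesses -/
def t5b (C b n : ℕ) : ℕ := 40 * n + 4 + 4 * (b + 4 * bud C (27 * n) (27 * n) + 3 * (27 * n) + 7)

/-- **(T5)** for the sheet layer -/
theorem t5 (hlin : LinH dl S chi Acc C) (hF : Full dl kd) {η : D →* Multiplicative ℤ}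
    {κ : J} (hκ : η (dl κ) = Multiplicative.ofAdd 1) (hη : Hgt dl S η) {n ρ b : ℕ} {x₀ : X}
    (hTL : TLx (A := A) x₀ (2 * bud C (27 * n) (27 * n)) (rad C (27 * n) ρ) b) {R : ℕ}
    (hgood : GoodAt Acc x₀ R)
    (hR0 : C * bud C 0 ρ + 3 * bud C 0 ρ ≤ R)
    (hR1 : C * (ρ + 27 * n + bud C 0 ρ) + 2 * bud C 0 ρ ≤ R)
    (hR : C * bud C (27 * n) (27 * n) + 3 * bud C (27 * n) (27 * n) + C * rad C (27 * n) ρ +
      2 * rad C (27 * n) ρ ≤ R)
    (hR' : C * bud C (27 * n) (27 * n) + 3 * bud C (27 * n) (27 * n) +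
      C * (2 * bud C (27 * n) (27 * n) + 1) + 2 * b ≤ R) :
    T5 (pa kd chi X) (y₀ chi x₀) n ρ (t5b C b n) :=
  t5_of_sp hη hF.ok (fun _ hy => sp_all hlin hF hκ hη hTL hgood hR0 hR1 hR hR' hy)

end cluster

/-! ### linear constants -/

section constants

variable {A : Type} [DecidableEq A] {D J : Type} [Group D] {dl : J → D} {S : Subgroup D}
  {chi : ∀ (X : Type) [MulAction (FreeGroup A) X], S →* Perm (P A X)}
  {Acc : Set (FreeGroup A)} {C : ℕ}
  {X X' : Type} [MulAction (FreeGroup A) X] [MulAction (FreeGroup A) X']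
  {B₀ : Type} {kd : B₀ → Kd D A}

/-- the constant -/
def cst (C : ℕ) : ℕ := 1000 * (C + 1) * (C + 1) * (C + 1)

/-- **(A')** with one constant -/
theorem type_base_cst (hlin : LinH dl S chi Acc C) (hkd : ∀ b, (kd b).Ok dl) {n : ℕ} {x₀ : X}
    {x₀' : X'} (h : GoodAt Acc x₀ (cst C * n)) (h' : GoodAt Acc x₀' (cst C * n))
    (hty : ∀ u : FreeGroup A, u.norm ≤ cst C * n → (u • x₀ = x₀ ↔ u • x₀' = x₀')) :
    TyEq (sg (pa kd chi X)) (sg (pa kd chi X')) n (fun _ : Fin 1 => y₀ chi x₀)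
      (fun _ => y₀ chi x₀') := by
  have e1 : C * bud C 0 n + 3 * bud C 0 n ≤ cst C * n := by
    unfold bud cst; nlinarith [Nat.zero_le (C * C * C * n), Nat.zero_le (C * C * n),
      Nat.zero_le (C * n), Nat.zero_le n]
  have e2 : 2 * bud C 0 n ≤ cst C * n := by
    unfold bud cst; nlinarith [Nat.zero_le (C * C * C * n), Nat.zero_le (C * C * n),
      Nat.zero_le (C * n), Nat.zero_le n]
  exact type_base hlin hkd (h.mono e1) (h'.mono e1) (fun u hu => hty u (hu.trans e2))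

/-- **(T5)** with one constant -/
theorem t5_cst (hlin : LinH dl S chi Acc C) (hF : Full dl kd) {η : D →* Multiplicative ℤ}
    {κ : J} (hκ : η (dl κ) = Multiplicative.ofAdd 1) (hη : Hgt dl S η) {n ρ b : ℕ} {x₀ : X}
    (hTL : TLx (A := A) x₀ (cst C * n) (cst C * (n + ρ)) b)
    (hgood : GoodAt Acc x₀ (cst C * (n + ρ + b + 1))) :
    T5 (pa kd chi X) (y₀ chi x₀) n ρ (t5b C b n) := by
  have z1 := Nat.zero_le (C * C * C * n)
  have z2 := Nat.zero_le (C * C * n)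
  have z3 := Nat.zero_le (C * n)
  have z4 := Nat.zero_le (C * C * C * ρ)
  have z5 := Nat.zero_le (C * C * ρ)
  have z6 := Nat.zero_le (C * ρ)
  have z7 := Nat.zero_le (C * C * C * b)
  have z8 := Nat.zero_le (C * C * b)
  have z9 := Nat.zero_le (C * b)
  have z10 := Nat.zero_le (C * C * C)
  have z11 := Nat.zero_le (C * C)
  have e1 : 2 * bud C (27 * n) (27 * n) ≤ cst C * n := by
    unfold bud cst; nlinarith
  have e2 : rad C (27 * n) ρ ≤ cst C * (n + ρ) := by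
    unfold rad bud cst; nlinarith
  refine t5 hlin hF hκ hη (R := cst C * (n + ρ + b + 1)) ?_ hgood ?_ ?_ ?_ ?_
  · intro l hl
    obtain ⟨l', h1, h2⟩ := hTL l (hl.trans e2)
    exact ⟨l', h1, fun u hu => h2 u (hu.trans e1)⟩
  · unfold bud cst; nlinarith
  · unfold bud cst; nlinarith
  · unfold rad bud cst; nlinarith
  · unfold bud cst; nlinarith

end constants

end Crest.Agent.R185.Loc
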