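import Crest.Agent.R185.Loc5
import Crest.Agent.R185.Asm3

/-!
# R185 / LOC (6): instantiation at `YY` and at `YS`
-/

set_option autoImplicit false
set_option linter.unusedSectionVars false

namespace Crest.Agent.R185.Loc

open Equiv Crest.Agent.R185.Md191A Crest.Agent.R185.Md191B Crest.Agent.R185.Md191C
  Crest.Agent.R185.Md191D Crest.Agent.R185.Md191E Crest.Agent.R185.Hub Crest.Agent.R185.Smp

section inst

variable {A H ι : Type} [Group H] {L : Subgroup H} {ε : FreeGroup (Option A) →* H}
  {Acc : Set (FreeGroup A)} {κ : FreeGroup A → FreeGroup A}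
  (hW : WitOK L ε Acc) (hκ : ∀ w ∈ Acc, κ w = 1) (gen : FreeGroup ι →* H)

/-- `χ̂` for all `X` -/
noncomputable abbrev chiY : ∀ (X : Type) [MulAction (FreeGroup A) X], SG L ε →* Perm (P A X) :=
  fun X _ => chiS X hW hκ

/-- the letters of `D` -/
def dlO : Option ι → DG L
  | none => kD L
  | some i => hD L (gen (FreeGroup.of i))

/-- the kinds of the letters of `U` -/
def kdU : UL ι A → Kd (DG L) A
  | UL.h i => Kd.d (dlO gen (some i))
  | UL.k => Kd.d (dlO gen none)
  | UL.s => Kd.s
  | UL.b a => Kd.b a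
  | UL.g a => Kd.g a
  | UL.d => Kd.t

theorem lY_eq (X : Type) [MulAction (FreeGroup A) X] :
    lY hW hκ gen X = pa (kdU gen) (chiY hW hκ) X := by
  funext x
  cases x <;> rfl

theorem th_eq {X : Type} [MulAction (FreeGroup A) X] (x : X) :
    Md191E.th hW hκ X x = y₀ (chiY hW hκ) x := by
  unfold y₀ Md191E.th
  rw [ptS_pos _ one_pos]
  simp

theorem full : Full (A := A) (dlO (L := L) gen) (kdU gen) where
  d j := by
    rcases j with _ | i
    · exact ⟨UL.k, rfl⟩
    · exact ⟨UL.h i, rfl⟩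
  s := ⟨UL.s, rfl⟩
  b a := ⟨UL.b a, rfl⟩
  g a := ⟨UL.g a, rfl⟩
  t := ⟨UL.d, rfl⟩
  ok b := by
    cases b
    · exact Ball.letter _
    · exact Ball.letter _
    all_goals trivial

/-- the exponent of `k` -/
noncomputable def expk (L : Subgroup H) : DG L →* Multiplicative ℤ :=
  liftD L 1 (Multiplicative.ofAdd 1) (fun _ _ => Commute.all _ _)

theorem expk_k : expk L (dlO (L := L) gen none) = Multiplicative.ofAdd 1 :=
  liftD_k L 1 _ _

theorem expk_h (h : H) : expk L (hD L h) = 1 :=
  liftD_h L 1 _ _ h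

theorem hgt : Hgt (dlO (L := L) gen) (SG L ε) (expk L) where
  one := by
    have : SG L ε ≤ (expk L).ker := by
      unfold SG
      rw [Subgroup.closure_le]
      rintro _ (⟨e, rfl⟩ | ⟨e, rfl⟩)
      · exact expk_h _
      · change expk L (kD L * hD L (ε e) * (kD L)⁻¹) = 1
        rw [map_mul, map_mul, expk_h, mul_one, ← map_mul, mul_inv_cancel, map_one]
    exact fun e he => this he
  le j := by
    rcases j with _ | i
    · rw [expk_k]; simp
    · change (Multiplicative.toAdd (expk L (hD L (gen (FreeGroup.of i))))).natAbs ≤ 1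
      rw [expk_h]; simp

variable [DecidableEq A] {C : ℕ}

/-- **(A')** for `YY` -/
theorem yy_base (hlin : LinH (dlO gen) (SG L ε) (chiY hW hκ) Acc C) {X X' : Type}
    [MulAction (FreeGroup A) X] [MulAction (FreeGroup A) X'] {n : ℕ} {x₀ : X} {x₀' : X'}
    (h : GoodAt Acc x₀ (cst C * n)) (h' : GoodAt Acc x₀' (cst C * n))
    (ht : ∀ u : FreeGroup A, u.norm ≤ cst C * n → (u • x₀ = x₀ ↔ u • x₀' = x₀')) :
    TyEq (sg (lY hW hκ gen X)) (sg (lY hW hκ gen X')) n (fun _ : Fin 1 => Md191E.th hW hκ X x₀)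
      (fun _ => Md191E.th hW hκ X' x₀') := by
  rw [lY_eq, lY_eq, th_eq, th_eq]
  exact type_base_cst hlin (full gen).ok h h' ht

/-- **(T5)** for `YY` -/
theorem yy_t5 (hlin : LinH (dlO gen) (SG L ε) (chiY hW hκ) Acc C) {X : Type}
    [MulAction (FreeGroup A) X] {n ρ b : ℕ} {x₀ : X}
    (hTL : TLx (A := A) x₀ (cst C * n) (cst C * (n + ρ)) b)
    (hgood : GoodAt Acc x₀ (cst C * (n + ρ + b + 1))) :
    T5 (lY hW hκ gen X) (Md191E.th hW hκ X x₀) n ρ (t5b C b n) := by
  rw [lY_eq, th_eq]
  exact t5_cst hlin (full gen) (expk_k gen) (hgt gen) hTL hgood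

end inst

/-! ### `X = F(A) ⧸ S` -/

section coset

open Crest.Agent.R185.Asm

variable {A : Type} [DecidableEq A]

theorem norm_strip_le (w : FreeGroup (Option (A × Bool))) : (strip A w).norm ≤ w.norm := by
  have key : ∀ l : List (Option (A × Bool) × Bool),
      (strip A (FreeGroup.mk l)).norm ≤ l.length := by
    intro l
    induction l with
    | nil => simp [← FreeGroup.one_eq_mk]
    | cons a l ih =>
      have h1 : (FreeGroup.mk (a :: l) : FreeGroup (Option (A × Bool))) =
          FreeGroup.mk [a] * FreeGroup.mk l := by rw [FreeGroup.mul_mk]; rfl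
      rw [h1, map_mul]
      have h2 := FreeGroup.norm_mul_le (strip A (FreeGroup.mk [a])) (strip A (FreeGroup.mk l))
      have h3 : (strip A (FreeGroup.mk [a])).norm ≤ 1 := by
        have h4 : ∀ o : Option (A × Bool), (strip A (FreeGroup.of o)).norm ≤ 1 := by
          rintro (_ | ⟨a, b⟩)
          · rw [strip_none]; simp
          · rw [strip_some]
            have := FreeGroup.norm_mk_le (L₁ := [(a, b)])
            simpa using this
        obtain ⟨o, b⟩ := a
        cases b
        · have h5 : (FreeGroup.mk [(o, false)] : FreeGroup (Option (A × Bool))) =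
              (FreeGroup.of o)⁻¹ := rfl
          rw [h5, map_inv, FreeGroup.norm_inv_eq]
          exact h4 o
        · exact h4 o
      simp only [List.length_cons]
      omega
  have := key w.toWord
  rwa [FreeGroup.mk_toWord] at this

/-- lifting a word of `F(A)` to a positive word -/
theorem exists_strip (v : FreeGroup A) : ∃ w : FreeGroup (Option (A × Bool)),
    strip A w = v ∧ w.norm ≤ v.norm := by
  have key : ∀ l : List (A × Bool), ∃ w : FreeGroup (Option (A × Bool)),
      strip A w = FreeGroup.mk l ∧ w.norm ≤ l.length := by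
    intro l
    induction l with
    | nil => exact ⟨1, by rw [map_one, FreeGroup.one_eq_mk], by simp⟩
    | cons a l ih =>
      obtain ⟨w, h1, h2⟩ := ih
      refine ⟨FreeGroup.of (some a) * w, ?_, ?_⟩
      · rw [map_mul, h1, strip_some, FreeGroup.mul_mk]; rfl
      · have := FreeGroup.norm_mul_le (FreeGroup.of (some a)) w
        have h3 : (FreeGroup.of (some a)).norm = 1 := FreeGroup.norm_of _
        simp only [List.length_cons]
        omega
  obtain ⟨w, h1, h2⟩ := key v.toWord
  rw [FreeGroup.mk_toWord] at h1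
  exact ⟨w, h1, h2⟩

theorem smul_fix (S : Subgroup (FreeGroup A)) (u v : FreeGroup A) :
    u • v • xS S = v • xS S ↔ v⁻¹ * u * v ∈ S := by
  change ((u * (v * 1) : FreeGroup A) : FreeGroup A ⧸ S) = ((v * 1 : FreeGroup A) : FreeGroup A ⧸ S)
    ↔ _
  rw [eq_comm, QuotientGroup.eq, mul_one, mul_assoc]

variable {Acc' : Set (FreeGroup (Option (A × Bool)))} {S : Subgroup (FreeGroup A)}

theorem goodAt_of_good {R : ℕ} (h : Good (strip A '' Acc') S R) :
    letI := actS A (XS S)
    GoodAt Acc' (xS S) R := by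
  letI := actS A (XS S)
  intro w hw v hv
  have h1 := norm_strip_le w
  have h2 := norm_strip_le v
  exact (smul_fix S (strip A w) (strip A v)).2
    (h (strip A w) ⟨w, hw, rfl⟩ (strip A v) (by omega))

theorem tlx_of_tl1 {N ρ b : ℕ} (h : TL1 S N ρ b) :
    letI := actS A (XS S)
    TLx (A := Option (A × Bool)) (xS S) N ρ b := by
  letI := actS A (XS S)
  intro l hl
  obtain ⟨v', h1, h2⟩ := h (strip A l) ((norm_strip_le l).trans hl)
  obtain ⟨l', h3, h4⟩ := exists_strip v'
  refine ⟨l', h4.trans h1, fun u hu => ?_⟩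
  have h5 := h2 (strip A u) ((norm_strip_le u).trans hu)
  rw [← h3, ← smul_fix, ← smul_fix] at h5
  exact h5

variable {H ι : Type} [Group H] {L : Subgroup H} {ε : FreeGroup (Option (Option (A × Bool))) →* H}
  {κ : FreeGroup (Option (A × Bool)) → FreeGroup (Option (A × Bool))} {C : ℕ}
  (W : WitFP L ε Acc' ι) (hW : WitOK L ε Acc') (hκ : ∀ w ∈ Acc', κ w = 1)

/-- **(A')** for `YS` -/
theorem ys_base (hlin : LinH (dlO W.gen) (SG L ε) (chiY hW hκ) Acc' C)
    {S S' : Subgroup (FreeGroup A)} {n : ℕ} (h : Good (strip A '' Acc') S (cst C * n))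
    (h' : Good (strip A '' Acc') S' (cst C * n)) (hA : Agr S S' (cst C * n)) :
    TyEq (sg (lYS W hW hκ S)) (sg (lYS W hW hκ S')) n (fun _ : Fin 1 => yS hW hκ S)
      (fun _ => yS hW hκ S') := by
  refine @yy_base (Option (A × Bool)) H ι _ L ε Acc' κ hW hκ W.gen _ C hlin (XS S) (XS S')
    (actS A (XS S)) (actS A (XS S')) n (xS S) (xS S') (goodAt_of_good h) (goodAt_of_good h') ?_
  intro u hu
  have h1 := hA (strip A u) ((norm_strip_le u).trans hu)
  rw [← smul_xS, ← smul_xS] at h1
  exact h1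

/-- **(T5)** for `YS` -/
theorem ys_t5 (hlin : LinH (dlO W.gen) (SG L ε) (chiY hW hκ) Acc' C)
    {S : Subgroup (FreeGroup A)} {n ρ b : ℕ} (hT : TL1 S (cst C * n) (cst C * (n + ρ)) b)
    (h : Good (strip A '' Acc') S (cst C * (n + ρ + b + 1))) :
    T5 (lYS W hW hκ S) (yS hW hκ S) n ρ (t5b C b n) :=
  @yy_t5 (Option (A × Bool)) H ι _ L ε Acc' κ hW hκ W.gen _ C hlin (XS S) (actS A (XS S)) n ρ b
    (xS S) (tlx_of_tl1 hT) (goodAt_of_good h)

end coset

end Crest.Agent.R185.Loc
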