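import Mathlib

/-!
# R185 / MOD (A): the sheets

`D` a group, `S ≤ D`, `Q` a set with an action `dQ` of `D` and an action `star` of `S`.
`Ind = D ×_S Q`.  Points `YQ = (ℕ × Ind) ⊕ (ℕ × Q)`.  `D` acts on all sheets, `jY j` only on the
sheet `inr 0`, and the shift `sh` pushes the copy `[1, q]` of `Q` through the sheets.
Main relation: `sh * dY e * sh⁻¹ = dY e * jY ((dQ e)⁻¹ * star e)` for `e ∈ S`.
-/

set_option autoImplicit false

namespace Crest.Agent.R185.Md191A

open Equiv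

/-! ### the shift along an injection -/

section shift

variable {Z Q : Type}

open Classical in
/-- the shift -/
noncomputable def shf (c : Q → Z) : (ℕ × Z) ⊕ (ℕ × Q) → (ℕ × Z) ⊕ (ℕ × Q)
  | Sum.inl (0, z) => if h : ∃ q, c q = z then Sum.inr (0, h.choose) else Sum.inl (0, z)
  | Sum.inl (n + 1, z) => if ∃ q, c q = z then Sum.inl (n, z) else Sum.inl (n + 1, z)
  | Sum.inr (n, q) => Sum.inr (n + 1, q)

open Classical in
/-- the inverse shift -/
noncomputable def shg (c : Q → Z) : (ℕ × Z) ⊕ (ℕ × Q) → (ℕ × Z) ⊕ (ℕ × Q)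
  | Sum.inl (n, z) => if ∃ q, c q = z then Sum.inl (n + 1, z) else Sum.inl (n, z)
  | Sum.inr (0, q) => Sum.inl (0, c q)
  | Sum.inr (n + 1, q) => Sum.inr (n, q)

theorem shf_zero {c : Q → Z} (hc : Function.Injective c) (q : Q) :
    shf c (Sum.inl (0, c q)) = Sum.inr (0, q) := by
  have h : ∃ q', c q' = c q := ⟨q, rfl⟩
  unfold shf
  simp only
  rw [dif_pos h, hc h.choose_spec]

theorem shf_succ (c : Q → Z) (n : ℕ) (q : Q) :
    shf c (Sum.inl (n + 1, c q)) = Sum.inl (n, c q) := by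
  have h : ∃ q', c q' = c q := ⟨q, rfl⟩
  unfold shf
  simp only
  rw [if_pos h]

theorem shf_else (c : Q → Z) (n : ℕ) (z : Z) (h : ∀ q, c q ≠ z) :
    shf c (Sum.inl (n, z)) = Sum.inl (n, z) := by
  have h' : ¬ ∃ q, c q = z := by rintro ⟨q, hq⟩; exact h q hq
  rcases n with _ | n
  · unfold shf; simp only; rw [dif_neg h']
  · unfold shf; simp only; rw [if_neg h']

theorem shf_inr (c : Q → Z) (n : ℕ) (q : Q) : shf c (Sum.inr (n, q)) = Sum.inr (n + 1, q) := rfl

theorem shg_con (c : Q → Z) (n : ℕ) (q : Q) :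
    shg c (Sum.inl (n, c q)) = Sum.inl (n + 1, c q) := by
  have h : ∃ q', c q' = c q := ⟨q, rfl⟩
  unfold shg
  simp only
  rw [if_pos h]

theorem shg_else (c : Q → Z) (n : ℕ) (z : Z) (h : ∀ q, c q ≠ z) :
    shg c (Sum.inl (n, z)) = Sum.inl (n, z) := by
  have h' : ¬ ∃ q, c q = z := by rintro ⟨q, hq⟩; exact h q hq
  unfold shg; simp only; rw [if_neg h']

theorem shg_zero (c : Q → Z) (q : Q) : shg c (Sum.inr (0, q)) = Sum.inl (0, c q) := rfl

theorem shg_succ (c : Q → Z) (n : ℕ) (q : Q) : shg c (Sum.inr (n + 1, q)) = Sum.inr (n, q) := rfl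

theorem YZ_cases (c : Q → Z) (x : (ℕ × Z) ⊕ (ℕ × Q)) :
    (∃ q, x = Sum.inl (0, c q)) ∨ (∃ n q, x = Sum.inl (n + 1, c q)) ∨
    (∃ n z, (∀ q, c q ≠ z) ∧ x = Sum.inl (n, z)) ∨ (∃ q, x = Sum.inr (0, q)) ∨
    (∃ n q, x = Sum.inr (n + 1, q)) := by
  rcases x with ⟨n, z⟩ | ⟨n | n, q⟩
  · by_cases h : ∃ q, c q = z
    · obtain ⟨q, rfl⟩ := h
      rcases n with _ | n
      · exact Or.inl ⟨q, rfl⟩
      · exact Or.inr (Or.inl ⟨n, q, rfl⟩)
    · push Not at h
      exact Or.inr (Or.inr (Or.inl ⟨n, z, h, rfl⟩))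
  · exact Or.inr (Or.inr (Or.inr (Or.inl ⟨q, rfl⟩)))
  · exact Or.inr (Or.inr (Or.inr (Or.inr ⟨n, q, rfl⟩)))

/-- the shift permutation -/
noncomputable def shP (c : Q → Z) (hc : Function.Injective c) : Perm ((ℕ × Z) ⊕ (ℕ × Q)) where
  toFun := shf c
  invFun := shg c
  left_inv := by
    intro x
    rcases YZ_cases c x with ⟨y, rfl⟩ | ⟨n, y, rfl⟩ | ⟨n, M, h, rfl⟩ | ⟨y, rfl⟩ | ⟨n, y, rfl⟩
    · rw [shf_zero hc, shg_zero]
    · rw [shf_succ, shg_con]
    · rw [shf_else c n M h, shg_else c n M h]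
    · rw [shf_inr, shg_succ]
    · rw [shf_inr, shg_succ]
  right_inv := by
    intro x
    rcases YZ_cases c x with ⟨y, rfl⟩ | ⟨n, y, rfl⟩ | ⟨n, M, h, rfl⟩ | ⟨y, rfl⟩ | ⟨n, y, rfl⟩
    · rw [shg_con, shf_succ]
    · rw [shg_con, shf_succ]
    · rw [shg_else c n M h, shf_else c n M h]
    · rw [shg_zero, shf_zero hc]
    · rw [shg_succ, shf_inr]

theorem shP_apply (c : Q → Z) (hc : Function.Injective c) (x : (ℕ × Z) ⊕ (ℕ × Q)) :
    shP c hc x = shf c x := rfl

theorem shP_inv_apply (c : Q → Z) (hc : Function.Injective c) (x : (ℕ × Z) ⊕ (ℕ × Q)) :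
    (shP c hc)⁻¹ x = shg c x := rfl

/-- `e` on all the sheets `inl n`, `r` on all the sheets `inr n` -/
def both : Perm Z × Perm Q →* Perm ((ℕ × Z) ⊕ (ℕ × Q)) where
  toFun e := Equiv.sumCongr (Equiv.prodCongr (Equiv.refl ℕ) e.1)
    (Equiv.prodCongr (Equiv.refl ℕ) e.2)
  map_one' := by
    apply Equiv.ext; intro x; rcases x with ⟨n, M⟩ | ⟨n, y⟩ <;> rfl
  map_mul' a b := by
    apply Equiv.ext; intro x; rcases x with ⟨n, M⟩ | ⟨n, y⟩ <;> rfl

@[simp] theorem both_inl (e : Perm Z × Perm Q) (n : ℕ) (z : Z) :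
    both e (Sum.inl (n, z)) = Sum.inl (n, e.1 z) := rfl

@[simp] theorem both_inr (e : Perm Z × Perm Q) (n : ℕ) (q : Q) :
    both e (Sum.inr (n, q)) = Sum.inr (n, e.2 q) := rfl

/-- action on the sheet `inr 0` only, on points -/
def jf (j : Q → Q) : (ℕ × Z) ⊕ (ℕ × Q) → (ℕ × Z) ⊕ (ℕ × Q)
  | Sum.inl x => Sum.inl x
  | Sum.inr (0, q) => Sum.inr (0, j q)
  | Sum.inr (n + 1, q) => Sum.inr (n + 1, q)

/-- action on the sheet `inr 0` only -/
def jZ (Z : Type) {Q : Type} : Perm Q →* Perm ((ℕ × Z) ⊕ (ℕ × Q)) where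
  toFun j :=
    { toFun := jf (⇑j)
      invFun := jf (⇑(j⁻¹))
      left_inv := by rintro (⟨n, M⟩ | ⟨n | n, y⟩) <;> simp [jf]
      right_inv := by rintro (⟨n, M⟩ | ⟨n | n, y⟩) <;> simp [jf] }
  map_one' := by
    apply Equiv.ext; intro x; rcases x with ⟨n, M⟩ | ⟨n | n, y⟩ <;> simp [jf]
  map_mul' a b := by
    apply Equiv.ext; intro x; rcases x with ⟨n, M⟩ | ⟨n | n, y⟩ <;> simp [jf]

@[simp] theorem jZ_inl (j : Perm Q) (x : ℕ × Z) : jZ Z j (Sum.inl x) = Sum.inl x := rfl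

@[simp] theorem jZ_zero (j : Perm Q) (q : Q) : jZ Z j (Sum.inr (0, q)) = Sum.inr (0, j q) := rfl

@[simp] theorem jZ_succ (j : Perm Q) (n : ℕ) (q : Q) :
    jZ Z j (Sum.inr (n + 1, q)) = Sum.inr (n + 1, q) := rfl

theorem jZ_inj : Function.Injective (jZ Z : Perm Q →* _) := by
  intro a b h
  apply Equiv.ext
  intro q
  have := congrArg (fun e : Perm ((ℕ × Z) ⊕ (ℕ × Q)) => e (Sum.inr (0, q))) h
  simpa using this

theorem jZ_comm_both (e : Perm Z) (r j : Perm Q) (h : Commute r j) :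
    Commute (both (e, r)) (jZ Z j) := by
  apply Equiv.ext
  intro x
  rcases x with ⟨n, z⟩ | ⟨n | n, q⟩
  · rfl
  · have := congrArg (fun e : Perm Q => e q) h.eq
    simp only [Perm.mul_apply] at this
    simp [this]
  · rfl

/-- **the key relation** -/
theorem shP_conj (c : Q → Z) (hc : Function.Injective c) (e : Perm Z) (r g : Perm Q)
    (he : ∀ q, e (c q) = c (g q)) :
    shP c hc * both (e, r) * (shP c hc)⁻¹ = both (e, r) * jZ Z (r⁻¹ * g) := by
  rw [mul_inv_eq_iff_eq_mul]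
  apply Equiv.ext
  intro x
  simp only [Perm.mul_apply, shP_apply]
  rcases YZ_cases c x with ⟨y, rfl⟩ | ⟨n, y, rfl⟩ | ⟨n, M, h, rfl⟩ | ⟨y, rfl⟩ | ⟨n, y, rfl⟩
  · rw [both_inl, he, shf_zero hc, shf_zero hc, jZ_zero, both_inr]; simp
  · rw [both_inl, he, shf_succ, shf_succ, jZ_inl, both_inl, he]
  · have h2 : ∀ q, c q ≠ e M := by
      intro q hq
      apply h (g⁻¹ q)
      apply e.injective
      rw [he, ← hq]; simp
    rw [both_inl, shf_else c n _ h2, shf_else c n M h, jZ_inl, both_inl]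
  · rw [both_inr, shf_inr, shf_inr, jZ_succ, both_inr]
  · rw [both_inr, shf_inr, shf_inr, jZ_succ, both_inr]

/-- functoriality of the shift -/
theorem shf_map {Z' Q' : Type} (c : Q → Z) (c' : Q' → Z') (hc : Function.Injective c)
    (hc' : Function.Injective c') (F : Z → Z') (f : Q → Q')
    (h : ∀ q, F (c q) = c' (f q)) (hr : ∀ z q', F z = c' q' → ∃ q, c q = z)
    (x : (ℕ × Z) ⊕ (ℕ × Q)) :
    Sum.map (Prod.map id F) (Prod.map id f) (shf c x) =
      shf c' (Sum.map (Prod.map id F) (Prod.map id f) x) := by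
  rcases YZ_cases c x with ⟨y, rfl⟩ | ⟨n, y, rfl⟩ | ⟨n, M, h1, rfl⟩ | ⟨y, rfl⟩ | ⟨n, y, rfl⟩
  · rw [shf_zero hc]
    simp only [Sum.map_inl, Sum.map_inr, Prod.map_apply, id_eq]
    rw [h, shf_zero hc']
  · rw [shf_succ]
    simp only [Sum.map_inl, Prod.map_apply, id_eq]
    rw [h, shf_succ]
  · rw [shf_else c n M h1]
    simp only [Sum.map_inl, Prod.map_apply, id_eq]
    rw [shf_else c']
    intro q' hq'
    obtain ⟨q, hq⟩ := hr M q' hq'.symm
    exact h1 q hq
  · rfl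
  · rfl

end shift

/-! ### the induced set -/

section ind

variable {D : Type} [Group D] (S : Subgroup D) {Q : Type} (star : S →* Perm Q)

/-- the relation `(x e, q) ~ (x, star e q)` -/
def indSetoid : Setoid (D × Q) where
  r a b := ∃ e : S, b.1 = a.1 * (e : D)⁻¹ ∧ b.2 = star e a.2
  iseqv := by
    refine ⟨fun a => ⟨1, by simp, by simp⟩, ?_, ?_⟩
    · rintro a b ⟨e, h1, h2⟩
      refine ⟨e⁻¹, ?_, ?_⟩
      · rw [h1]; simp
      · rw [h2, map_inv]; simp
    · rintro a b c ⟨e, h1, h2⟩ ⟨e', h3, h4⟩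
      refine ⟨e' * e, ?_, ?_⟩
      · rw [h3, h1]; simp [mul_assoc]
      · rw [h4, h2, map_mul]; simp

/-- `D ×_S Q` -/
def Ind : Type := Quotient (indSetoid S star)

/-- the class `[x, q]` -/
def mkI (x : D) (q : Q) : Ind S star := Quotient.mk (indSetoid S star) (x, q)

variable {S star}

theorem mkI_eq {x x' : D} {q q' : Q} :
    mkI S star x q = mkI S star x' q' ↔ ∃ e : S, x' = x * (e : D)⁻¹ ∧ q' = star e q := by
  constructor
  · intro h; exact Quotient.exact h
  · intro h; exact Quotient.sound h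

theorem mkI_mul (x : D) (e : S) (q : Q) : mkI S star (x * e) q = mkI S star x (star e q) :=
  mkI_eq.2 ⟨e, by simp, rfl⟩

theorem mkI_mul' (x : D) {e : D} (he : e ∈ S) (q : Q) :
    mkI S star (x * e) q = mkI S star x (star ⟨e, he⟩ q) := mkI_mul x ⟨e, he⟩ q

theorem Ind_cases (z : Ind S star) : ∃ x q, z = mkI S star x q := by
  obtain ⟨⟨x, q⟩, rfl⟩ := Quotient.exists_rep z
  exact ⟨x, q, rfl⟩

/-- the point `[1, q]` -/
abbrev in0 (S : Subgroup D) (star : S →* Perm Q) (q : Q) : Ind S star := mkI S star 1 q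

theorem in0_inj : Function.Injective (in0 S star) := by
  intro q q' h
  obtain ⟨e, h1, h2⟩ := mkI_eq.1 h
  have : e = 1 := by
    apply Subtype.ext
    simpa using h1.symm
  rw [h2, this]; simp

theorem mkI_mem {x : D} {q : Q} : (∃ q', in0 S star q' = mkI S star x q) ↔ x ∈ S := by
  constructor
  · rintro ⟨q', h⟩
    obtain ⟨e, h1, -⟩ := mkI_eq.1 h
    rw [h1]; simp
  · intro h
    refine ⟨star ⟨x, h⟩ q, ?_⟩
    have := mkI_mul (star := star) 1 ⟨x, h⟩ q
    rw [one_mul] at this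
    exact this.symm

theorem mkI_of_mem {x : D} (h : x ∈ S) (q : Q) :
    mkI S star x q = in0 S star (star ⟨x, h⟩ q) := by
  have := mkI_mul (star := star) 1 ⟨x, h⟩ q
  rw [one_mul] at this
  exact this

/-- left multiplication on `Ind` -/
def dIf (d : D) : Ind S star → Ind S star :=
  Quotient.map' (fun p => (d * p.1, p.2)) (by
    rintro ⟨x, q⟩ ⟨x', q'⟩ ⟨e, h1, h2⟩
    exact ⟨e, by simp only at h1 ⊢; rw [h1, mul_assoc], h2⟩)

theorem dIf_mk (d x : D) (q : Q) : dIf d (mkI S star x q) = mkI S star (d * x) q := rfl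

variable (S star) in
/-- the action of `D` on `Ind` -/
def dI : D →* Perm (Ind S star) where
  toFun d :=
    { toFun := dIf d
      invFun := dIf d⁻¹
      left_inv := by
        intro z
        obtain ⟨x, q, rfl⟩ := Ind_cases z
        rw [dIf_mk, dIf_mk, inv_mul_cancel_left]
      right_inv := by
        intro z
        obtain ⟨x, q, rfl⟩ := Ind_cases z
        rw [dIf_mk, dIf_mk, mul_inv_cancel_left] }
  map_one' := by
    apply Equiv.ext; intro z
    obtain ⟨x, q, rfl⟩ := Ind_cases z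
    change mkI S star (1 * x) q = mkI S star x q
    rw [one_mul]
  map_mul' a b := by
    apply Equiv.ext; intro z
    obtain ⟨x, q, rfl⟩ := Ind_cases z
    change mkI S star (a * b * x) q = mkI S star (a * (b * x)) q
    rw [mul_assoc]

@[simp] theorem dI_mk (d x : D) (q : Q) : dI S star d (mkI S star x q) = mkI S star (d * x) q := rfl

theorem dI_in0 (e : S) (q : Q) : dI S star e (in0 S star q) = in0 S star (star e q) := by
  rw [dI_mk, mul_one, mkI_of_mem e.2]

end ind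

/-! ### the points and the letters -/

section letters

variable {D : Type} [Group D] (S : Subgroup D) {Q : Type} (dQ : D →* Perm Q)
  (star : S →* Perm Q)

/-- the set of points -/
abbrev YQ : Type := (ℕ × Ind S star) ⊕ (ℕ × Q)

/-- the action of `D` -/
def dY : D →* Perm (YQ S star) := both.comp ((dI S star).prod dQ)

/-- the letters acting on the sheet `inr 0` only -/
def jY : Perm Q →* Perm (YQ S star) := jZ (Ind S star)

/-- the shift letter -/
noncomputable def sh : Perm (YQ S star) := shP (in0 S star) in0_inj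

@[simp] theorem dY_inl (d x : D) (n : ℕ) (q : Q) :
    dY S dQ star d (Sum.inl (n, mkI S star x q)) = Sum.inl (n, mkI S star (d * x) q) := rfl

@[simp] theorem dY_inr (d : D) (n : ℕ) (q : Q) :
    dY S dQ star d (Sum.inr (n, q)) = Sum.inr (n, dQ d q) := rfl

@[simp] theorem jY_inl (j : Perm Q) (x : ℕ × Ind S star) :
    jY S star j (Sum.inl x) = Sum.inl x := rfl

@[simp] theorem jY_zero (j : Perm Q) (q : Q) :
    jY S star j (Sum.inr (0, q)) = Sum.inr (0, j q) := rfl

@[simp] theorem jY_succ (j : Perm Q) (n : ℕ) (q : Q) :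
    jY S star j (Sum.inr (n + 1, q)) = Sum.inr (n + 1, q) := rfl

theorem sh_zero {x : D} (hx : x ∈ S) (q : Q) :
    sh S star (Sum.inl (0, mkI S star x q)) = Sum.inr (0, star ⟨x, hx⟩ q) := by
  rw [mkI_of_mem hx]
  exact shf_zero in0_inj _

theorem sh_succ {x : D} (hx : x ∈ S) (n : ℕ) (q : Q) :
    sh S star (Sum.inl (n + 1, mkI S star x q)) = Sum.inl (n, mkI S star x q) := by
  rw [mkI_of_mem hx]
  exact shf_succ _ _ _

theorem sh_else {x : D} (hx : x ∉ S) (n : ℕ) (q : Q) :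
    sh S star (Sum.inl (n, mkI S star x q)) = Sum.inl (n, mkI S star x q) := by
  apply shf_else
  intro q' h
  exact hx (mkI_mem.1 ⟨q', h⟩)

@[simp] theorem sh_inr (n : ℕ) (q : Q) :
    sh S star (Sum.inr (n, q)) = Sum.inr (n + 1, q) := rfl

theorem sh_inv_inl {x : D} (hx : x ∈ S) (n : ℕ) (q : Q) :
    (sh S star)⁻¹ (Sum.inl (n, mkI S star x q)) = Sum.inl (n + 1, mkI S star x q) := by
  rw [Perm.inv_eq_iff_eq, sh_succ S star hx]

theorem sh_inv_else {x : D} (hx : x ∉ S) (n : ℕ) (q : Q) :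
    (sh S star)⁻¹ (Sum.inl (n, mkI S star x q)) = Sum.inl (n, mkI S star x q) := by
  rw [Perm.inv_eq_iff_eq, sh_else S star hx]

@[simp] theorem sh_inv_zero (q : Q) :
    (sh S star)⁻¹ (Sum.inr (0, q)) = Sum.inl (0, in0 S star q) := rfl

@[simp] theorem sh_inv_succ (n : ℕ) (q : Q) :
    (sh S star)⁻¹ (Sum.inr (n + 1, q)) = Sum.inr (n, q) := rfl

theorem jY_inj : Function.Injective (jY S star) := jZ_inj

theorem jY_comm (j : Perm Q) (d : D) (h : Commute (dQ d) j) :
    Commute (dY S dQ star d) (jY S star j) := jZ_comm_both _ _ _ h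

/-- **the main relation** -/
theorem sh_conj (e : S) :
    sh S star * dY S dQ star e * (sh S star)⁻¹ =
      dY S dQ star e * jY S star ((dQ e)⁻¹ * star e) :=
  shP_conj _ in0_inj _ _ _ (fun q => dI_in0 e q)

end letters

/-! ### functoriality -/

section functor

variable {D : Type} [Group D] {S : Subgroup D} {Q Q' : Type} {dQ : D →* Perm Q}
  {star : S →* Perm Q} {dQ' : D →* Perm Q'} {star' : S →* Perm Q'} {f : Q → Q'}

/-- the induced map on `Ind` -/
def indMap (f : Q → Q') (hf : ∀ e q, f (star e q) = star' e (f q)) : Ind S star → Ind S star' :=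
  Quotient.map' (fun p => (p.1, f p.2)) (by
    rintro ⟨x, q⟩ ⟨x', q'⟩ ⟨e, h1, h2⟩
    exact ⟨e, h1, by simp only at h2 ⊢; rw [h2, hf]⟩)

@[simp] theorem indMap_mk (hf : ∀ e q, f (star e q) = star' e (f q)) (x : D) (q : Q) :
    indMap f hf (mkI S star x q) = mkI S star' x (f q) := rfl

theorem indMap_inj (hf : ∀ e q, f (star e q) = star' e (f q)) (hi : Function.Injective f) :
    Function.Injective (indMap f hf) := by
  intro z z' h
  obtain ⟨x, q, rfl⟩ := Ind_cases z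
  obtain ⟨x', q', rfl⟩ := Ind_cases z'
  rw [indMap_mk, indMap_mk, mkI_eq] at h
  obtain ⟨e, h1, h2⟩ := h
  rw [mkI_eq]
  refine ⟨e, h1, hi ?_⟩
  rw [h2, hf]

/-- the induced map on points -/
def mapY (f : Q → Q') (hf : ∀ e q, f (star e q) = star' e (f q)) : YQ S star → YQ S star' :=
  Sum.map (Prod.map id (indMap f hf)) (Prod.map id f)

@[simp] theorem mapY_inl (hf : ∀ e q, f (star e q) = star' e (f q)) (n : ℕ) (x : D) (q : Q) :
    mapY f hf (Sum.inl (n, mkI S star x q)) = Sum.inl (n, mkI S star' x (f q)) := rfl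

@[simp] theorem mapY_inr (hf : ∀ e q, f (star e q) = star' e (f q)) (n : ℕ) (q : Q) :
    mapY (S := S) f hf (Sum.inr (n, q)) = Sum.inr (n, f q) := rfl

theorem mapY_inj (hf : ∀ e q, f (star e q) = star' e (f q)) (hi : Function.Injective f) :
    Function.Injective (mapY f hf) := by
  apply Function.Injective.sumMap
  · exact Function.Injective.prodMap Function.injective_id (indMap_inj hf hi)
  · exact Function.Injective.prodMap Function.injective_id hi

theorem mapY_d (hf : ∀ e q, f (star e q) = star' e (f q)) (hd : ∀ d q, f (dQ d q) = dQ' d (f q))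
    (d : D) (y : YQ S star) :
    mapY f hf (dY S dQ star d y) = dY S dQ' star' d (mapY f hf y) := by
  rcases y with ⟨n, z⟩ | ⟨n, q⟩
  · obtain ⟨x, q, rfl⟩ := Ind_cases z
    rw [dY_inl, mapY_inl, mapY_inl, dY_inl]
  · rw [dY_inr, mapY_inr, mapY_inr, dY_inr, hd]

theorem mapY_j (hf : ∀ e q, f (star e q) = star' e (f q)) (j : Perm Q) (j' : Perm Q')
    (hj : ∀ q, f (j q) = j' (f q)) (y : YQ S star) :
    mapY f hf (jY S star j y) = jY S star' j' (mapY f hf y) := by
  rcases y with ⟨n, z⟩ | ⟨n | n, q⟩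
  · rfl
  · rw [jY_zero, mapY_inr, mapY_inr, jY_zero, hj]
  · rw [jY_succ, mapY_inr, jY_succ]

theorem mapY_sh (hf : ∀ e q, f (star e q) = star' e (f q)) (y : YQ S star) :
    mapY f hf (sh S star y) = sh S star' (mapY f hf y) := by
  refine shf_map (in0 S star) (in0 S star') in0_inj in0_inj (indMap f hf) f (fun q => rfl) ?_ y
  intro z q' h
  obtain ⟨x, q, rfl⟩ := Ind_cases z
  rw [indMap_mk] at h
  exact mkI_mem.2 (mkI_mem.1 ⟨q', h.symm⟩)

end functor

end Crest.Agent.R185.Md191A
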