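import Crest.Agent.R185.Md191C

/-!
# R185 / MOD (D): the letters acting on `Y(X)`, the finitely presented group, `α w = 1`

* `UL ι A` : letters `h i | k | s | b a | g a | d`.
* `YY X = YQ (SG L ε) (starQ X)` over `Q = D × P(X)`; `actY X κ : F(UL ι A) →* Perm (YY X)`.
* `RelOK f` : the (finitely many) relations, `EP = ` the group presented by them.
* `RelOK.alpha_one` : `α w = 1` for accepted `w`;  `relOK_actY` : the honest case.
-/

set_option autoImplicit false

namespace Crest.Agent.R185.Md191D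

open Equiv Crest.Agent.R185.Md191A Crest.Agent.R185.Md191B Crest.Agent.R185.Md191C

/-! ### words in an abstract group -/

section abs

variable {K B : Type} [Group K]

theorem commute_word {c : K} {χ : FreeGroup B →* K} (h : ∀ b, Commute c (χ (FreeGroup.of b)))
    (x : FreeGroup B) : Commute c (χ x) := by
  induction x using FreeGroup.induction_on with
  | C1 => rw [map_one]; exact Commute.one_right c
  | of b => exact h b
  | inv_of b ih => rw [map_inv]; exact ih.inv_right
  | mul u v ihu ihv => rw [map_mul]; exact ihu.mul_right ihv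

theorem commute_word' {c : K} {χ : FreeGroup B →* K} (h : ∀ b, Commute (χ (FreeGroup.of b)) c)
    (x : FreeGroup B) : Commute (χ x) c := (commute_word (fun b => (h b).symm) x).symm

theorem conj_word {s : K} {e χ : FreeGroup B →* K} (hc : ∀ x y, Commute (e x) (χ y))
    (h : ∀ b, s * e (FreeGroup.of b) * s⁻¹ = e (FreeGroup.of b) * χ (FreeGroup.of b))
    (x : FreeGroup B) : s * e x * s⁻¹ = e x * χ x := by
  induction x using FreeGroup.induction_on with
  | C1 => simp
  | of b => exact h b
  | inv_of b ih =>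
    have : s * e (FreeGroup.of b)⁻¹ * s⁻¹ = (s * e (FreeGroup.of b) * s⁻¹)⁻¹ := by
      rw [map_inv]; group
    rw [this, ih, mul_inv_rev, map_inv, map_inv, ((hc (FreeGroup.of b) (FreeGroup.of b)).inv_inv).eq]
  | mul u v ihu ihv =>
    have : s * e (u * v) * s⁻¹ = (s * e u * s⁻¹) * (s * e v * s⁻¹) := by
      rw [map_mul]; group
    rw [this, ihu, ihv, map_mul, map_mul, mul_assoc, ← mul_assoc (χ u), ← (hc v u).eq]
    simp only [mul_assoc]

variable {A : Type}

/-- the heart of `α w = 1` -/
theorem commute_d_gamma (e : FreeGroup (Option A) →* K) (b g : FreeGroup A →* K) (d s k : K)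
    (heb : ∀ o a, Commute (e (FreeGroup.of o)) (b (FreeGroup.of a)))
    (heg : ∀ o a, Commute (e (FreeGroup.of o)) (g (FreeGroup.of a)))
    (hed : ∀ o, Commute (e (FreeGroup.of o)) d)
    (hkb : ∀ a, Commute k (b (FreeGroup.of a))) (hkd : Commute k d)
    (hbg : ∀ a a', Commute (b (FreeGroup.of a)) (g (FreeGroup.of a')))
    (h6 : ∀ a, s * e (FreeGroup.of (some a)) * s⁻¹ =
      e (FreeGroup.of (some a)) * (b (FreeGroup.of a) * g (FreeGroup.of a)))
    (h7 : s * e (FreeGroup.of none) * s⁻¹ = e (FreeGroup.of none) * d)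
    (h8 : ∀ a, s * (k * e (FreeGroup.of (some a)) * k⁻¹) * s⁻¹ =
      (k * e (FreeGroup.of (some a)) * k⁻¹) * b (FreeGroup.of a))
    (h9 : s * (k * e (FreeGroup.of none) * k⁻¹) * s⁻¹ = (k * e (FreeGroup.of none) * k⁻¹) * d)
    (w : FreeGroup A) (hw : Commute k (e (tw w))) : Commute d (g w) := by
  -- the two representations
  let χ1 : FreeGroup (Option A) →* K := FreeGroup.lift (fun o => o.elim d
    (fun a => b (FreeGroup.of a) * g (FreeGroup.of a)))
  let χ2 : FreeGroup (Option A) →* K := FreeGroup.lift (fun o => o.elim d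
    (fun a => b (FreeGroup.of a)))
  let ek : FreeGroup (Option A) →* K := (MulAut.conj k).toMonoidHom.comp e
  have hek : ∀ x, ek x = k * e x * k⁻¹ := fun x => rfl
  have c1 : ∀ x y, Commute (e x) (χ1 y) := by
    intro x y
    refine commute_word' (fun o => ?_) x
    refine commute_word (fun o' => ?_) y
    rcases o' with _ | a
    · simp only [χ1, FreeGroup.lift_apply_of, Option.elim]
      exact hed o
    · simp only [χ1, FreeGroup.lift_apply_of, Option.elim]
      exact (heb o a).mul_right (heg o a)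
  have c2 : ∀ x y, Commute (ek x) (χ2 y) := by
    intro x y
    refine commute_word' (fun o => ?_) x
    refine commute_word (fun o' => ?_) y
    rw [hek]
    rcases o' with _ | a
    · simp only [χ2, FreeGroup.lift_apply_of, Option.elim]
      exact (hkd.mul_left (hed o)).mul_left hkd.inv_left
    · simp only [χ2, FreeGroup.lift_apply_of, Option.elim]
      exact ((hkb a).mul_left (heb o a)).mul_left (hkb a).inv_left
  have s1 : ∀ x, s * e x * s⁻¹ = e x * χ1 x := by
    refine conj_word c1 ?_
    rintro (_ | a)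
    · simp only [χ1, FreeGroup.lift_apply_of, Option.elim]; exact h7
    · simp only [χ1, FreeGroup.lift_apply_of, Option.elim]; exact h6 a
  have s2 : ∀ x, s * ek x * s⁻¹ = ek x * χ2 x := by
    refine conj_word c2 ?_
    rintro (_ | a)
    · simp only [χ2, FreeGroup.lift_apply_of, Option.elim]; exact h9
    · simp only [χ2, FreeGroup.lift_apply_of, Option.elim]; exact h8 a
  have cbg : ∀ x y, Commute (b x) (g y) := by
    intro x y
    refine commute_word' (fun o => ?_) x
    exact commute_word (fun o' => hbg o o') y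
  have p1 : ∀ x : FreeGroup A, χ1 (piw x) = b x * g x := by
    intro x
    induction x using FreeGroup.induction_on with
    | C1 => simp
    | of a => simp [χ1, piw]
    | inv_of a ih => rw [map_inv, map_inv, ih, mul_inv_rev, map_inv, map_inv,
        (cbg (FreeGroup.of a) (FreeGroup.of a)).inv_inv.eq]
    | mul u v ihu ihv =>
      rw [map_mul, map_mul, ihu, ihv, map_mul, map_mul, mul_assoc, ← mul_assoc (g u),
        ← (cbg v u).eq]
      simp only [mul_assoc]
  have p2 : ∀ x : FreeGroup A, χ2 (piw x) = b x := by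
    intro x
    have : χ2.comp piw = b := by
      ext a : 1
      simp [χ2, piw]
    exact congrArg (fun f : FreeGroup A →* _ => f x) this
  have t1 : χ1 tt = d := by simp [χ1, tt]
  have t2 : χ2 tt = d := by simp [χ2, tt]
  have hw' : ek (tw w) = e (tw w) := by rw [hek, hw.eq]; group
  have h1 := s1 (tw w)
  have h2 := s2 (tw w)
  rw [hw', h1, mul_left_cancel_iff] at h2
  rw [tw, map_mul, map_mul, map_mul, map_mul, map_inv, map_inv, p1, p2, t1, t2, (cbg w w).eq] at h2
  -- g b d b⁻¹ g⁻¹ = b d b⁻¹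
  have h3 : b w * (g w * d * (g w)⁻¹) * (b w)⁻¹ = b w * d * (b w)⁻¹ := by
    rw [← h2, ← (cbg w w).eq]; group
  have h4 : g w * d * (g w)⁻¹ = d := by
    have := mul_right_cancel h3
    exact mul_left_cancel this
  have h5 : g w * d = d * g w := by
    rw [mul_inv_eq_iff_eq_mul] at h4; exact h4
  exact h5.symm

/-- `α(a) = [d, γ(a)]` is a homomorphism -/
theorem alpha_word (g : FreeGroup A →* K) (d : K) (al : FreeGroup A →* K)
    (hal : ∀ a, al (FreeGroup.of a) = d * g (FreeGroup.of a) * d⁻¹ * (g (FreeGroup.of a))⁻¹)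
    (h5 : ∀ a a', Commute (al (FreeGroup.of a)) (g (FreeGroup.of a')))
    (w : FreeGroup A) : al w = d * g w * d⁻¹ * (g w)⁻¹ := by
  have hc : ∀ x y, Commute (g x) (al y) := fun x y =>
    commute_word' (fun o => commute_word (fun o' => (h5 o' o).symm) y) x
  have := conj_word (s := d) (e := g) (χ := al) hc (fun a => by
    rw [← (hc _ _).symm.eq, hal]; group) w
  rw [this, (hc w w).eq]; group

end abs

/-! ### the letters and the relations -/

/-- the letters -/
inductive UL (ι A : Type)
  | h (i : ι)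
  | k
  | s
  | b (a : A)
  | g (a : A)
  | d

instance {ι A : Type} [Finite ι] [Finite A] : Finite (UL ι A) := by
  have : Function.Surjective (fun x : (Option ι) ⊕ (Option (A ⊕ Option A)) =>
      (match x with
        | Sum.inl (some i) => UL.h i
        | Sum.inl none => UL.k
        | Sum.inr none => UL.s
        | Sum.inr (some (Sum.inl a)) => UL.b a
        | Sum.inr (some (Sum.inr (some a))) => UL.g a
        | Sum.inr (some (Sum.inr none)) => UL.d : UL ι A)) := by
    rintro (i | _ | _ | a | a | _)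
    · exact ⟨Sum.inl (some i), rfl⟩
    · exact ⟨Sum.inl none, rfl⟩
    · exact ⟨Sum.inr none, rfl⟩
    · exact ⟨Sum.inr (some (Sum.inl a)), rfl⟩
    · exact ⟨Sum.inr (some (Sum.inr (some a))), rfl⟩
    · exact ⟨Sum.inr (some (Sum.inr none)), rfl⟩
  exact Finite.of_surjective _ this

/-- the presentation data of the syntactic witness -/
structure WitFP {A H : Type} [Group H] (L : Subgroup H) (ε : FreeGroup (Option A) →* H)
    (Acc : Set (FreeGroup A)) (ι : Type) where
  gen : FreeGroup ι →* H
  rels : Set (FreeGroup ι)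
  rels_fin : rels.Finite
  rels_true : ∀ r ∈ rels, gen r = 1
  θ : FreeGroup (Option A) →* FreeGroup ι
  hθ : ∀ e, gen (θ e) = ε e
  Lw : Set (FreeGroup ι)
  Lw_fin : Lw.Finite
  Lw_mem : ∀ w ∈ Lw, gen w ∈ L
  deriv : ∀ (K : Type) [Group K] (f : FreeGroup ι →* K), (∀ r ∈ rels, f r = 1) →
    ∀ w ∈ Acc, f (θ (tw w)) ∈ Subgroup.closure (f '' Lw)

section rels

variable {ι A : Type}

/-- `H`-words -/
def hw : FreeGroup ι →* FreeGroup (UL ι A) := FreeGroup.map UL.h

/-- `b`-words -/
def bw : FreeGroup A →* FreeGroup (UL ι A) := FreeGroup.map UL.b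

/-- `g`-words -/
def gw : FreeGroup A →* FreeGroup (UL ι A) := FreeGroup.map UL.g

/-- `k` -/
abbrev kw : FreeGroup (UL ι A) := FreeGroup.of UL.k

/-- `s` -/
abbrev sw : FreeGroup (UL ι A) := FreeGroup.of UL.s

/-- `d` -/
abbrev dw : FreeGroup (UL ι A) := FreeGroup.of UL.d

/-- `α` as a word -/
def aw : FreeGroup A →* FreeGroup (UL ι A) :=
  FreeGroup.lift (fun a => dw * gw (FreeGroup.of a) * dw⁻¹ * (gw (FreeGroup.of a))⁻¹)

@[simp] theorem hw_of (i : ι) : (hw (FreeGroup.of i) : FreeGroup (UL ι A)) =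
    FreeGroup.of (UL.h i) := by simp [hw]
@[simp] theorem bw_of (a : A) : (bw (FreeGroup.of a) : FreeGroup (UL ι A)) =
    FreeGroup.of (UL.b a) := by simp [bw]
@[simp] theorem gw_of (a : A) : (gw (FreeGroup.of a) : FreeGroup (UL ι A)) =
    FreeGroup.of (UL.g a) := by simp [gw]
theorem aw_of (a : A) : (aw (FreeGroup.of a) : FreeGroup (UL ι A)) =
    dw * gw (FreeGroup.of a) * dw⁻¹ * (gw (FreeGroup.of a))⁻¹ := by simp [aw]

variable {H : Type} [Group H] {L : Subgroup H} {ε : FreeGroup (Option A) →* H}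
  {Acc : Set (FreeGroup A)} (W : WitFP L ε Acc ι)

/-- the `D`-letters as words -/
def dl : Option ι → FreeGroup (UL ι A)
  | none => FreeGroup.of UL.k
  | some i => FreeGroup.of (UL.h i)

/-- the `J`-letters as words -/
def jl : Option (A ⊕ A) → FreeGroup (UL ι A)
  | none => FreeGroup.of UL.d
  | some (Sum.inl a) => FreeGroup.of (UL.b a)
  | some (Sum.inr a) => FreeGroup.of (UL.g a)

/-- the relators -/
def RU : Set (FreeGroup (UL ι A)) :=
  ((hw '' W.rels) ∪ ((fun w => kw * hw w * kw⁻¹ * (hw w)⁻¹) '' W.Lw)) ∪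
  (Set.range (fun p : Option ι × Option (A ⊕ A) =>
    (dl p.1 * jl p.2 * (dl p.1)⁻¹ * (jl p.2)⁻¹ : FreeGroup (UL ι A)))) ∪
  (Set.range (fun p : A × A => (bw (FreeGroup.of p.1) * gw (FreeGroup.of p.2) *
    (bw (FreeGroup.of p.1))⁻¹ * (gw (FreeGroup.of p.2))⁻¹ : FreeGroup (UL ι A)))) ∪
  (Set.range (fun p : A × A => (aw (FreeGroup.of p.1) * gw (FreeGroup.of p.2) *
    (aw (FreeGroup.of p.1))⁻¹ * (gw (FreeGroup.of p.2))⁻¹ : FreeGroup (UL ι A)))) ∪
  (Set.range (fun a : A => (sw * hw (W.θ (FreeGroup.of (some a))) * sw⁻¹ *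
    (hw (W.θ (FreeGroup.of (some a))) * (bw (FreeGroup.of a) * gw (FreeGroup.of a)))⁻¹ :
    FreeGroup (UL ι A)))) ∪
  (Set.range (fun a : A => (sw * (kw * hw (W.θ (FreeGroup.of (some a))) * kw⁻¹) * sw⁻¹ *
    ((kw * hw (W.θ (FreeGroup.of (some a))) * kw⁻¹) * bw (FreeGroup.of a))⁻¹ :
    FreeGroup (UL ι A)))) ∪
  {sw * hw (W.θ tt) * sw⁻¹ * (hw (W.θ tt) * dw)⁻¹,
    sw * (kw * hw (W.θ tt) * kw⁻¹) * sw⁻¹ * ((kw * hw (W.θ tt) * kw⁻¹) * dw)⁻¹}

theorem RU_finite [Finite ι] [Finite A] : (RU W).Finite := by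
  unfold RU
  refine Set.Finite.union (Set.Finite.union (Set.Finite.union (Set.Finite.union (Set.Finite.union
    (Set.Finite.union (Set.Finite.union (W.rels_fin.image _) (W.Lw_fin.image _))
      (Set.finite_range _)) (Set.finite_range _)) (Set.finite_range _)) (Set.finite_range _))
      (Set.finite_range _)) (Set.toFinite _)

/-- the relations -/
structure RelOK {K : Type} [Group K] (f : FreeGroup (UL ι A) →* K) : Prop where
  rel : ∀ r ∈ W.rels, f (hw r) = 1
  kL : ∀ w ∈ W.Lw, Commute (f kw) (f (hw w))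
  dj : ∀ x y, Commute (f (dl x)) (f (jl y))
  bg : ∀ a a', Commute (f (bw (FreeGroup.of a))) (f (gw (FreeGroup.of a')))
  ag : ∀ a a', Commute (f (aw (FreeGroup.of a))) (f (gw (FreeGroup.of a')))
  s1 : ∀ a, f sw * f (hw (W.θ (FreeGroup.of (some a)))) * (f sw)⁻¹ =
    f (hw (W.θ (FreeGroup.of (some a)))) * (f (bw (FreeGroup.of a)) * f (gw (FreeGroup.of a)))
  s2 : ∀ a, f sw * (f kw * f (hw (W.θ (FreeGroup.of (some a)))) * (f kw)⁻¹) * (f sw)⁻¹ =
    (f kw * f (hw (W.θ (FreeGroup.of (some a)))) * (f kw)⁻¹) * f (bw (FreeGroup.of a))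
  s3 : f sw * f (hw (W.θ tt)) * (f sw)⁻¹ = f (hw (W.θ tt)) * f dw
  s4 : f sw * (f kw * f (hw (W.θ tt)) * (f kw)⁻¹) * (f sw)⁻¹ =
    (f kw * f (hw (W.θ tt)) * (f kw)⁻¹) * f dw

theorem comm_iff {K : Type} [Group K] (x y : K) : x * y * x⁻¹ * y⁻¹ = 1 ↔ Commute x y := by
  rw [mul_inv_eq_one, mul_inv_eq_iff_eq_mul]; rfl

theorem relOK_iff {K : Type} [Group K] (f : FreeGroup (UL ι A) →* K) :
    RelOK W f ↔ ∀ r ∈ RU W, f r = 1 := by
  constructor
  · intro h r hr
    rcases hr with (((((((⟨r, hr, rfl⟩ | ⟨w, hw', rfl⟩) | ⟨⟨x, y⟩, rfl⟩) | ⟨⟨a, a'⟩, rfl⟩) |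
      ⟨⟨a, a'⟩, rfl⟩) | ⟨a, rfl⟩) | ⟨a, rfl⟩) | hr)
    · exact h.rel r hr
    · simp only [map_mul, map_inv]
      exact (comm_iff _ _).2 (h.kL w hw')
    · simp only [map_mul, map_inv]
      exact (comm_iff _ _).2 (h.dj x y)
    · simp only [map_mul, map_inv]
      exact (comm_iff _ _).2 (h.bg a a')
    · rw [map_mul, map_mul, map_mul, map_inv, map_inv]
      exact (comm_iff _ _).2 (h.ag a a')
    · rw [map_mul, map_inv, mul_inv_eq_one]
      simp only [map_mul, map_inv]
      exact h.s1 a
    · rw [map_mul, map_inv, mul_inv_eq_one]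
      simp only [map_mul, map_inv]
      exact h.s2 a
    · rcases hr with rfl | rfl
      · rw [map_mul, map_inv, mul_inv_eq_one]
        simp only [map_mul, map_inv]
        exact h.s3
      · rw [map_mul, map_inv, mul_inv_eq_one]
        simp only [map_mul, map_inv]
        exact h.s4
  · intro h
    constructor
    · intro r hr
      exact h _ (Or.inl (Or.inl (Or.inl (Or.inl (Or.inl (Or.inl (Or.inl ⟨r, hr, rfl⟩)))))))
    · intro w hw'
      have := h _ (Or.inl (Or.inl (Or.inl (Or.inl (Or.inl (Or.inl (Or.inr ⟨w, hw', rfl⟩)))))))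
      simp only [map_mul, map_inv] at this
      exact (comm_iff _ _).1 this
    · intro x y
      have := h _ (Or.inl (Or.inl (Or.inl (Or.inl (Or.inl (Or.inr ⟨(x, y), rfl⟩))))))
      simp only [map_mul, map_inv] at this
      exact (comm_iff _ _).1 this
    · intro a a'
      have := h _ (Or.inl (Or.inl (Or.inl (Or.inl (Or.inr ⟨(a, a'), rfl⟩)))))
      simp only [map_mul, map_inv] at this
      exact (comm_iff _ _).1 this
    · intro a a'
      have := h _ (Or.inl (Or.inl (Or.inl (Or.inr ⟨(a, a'), rfl⟩))))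
      rw [map_mul, map_mul, map_mul, map_inv, map_inv] at this
      exact (comm_iff _ _).1 this
    · intro a
      have := h _ (Or.inl (Or.inl (Or.inr ⟨a, rfl⟩)))
      rw [map_mul, map_inv, mul_inv_eq_one] at this
      simpa only [map_mul, map_inv] using this
    · intro a
      have := h _ (Or.inl (Or.inr ⟨a, rfl⟩))
      rw [map_mul, map_inv, mul_inv_eq_one] at this
      simpa only [map_mul, map_inv] using this
    · have := h _ (Or.inr (Or.inl rfl))
      rw [map_mul, map_inv, mul_inv_eq_one] at this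
      simpa only [map_mul, map_inv] using this
    · have := h _ (Or.inr (Or.inr rfl))
      rw [map_mul, map_inv, mul_inv_eq_one] at this
      simpa only [map_mul, map_inv] using this

/-! ### `α w = 1` for accepted words -/

variable {W}

theorem RelOK.comm_hj {K : Type} [Group K] {f : FreeGroup (UL ι A) →* K} (h : RelOK W f)
    (x : FreeGroup ι) (y : Option (A ⊕ A)) : Commute (f (hw x)) (f (jl y)) := by
  refine commute_word' (χ := f.comp hw) (fun i => ?_) x
  have := h.dj (some i) y
  simpa [dl] using this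

theorem RelOK.aw_eq {K : Type} [Group K] {f : FreeGroup (UL ι A) →* K} (h : RelOK W f)
    (w : FreeGroup A) : f (aw w) = f dw * f (gw w) * (f dw)⁻¹ * (f (gw w))⁻¹ := by
  refine alpha_word (f.comp gw) (f dw) (f.comp aw) ?_ ?_ w
  · intro a
    simp only [MonoidHom.comp_apply, aw_of, map_mul, map_inv]
  · intro a a'
    exact h.ag a a'

theorem RelOK.comm_kw_tw {K : Type} [Group K] {f : FreeGroup (UL ι A) →* K} (h : RelOK W f)
    {w : FreeGroup A} (hw' : w ∈ Acc) : Commute (f kw) (f (hw (W.θ (tw w)))) := by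
  have h1 := W.deriv K (f.comp hw) (fun r hr => h.rel r hr) w hw'
  have h2 : Subgroup.closure ((f.comp hw) '' W.Lw) ≤ Subgroup.centralizer {f kw} := by
    rw [Subgroup.closure_le]
    rintro _ ⟨x, hx, rfl⟩
    rw [SetLike.mem_coe, Subgroup.mem_centralizer_singleton_iff]
    exact (h.kL x hx).symm.eq
  have h3 := h2 h1
  rw [Subgroup.mem_centralizer_singleton_iff] at h3
  exact (show Commute (f (hw (W.θ (tw w)))) (f kw) from h3).symm

/-- **`α w = 1` for accepted words** -/
theorem RelOK.alpha_one {K : Type} [Group K] {f : FreeGroup (UL ι A) →* K} (h : RelOK W f)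
    {w : FreeGroup A} (hw' : w ∈ Acc) : f (aw w) = 1 := by
  have hd : ∀ y : Option (A ⊕ A), Commute (f kw) (f (jl y)) := fun y => h.dj none y
  have key := commute_d_gamma ((f.comp hw).comp W.θ) (f.comp bw) (f.comp gw) (f dw) (f sw) (f kw)
    (fun o a => by
      have := h.comm_hj (W.θ (FreeGroup.of o)) (some (Sum.inl a))
      simpa [jl] using this)
    (fun o a => by
      have := h.comm_hj (W.θ (FreeGroup.of o)) (some (Sum.inr a))
      simpa [jl] using this)
    (fun o => by
      have := h.comm_hj (W.θ (FreeGroup.of o)) none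
      simpa [jl] using this)
    (fun a => by
      have := hd (some (Sum.inl a))
      simpa [jl] using this)
    (by
      have := hd none
      simpa [jl] using this)
    h.bg h.s1 h.s3 h.s2 h.s4 w (h.comm_kw_tw hw')
  rw [h.aw_eq, comm_iff]
  exact key

variable (W)

/-- the finitely presented group -/
abbrev EP : Type := PresentedGroup (RU W)

instance [Finite ι] [Finite A] : Finite (RU W) := (RU_finite W).to_subtype

theorem EP_fp [Finite ι] [Finite A] : Group.IsFinitelyPresented (EP W) := by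
  infer_instance

/-- the projection -/
def prE : FreeGroup (UL ι A) →* EP W := PresentedGroup.mk (RU W)

theorem relOK_prE : RelOK W (prE W) := by
  rw [relOK_iff]
  intro r hr
  exact PresentedGroup.one_of_mem hr

/-- `α` in `EP` -/
def alE : FreeGroup A →* EP W := (prE W).comp aw

theorem alE_one {w : FreeGroup A} (hw' : w ∈ Acc) : alE W w = 1 := (relOK_prE W).alpha_one hw'

theorem liftE_aux {K : Type} [Group K] (f : FreeGroup (UL ι A) →* K) (h : RelOK W f) :
    ∀ r ∈ RU W, FreeGroup.lift (fun x => f (FreeGroup.of x)) r = 1 := by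
  intro r hr
  have : FreeGroup.lift (fun x => f (FreeGroup.of x)) = f := by
    ext x; simp
  rw [this]
  exact (relOK_iff W f).1 h r hr

/-- the universal property -/
def liftE {K : Type} [Group K] (f : FreeGroup (UL ι A) →* K) (h : RelOK W f) : EP W →* K :=
  PresentedGroup.toGroup (liftE_aux W f h)

theorem liftE_prE {K : Type} [Group K] (f : FreeGroup (UL ι A) →* K) (h : RelOK W f)
    (x : FreeGroup (UL ι A)) : liftE W f h (prE W x) = f x := by
  have : (liftE W f h).comp (prE W) = f := by
    ext x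
    exact PresentedGroup.toGroup.of (liftE_aux W f h)
  exact congrArg (fun f : FreeGroup (UL ι A) →* _ => f x) this

end rels

end Crest.Agent.R185.Md191D
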