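import Mathlib

/-!
# R185, null calculus, part 1: augmented based complexes

`PCx G`: a complex of free `ℤ`-modules with an augmentation and a basis permuted by `G`.
`FCx G`: a `PCx G` whose basis is permuted freely, witnessed by an equivariant map `base : X → G`.
Main results: the equivariant lifting lemma `exists_cmap`, the homotopy lemma `exists_htpy`.
-/

set_option autoImplicit false

namespace Crest.Agent.R185.Null

open Finsupp

universe u v w u' v' w'

/-- Augmented based complexes with a permutation action of a group. -/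
structure PCx (G : Type u) [Group G] where
  X : Type v
  sm : G → X → X
  sm_one : ∀ x, sm 1 x = x
  sm_mul : ∀ g h x, sm (g * h) x = sm g (sm h x)
  deg : X → ℕ
  deg_sm : ∀ g x, deg (sm g x) = deg x
  bd : X → (X →₀ ℤ)
  bd_sm : ∀ g x, bd (sm g x) = (bd x).mapDomain (sm g)
  bd_deg : ∀ x y, y ∈ (bd x).support → deg y + 1 = deg x
  bd_bd : ∀ x, Finsupp.linearCombination ℤ bd (bd x) = 0
  ep : X → ℤ
  ep_sm : ∀ g x, ep (sm g x) = ep x
  ep_deg : ∀ x, deg x ≠ 0 → ep x = 0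
  ep_bd : ∀ x, Finsupp.linearCombination ℤ ep (bd x) = 0

theorem lin_ext {M : Type*} [AddCommGroup M] {B : Type*}
    {f g : (B →₀ ℤ) →ₗ[ℤ] M} (h : ∀ x, f (single x 1) = g (single x 1)) : f = g := by
  apply Finsupp.lhom_ext
  intro a b
  have : (single a b : B →₀ ℤ) = b • single a 1 := by simp
  rw [this, map_smul, map_smul, h]

/-- two linear maps agreeing on the basis elements of a support set agree on `supported`. -/
theorem lin_ext_on {M : Type*} [AddCommGroup M] {B : Type*}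
    {f g : (B →₀ ℤ) →ₗ[ℤ] M} (s : Set B) (h : ∀ x ∈ s, f (single x 1) = g (single x 1))
    (c : B →₀ ℤ) (hc : c ∈ Finsupp.supported ℤ ℤ s) : f c = g c := by
  classical
  have hc' : ↑c.support ⊆ s := (Finsupp.mem_supported ℤ c).1 hc
  rw [← Finsupp.sum_single c, Finsupp.sum, map_sum, map_sum]
  refine Finset.sum_congr rfl fun x hx => ?_
  have : (single x (c x) : B →₀ ℤ) = c x • single x 1 := by simp
  rw [this, map_smul, map_smul, h x (hc' hx)]

/-- a linear map sends `supported s` into `N` if it sends the basis elements into `N`. -/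
theorem lin_mem_of {M : Type*} [AddCommGroup M] {B : Type*}
    {f : (B →₀ ℤ) →ₗ[ℤ] M} (s : Set B) (N : Submodule ℤ M)
    (h : ∀ x ∈ s, f (single x 1) ∈ N)
    (c : B →₀ ℤ) (hc : c ∈ Finsupp.supported ℤ ℤ s) : f c ∈ N := by
  classical
  have hc' : ↑c.support ⊆ s := (Finsupp.mem_supported ℤ c).1 hc
  rw [← Finsupp.sum_single c, Finsupp.sum, map_sum]
  refine Submodule.sum_mem _ fun x hx => ?_
  have : (single x (c x) : B →₀ ℤ) = c x • single x 1 := by simp
  rw [this, map_smul]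
  exact N.smul_mem _ (h x (hc' hx))

namespace PCx

variable {G : Type u} [Group G] (A : PCx.{u, v} G)

/-- The boundary as a linear map. -/
noncomputable def D : (A.X →₀ ℤ) →ₗ[ℤ] (A.X →₀ ℤ) := Finsupp.linearCombination ℤ A.bd

/-- The augmentation. -/
noncomputable def E : (A.X →₀ ℤ) →ₗ[ℤ] ℤ := Finsupp.linearCombination ℤ A.ep

/-- Translation. -/
noncomputable def tr (g : G) : (A.X →₀ ℤ) →ₗ[ℤ] (A.X →₀ ℤ) := Finsupp.lmapDomain ℤ ℤ (A.sm g)

/-- Chains of degree `n`. -/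
def Dg (n : ℕ) : Submodule ℤ (A.X →₀ ℤ) := Finsupp.supported ℤ ℤ {x | A.deg x = n}

/-- The union of the orbits of `T`. -/
def orb (T : Set A.X) : Set A.X := {y | ∃ x ∈ T, ∃ g, y = A.sm g x}

/-- Chains supported on the orbits of `T`. -/
def Bs (T : Set A.X) : Submodule ℤ (A.X →₀ ℤ) := Finsupp.supported ℤ ℤ (A.orb T)

@[simp] theorem D_single (x : A.X) (n : ℤ) : A.D (single x n) = n • A.bd x := by
  simp [D]

@[simp] theorem E_single (x : A.X) (n : ℤ) : A.E (single x n) = n * A.ep x := by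
  simp [E]

@[simp] theorem tr_single (g : G) (x : A.X) (n : ℤ) :
    A.tr g (single x n) = single (A.sm g x) n := by
  simp [tr, Finsupp.lmapDomain_apply]

theorem tr_apply (g : G) (c : A.X →₀ ℤ) : A.tr g c = c.mapDomain (A.sm g) := rfl

theorem single_mem_Dg {x : A.X} {n : ℕ} (h : A.deg x = n) (m : ℤ) : single x m ∈ A.Dg n :=
  Finsupp.single_mem_supported ℤ m h

theorem single_mem_Bs {x : A.X} {T : Set A.X} (h : x ∈ A.orb T) (m : ℤ) : single x m ∈ A.Bs T :=
  Finsupp.single_mem_supported ℤ m h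

theorem tr_one (c : A.X →₀ ℤ) : A.tr 1 c = c := by
  have : A.tr 1 = LinearMap.id := lin_ext fun x => by simp [A.sm_one]
  rw [this]; rfl

theorem tr_mul (g h : G) (c : A.X →₀ ℤ) : A.tr (g * h) c = A.tr g (A.tr h c) := by
  have : A.tr (g * h) = (A.tr g).comp (A.tr h) := lin_ext fun x => by simp [A.sm_mul]
  rw [this]; rfl

theorem tr_inv_tr (g : G) (c : A.X →₀ ℤ) : A.tr g⁻¹ (A.tr g c) = c := by
  rw [← tr_mul, inv_mul_cancel, tr_one]

theorem tr_tr_inv (g : G) (c : A.X →₀ ℤ) : A.tr g (A.tr g⁻¹ c) = c := by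
  rw [← tr_mul, mul_inv_cancel, tr_one]

theorem D_tr (g : G) (c : A.X →₀ ℤ) : A.D (A.tr g c) = A.tr g (A.D c) := by
  have : A.D.comp (A.tr g) = (A.tr g).comp A.D := lin_ext fun x => by
    simp [A.bd_sm, tr_apply]
  exact LinearMap.congr_fun this c

theorem E_tr (g : G) (c : A.X →₀ ℤ) : A.E (A.tr g c) = A.E c := by
  have : A.E.comp (A.tr g) = A.E := lin_ext fun x => by
    simp [A.ep_sm]
  exact LinearMap.congr_fun this c

theorem D_D (c : A.X →₀ ℤ) : A.D (A.D c) = 0 := by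
  have : A.D.comp A.D = 0 := lin_ext fun x => by
    simp only [LinearMap.comp_apply, D_single, one_smul, LinearMap.zero_apply]
    exact A.bd_bd x
  exact LinearMap.congr_fun this c

theorem E_D (c : A.X →₀ ℤ) : A.E (A.D c) = 0 := by
  have : A.E.comp A.D = 0 := lin_ext fun x => by
    simp only [LinearMap.comp_apply, D_single, one_smul, LinearMap.zero_apply]
    exact A.ep_bd x
  exact LinearMap.congr_fun this c

theorem bd_mem (x : A.X) {n : ℕ} (h : A.deg x = n + 1) : A.bd x ∈ A.Dg n := by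
  refine (Finsupp.mem_supported ℤ _).2 fun y hy => ?_
  have := A.bd_deg x y hy
  simp only [Set.mem_ofPred_eq]; omega

theorem bd_zero (x : A.X) (h : A.deg x = 0) : A.bd x = 0 := by
  classical
  rw [← Finsupp.support_eq_empty, Finset.eq_empty_iff_forall_notMem]
  intro y hy
  have := A.bd_deg _ y hy
  omega

theorem D_mem {c : A.X →₀ ℤ} {n : ℕ} (hc : c ∈ A.Dg (n + 1)) : A.D c ∈ A.Dg n :=
  lin_mem_of _ _ (fun x hx => by rw [D_single, one_smul]; exact A.bd_mem x hx) c hc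

theorem D_zero {c : A.X →₀ ℤ} (hc : c ∈ A.Dg 0) : A.D c = 0 := by
  have := lin_mem_of (f := A.D) {x | A.deg x = 0} (⊥ : Submodule ℤ (A.X →₀ ℤ))
    (fun x hx => by rw [D_single, A.bd_zero x hx]; simp) c hc
  simpa using this

theorem E_eq_zero {c : A.X →₀ ℤ} {n : ℕ} (hn : n ≠ 0) (hc : c ∈ A.Dg n) : A.E c = 0 := by
  have := lin_mem_of (f := A.E) {x | A.deg x = n} (⊥ : Submodule ℤ ℤ)
    (fun x hx => by
      have hx' : A.deg x = n := hx
      rw [E_single, A.ep_deg x (by omega)]; simp) c hc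
  simpa using this

theorem tr_mem_Dg {c : A.X →₀ ℤ} {n : ℕ} (g : G) (hc : c ∈ A.Dg n) : A.tr g c ∈ A.Dg n :=
  lin_mem_of _ _ (fun x hx => by
    rw [tr_single]; exact A.single_mem_Dg ((A.deg_sm g x).trans hx) 1) c hc

theorem sm_mem_orb {T : Set A.X} {x : A.X} (g : G) (h : x ∈ A.orb T) : A.sm g x ∈ A.orb T := by
  obtain ⟨y, hy, k, rfl⟩ := h
  exact ⟨y, hy, g * k, (A.sm_mul _ _ _).symm⟩

theorem tr_mem_Bs {c : A.X →₀ ℤ} {T : Set A.X} (g : G) (hc : c ∈ A.Bs T) : A.tr g c ∈ A.Bs T :=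
  lin_mem_of _ _ (fun x hx => by
    rw [tr_single]; exact A.single_mem_Bs (A.sm_mem_orb g hx) 1) c hc

theorem subset_orb (T : Set A.X) : T ⊆ A.orb T := fun x hx => ⟨x, hx, 1, (A.sm_one x).symm⟩

theorem orb_mono {S T : Set A.X} (h : S ⊆ T) : A.orb S ⊆ A.orb T := by
  rintro _ ⟨x, hx, g, rfl⟩
  exact ⟨x, h hx, g, rfl⟩

theorem Bs_mono {S T : Set A.X} (h : S ⊆ T) : A.Bs S ≤ A.Bs T :=
  Finsupp.supported_mono (A.orb_mono h)

/-- Any single chain lies in some bounded piece. -/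
theorem mem_Bs_support (c : A.X →₀ ℤ) : c ∈ A.Bs (c.support : Set A.X) :=
  (Finsupp.mem_supported ℤ c).2 (A.subset_orb _)

/-- Bounded reduced cycles. -/
noncomputable def Cy (n : ℕ) (T : Set A.X) : Submodule ℤ (A.X →₀ ℤ) :=
  A.Dg n ⊓ A.Bs T ⊓ LinearMap.ker A.D ⊓ LinearMap.ker A.E

/-- Boundaries of bounded chains. -/
noncomputable def Bo (n : ℕ) (T : Set A.X) : Submodule ℤ (A.X →₀ ℤ) :=
  (A.Dg (n + 1) ⊓ A.Bs T).map A.D

theorem mem_Cy {n : ℕ} {T : Set A.X} {c : A.X →₀ ℤ} :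
    c ∈ A.Cy n T ↔ c ∈ A.Dg n ∧ c ∈ A.Bs T ∧ A.D c = 0 ∧ A.E c = 0 := by
  simp only [Cy, Submodule.mem_inf, LinearMap.mem_ker, and_assoc]

theorem mem_Bo {n : ℕ} {T : Set A.X} {c : A.X →₀ ℤ} :
    c ∈ A.Bo n T ↔ ∃ b ∈ A.Dg (n + 1), b ∈ A.Bs T ∧ A.D b = c := by
  simp only [Bo, Submodule.mem_map, Submodule.mem_inf, and_assoc]

theorem D_mem_Bo {n : ℕ} {T : Set A.X} {b : A.X →₀ ℤ} (h : b ∈ A.Dg (n + 1)) (h' : b ∈ A.Bs T) :
    A.D b ∈ A.Bo n T := A.mem_Bo.2 ⟨b, h, h', rfl⟩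

theorem Bo_mono {n : ℕ} {S T : Set A.X} (h : S ⊆ T) : A.Bo n S ≤ A.Bo n T :=
  Submodule.map_mono (inf_le_inf le_rfl (A.Bs_mono h))

theorem Cy_mono {n : ℕ} {S T : Set A.X} (h : S ⊆ T) : A.Cy n S ≤ A.Cy n T := fun c hc => by
  rw [mem_Cy] at hc ⊢
  exact ⟨hc.1, A.Bs_mono h hc.2.1, hc.2.2⟩

theorem tr_mem_Bo {n : ℕ} {T : Set A.X} {c : A.X →₀ ℤ} (g : G) (h : c ∈ A.Bo n T) :
    A.tr g c ∈ A.Bo n T := by
  rw [mem_Bo] at h ⊢
  obtain ⟨b, h1, h2, rfl⟩ := h
  exact ⟨A.tr g b, A.tr_mem_Dg g h1, A.tr_mem_Bs g h2, A.D_tr g b⟩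

theorem tr_mem_Cy {n : ℕ} {T : Set A.X} {c : A.X →₀ ℤ} (g : G) (h : c ∈ A.Cy n T) :
    A.tr g c ∈ A.Cy n T := by
  rw [mem_Cy] at h ⊢
  exact ⟨A.tr_mem_Dg g h.1, A.tr_mem_Bs g h.2.1, by rw [D_tr, h.2.2.1, map_zero],
    by rw [E_tr, h.2.2.2]⟩

/-- Exactness of the augmented complex. -/
def Acyclic : Prop :=
  (∃ v ∈ A.Dg 0, A.E v = 1) ∧
    ∀ n, ∀ z ∈ A.Dg n, A.D z = 0 → A.E z = 0 → ∃ c ∈ A.Dg (n + 1), A.D c = z

open Classical in
/-- A choice of fillings. -/
noncomputable def sol (n : ℕ) (z : A.X →₀ ℤ) : A.X →₀ ℤ :=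
  if h : ∃ c ∈ A.Dg (n + 1), A.D c = z then h.choose else 0

theorem sol_mem (n : ℕ) (z : A.X →₀ ℤ) : A.sol n z ∈ A.Dg (n + 1) := by
  classical
  unfold sol
  split_ifs with h
  · exact h.choose_spec.1
  · exact Submodule.zero_mem _

theorem D_sol (hA : A.Acyclic) {n : ℕ} {z : A.X →₀ ℤ} (hz : z ∈ A.Dg n) (h0 : A.D z = 0)
    (h1 : A.E z = 0) : A.D (A.sol n z) = z := by
  classical
  unfold sol
  rw [dif_pos (hA.2 n z hz h0 h1)]
  exact (hA.2 n z hz h0 h1).choose_spec.2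

/-- Restriction of the action along a homomorphism. -/
@[reducible] def pull {H : Type w} [Group H] (φ : H →* G) : PCx.{w, v} H where
  X := A.X
  sm h := A.sm (φ h)
  sm_one x := by rw [map_one, A.sm_one]
  sm_mul g h x := by rw [map_mul, A.sm_mul]
  deg := A.deg
  deg_sm g x := A.deg_sm _ x
  bd := A.bd
  bd_sm g x := A.bd_sm _ x
  bd_deg := A.bd_deg
  bd_bd := A.bd_bd
  ep := A.ep
  ep_sm g x := A.ep_sm _ x
  ep_deg := A.ep_deg
  ep_bd := A.ep_bd

theorem pull_D {H : Type w} [Group H] (φ : H →* G) : (A.pull φ).D = A.D := rfl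
theorem pull_E {H : Type w} [Group H] (φ : H →* G) : (A.pull φ).E = A.E := rfl
theorem pull_Dg {H : Type w} [Group H] (φ : H →* G) (n : ℕ) : (A.pull φ).Dg n = A.Dg n := rfl
theorem pull_tr {H : Type w} [Group H] (φ : H →* G) (h : H) : (A.pull φ).tr h = A.tr (φ h) := rfl

theorem pull_acyclic {H : Type w} [Group H] (φ : H →* G) (h : A.Acyclic) : (A.pull φ).Acyclic := h

theorem pull_Bs_le {H : Type w} [Group H] (φ : H →* G) (T : Set A.X) :
    (A.pull φ).Bs T ≤ A.Bs T := by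
  refine Finsupp.supported_mono ?_
  rintro _ ⟨x, hx, g, rfl⟩
  exact ⟨x, hx, φ g, rfl⟩

end PCx

/-- Free based augmented complexes. -/
structure FCx (G : Type u) [Group G] extends PCx.{u, v} G where
  base : X → G
  base_sm : ∀ g x, base (sm g x) = g * base x

namespace FCx

variable {G : Type u} [Group G] (A : FCx.{u, v} G)

/-- The normalised element. -/
def nrm (x : A.X) : A.X := A.sm (A.base x)⁻¹ x

theorem sm_base_nrm (x : A.X) : A.sm (A.base x) (A.nrm x) = x := by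
  unfold nrm; rw [← A.sm_mul, mul_inv_cancel, A.sm_one]

theorem nrm_sm (g : G) (x : A.X) : A.nrm (A.sm g x) = A.nrm x := by
  unfold nrm
  rw [A.base_sm g x, ← A.sm_mul]
  congr 1
  group

theorem deg_nrm (x : A.X) : A.deg (A.nrm x) = A.deg x := A.deg_sm _ _

end FCx

/-! ## Equivariant maps and boundedness -/

section Maps

variable {G : Type u} [Group G] {H : Type u'} [Group H] {K : Type w} [Group K]

/-- A `φ`-semilinear map of the chain modules. -/
def Eqv (φ : G →* H) (A : PCx.{u, v} G) (B : PCx.{u', v'} H)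
    (F : (A.X →₀ ℤ) →ₗ[ℤ] (B.X →₀ ℤ)) : Prop :=
  ∀ g c, F (A.tr g c) = B.tr (φ g) (F c)

/-- Equivariant maps send bounded families to bounded families. -/
theorem Eqv.bdd {φ : G →* H} {A : PCx.{u, v} G} {B : PCx.{u', v'} H}
    {F : (A.X →₀ ℤ) →ₗ[ℤ] (B.X →₀ ℤ)}
    (hF : Eqv φ A B F) (T : Set A.X) (hT : T.Finite) :
    ∃ T' : Set B.X, T'.Finite ∧ ∀ c ∈ A.Bs T, F c ∈ B.Bs T' := by
  classical
  refine ⟨⋃ x ∈ T, ((F (single x 1)).support : Set B.X), hT.biUnion fun x _ => Finset.finite_toSet _,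
    fun c hc => lin_mem_of _ _ (fun y hy => ?_) c hc⟩
  obtain ⟨x, hx, g, rfl⟩ := hy
  rw [← A.tr_single, hF]
  refine B.tr_mem_Bs _ (B.Bs_mono ?_ (B.mem_Bs_support _))
  exact Set.subset_biUnion_of_mem (u := fun x => ((F (single x 1)).support : Set B.X)) hx

/-- Equivariance from basis elements. -/
theorem Eqv.of_single {φ : G →* H} {A : PCx.{u, v} G} {B : PCx.{u', v'} H}
    {F : (A.X →₀ ℤ) →ₗ[ℤ] (B.X →₀ ℤ)}
    (h : ∀ g x, F (single (A.sm g x) 1) = B.tr (φ g) (F (single x 1))) : Eqv φ A B F := by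
  intro g c
  have : F.comp (A.tr g) = (B.tr (φ g)).comp F := lin_ext fun x => by simp [h]
  exact LinearMap.congr_fun this c

/-- Chain maps. -/
structure CMap (φ : G →* H) (A : PCx.{u, v} G) (B : PCx.{u', v'} H) where
  F : (A.X →₀ ℤ) →ₗ[ℤ] (B.X →₀ ℤ)
  comm : ∀ c, B.D (F c) = F (A.D c)
  eqv : Eqv φ A B F
  dg : ∀ n, ∀ c ∈ A.Dg n, F c ∈ B.Dg n
  aug : ∀ c, B.E (F c) = A.E c

/-- Composition. -/
noncomputable def CMap.comp {φ : G →* H} {ψ : H →* K} {A : PCx.{u, v} G} {B : PCx.{u', v'} H}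
    {C : PCx.{w, w'} K} (g : CMap ψ B C) (f : CMap φ A B) : CMap (ψ.comp φ) A C where
  F := g.F.comp f.F
  comm c := by simp [f.comm, g.comm]
  eqv a c := by
    simp only [LinearMap.comp_apply, f.eqv a c, MonoidHom.comp_apply]
    exact g.eqv (φ a) (f.F c)
  dg n c hc := g.dg n _ (f.dg n c hc)
  aug c := by simp [f.aug, g.aug]

@[simp] theorem CMap.comp_F {φ : G →* H} {ψ : H →* K} {A : PCx.{u, v} G} {B : PCx.{u', v'} H}
    {C : PCx.{w, w'} K} (g : CMap ψ B C) (f : CMap φ A B) (c : A.X →₀ ℤ) :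
    (g.comp f).F c = g.F (f.F c) := rfl

/-- Identity. -/
noncomputable def CMap.id (A : PCx.{u, v} G) : CMap (MonoidHom.id G) A A where
  F := LinearMap.id
  comm _ := rfl
  eqv _ _ := rfl
  dg _ _ hc := hc
  aug _ := rfl

@[simp] theorem CMap.id_F (A : PCx.{u, v} G) (c : A.X →₀ ℤ) : (CMap.id A).F c = c := rfl

/-- Change of the homomorphism along an equality. -/
noncomputable def CMap.cast {φ ψ : G →* H} (h : φ = ψ) {A : PCx.{u, v} G} {B : PCx.{u', v'} H}
    (f : CMap φ A B) : CMap ψ A B where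
  F := f.F
  comm := f.comm
  eqv := h ▸ f.eqv
  dg := f.dg
  aug := f.aug

@[simp] theorem CMap.cast_F {φ ψ : G →* H} (h : φ = ψ) {A : PCx.{u, v} G} {B : PCx.{u', v'} H}
    (f : CMap φ A B) (c : A.X →₀ ℤ) : (f.cast h).F c = f.F c := rfl

/-- A chain map followed by translation is a chain map over the conjugated homomorphism. -/
noncomputable def CMap.conj {φ : G →* H} {A : PCx.{u, v} G} {B : PCx.{u', v'} H}
    (f : CMap φ A B) (k : H) : CMap ((MulAut.conj k).toMonoidHom.comp φ) A B where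
  F := (B.tr k).comp f.F
  comm c := by simp [B.D_tr, f.comm]
  eqv g c := by
    simp only [LinearMap.comp_apply, f.eqv g c]
    rw [← B.tr_mul, ← B.tr_mul]
    congr 1
    simp
  dg n c hc := B.tr_mem_Dg k (f.dg n c hc)
  aug c := by simp [B.E_tr, f.aug]

@[simp] theorem CMap.conj_F {φ : G →* H} {A : PCx.{u, v} G} {B : PCx.{u', v'} H}
    (f : CMap φ A B) (k : H) (c : A.X →₀ ℤ) : (f.conj k).F c = B.tr k (f.F c) := rfl

/-- Recursion scheme for equivariant maps. -/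
noncomputable def recF (φ : G →* H) (A : FCx.{u, v} G) (B : PCx.{u', v'} H)
    (R : A.X → ((A.X →₀ ℤ) →ₗ[ℤ] (B.X →₀ ℤ)) → (B.X →₀ ℤ)) : ℕ → A.X → (B.X →₀ ℤ)
  | 0, x => B.tr (φ (A.base x)) (R (A.nrm x) 0)
  | n + 1, x => B.tr (φ (A.base x)) (R (A.nrm x) (Finsupp.linearCombination ℤ (recF φ A B R n)))

/-- The resulting linear map. -/
noncomputable def recL (φ : G →* H) (A : FCx.{u, v} G) (B : PCx.{u', v'} H)
    (R : A.X → ((A.X →₀ ℤ) →ₗ[ℤ] (B.X →₀ ℤ)) → (B.X →₀ ℤ)) :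
    (A.X →₀ ℤ) →ₗ[ℤ] (B.X →₀ ℤ) :=
  Finsupp.linearCombination ℤ fun x => recF φ A B R (A.deg x) x

/-- `R` only depends on the values of the accumulated map in the right degree. -/
def Loc (A : PCx.{u, v} G) (B : PCx.{u', v'} H)
    (R : A.X → ((A.X →₀ ℤ) →ₗ[ℤ] (B.X →₀ ℤ)) → (B.X →₀ ℤ)) : Prop :=
  ∀ x (a b : (A.X →₀ ℤ) →ₗ[ℤ] (B.X →₀ ℤ)),
    (∀ n, A.deg x = n + 1 → ∀ c ∈ A.Dg n, a c = b c) → R x a = R x b

theorem recL_eq (φ : G →* H) (A : FCx.{u, v} G) (B : PCx.{u', v'} H)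
    {R : A.X → ((A.X →₀ ℤ) →ₗ[ℤ] (B.X →₀ ℤ)) → (B.X →₀ ℤ)} (hR : Loc A.toPCx B R) (x : A.X) :
    recL φ A B R (single x 1) = B.tr (φ (A.base x)) (R (A.nrm x) (recL φ A B R)) := by
  have h1 : recL φ A B R (single x 1) = recF φ A B R (A.deg x) x := by
    simp [recL]
  rw [h1]
  rcases Nat.eq_zero_or_pos (A.deg x) with h0 | hpos
  · rw [h0, recF]
    congr 1
    refine hR _ _ _ fun n hn => ?_
    rw [A.deg_nrm] at hn; omega
  · obtain ⟨n, hn⟩ : ∃ n, A.deg x = n + 1 := ⟨A.deg x - 1, by omega⟩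
    rw [hn, recF]
    congr 1
    refine hR _ _ _ fun m hm c hc => ?_
    rw [A.deg_nrm] at hm
    obtain rfl : m = n := by omega
    refine lin_ext_on _ (fun y hy => ?_) c hc
    have hy' : A.deg y = m := hy
    simp [recL, hy']

theorem recL_eqv (φ : G →* H) (A : FCx.{u, v} G) (B : PCx.{u', v'} H)
    {R : A.X → ((A.X →₀ ℤ) →ₗ[ℤ] (B.X →₀ ℤ)) → (B.X →₀ ℤ)} (hR : Loc A.toPCx B R) :
    Eqv φ A.toPCx B (recL φ A B R) := by
  refine Eqv.of_single fun g x => ?_
  rw [recL_eq φ A B hR, recL_eq φ A B hR, A.nrm_sm, A.base_sm, map_mul, B.tr_mul]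

/-- **Lifting lemma.** -/
theorem exists_cmap (φ : G →* H) (A : FCx.{u, v} G) (B : PCx.{u', v'} H) (hB : B.Acyclic) :
    Nonempty (CMap φ A.toPCx B) := by
  classical
  obtain ⟨v, hv, hv1⟩ := hB.1
  set R : A.X → ((A.X →₀ ℤ) →ₗ[ℤ] (B.X →₀ ℤ)) → (B.X →₀ ℤ) :=
    fun x a => if A.deg x = 0 then A.ep x • v else B.sol (A.deg x - 1) (a (A.bd x)) with hRdef
  have hR : Loc A.toPCx B R := by
    intro x a b hab
    simp only [hRdef]
    split_ifs with h
    · rfl
    · have hd : A.deg x = (A.deg x - 1) + 1 := by omega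
      rw [hab _ hd _ (A.bd_mem x hd)]
  set F := recL φ A B R with hF
  have hE : Eqv φ A.toPCx B F := recL_eqv φ A B hR
  have key : ∀ n, (∀ c ∈ A.Dg n, F c ∈ B.Dg n) ∧ (∀ c ∈ A.Dg n, B.D (F c) = F (A.D c)) ∧
      (∀ c ∈ A.Dg n, B.E (F c) = A.E c) := by
    intro n
    induction n with
    | zero =>
      have e0 : ∀ x, A.deg x = 0 → F (single x 1) = A.ep x • B.tr (φ (A.base x)) v := by
        intro x hx
        rw [hF, recL_eq φ A B hR]
        simp only [hRdef]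
        rw [if_pos ((A.deg_nrm x).trans hx), map_smul]
        congr 1
        exact A.ep_sm _ _
      have e1 : ∀ c ∈ A.Dg 0, F c ∈ B.Dg 0 := fun c hc => lin_mem_of _ _ (fun x hx => by
        rw [e0 x hx]
        exact Submodule.smul_mem _ _ (B.tr_mem_Dg _ hv)) c hc
      refine ⟨e1, fun c hc => ?_, fun c hc => ?_⟩
      · rw [B.D_zero (e1 c hc), A.D_zero hc, map_zero]
      · refine lin_ext_on (f := B.E.comp F) (g := A.E) _ (fun x hx => ?_) c hc
        rw [LinearMap.comp_apply, e0 x hx, map_smul, B.E_tr, hv1, A.E_single]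
        simp
    | succ n ih =>
      obtain ⟨ih1, ih2, ih3⟩ := ih
      have e0 : ∀ x, A.deg x = n + 1 → F (single x 1) = B.tr (φ (A.base x))
          (B.sol n (F (A.bd (A.nrm x)))) := by
        intro x hx
        rw [hF, recL_eq φ A B hR]
        simp only [hRdef]
        have hd : A.deg (A.nrm x) = n + 1 := (A.deg_nrm x).trans hx
        rw [if_neg (by omega)]
        have : A.deg (A.nrm x) - 1 = n := by omega
        rw [this]
      have e1 : ∀ c ∈ A.Dg (n + 1), F c ∈ B.Dg (n + 1) := fun c hc =>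
        lin_mem_of _ _ (fun x hx => by
          rw [e0 x hx]
          exact B.tr_mem_Dg _ (B.sol_mem n _)) c hc
      refine ⟨e1, fun c hc => ?_, fun c hc => ?_⟩
      · have : ∀ x, A.deg x = n + 1 → (B.D.comp F) (single x 1) = (F.comp A.D) (single x 1) := by
          intro x hx
          simp only [LinearMap.comp_apply]
          rw [e0 x hx]
          have hnx : A.deg (A.nrm x) = n + 1 := (A.deg_nrm x).trans hx
          have hb : A.bd (A.nrm x) ∈ A.Dg n := A.bd_mem _ hnx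
          have hz1 : F (A.bd (A.nrm x)) ∈ B.Dg n := ih1 _ hb
          have hz2 : B.D (F (A.bd (A.nrm x))) = 0 := by
            rw [ih2 _ hb]
            have : A.D (A.bd (A.nrm x)) = 0 := A.bd_bd _
            rw [this, map_zero]
          have hz3 : B.E (F (A.bd (A.nrm x))) = 0 := by
            rw [ih3 _ hb]
            exact A.ep_bd _
          rw [B.D_tr, B.D_sol hB hz1 hz2 hz3, ← hE, A.D_single, one_smul, A.tr_apply, ← A.bd_sm,
            A.sm_base_nrm]
        exact lin_ext_on (f := B.D.comp F) (g := F.comp A.D) _ this c hc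
      · rw [B.E_eq_zero (by omega) (e1 c hc), A.E_eq_zero (by omega) hc]
  have hD : ∀ c, B.D (F c) = F (A.D c) := by
    intro c
    have : B.D.comp F = F.comp A.D := lin_ext fun x =>
      (key (A.deg x)).2.1 _ (A.single_mem_Dg rfl 1)
    exact LinearMap.congr_fun this c
  have hE' : ∀ c, B.E (F c) = A.E c := by
    intro c
    have : B.E.comp F = A.E := lin_ext fun x =>
      (key (A.deg x)).2.2 _ (A.single_mem_Dg rfl 1)
    exact LinearMap.congr_fun this c
  exact ⟨⟨F, hD, hE, fun n => (key n).1, hE'⟩⟩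

/-- **Homotopy lemma.** -/
theorem exists_htpy {φ : G →* H} {A : FCx.{u, v} G} {B : PCx.{u', v'} H} (hB : B.Acyclic)
    (f g : CMap φ A.toPCx B) :
    ∃ h : (A.X →₀ ℤ) →ₗ[ℤ] (B.X →₀ ℤ), Eqv φ A.toPCx B h ∧
      (∀ n, ∀ c ∈ A.Dg n, h c ∈ B.Dg (n + 1)) ∧
      ∀ c, B.D (h c) + h (A.D c) = f.F c - g.F c := by
  classical
  set R : A.X → ((A.X →₀ ℤ) →ₗ[ℤ] (B.X →₀ ℤ)) → (B.X →₀ ℤ) :=
    fun x a => B.sol (A.deg x) (f.F (single x 1) - g.F (single x 1) - a (A.bd x)) with hRdef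
  have hR : Loc A.toPCx B R := by
    intro x a b hab
    simp only [hRdef]
    rcases Nat.eq_zero_or_pos (A.deg x) with h0 | hpos
    · rw [A.bd_zero x h0, map_zero, map_zero]
    · have hd : A.deg x = (A.deg x - 1) + 1 := by omega
      rw [hab _ hd _ (A.bd_mem x hd)]
  set h := recL φ A B R with hh
  have hE : Eqv φ A.toPCx B h := recL_eqv φ A B hR
  have e0 : ∀ n x, A.deg x = n → h (single x 1) = B.tr (φ (A.base x)) (B.sol n
      (f.F (single (A.nrm x) 1) - g.F (single (A.nrm x) 1) - h (A.bd (A.nrm x)))) := by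
    intro n x hx
    rw [hh, recL_eq φ A B hR]
    simp only [hRdef]
    rw [(A.deg_nrm x).trans hx]
  have key : ∀ n, (∀ c ∈ A.Dg n, h c ∈ B.Dg (n + 1)) ∧
      (∀ c ∈ A.Dg n, B.D (h c) + h (A.D c) = f.F c - g.F c) := by
    -- one step, given the information on boundaries
    have step : ∀ n, (∀ x, A.deg x = n → h (A.bd x) ∈ B.Dg n ∧
        B.D (h (A.bd x)) = f.F (A.bd x) - g.F (A.bd x)) →
        (∀ c ∈ A.Dg n, h c ∈ B.Dg (n + 1)) ∧
        (∀ c ∈ A.Dg n, B.D (h c) + h (A.D c) = f.F c - g.F c) := by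
      intro n hyp
      constructor
      · refine fun c hc => lin_mem_of _ _ (fun x hx => ?_) c hc
        rw [e0 n x hx]
        exact B.tr_mem_Dg _ (B.sol_mem n _)
      · intro c hc
        have : ∀ x, A.deg x = n → (B.D.comp h + h.comp A.D) (single x 1)
            = (f.F - g.F) (single x 1) := by
          intro x hx
          simp only [LinearMap.add_apply, LinearMap.comp_apply, LinearMap.sub_apply]
          have hnx : A.deg (A.nrm x) = n := (A.deg_nrm x).trans hx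
          obtain ⟨y1, y2⟩ := hyp _ hnx
          set y := A.nrm x with hy
          set w := f.F (single y 1) - g.F (single y 1) - h (A.bd y) with hw
          have hx2 : h (single x 1) = B.tr (φ (A.base x)) (B.sol n w) := e0 n x hx
          have hw1 : w ∈ B.Dg n := by
            refine Submodule.sub_mem _ (Submodule.sub_mem _ ?_ ?_) y1
            · exact f.dg _ _ (A.single_mem_Dg hnx 1)
            · exact g.dg _ _ (A.single_mem_Dg hnx 1)
          have hw2 : B.D w = 0 := by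
            rw [hw, map_sub, map_sub, f.comm, g.comm, A.D_single, one_smul, y2, sub_self]
          have hw3 : B.E w = 0 := by
            rcases Nat.eq_zero_or_pos n with h0 | hpos
            · subst h0
              rw [hw, A.bd_zero y hnx, map_zero, sub_zero, map_sub, f.aug, g.aug, sub_self]
            · exact B.E_eq_zero (by omega) hw1
          have hxy : single x (1 : ℤ) = A.tr (A.base x) (single y 1) := by
            rw [A.tr_single, hy, A.sm_base_nrm]
          rw [hx2, B.D_tr, B.D_sol hB hw1 hw2 hw3, hxy, A.D_tr, hE, f.eqv, g.eqv, ← map_add,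
            ← map_sub, A.D_single, one_smul]
          congr 1
          rw [hw]; abel
        exact lin_ext_on (f := B.D.comp h + h.comp A.D) (g := f.F - g.F) _ this c hc
    intro n
    induction n with
    | zero =>
      refine step 0 fun x hx => ?_
      rw [A.bd_zero x hx]; simp
    | succ n ih =>
      obtain ⟨ih1, ih2⟩ := ih
      refine step (n + 1) fun x hx => ?_
      have hb := A.bd_mem x hx
      refine ⟨ih1 _ hb, ?_⟩
      have e1 := ih2 _ hb
      have e2 : A.D (A.bd x) = 0 := A.bd_bd _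
      rw [e2, map_zero, add_zero] at e1
      exact e1
  refine ⟨h, hE, fun n => (key n).1, fun c => ?_⟩
  have : B.D.comp h + h.comp A.D = f.F - g.F := lin_ext fun x =>
    (key (A.deg x)).2 _ (A.single_mem_Dg rfl 1)
  exact LinearMap.congr_fun this c

/-- Acyclic complexes have `ℤ`-linear contractions. -/
theorem exists_contr (A : PCx.{u, v} G) (hA : A.Acyclic) (v : A.X →₀ ℤ) (hv : v ∈ A.Dg 0)
    (hv1 : A.E v = 1) :
    ∃ s : (A.X →₀ ℤ) →ₗ[ℤ] (A.X →₀ ℤ), (∀ n, ∀ c ∈ A.Dg n, s c ∈ A.Dg (n + 1)) ∧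
      ∀ c, A.D (s c) + s (A.D c) = c - A.E c • v := by
  classical
  have k1 : ∀ c : A.X →₀ ℤ, A.D (A.E c • v) = A.E (A.D c) • v := fun c => by
    rw [map_smul, A.D_zero hv, A.E_D]; simp
  have k2 : ∀ c : A.X →₀ ℤ, A.E (A.tr 1 c) • v = A.tr 1 (A.E c • v) := fun c => by
    rw [A.tr_one, A.tr_one]
  have k3 : ∀ n, ∀ c ∈ A.Dg n, A.E c • v ∈ A.Dg n := fun n c hc => by
    rcases Nat.eq_zero_or_pos n with h0 | hpos
    · subst h0; exact Submodule.smul_mem _ _ hv
    · rw [A.E_eq_zero (by omega) hc, zero_smul]; exact Submodule.zero_mem _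
  have k4 : ∀ c : A.X →₀ ℤ, A.E (A.E c • v) = A.E c := fun c => by
    rw [map_smul, hv1]; simp
  let A' : FCx PUnit.{1} := { A.pull (1 : PUnit.{1} →* G) with
    base := fun _ => 1
    base_sm := fun _ _ => rfl }
  have hA' : A'.toPCx.Acyclic := hA
  let f : CMap (MonoidHom.id PUnit) A'.toPCx A'.toPCx := CMap.id _
  let g : CMap (MonoidHom.id PUnit) A'.toPCx A'.toPCx :=
    { F := (A.E).smulRight v
      comm := k1
      eqv := fun p c => k2 c
      dg := k3
      aug := k4 }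
  obtain ⟨h, -, h2, h3⟩ := exists_htpy hA' f g
  exact ⟨h, h2, h3⟩

end Maps

end Crest.Agent.R185.Null
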