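import Crest.Agent.R185.Null9

/-!
# R185, null calculus, part 10: the mapping torus theorem, main proof
-/

set_option autoImplicit false

namespace Crest.Agent.R185.Null

open Finsupp

universe u v w u' v' w'

section TorusMain

variable {Γ : Type u} [Group Γ] {U : Type u} [Group U] (ι : U →* Γ) (t : Γ) (ψ : U →* U)
  (ht : ∀ u, t * ι u * t⁻¹ = ι (ψ u))

/-- The mapping torus complex. -/
@[reducible] noncomputable def Tor : PCx.{u, u} Γ := Cone (shiftB ι t ψ ht)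

/-- Freeness. -/
@[reducible] noncomputable def FTor : FCx.{u, u} Γ :=
  { Tor ι t ψ ht with
    base := Sum.elim (fun x => x.1.1) (fun x => x.1.1)
    base_sm := fun g x => by
      rcases x with x | x
      · rfl
      · rfl }

/-- Partial geometric sums of the shift. -/
noncomputable def geo (N : ℕ) : Module.End ℤ (CosS ι →₀ ℤ) :=
  ∑ i ∈ Finset.range N, (shiftB ι t ψ ht).L ^ i

theorem geo_mul (N : ℕ) (c : CosS ι →₀ ℤ) :
    geo ι t ψ ht N (c - (shiftB ι t ψ ht).L c) =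
      c - ((shiftB ι t ψ ht).L ^ N : Module.End ℤ _) c := by
  have h := geom_sum_mul_neg (R := Module.End ℤ (CosS ι →₀ ℤ)) (shiftB ι t ψ ht).L N
  have := LinearMap.congr_fun h c
  exact this

theorem geo_comm (N : ℕ) (f : Module.End ℤ (CosS ι →₀ ℤ))
    (hf : ∀ c, (shiftB ι t ψ ht).L (f c) = f ((shiftB ι t ψ ht).L c)) (c : CosS ι →₀ ℤ) :
    geo ι t ψ ht N (f c) = f (geo ι t ψ ht N c) := by
  have h1 : Commute (shiftB ι t ψ ht).L f := LinearMap.ext hf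
  have h2 : Commute (geo ι t ψ ht N) f :=
    Commute.sum_left _ _ _ fun i _ => h1.pow_left i
  exact LinearMap.congr_fun h2.eq c

theorem geo_mul' (N : ℕ) (c : CosS ι →₀ ℤ) :
    geo ι t ψ ht N c - (shiftB ι t ψ ht).L (geo ι t ψ ht N c) =
      c - ((shiftB ι t ψ ht).L ^ N : Module.End ℤ _) c := by
  rw [← geo_mul, map_sub, geo_comm ι t ψ ht N (shiftB ι t ψ ht).L (fun _ => rfl)]

theorem geo_D (N : ℕ) (c : CosS ι →₀ ℤ) :
    geo ι t ψ ht N ((Mc ι).D c) = (Mc ι).D (geo ι t ψ ht N c) :=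
  geo_comm ι t ψ ht N (Mc ι).D (fun c => (shiftB ι t ψ ht).L_D c) c

theorem geo_tr (N : ℕ) (g : Γ) (c : CosS ι →₀ ℤ) :
    geo ι t ψ ht N ((Mc ι).tr g c) = (Mc ι).tr g (geo ι t ψ ht N c) :=
  geo_comm ι t ψ ht N ((Mc ι).tr g) (fun c => (shiftB ι t ψ ht).L_tr g c) c

theorem geo_dg (N : ℕ) {n : ℕ} {c : CosS ι →₀ ℤ} (hc : c ∈ (Mc ι).Dg n) :
    geo ι t ψ ht N c ∈ (Mc ι).Dg n := by
  unfold geo
  rw [LinearMap.sum_apply]
  refine Submodule.sum_mem _ fun i hi => ?_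
  clear hi
  induction i with
  | zero => exact hc
  | succ i ih =>
    rw [pow_succ', Module.End.mul_apply]
    exact (shiftB ι t ψ ht).L_mem ih

theorem geo_bdd (N : ℕ) (T : Set (CosS ι)) (hT : T.Finite) :
    ∃ T' : Set (CosS ι), T'.Finite ∧ ∀ c ∈ (Mc ι).Bs T, geo ι t ψ ht N c ∈ (Mc ι).Bs T' :=
  Eqv.bdd (φ := MonoidHom.id Γ) (A := Mc ι) (B := Mc ι) (F := geo ι t ψ ht N)
    (fun g c => geo_tr ι t ψ ht N g c) T hT

/-- All vertices are in one orbit. -/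
theorem vertex_mem (T : Set (CosS ι)) (h1 : (⟨((1 : Γ), []), fun _ hy => absurd hy (by simp)⟩ :
    CosS ι) ∈ T) {c : CosS ι →₀ ℤ} (hc : c ∈ (Mc ι).Dg 0) : c ∈ (Mc ι).Bs T := by
  refine Finsupp.supported_mono ?_ hc
  rintro ⟨⟨g, l⟩, hx⟩ hd
  have hd' : l.length = 0 := hd
  have hl : l = [] := List.eq_nil_of_length_eq_zero hd'
  subst hl
  exact ⟨_, h1, g, Subtype.ext (Prod.ext (mul_one g).symm rfl)⟩

/-- the vertex `[γ]` -/
def vx (γ : Γ) : CosS ι := ⟨(γ, []), fun _ hy => absurd hy (by simp)⟩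

theorem vx_deg (γ : Γ) : (single (vx ι γ) 1 : CosS ι →₀ ℤ) ∈ (Mc ι).Dg 0 :=
  (Mc ι).single_mem_Dg rfl 1

theorem vx_E (γ : Γ) : (Mc ι).E (single (vx ι γ) 1 : CosS ι →₀ ℤ) = 1 :=
  ((Mc ι).E_single (vx ι γ) 1).trans (by rfl)

include ht in
/-- Degree zero. -/
theorem torus_zero (hι : Function.Injective ι)
    (hgen : ∀ γ : Γ, ∃ (a b : ℕ) (u : U), γ = t⁻¹ ^ a * ι u * t ^ b)
    (h0 : ∃ N, IsNull (ipow ψ N) 0) : BAc (Tor ι t ψ ht) 0 := by
  classical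
  obtain ⟨N, hN⟩ := h0
  obtain ⟨T4, hT4, k4⟩ := key_all ι t ψ ht hι hN {vx ι 1} (Set.finite_singleton _)
  set T' : Set (CosS ι ⊕ CosS ι) := {Sum.inr (vx ι 1)} ∪ Sum.inl '' T4 with hT'
  have hT'f : T'.Finite := (Set.finite_singleton _).union (hT4.image _)
  set B := (Tor ι t ψ ht).Bo 0 T' with hB
  set P := shiftB ι t ψ ht with hP
  -- boundaries of the cone edges
  have e1 : ∀ γ : Γ, iL (Mc ι) (single (vx ι γ) 1) - iL (Mc ι) (single (vx ι (γ * t⁻¹)) 1) ∈ B := by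
    intro γ
    have h : (Tor ι t ψ ht).D (iR (Mc ι) (single (vx ι γ) 1)) =
        iL (Mc ι) (single (vx ι γ) 1) - iL (Mc ι) (single (vx ι (γ * t⁻¹)) 1) := by
      refine (cD_iR P (single (vx ι γ) 1)).trans ?_
      rw [PCx.D_zero _ (vx_deg ι γ), map_zero, sub_zero, map_sub, BMap.L_single]
      rfl
    rw [← h]
    refine PCx.D_mem_Bo _ (iR_Dg P (vx_deg ι γ)) ?_
    have := iR_Bs P (vertex_mem ι {vx ι 1} (Set.mem_singleton _) (vx_deg ι γ))
    rw [Set.image_singleton] at this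
    exact (Tor ι t ψ ht).Bs_mono Set.subset_union_left this
  have e2 : ∀ (k : ℕ) (γ : Γ),
      iL (Mc ι) (single (vx ι γ) 1) - iL (Mc ι) (single (vx ι (γ * t⁻¹ ^ k)) 1) ∈ B := by
    intro k
    induction k with
    | zero => intro γ; rw [pow_zero, mul_one, sub_self]; exact Submodule.zero_mem _
    | succ k ih =>
      intro γ
      have h1 := ih γ
      have h2 := e1 (γ * t⁻¹ ^ k)
      have := Submodule.add_mem _ h1 h2
      rwa [sub_add_sub_cancel, mul_assoc, ← pow_succ] at this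
  have eP : ∀ (k : ℕ) (γ : Γ), (P.L ^ k : Module.End ℤ _) (single (vx ι γ) 1) =
      (single (vx ι (γ * t⁻¹ ^ k)) 1 : CosS ι →₀ ℤ) := by
    intro k
    induction k with
    | zero => intro γ; rw [pow_zero, pow_zero, mul_one]; rfl
    | succ k ih =>
      intro γ
      rw [pow_succ', Module.End.mul_apply, ih, BMap.L_single, pow_succ, ← mul_assoc]
      rfl
  have e3 : ∀ (γ : Γ) (u : U),
      iL (Mc ι) (single (vx ι γ) 1) - iL (Mc ι) (single (vx ι (γ * ι u)) 1) ∈ B := by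
    intro γ u
    set b : CosS ι →₀ ℤ := single (vx ι γ) 1 - single (vx ι (γ * ι u)) 1 with hb
    have hb1 : b ∈ (Mc ι).Dg 0 := Submodule.sub_mem _ (vx_deg ι _) (vx_deg ι _)
    have hcl : cosOf ι (vx ι (γ * ι u)) = cosOf ι (vx ι γ) := by
      refine (QuotientGroup.eq.2 ?_).symm
      change γ⁻¹ * (γ * ι u) ∈ ι.range
      rw [inv_mul_cancel_left]; exact ⟨u, rfl⟩
    have h4 := k4 b hb1 (vertex_mem ι {vx ι 1} (Set.mem_singleton _) hb1)
      ((Mc ι).D_zero hb1) (fun i => by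
        rw [hb, map_sub, flt_single, flt_single, hcl]
        split_ifs with h
        · rw [map_sub, vx_E, vx_E, sub_self]
        · simp)
    have h5 : iL (Mc ι) ((P.L ^ N : Module.End ℤ _) b) ∈ B := by
      obtain ⟨y, hy1, hy2, hy3⟩ := (Mc ι).mem_Bo.1 h4
      rw [← hy3]
      have : iL (Mc ι) ((Mc ι).D y) = (Tor ι t ψ ht).D (iL (Mc ι) y) := (cD_iL P y).symm
      rw [this]
      exact PCx.D_mem_Bo _ (iL_Dg P hy1)
        ((Tor ι t ψ ht).Bs_mono Set.subset_union_right (iL_Bs P hy2))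
    rw [hb, map_sub, eP, eP, map_sub] at h5
    have h6 := e2 N γ
    have h7 := e2 N (γ * ι u)
    have := Submodule.sub_mem _ (Submodule.add_mem _ h6 h5) h7
    have e : iL (Mc ι) (single (vx ι γ) 1) - iL (Mc ι) (single (vx ι (γ * t⁻¹ ^ N)) 1) +
        (iL (Mc ι) (single (vx ι (γ * t⁻¹ ^ N)) 1) -
          iL (Mc ι) (single (vx ι (γ * ι u * t⁻¹ ^ N)) 1)) -
        (iL (Mc ι) (single (vx ι (γ * ι u)) 1) -
          iL (Mc ι) (single (vx ι (γ * ι u * t⁻¹ ^ N)) 1)) =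
        iL (Mc ι) (single (vx ι γ) 1) - iL (Mc ι) (single (vx ι (γ * ι u)) 1) := by abel
    rwa [e] at this
  have e4 : ∀ γ : Γ, iL (Mc ι) (single (vx ι γ) 1) - iL (Mc ι) (single (vx ι 1) 1) ∈ B := by
    intro γ
    obtain ⟨a, b, u, rfl⟩ := hgen γ
    have h1 := e2 b (t⁻¹ ^ a * ι u * t ^ b)
    have h2 := e3 (t⁻¹ ^ a) u
    have h3 := e2 a 1
    have hh : t⁻¹ ^ a * ι u * t ^ b * t⁻¹ ^ b = t⁻¹ ^ a * ι u := by
      rw [inv_pow t b]; group
    rw [hh] at h1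
    rw [one_mul] at h3
    have := Submodule.sub_mem _ (Submodule.sub_mem _ h1 h2) h3
    have e : iL (Mc ι) (single (vx ι (t⁻¹ ^ a * ι u * t ^ b)) 1) -
        iL (Mc ι) (single (vx ι (t⁻¹ ^ a * ι u)) 1) -
        (iL (Mc ι) (single (vx ι (t⁻¹ ^ a)) 1) -
          iL (Mc ι) (single (vx ι (t⁻¹ ^ a * ι u)) 1)) -
        (iL (Mc ι) (single (vx ι 1) 1) - iL (Mc ι) (single (vx ι (t⁻¹ ^ a)) 1)) =
        iL (Mc ι) (single (vx ι (t⁻¹ ^ a * ι u * t ^ b)) 1) -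
          iL (Mc ι) (single (vx ι 1) 1) := by abel
    rwa [e] at this
  intro T hT
  refine ⟨T', hT'f, fun z hz => ?_⟩
  rw [PCx.mem_Cy] at hz
  obtain ⟨hz1, -, -, hz4⟩ := hz
  have := lin_mem_of (f := LinearMap.id - (Tor ι t ψ ht).E.smulRight
    (iL (Mc ι) (single (vx ι 1) 1))) _ B (fun x hx => ?_) z hz1
  · rw [LinearMap.sub_apply, LinearMap.smulRight_apply, hz4, zero_smul, sub_zero] at this
    exact this
  · rcases x with ⟨⟨g, l⟩, hx'⟩ | x
    · have hd' : l.length = 0 := hx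
      have hl : l = [] := List.eq_nil_of_length_eq_zero hd'
      subst hl
      have h1 := e4 g
      rw [LinearMap.sub_apply, LinearMap.smulRight_apply, LinearMap.id_apply]
      have h2 : (Tor ι t ψ ht).E (single (Sum.inl ⟨(g, []), hx'⟩) 1) = 1 := by
        rw [PCx.E_single]; rfl
      rw [h2, one_smul]
      rw [iL_single] at h1
      exact h1
    · exact absurd hx (Nat.succ_ne_zero _)

/-! ### Heights -/

section Height

variable (τ : Γ →* Multiplicative ℤ) (hτ : ∀ u, τ (ι u) = 1)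

/-- Height of a coset. -/
noncomputable def hq (q : Γ ⧸ ι.range) : ℤ := Multiplicative.toAdd (τ q.out)

include hτ in
theorem hq_mk (g : Γ) : hq ι τ (g : Γ ⧸ ι.range) = Multiplicative.toAdd (τ g) := by
  unfold hq
  have h : ((g : Γ ⧸ ι.range).out : Γ ⧸ ι.range) = (g : Γ ⧸ ι.range) := Quotient.out_eq' _
  obtain ⟨u, hu⟩ := QuotientGroup.eq.1 h
  have e : τ ((g : Γ ⧸ ι.range).out)⁻¹ * τ g = 1 := by
    rw [← map_mul, ← hu, hτ]
  rw [map_inv, inv_mul_eq_one] at e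
  rw [e]

theorem flt_of_mem {X : Type v} {I : Type w} (κ : X → I) {i j : I} {c : X →₀ ℤ}
    (hc : c ∈ Finsupp.supported ℤ ℤ {x | κ x = j}) :
    (j = i → flt κ i c = c) ∧ (j ≠ i → flt κ i c = 0) := by
  constructor
  · intro h
    refine lin_ext_on (f := flt κ i) (g := LinearMap.id) _ (fun x hx => ?_) c hc
    have hx' : κ x = j := hx
    rw [flt_single, if_pos (hx'.trans h)]; rfl
  · intro h
    refine lin_ext_on (f := flt κ i) (g := 0) _ (fun x hx => ?_) c hc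
    have hx' : κ x = j := hx
    rw [flt_single, if_neg (fun e => h (hx'.symm.trans e))]; rfl

theorem cos_p (x : CosS ι) (g : Γ) (h : cosOf ι x = (g : Γ ⧸ ι.range)) :
    cosOf ι ((shiftB ι t ψ ht).p x) = ((g * t⁻¹ : Γ) : Γ ⧸ ι.range) := by
  obtain ⟨u, hu⟩ := QuotientGroup.eq.1 h
  refine QuotientGroup.eq.2 ?_
  change (x.1.1 * t⁻¹)⁻¹ * (g * t⁻¹) ∈ ι.range
  have e : (x.1.1 * t⁻¹)⁻¹ * (g * t⁻¹) = t * (x.1.1⁻¹ * g) * t⁻¹ := by group
  rw [e, ← hu, ht]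
  exact ⟨_, rfl⟩

include hτ in
/-- Coset augmentations vanish. -/
theorem coset_aug (hτt : τ t = Multiplicative.ofAdd 1) {a b : CosS ι →₀ ℤ}
    (h : (Mc ι).D a + (b - (shiftB ι t ψ ht).L b) = 0) (i : Γ ⧸ ι.range) :
    (Mc ι).E (flt (cosOf ι) i b) = 0 := by
  classical
  set P := shiftB ι t ψ ht with hP
  by_contra hne
  -- finite set of classes
  set J : Finset (Γ ⧸ ι.range) := b.support.image (cosOf ι) with hJ
  set J' : Finset (Γ ⧸ ι.range) := J.filter (fun i => (Mc ι).E (flt (cosOf ι) i b) ≠ 0) with hJ'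
  have hzero : ∀ i, i ∉ J → (Mc ι).E (flt (cosOf ι) i b) = 0 := by
    intro i hi
    have : flt (cosOf ι) i b = 0 := by
      have hb : b ∈ Finsupp.supported ℤ ℤ {x | cosOf ι x ≠ i} := by
        refine (Finsupp.mem_supported ℤ _).2 fun x hx => ?_
        intro e
        exact hi (by rw [← e]; exact Finset.mem_image_of_mem _ hx)
      refine lin_ext_on (f := flt (cosOf ι) i) (g := 0) _ (fun x hx => ?_) b hb
      rw [flt_single, if_neg hx]; rfl
    rw [this, map_zero]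
  have hJne : J'.Nonempty := ⟨i, Finset.mem_filter.2 ⟨by
    by_contra hi; exact hne (hzero i hi), hne⟩⟩
  obtain ⟨i0, hi0, hmax⟩ := Finset.exists_max_image J' (hq ι τ) hJne
  have hi0' := (Finset.mem_filter.1 hi0).2
  apply hi0'
  -- e(i0) computed through the shift
  have hb : b = P.L b - (Mc ι).D a := by
    rw [← sub_eq_zero]
    have : b - (P.L b - (Mc ι).D a) = (Mc ι).D a + (b - P.L b) := by abel
    rw [this, h]
  have e1 : (Mc ι).E (flt (cosOf ι) i0 b) = (Mc ι).E (flt (cosOf ι) i0 (P.L b)) := by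
    conv_lhs => rw [hb]
    rw [map_sub, map_sub, ← flt_comm (cosOf ι) _ (Mc ι).D (Mc_D_class ι), PCx.E_D, sub_zero]
  rw [e1, ← sum_flt (cosOf ι) b, map_sum, map_sum, map_sum]
  refine Finset.sum_eq_zero fun j hj => ?_
  obtain ⟨g, rfl⟩ := QuotientGroup.mk_surjective j
  have hj1 : flt (cosOf ι) (g : Γ ⧸ ι.range) b ∈
      Finsupp.supported ℤ ℤ {x | cosOf ι x = (g : Γ ⧸ ι.range)} :=
    Finsupp.supported_mono Set.inter_subset_left
      (flt_mem (cosOf ι) _ ((Finsupp.mem_supported ℤ b).2 (Set.subset_univ _)))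
  have hj2 : P.L (flt (cosOf ι) (g : Γ ⧸ ι.range) b) ∈
      Finsupp.supported ℤ ℤ {x | cosOf ι x = ((g * t⁻¹ : Γ) : Γ ⧸ ι.range)} := by
    refine lin_mem_of _ _ (fun x hx => ?_) _ hj1
    rw [BMap.L_single]
    exact Finsupp.single_mem_supported ℤ 1 (cos_p ι t ψ ht x g hx)
  by_cases hgi : ((g * t⁻¹ : Γ) : Γ ⧸ ι.range) = i0
  · rw [(flt_of_mem (cosOf ι) hj2).1 hgi, BMap.L_E]
    by_contra hne'
    have hj' : (g : Γ ⧸ ι.range) ∈ J := by rw [hJ]; convert hj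
    have hmem : (g : Γ ⧸ ι.range) ∈ J' := Finset.mem_filter.2 ⟨hj', hne'⟩
    have h1 := hmax _ hmem
    rw [← hgi, hq_mk ι τ hτ, hq_mk ι τ hτ, map_mul, map_inv, hτt, toAdd_mul, toAdd_inv,
      toAdd_ofAdd] at h1
    omega
  · rw [(flt_of_mem (cosOf ι) hj2).2 hgi, map_zero]

end Height

include ht in
/-- Positive degrees. -/
theorem torus_succ (hι : Function.Injective ι) (τ : Γ →* Multiplicative ℤ)
    (hτ : ∀ u, τ (ι u) = 1) (hτt : τ t = Multiplicative.ofAdd 1) (m : ℕ)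
    (hm : ∃ N, IsNull (ipow ψ N) m) (hm' : ∃ N, IsNull (ipow ψ N) (m + 1)) :
    BAc (Tor ι t ψ ht) (m + 1) := by
  classical
  obtain ⟨N, hN⟩ := hm
  obtain ⟨N', hN'⟩ := hm'
  set P := shiftB ι t ψ ht with hP
  intro T hT
  set Ta : Set (CosS ι) := Sum.inl ⁻¹' T with hTa
  set Tb : Set (CosS ι) := Sum.inr ⁻¹' T with hTb
  have hTaf : Ta.Finite := hT.preimage Sum.inl_injective.injOn
  have hTbf : Tb.Finite := hT.preimage Sum.inr_injective.injOn
  obtain ⟨T1, hT1, k1⟩ := key_all ι t ψ ht hι hN Tb hTbf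
  obtain ⟨T2, hT2, k2⟩ := geo_bdd ι t ψ ht N Ta hTaf
  obtain ⟨T3, hT3, k3⟩ := Eqv.bdd (φ := MonoidHom.id Γ) (A := Mc ι) (B := Mc ι) (F := P.L)
    (fun g c => P.L_tr g c) (T1 ∪ T2) (hT1.union hT2)
  obtain ⟨T4, hT4, k4⟩ := key_all ι t ψ ht hι hN' (Ta ∪ (T1 ∪ T2) ∪ T3)
    ((hTaf.union (hT1.union hT2)).union hT3)
  obtain ⟨T5, hT5, k5⟩ := geo_bdd ι t ψ ht N' (Ta ∪ (T1 ∪ T2) ∪ T3)
    ((hTaf.union (hT1.union hT2)).union hT3)
  refine ⟨Sum.inr '' T5 ∪ Sum.inl '' T4 ∪ Sum.inr '' (T1 ∪ T2),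
    ((hT5.image _).union (hT4.image _)).union ((hT1.union hT2).image _), fun z hz => ?_⟩
  rw [PCx.mem_Cy] at hz
  obtain ⟨hz1, hz2, hz3, -⟩ := hz
  set a : CosS ι →₀ ℤ := prA z with ha
  set b : CosS ι →₀ ℤ := prB z with hb
  have ha1 : a ∈ (Mc ι).Dg (m + 1) := prA_mem hz1
  have hb1 : b ∈ (Mc ι).Dg m :=
    Finsupp.supported_mono (fun x hx => Nat.succ_injective hx) (prB_mem hz1)
  have ha2 : a ∈ (Mc ι).Bs Ta :=
    Finsupp.supported_mono (fun x hx => inl_orb P hx) (prA_mem hz2)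
  have hb2 : b ∈ (Mc ι).Bs Tb :=
    Finsupp.supported_mono (fun x hx => inr_orb P hx) (prB_mem hz2)
  have hzab : z = iL (Mc ι) a + iR (Mc ι) b := prAB z
  have hDz : iL (Mc ι) ((Mc ι).D a) + (iL (Mc ι) (b - P.L b) - iR (Mc ι) ((Mc ι).D b)) = 0 := by
    rw [← cD_iL P, ← cD_iR P, ← map_add, ← hzab]
    exact hz3
  have hDb : (Mc ι).D b = 0 := by
    have := congrArg (prB (M := Mc ι)) hDz
    rw [map_add, map_sub, prB_iL, prB_iL, prB_iR, map_zero] at this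
    simpa using this
  have hDa : (Mc ι).D a + (b - P.L b) = 0 := by
    have := congrArg (prA (M := Mc ι)) hDz
    rw [map_add, map_sub, prA_iL, prA_iL, prA_iR, map_zero, sub_zero] at this
    exact this
  -- fill b
  obtain ⟨y, hy1, hy2, hy3⟩ := (Mc ι).mem_Bo.1 (k1 b hb1 hb2 hDb
    (fun i => coset_aug ι t ψ ht τ hτ hτt hDa i))
  set y' : CosS ι →₀ ℤ := y - geo ι t ψ ht N a with hy'
  have hy'1 : y' ∈ (Mc ι).Dg (m + 1) := Submodule.sub_mem _ hy1 (geo_dg ι t ψ ht N ha1)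
  have hy'2 : y' ∈ (Mc ι).Bs (T1 ∪ T2) := Submodule.sub_mem _
    ((Mc ι).Bs_mono Set.subset_union_left hy2)
    ((Mc ι).Bs_mono Set.subset_union_right (k2 a ha2))
  have hDy' : (Mc ι).D y' = b := by
    have e1 := geo_mul ι t ψ ht N b
    have e2 : b - P.L b = -(Mc ι).D a := eq_neg_of_add_eq_zero_right hDa
    rw [← hP, e2, map_neg, geo_D, ← hy3] at e1
    rw [hy', map_sub]
    have e3 : (Mc ι).D y = b + (Mc ι).D (geo ι t ψ ht N a) := by
      rw [eq_sub_iff_add_eq] at e1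
      rw [← e1]; abel
    rw [e3]; abel
  -- the remaining part
  set a' : CosS ι →₀ ℤ := a + (y' - P.L y') with ha'
  have ha'1 : a' ∈ (Mc ι).Dg (m + 1) :=
    Submodule.add_mem _ ha1 (Submodule.sub_mem _ hy'1 (P.L_mem hy'1))
  have ha'2 : a' ∈ (Mc ι).Bs (Ta ∪ (T1 ∪ T2) ∪ T3) := by
    refine Submodule.add_mem _ ?_ (Submodule.sub_mem _ ?_ ?_)
    · exact (Mc ι).Bs_mono (fun x hx => Or.inl (Or.inl hx)) ha2
    · exact (Mc ι).Bs_mono (fun x hx => Or.inl (Or.inr hx)) hy'2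
    · exact (Mc ι).Bs_mono (fun x hx => Or.inr hx) (k3 y' hy'2)
  have ha'3 : (Mc ι).D a' = 0 := by
    rw [ha', map_add, map_sub, ← P.L_D, hDy', hDa]
  obtain ⟨y'', hy''1, hy''2, hy''3⟩ := (Mc ι).mem_Bo.1 (k4 a' ha'1 ha'2 ha'3
    (fun i => (Mc ι).E_eq_zero (Nat.succ_ne_zero m) (flt_mem' (cosOf ι) i ha'1)))
  set q : CosS ι →₀ ℤ := geo ι t ψ ht N' a' with hq
  have hq1 : q ∈ (Mc ι).Dg (m + 1) := geo_dg ι t ψ ht N' ha'1
  have hq2 : q ∈ (Mc ι).Bs T5 := k5 a' ha'2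
  have hDq : (Mc ι).D q = 0 := by rw [hq, ← geo_D, ha'3, map_zero]
  have hqq : q - P.L q = a' - (Mc ι).D y'' := by
    rw [hy''3, hq]; exact geo_mul' ι t ψ ht N' a'
  refine (Tor ι t ψ ht).mem_Bo.2
    ⟨iR (Mc ι) q + iL (Mc ι) y'' - iR (Mc ι) y', ?_, ?_, ?_⟩
  · exact Submodule.sub_mem _ (Submodule.add_mem _ (iR_Dg P hq1) (iL_Dg P hy''1))
      (iR_Dg P hy'1)
  · refine Submodule.sub_mem _ (Submodule.add_mem _ ?_ ?_) ?_
    · exact (Tor ι t ψ ht).Bs_mono (fun x hx => Or.inl (Or.inl hx)) (iR_Bs P hq2)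
    · exact (Tor ι t ψ ht).Bs_mono (fun x hx => Or.inl (Or.inr hx)) (iL_Bs P hy''2)
    · exact (Tor ι t ψ ht).Bs_mono (fun x hx => Or.inr hx) (iR_Bs P hy'2)
  · have e1 : (Tor ι t ψ ht).D (iR (Mc ι) q + iL (Mc ι) y'' - iR (Mc ι) y') =
        cD P (iR (Mc ι) q + iL (Mc ι) y'' - iR (Mc ι) y') := rfl
    rw [e1, map_sub, map_add, cD_iR, cD_iL, cD_iR, hDq, hqq, hDy', map_zero, sub_zero, hzab,
      ha', map_sub, map_add]
    abel

end TorusMain

/-- **The mapping torus theorem.** -/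
theorem torus_null {Γ : Type u} [Group Γ] {U : Type u} [Group U] (ι : U →* Γ)
    (hι : Function.Injective ι) (t : Γ) (ψ : U →* U) (ht : ∀ u, t * ι u * t⁻¹ = ι (ψ u))
    (τ : Γ →* Multiplicative ℤ) (hτ : ∀ u, τ (ι u) = 1) (hτt : τ t = Multiplicative.ofAdd 1)
    (hgen : ∀ γ : Γ, ∃ (a b : ℕ) (u : U), γ = t⁻¹ ^ a * ι u * t ^ b)
    (hψ : ∀ n, ∃ N, IsNull (ipow ψ N) n) (n : ℕ) : IsNull (MonoidHom.id Γ) n := by
  have h : ∀ n, BAc (Tor ι t ψ ht) n := by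
    intro n
    rcases n with _ | m
    · exact torus_zero ι t ψ ht hι hgen (hψ 0)
    · exact torus_succ ι t ψ ht hι τ hτ hτt m (hψ m) (hψ (m + 1))
  have hac : (FTor ι t ψ ht).Acyclic := by
    refine acyclic_of_BAc ⟨iL (Mc ι) (single (vx ι 1) 1), iL_Dg _ (vx_deg ι 1), ?_⟩ h
    exact (cE_iL _).trans (vx_E ι 1)
  exact (null_id_iff hac).2 (h n)

end Crest.Agent.R185.Null
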