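import Crest.Agent.R185.Null10

/-!
# R185, null calculus, part 11: finitely generated groups are `0`-null
-/

set_option autoImplicit false

namespace Crest.Agent.R185.Null

open Finsupp

universe u v w u' v' w'

theorem sbd_edge {O : Type v} (g h : O) :
    sbd [h] g = single (h, []) 1 - single (g, []) 1 := by
  rw [sbd_eq]
  simp [sbd, sep]

/-- A finitely generated group is `0`-null. -/
theorem isNull_zero_of_fg (G : Type u) [Group G] (h : Group.FG G) :
    IsNull (MonoidHom.id G) 0 := by
  classical
  rw [null_id_iff (Std_acyclic G)]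
  obtain ⟨S, hS, hSf⟩ := Group.fg_iff.1 h
  intro T hT
  set T' : Set (G × List G) := (fun s : G => ((1 : G), [s])) '' S with hT'
  refine ⟨T', hSf.image _, fun z hz => ?_⟩
  have key : ∀ x ∈ Subgroup.closure S, ∀ g : G,
      (single (g * x, []) 1 - single (g, []) 1 : G × List G →₀ ℤ) ∈ (Std G).Bo 0 T' := by
    intro x hx
    induction hx using Subgroup.closure_induction with
    | mem s hs =>
      intro g
      have e : (Std G).D (single (g, [g * s]) 1) = single (g * s, []) 1 - single (g, []) 1 :=
        (Simp_D_s (G := G) (g, [g * s])).trans (sbd_edge g (g * s))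
      rw [← e]
      refine PCx.D_mem_Bo _ (PCx.single_mem_Dg _ rfl 1) (PCx.single_mem_Bs _ ?_ 1)
      exact ⟨(1, [s]), ⟨s, hs, rfl⟩, g, by simp [smX]⟩
    | one => intro g; rw [mul_one, sub_self]; exact Submodule.zero_mem _
    | mul x y _ _ ihx ihy =>
      intro g
      have := Submodule.add_mem _ (ihy (g * x)) (ihx g)
      rwa [sub_add_sub_cancel, mul_assoc] at this
    | inv x _ ih =>
      intro g
      have := Submodule.neg_mem _ (ih (g * x⁻¹))
      rwa [neg_sub, inv_mul_cancel_right] at this
  rw [PCx.mem_Cy] at hz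
  obtain ⟨hz1, -, -, hz4⟩ := hz
  have := lin_mem_of (f := LinearMap.id - (Std G).E.smulRight (single (1, []) 1 : G × List G →₀ ℤ))
    _ ((Std G).Bo 0 T') (fun x hx => ?_) z hz1
  · rw [LinearMap.sub_apply, LinearMap.smulRight_apply, hz4, zero_smul, sub_zero] at this
    exact this
  · obtain ⟨g, l⟩ := x
    have hd' : l.length = 0 := hx
    have hl : l = [] := List.eq_nil_of_length_eq_zero hd'
    subst hl
    have h1 := key g (by rw [hS]; trivial) 1
    rw [one_mul] at h1
    rw [LinearMap.sub_apply, LinearMap.smulRight_apply, LinearMap.id_apply]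
    have h2 : (Std G).E (single ((g, []) : G × List G) 1) = 1 :=
      (Simp_E_s (G := G) (g, [])).trans (by rfl)
    rw [h2, one_smul]
    exact h1

end Crest.Agent.R185.Null
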