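import Crest.Agent.R185.Null11

/-!
# R185, null calculus, part 12: the resolution lemma (bounded form of Brown's criterion)
-/

set_option autoImplicit false

namespace Crest.Agent.R185.Null

open Finsupp

universe u v w u' v' w'

/-! ## The standard complex restricted to a subgroup -/

section SubgroupBase

variable {G : Type u} [Group G] (K : Subgroup G)

/-- An equivariant map `G → K`. -/
noncomputable def rb (g : G) : K :=
  ⟨g * Quotient.out ((g⁻¹ : G) : G ⧸ K), by
    have h : ((Quotient.out ((g⁻¹ : G) : G ⧸ K) : G) : G ⧸ K) = ((g⁻¹ : G) : G ⧸ K) :=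
      Quotient.out_eq' _
    have h2 := QuotientGroup.eq.1 h.symm
    rwa [inv_inv] at h2⟩

theorem rb_mul (k : K) (g : G) : rb K (k * g) = k * rb K g := by
  apply Subtype.ext
  change (k : G) * g * Quotient.out ((((k : G) * g)⁻¹ : G) : G ⧸ K) =
    k * (g * Quotient.out ((g⁻¹ : G) : G ⧸ K))
  have h : ((((k : G) * g)⁻¹ : G) : G ⧸ K) = ((g⁻¹ : G) : G ⧸ K) := by
    refine QuotientGroup.eq.2 ?_
    have : (((k : G) * g)⁻¹)⁻¹ * g⁻¹ = k := by group
    rw [this]; exact k.2
  rw [h, mul_assoc]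

/-- The standard complex of `G` as a free complex for `K`. -/
@[reducible] noncomputable def StdK : FCx.{u, u} K :=
  { (Std G).toPCx.pull K.subtype with
    base := fun x => rb K x.1
    base_sm := fun k x => rb_mul K k x.1 }

theorem StdK_acyclic : (StdK K).Acyclic := Std_acyclic G

/-- The identity as a chain map over the inclusion. -/
noncomputable def incK : CMap K.subtype (StdK K).toPCx (Std G).toPCx :=
  pullC K.subtype (Std G).toPCx

theorem incK_F (c : G × List G →₀ ℤ) : (incK K).F c = c := rfl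

end SubgroupBase

section Resolution

variable {G : Type u} [Group G] (Y : PCx.{u, v} G)

/-- Stabilisers. -/
def PCx.stab (y : Y.X) : Subgroup G where
  carrier := {g | Y.sm g y = y}
  one_mem' := Y.sm_one y
  mul_mem' {a b} ha hb := by
    have ha' : Y.sm a y = y := ha
    have hb' : Y.sm b y = y := hb
    change Y.sm (a * b) y = y
    rw [Y.sm_mul, hb', ha']
  inv_mem' {a} ha := by
    have ha' : Y.sm a y = y := ha
    change Y.sm a⁻¹ y = y
    conv_lhs => rw [← ha', ← Y.sm_mul, inv_mul_cancel, Y.sm_one]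

theorem PCx.mem_stab {y : Y.X} {g : G} : g ∈ Y.stab y ↔ Y.sm g y = y := Iff.rfl

/-- The total complex. -/
@[reducible] noncomputable def TT : PCx.{u, max u v} G := Tens (Std G).toPCx Y

/-- The vertical differential. -/
noncomputable def dv : ((G × List G) × Y.X →₀ ℤ) →ₗ[ℤ] ((G × List G) × Y.X →₀ ℤ) :=
  tmap (Std G).D LinearMap.id

/-- The horizontal differential (with sign). -/
noncomputable def dh : ((G × List G) × Y.X →₀ ℤ) →ₗ[ℤ] ((G × List G) × Y.X →₀ ℤ) :=
  tmap (Std G).sg Y.D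

theorem TT_D (w : (G × List G) × Y.X →₀ ℤ) : (TT Y).D w = dv Y w + dh Y w := by
  have : (TT Y).D = dv Y + dh Y := tens_ext fun x y => by
    rw [LinearMap.add_apply]
    refine (Tens_D_tp _ _ _ _).trans ?_
    unfold dv dh
    rw [tmap_tp, tmap_tp]
    rfl
  exact LinearMap.congr_fun this w

/-- bidegrees -/
def bi (p q : ℕ) : Set ((G × List G) × Y.X) := {x | (Std G).deg x.1 = p ∧ Y.deg x.2 = q}

/-- The first component. -/
noncomputable def pf : ((G × List G) × Y.X →₀ ℤ) →ₗ[ℤ] (G × List G →₀ ℤ) :=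
  Finsupp.lmapDomain ℤ ℤ Prod.fst

theorem pf_tp (a : G × List G →₀ ℤ) (y : Y.X) : pf Y (tp a (single y 1)) = a := by
  have : (pf Y).comp (tp.flip (single y 1)) = LinearMap.id := lin_ext fun x => by
    simp [pf]
  exact LinearMap.congr_fun this a

theorem tp_pf {y : Y.X} {w : (G × List G) × Y.X →₀ ℤ}
    (hw : w ∈ Finsupp.supported ℤ ℤ {x : (G × List G) × Y.X | x.2 = y}) :
    tp (pf Y w) (single y 1) = w := by
  have := lin_ext_on (f := (tp.flip (single y 1)).comp (pf Y)) (g := LinearMap.id) _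
    (fun x hx => ?_) w hw
  · exact this
  · obtain ⟨c, y'⟩ := x
    have hx' : y' = y := hx
    subst hx'
    simp [pf]

theorem pf_dv (w : (G × List G) × Y.X →₀ ℤ) : pf Y (dv Y w) = (Std G).D (pf Y w) := by
  have : (pf Y).comp (dv Y) = (Std G).D.comp (pf Y) := tens_ext fun x y => by
    simp only [LinearMap.comp_apply]
    unfold dv
    rw [tmap_tp, LinearMap.id_apply, pf_tp, pf_tp]
  exact LinearMap.congr_fun this w

theorem dv_tr (g : G) (w : (G × List G) × Y.X →₀ ℤ) :
    dv Y ((TT Y).tr g w) = (TT Y).tr g (dv Y w) := by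
  have : (dv Y).comp ((TT Y).tr g) = ((TT Y).tr g).comp (dv Y) := tens_ext fun x y => by
    simp only [LinearMap.comp_apply]
    have e1 : (TT Y).tr g (tp (single x 1) (single y 1)) =
      tp ((Std G).tr g (single x 1)) (Y.tr g (single y 1)) := Tens_tr_tp _ _ _ _ _
    rw [e1]
    unfold dv
    rw [tmap_tp, tmap_tp, LinearMap.id_apply, LinearMap.id_apply]
    have e2 : (TT Y).tr g (tp ((Std G).D (single x 1)) (single y 1)) =
      tp ((Std G).tr g ((Std G).D (single x 1))) (Y.tr g (single y 1)) := Tens_tr_tp _ _ _ _ _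
    rw [e2, (Std G).D_tr]
  exact LinearMap.congr_fun this w

/-- Local boundedness at `y`. -/
theorem exists_local (T0 : Set ((G × List G) × Y.X)) (hT0 : T0.Finite) (y : Y.X) :
    ∃ F : Set (G × List G), F.Finite ∧ ∀ c, (c, y) ∈ (TT Y).orb T0 →
      c ∈ (StdK (Y.stab y)).orb F := by
  classical
  let f : (G × List G) × Y.X → G × List G := fun x =>
    if h : ∃ h : G, x.2 = Y.sm h y then (Std G).sm (h.choose)⁻¹ x.1 else x.1
  refine ⟨f '' T0, hT0.image _, ?_⟩
  rintro c ⟨⟨c0, y0⟩, hx0, g, e⟩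
  have e1 : c = (Std G).sm g c0 := congrArg Prod.fst e
  have e2 : y = Y.sm g y0 := congrArg Prod.snd e
  have hex : ∃ h : G, y0 = Y.sm h y := ⟨g⁻¹, by rw [e2, ← Y.sm_mul, inv_mul_cancel, Y.sm_one]⟩
  have hf : f (c0, y0) = (Std G).sm (hex.choose)⁻¹ c0 := by
    simp only [f]
    rw [dif_pos hex]
  have hh : y0 = Y.sm hex.choose y := hex.choose_spec
  have hk : g * hex.choose ∈ Y.stab y := by
    rw [PCx.mem_stab, Y.sm_mul, ← hh, ← e2]
  refine ⟨f (c0, y0), ⟨_, hx0, rfl⟩, ⟨g * hex.choose, hk⟩, ?_⟩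
  rw [hf, e1]
  change _ = (Std G).sm (g * hex.choose) ((Std G).sm (hex.choose)⁻¹ c0)
  rw [← (Std G).sm_mul, mul_inv_cancel_right]

/-- Reduction of a class component to a representative. -/
theorem local_data (T0 : Set ((G × List G) × Y.X)) {p : ℕ}
    (w : (G × List G) × Y.X →₀ ℤ) (hw : w ∈ (TT Y).Bs T0)
    (hwp : w ∈ Finsupp.supported ℤ ℤ {x | (Std G).deg x.1 = p})
    (h1 : dv Y w = 0) (h2 : prR (Std G).toPCx Y w = 0) (y : Y.X)
    (hne : flt (fun x : (G × List G) × Y.X => x.2) y w ≠ 0) :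
    ∃ y1 ∈ Prod.snd '' T0, ∃ g : G, y = Y.sm g y1 ∧ ∃ a : G × List G →₀ ℤ,
      (TT Y).tr g⁻¹ (flt (fun x : (G × List G) × Y.X => x.2) y w) = tp a (single y1 1) ∧
      a ∈ (Std G).Dg p ∧ (Std G).D a = 0 ∧ (Std G).E a = 0 ∧
      a ∈ Finsupp.supported ℤ ℤ {c | (c, y1) ∈ (TT Y).orb T0} := by
  classical
  set κ : (G × List G) × Y.X → Y.X := fun x => x.2 with hκ
  set wy := flt κ y w with hwy
  have hwB : wy ∈ Finsupp.supported ℤ ℤ ({x | κ x = y} ∩ (TT Y).orb T0) := flt_mem κ y hw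
  obtain ⟨x, hx⟩ : ∃ x, x ∈ wy.support := by
    by_contra hcon
    push Not at hcon
    exact hne (Finsupp.support_eq_empty.1 (Finset.eq_empty_of_forall_notMem hcon))
  obtain ⟨hx1, ⟨⟨c0, y0⟩, hx0, g, e⟩⟩ := (Finsupp.mem_supported ℤ _).1 hwB hx
  have hx1' : x.2 = y := hx1
  have hy : y = Y.sm g y0 := by rw [← hx1', e]
  have hginv : Y.sm g⁻¹ y = y0 := by rw [hy, ← Y.sm_mul, inv_mul_cancel, Y.sm_one]
  set w' := (TT Y).tr g⁻¹ wy with hw'
  have hw'1 : w' ∈ Finsupp.supported ℤ ℤ {x : (G × List G) × Y.X | x.2 = y0} := by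
    refine lin_mem_of _ _ (fun z hz => ?_) wy (Finsupp.supported_mono Set.inter_subset_left hwB)
    rw [PCx.tr_single]
    refine Finsupp.single_mem_supported ℤ 1 ?_
    have hz' : z.2 = y := hz
    change Y.sm g⁻¹ z.2 = y0
    rw [hz', hginv]
  have hw'2 : w' ∈ (TT Y).Bs T0 := (TT Y).tr_mem_Bs _
    (Finsupp.supported_mono Set.inter_subset_right hwB)
  have hw'3 : w' ∈ Finsupp.supported ℤ ℤ {x : (G × List G) × Y.X | (Std G).deg x.1 = p} := by
    refine lin_mem_of _ _ (fun z hz => ?_) wy (flt_mem' κ y hwp)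
    rw [PCx.tr_single]
    refine Finsupp.single_mem_supported ℤ 1 ?_
    exact ((Std G).deg_sm g⁻¹ z.1).trans hz
  have hD : dv Y wy = 0 := by
    have hcl : ∀ x : (G × List G) × Y.X, dv Y (single x 1) ∈
        Finsupp.supported ℤ ℤ {z | κ z = κ x} := by
      rintro ⟨c, y'⟩
      unfold dv
      rw [tmap_single]
      refine Finsupp.supported_mono ?_ (tp_mem (s := Set.univ) (t := {y'}) ?_
        (Finsupp.single_mem_supported ℤ 1 rfl))
      · rintro ⟨c', z⟩ ⟨-, hz⟩
        exact hz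
      · exact (Finsupp.mem_supported ℤ _).2 (Set.subset_univ _)
    rw [hwy, flt_comm κ y (dv Y) hcl, h1, map_zero]
  have hE : prR (Std G).toPCx Y wy = 0 := by
    have : (prR (Std G).toPCx Y).comp (flt κ y) =
        (flt id y).comp (prR (Std G).toPCx Y) := lin_ext fun z => by
      obtain ⟨c, y'⟩ := z
      have hs : prR (Std G).toPCx Y (single (c, y') 1) =
        (Std G).ep c • single y' (1 : ℤ) := by simp [prR]
      simp only [LinearMap.comp_apply]
      rw [flt_single, hs, map_smul, flt_single]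
      by_cases h : y' = y
      · rw [if_pos (show κ (c, y') = y from h), if_pos (show id y' = y from h), hs]
      · rw [if_neg (show ¬ κ (c, y') = y from h), if_neg (show ¬ id y' = y from h)]
        simp
    have := LinearMap.congr_fun this w
    rw [LinearMap.comp_apply, LinearMap.comp_apply, h2, map_zero] at this
    exact this
  refine ⟨y0, ⟨(c0, y0), hx0, rfl⟩, g, hy, pf Y w', (tp_pf Y hw'1).symm, ?_, ?_, ?_, ?_⟩
  · refine lin_mem_of _ _ (fun z hz => ?_) w' hw'3
    unfold pf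
    rw [Finsupp.lmapDomain_apply, Finsupp.mapDomain_single]
    exact Finsupp.single_mem_supported ℤ 1 hz
  · rw [← pf_dv, hw', dv_tr, hD, map_zero, map_zero]
  · have e3 : prR (Std G).toPCx Y w' = 0 := by
      have := (pR (Std G).toPCx Y).eqv g⁻¹ wy
      change prR (Std G).toPCx Y ((TT Y).tr g⁻¹ wy) =
        Y.tr g⁻¹ (prR (Std G).toPCx Y wy) at this
      rw [hw', this, hE, map_zero]
    rw [← tp_pf Y hw'1, prR_tp] at e3
    have := congrArg (fun f => f y0) e3
    simpa using this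
  · have hw'4 : w' ∈ Finsupp.supported ℤ ℤ ({x : (G × List G) × Y.X | x.2 = y0} ∩
        (TT Y).orb T0) := (Finsupp.mem_supported ℤ _).2 (Set.subset_inter
          ((Finsupp.mem_supported ℤ _).1 hw'1) ((Finsupp.mem_supported ℤ _).1 hw'2))
    refine lin_mem_of _ _ (fun z hz => ?_) w' hw'4
    obtain ⟨c, y'⟩ := z
    obtain ⟨hz1, hz2⟩ := hz
    have hz1' : y' = y0 := hz1
    subst hz1'
    unfold pf
    rw [Finsupp.lmapDomain_apply, Finsupp.mapDomain_single]
    exact Finsupp.single_mem_supported ℤ 1 hz2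

/-- Filling columns. -/
theorem column_fill (p q : ℕ)
    (hstab : ∀ y, Y.deg y = q → IsNull (MonoidHom.id (Y.stab y)) p)
    (T0 : Set ((G × List G) × Y.X)) (hT0 : T0.Finite) :
    ∃ T' : Set ((G × List G) × Y.X), T'.Finite ∧ ∀ w ∈ Finsupp.supported ℤ ℤ (bi Y p q),
      w ∈ (TT Y).Bs T0 → dv Y w = 0 → prR (Std G).toPCx Y w = 0 →
      ∃ W ∈ Finsupp.supported ℤ ℤ (bi Y (p + 1) q), W ∈ (TT Y).Bs T' ∧ dv Y W = w := by
  classical
  choose F hF hF' using exists_local Y T0 hT0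
  have hfill : ∀ y, ∃ F' : Set (G × List G), F'.Finite ∧ (Y.deg y = q →
      (StdK (Y.stab y)).Cy p (F y) ≤ (StdK (Y.stab y)).Bo p F') := by
    intro y
    by_cases h : Y.deg y = q
    · obtain ⟨F', h1, h2⟩ := (null_id_iff (StdK_acyclic (Y.stab y))).1 (hstab y h) (F y) (hF y)
      exact ⟨F', h1, fun _ => h2⟩
    · exact ⟨∅, Set.finite_empty, fun h' => absurd h' h⟩
  choose F' hF'f hF'' using hfill
  set T' : Set ((G × List G) × Y.X) := ⋃ y ∈ Prod.snd '' T0, F' y ×ˢ {y} with hT'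
  refine ⟨T', (hT0.image _).biUnion fun y _ => (hF'f y).prod (Set.finite_singleton y), ?_⟩
  intro w hw1 hw2 hw3 hw4
  set N : Submodule ℤ ((G × List G) × Y.X →₀ ℤ) :=
    (Finsupp.supported ℤ ℤ (bi Y (p + 1) q) ⊓ (TT Y).Bs T').map (dv Y) with hN
  have hNtr : ∀ g, ∀ c ∈ N, (TT Y).tr g c ∈ N := by
    rintro g _ ⟨b, ⟨hb1, hb2⟩, rfl⟩
    refine ⟨(TT Y).tr g b, ⟨?_, (TT Y).tr_mem_Bs g hb2⟩, dv_tr Y g b⟩
    refine lin_mem_of _ _ (fun z hz => ?_) b hb1
    rw [PCx.tr_single]
    refine Finsupp.single_mem_supported ℤ 1 ⟨?_, ?_⟩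
    · exact ((Std G).deg_sm g z.1).trans hz.1
    · exact (Y.deg_sm g z.2).trans hz.2
  suffices hmem : w ∈ N by
    obtain ⟨b, ⟨hb1, hb2⟩, hb3⟩ := hmem
    exact ⟨b, hb1, hb2, hb3⟩
  refine flt_induction (fun x : (G × List G) × Y.X => x.2) LinearMap.id N w fun y => ?_
  rw [LinearMap.id_apply]
  by_cases hne : flt (fun x : (G × List G) × Y.X => x.2) y w = 0
  · rw [hne]; exact Submodule.zero_mem _
  · obtain ⟨y1, hy1, g, hy, a, ha0, ha1, ha2, ha3, ha4⟩ := local_data Y T0 w hw2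
      (Finsupp.supported_mono (fun x hx => hx.1) hw1) hw3 hw4 y hne
    -- degree of y1
    have hdy : Y.deg y1 = q := by
      obtain ⟨x, hx⟩ : ∃ x, x ∈ (flt (fun x : (G × List G) × Y.X => x.2) y w).support := by
        by_contra hcon
        push Not at hcon
        exact hne (Finsupp.support_eq_empty.1 (Finset.eq_empty_of_forall_notMem hcon))
      have hx' := (Finsupp.mem_supported ℤ _).1
        (flt_mem (fun x : (G × List G) × Y.X => x.2) y hw1) hx
      have e1 : x.2 = y := hx'.1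
      have e2 : Y.deg x.2 = q := hx'.2.2
      rw [← e2, e1, hy, Y.deg_sm]
    have haB : a ∈ (StdK (Y.stab y1)).Bs (F y1) :=
      Finsupp.supported_mono (fun c hc => hF' y1 c hc) ha4
    have haC : a ∈ (StdK (Y.stab y1)).Cy p (F y1) :=
      (StdK (Y.stab y1)).mem_Cy.2 ⟨ha1, haB, ha2, ha3⟩
    obtain ⟨b, hb1, hb2, hb3⟩ := (StdK (Y.stab y1)).mem_Bo.1 (hF'' y1 hdy haC)
    have hb3' : (Std G).D b = a := hb3
    have hmem : tp a (single y1 1) ∈ N := by
      refine ⟨tp b (single y1 1), ⟨?_, ?_⟩, ?_⟩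
      · refine Finsupp.supported_mono ?_ (tp_mem hb1 (Finsupp.single_mem_supported ℤ 1
          (show y1 ∈ ({y1} : Set Y.X) from rfl)))
        rintro ⟨c, z⟩ ⟨hc, hz⟩
        have hz' : z = y1 := hz
        subst hz'
        exact ⟨hc, hdy⟩
      · refine Finsupp.supported_mono ?_ (tp_mem hb2 (Finsupp.single_mem_supported ℤ 1
          (show y1 ∈ ({y1} : Set Y.X) from rfl)))
        rintro ⟨c, z⟩ ⟨⟨c0, hc0, k, hk⟩, hz⟩
        have hz' : z = y1 := hz
        subst hz'
        refine ⟨(c0, z), ?_, k.1, ?_⟩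
        · rw [hT']
          exact Set.mem_biUnion hy1 ⟨hc0, rfl⟩
        · exact Prod.ext hk (Eq.symm (show Y.sm k.1 z = z from k.2))
      · unfold dv
        rw [tmap_tp, LinearMap.id_apply]
        rw [hb3']
    have := hNtr g _ hmem
    rw [← ha0, PCx.tr_tr_inv] at this
    exact this

end Resolution

end Crest.Agent.R185.Null
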