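import Crest.Agent.R185.Null12

/-!
# R185, null calculus, part 13: the resolution lemma, conclusion
-/

set_option autoImplicit false

namespace Crest.Agent.R185.Null

open Finsupp

universe u v w u' v' w'

section Resolution

variable {G : Type u} [Group G] (Y : PCx.{u, v} G)

/-- The statement handled by the induction. -/
def Red (n j : ℕ) : Prop :=
  ∀ T0 : Set ((G × List G) × Y.X), T0.Finite → ∃ T' : Set (G × List G), T'.Finite ∧
    ∀ z ∈ (TT Y).Dg n, z ∈ (TT Y).Bs T0 → (TT Y).D z = 0 →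
      z ∈ Finsupp.supported ℤ ℤ {x : (G × List G) × Y.X | Y.deg x.2 ≤ j} →
      prR (Std G).toPCx Y z = 0 → prL (Std G).toPCx Y z ∈ (Std G).Bo n T'

theorem dh_supp {j : ℕ} {z : (G × List G) × Y.X →₀ ℤ}
    (hz : z ∈ Finsupp.supported ℤ ℤ {x : (G × List G) × Y.X | Y.deg x.2 ≤ j + 1}) :
    dh Y z ∈ Finsupp.supported ℤ ℤ {x : (G × List G) × Y.X | Y.deg x.2 ≤ j} := by
  refine lin_mem_of _ _ (fun x hx => ?_) z hz
  have hx' : Y.deg x.2 ≤ j + 1 := hx
  unfold dh
  rw [tmap_single, Y.D_single, one_smul]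
  rcases Nat.eq_zero_or_pos (Y.deg x.2) with h0 | hpos
  · rw [Y.bd_zero _ h0, map_zero]; exact Submodule.zero_mem _
  · obtain ⟨m, hm⟩ : ∃ m, Y.deg x.2 = m + 1 := ⟨Y.deg x.2 - 1, by omega⟩
    refine Finsupp.supported_mono ?_ (tp_mem (s := Set.univ)
      ((Finsupp.mem_supported ℤ _).2 (Set.subset_univ _)) (Y.bd_mem x.2 hm))
    rintro ⟨c, y⟩ ⟨-, hy⟩
    have hy' : Y.deg y = m := hy
    change Y.deg y ≤ j
    omega

theorem dh_zero {z : (G × List G) × Y.X →₀ ℤ}
    (hz : z ∈ Finsupp.supported ℤ ℤ {x : (G × List G) × Y.X | Y.deg x.2 ≤ 0}) : dh Y z = 0 := by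
  refine lin_ext_on (f := dh Y) (g := 0) _ (fun x hx => ?_) z hz
  have hx' : Y.deg x.2 ≤ 0 := hx
  unfold dh
  rw [tmap_single, Y.D_single, one_smul, Y.bd_zero _ (Nat.le_zero.1 hx'), map_zero]
  rfl

theorem dv_deg (x : (G × List G) × Y.X) : dv Y (single x 1) ∈
    Finsupp.supported ℤ ℤ {z : (G × List G) × Y.X | Y.deg z.2 = Y.deg x.2} := by
  unfold dv
  rw [tmap_single]
  refine Finsupp.supported_mono ?_ (tp_mem (s := Set.univ) (t := {x.2}) ?_
    (Finsupp.single_mem_supported ℤ 1 rfl))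
  · rintro ⟨c', z⟩ ⟨-, hz⟩
    have hz' : z = x.2 := hz
    change Y.deg z = Y.deg x.2
    rw [hz']
  · exact (Finsupp.mem_supported ℤ _).2 (Set.subset_univ _)

theorem prR_flt (j : ℕ) (z : (G × List G) × Y.X →₀ ℤ) :
    prR (Std G).toPCx Y (flt (fun x : (G × List G) × Y.X => Y.deg x.2) j z) =
      flt Y.deg j (prR (Std G).toPCx Y z) := by
  have : (prR (Std G).toPCx Y).comp (flt (fun x : (G × List G) × Y.X => Y.deg x.2) j) =
      (flt Y.deg j).comp (prR (Std G).toPCx Y) := lin_ext fun z => by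
    obtain ⟨c, y'⟩ := z
    have hs : prR (Std G).toPCx Y (single (c, y') 1) =
      (Std G).ep c • single y' (1 : ℤ) := by simp [prR]
    simp only [LinearMap.comp_apply]
    rw [flt_single, hs, map_smul, flt_single]
    by_cases h : Y.deg y' = j
    · rw [if_pos h, if_pos h, hs]
    · rw [if_neg h, if_neg h]; simp
  exact LinearMap.congr_fun this z

theorem prR_pos {p q : ℕ} {W : (G × List G) × Y.X →₀ ℤ}
    (hW : W ∈ Finsupp.supported ℤ ℤ (bi Y (p + 1) q)) : prR (Std G).toPCx Y W = 0 := by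
  refine lin_ext_on (f := prR (Std G).toPCx Y) (g := 0) _ (fun x hx => ?_) W hW
  obtain ⟨c, y'⟩ := x
  have hs : prR (Std G).toPCx Y (single (c, y') 1) =
    (Std G).ep c • single y' (1 : ℤ) := by simp [prR]
  have hx1 : (Std G).deg c = p + 1 := hx.1
  rw [hs, (Std G).ep_deg c (by omega), zero_smul]; rfl

/-- The last step: only vertices of `Y`. -/
theorem red_zero (n : ℕ) (hvert : ∀ y, Y.deg y = 0 → IsNull (Y.stab y).subtype n) :
    Red Y n 0 := by
  classical
  intro T0 hT0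
  choose F hF hF' using exists_local Y T0 hT0
  have hfill : ∀ y, ∃ F' : Set (G × List G), F'.Finite ∧ (Y.deg y = 0 →
      ∀ a ∈ (StdK (Y.stab y)).Cy n (F y), a ∈ (Std G).Bo n F') := by
    intro y
    by_cases h : Y.deg y = 0
    · obtain ⟨F', h1, h2⟩ := (hvert y h).kill (Std_acyclic G) (incK (Y.stab y)) (F y) (hF y)
      exact ⟨F', h1, fun _ => h2⟩
    · exact ⟨∅, Set.finite_empty, fun h' => absurd h' h⟩
  choose F' hF'f hF'' using hfill
  refine ⟨⋃ y ∈ Prod.snd '' T0, F' y, (hT0.image _).biUnion fun y _ => hF'f y, ?_⟩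
  intro z hz1 hz2 hz3 hz4 hz5
  refine flt_induction (fun x : (G × List G) × Y.X => x.2) (prL (Std G).toPCx Y) _ z fun y => ?_
  by_cases hne : flt (fun x : (G × List G) × Y.X => x.2) y z = 0
  · rw [hne, map_zero]; exact Submodule.zero_mem _
  · have hzz : z ∈ Finsupp.supported ℤ ℤ {x : (G × List G) × Y.X | (Std G).deg x.1 = n ∧
        Y.deg x.2 = 0} := by
      refine (Finsupp.mem_supported ℤ _).2 fun x hx => ?_
      have e1 : (Std G).deg x.1 + Y.deg x.2 = n := (Finsupp.mem_supported ℤ _).1 hz1 hx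
      have e2 : Y.deg x.2 ≤ 0 := (Finsupp.mem_supported ℤ _).1 hz4 hx
      exact ⟨by omega, by omega⟩
    have hdv : dv Y z = 0 := by
      have := TT_D Y z
      rw [hz3, dh_zero Y hz4, add_zero] at this
      exact this.symm
    obtain ⟨y1, hy1, g, hy, a, ha0, ha1, ha2, ha3, ha4⟩ := local_data Y T0 z hz2
      (Finsupp.supported_mono (fun x hx => hx.1) hzz) hdv hz5 y hne
    have hdy : Y.deg y1 = 0 := by
      obtain ⟨x, hx⟩ : ∃ x, x ∈ (flt (fun x : (G × List G) × Y.X => x.2) y z).support := by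
        by_contra hcon
        push Not at hcon
        exact hne (Finsupp.support_eq_empty.1 (Finset.eq_empty_of_forall_notMem hcon))
      have hx' := (Finsupp.mem_supported ℤ _).1
        (flt_mem (fun x : (G × List G) × Y.X => x.2) y hzz) hx
      have e1 : x.2 = y := hx'.1
      have e2 : Y.deg x.2 = 0 := hx'.2.2
      rw [← e2, e1, hy, Y.deg_sm]
    have haC : a ∈ (StdK (Y.stab y1)).Cy n (F y1) :=
      (StdK (Y.stab y1)).mem_Cy.2 ⟨ha1,
        Finsupp.supported_mono (fun c hc => hF' y1 c hc) ha4, ha2, ha3⟩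
    have h5 : a ∈ (Std G).Bo n (⋃ y ∈ Prod.snd '' T0, F' y) :=
      (Std G).Bo_mono (Set.subset_biUnion_of_mem (u := F') hy1) (hF'' y1 hdy a haC)
    have h6 : prL (Std G).toPCx Y (tp a (single y1 1)) ∈
        (Std G).Bo n (⋃ y ∈ Prod.snd '' T0, F' y) := by
      rw [prL_tp]; exact Submodule.smul_mem _ _ h5
    rw [← ha0] at h6
    have e3 := (pL (Std G).toPCx Y).eqv g⁻¹
      (flt (fun x : (G × List G) × Y.X => x.2) y z)
    change prL (Std G).toPCx Y ((TT Y).tr g⁻¹ _) = (Std G).tr g⁻¹ (prL (Std G).toPCx Y _) at e3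
    rw [e3] at h6
    have h7 := (Std G).tr_mem_Bo g h6
    rwa [PCx.tr_tr_inv] at h7

/-- The induction step. -/
theorem red_succ (n j : ℕ) (hj : j + 1 ≤ n)
    (hstab : ∀ y, Y.deg y = j + 1 → IsNull (MonoidHom.id (Y.stab y)) (n - (j + 1)))
    (h : Red Y n j) : Red Y n (j + 1) := by
  classical
  intro T0 hT0
  obtain ⟨T1, hT1, k1⟩ := column_fill Y (n - (j + 1)) (j + 1) hstab T0 hT0
  obtain ⟨T2, hT2, k2⟩ := Eqv.bdd (φ := MonoidHom.id G) (A := TT Y) (B := TT Y) (F := (TT Y).D)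
    (fun g c => (TT Y).D_tr g c) T1 hT1
  obtain ⟨T3, hT3, k3⟩ := h (T0 ∪ T2) (hT0.union hT2)
  obtain ⟨T4, hT4, k4⟩ := Eqv.bdd (φ := MonoidHom.id G) (A := TT Y) (B := (Std G).toPCx)
    (F := prL (Std G).toPCx Y) (fun g c => (pL (Std G).toPCx Y).eqv g c) T1 hT1
  refine ⟨T3 ∪ T4, hT3.union hT4, fun z hz1 hz2 hz3 hz4 hz5 => ?_⟩
  set κ : (G × List G) × Y.X → ℕ := fun x => Y.deg x.2 with hκ
  set w := flt κ (j + 1) z with hw
  have hw1 : w ∈ Finsupp.supported ℤ ℤ (bi Y (n - (j + 1)) (j + 1)) := by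
    refine Finsupp.supported_mono ?_ (flt_mem κ (j + 1) hz1)
    rintro x ⟨hx1, hx2⟩
    have e1 : Y.deg x.2 = j + 1 := hx1
    have e2 : (Std G).deg x.1 + Y.deg x.2 = n := hx2
    exact ⟨by omega, e1⟩
  have hw2 : w ∈ (TT Y).Bs T0 := flt_mem' κ (j + 1) hz2
  have hw3 : dv Y w = 0 := by
    have e1 : dv Y z = -dh Y z := by
      have := TT_D Y z
      rw [hz3] at this
      exact eq_neg_of_add_eq_zero_left this.symm
    rw [hw, flt_comm κ (j + 1) (dv Y) (dv_deg Y), e1, map_neg]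
    have e2 := dh_supp Y hz4
    have e3 : flt κ (j + 1) (dh Y z) = 0 := by
      refine lin_ext_on (f := flt κ (j + 1)) (g := 0) _ (fun x hx => ?_) _ e2
      have hx' : Y.deg x.2 ≤ j := hx
      rw [flt_single, if_neg (by simp only [hκ]; omega)]; rfl
    rw [e3, neg_zero]
  have hw4 : prR (Std G).toPCx Y w = 0 := by
    rw [hw, prR_flt, hz5, map_zero]
  obtain ⟨W, hW1, hW2, hW3⟩ := k1 w hw1 hw2 hw3 hw4
  have hWd : W ∈ (TT Y).Dg (n + 1) := by
    refine Finsupp.supported_mono ?_ hW1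
    rintro x ⟨hx1, hx2⟩
    change (Std G).deg x.1 + Y.deg x.2 = n + 1
    omega
  set z' := z - (TT Y).D W with hz'
  have h1 : z' ∈ (TT Y).Dg n := Submodule.sub_mem _ hz1 ((TT Y).D_mem hWd)
  have h2 : z' ∈ (TT Y).Bs (T0 ∪ T2) := Submodule.sub_mem _
    ((TT Y).Bs_mono Set.subset_union_left hz2)
    ((TT Y).Bs_mono Set.subset_union_right (k2 W hW2))
  have h3 : (TT Y).D z' = 0 := by rw [hz', map_sub, hz3, (TT Y).D_D, sub_zero]
  have h4 : z' ∈ Finsupp.supported ℤ ℤ {x : (G × List G) × Y.X | Y.deg x.2 ≤ j} := by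
    have e1 : z' = (z - w) - dh Y W := by
      rw [hz', TT_D, hW3]; abel
    rw [e1]
    refine Submodule.sub_mem _ ?_ ?_
    · have := lin_mem_of (f := LinearMap.id - flt κ (j + 1)) _
        (Finsupp.supported ℤ ℤ {x : (G × List G) × Y.X | Y.deg x.2 ≤ j}) (fun x hx => ?_) z hz4
      · exact this
      · have hx' : Y.deg x.2 ≤ j + 1 := hx
        rw [LinearMap.sub_apply, LinearMap.id_apply, flt_single]
        split_ifs with hc
        · rw [sub_self]; exact Submodule.zero_mem _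
        · rw [sub_zero]
          refine Finsupp.single_mem_supported ℤ 1 ?_
          simp only [hκ] at hc
          change Y.deg x.2 ≤ j
          omega
    · refine dh_supp Y (Finsupp.supported_mono ?_ hW1)
      rintro x ⟨hx1, hx2⟩
      exact hx2.le
  have h5 : prR (Std G).toPCx Y z' = 0 := by
    have e1 := (pR (Std G).toPCx Y).comm W
    change Y.D (prR (Std G).toPCx Y W) = prR (Std G).toPCx Y ((TT Y).D W) at e1
    rw [hz', map_sub, hz5, ← e1, prR_pos Y hW1, map_zero, sub_zero]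
  have h6 := k3 z' h1 h2 h3 h4 h5
  have h7 : prL (Std G).toPCx Y ((TT Y).D W) ∈ (Std G).Bo n T4 := by
    have e1 := (pL (Std G).toPCx Y).comm W
    change (Std G).D (prL (Std G).toPCx Y W) = prL (Std G).toPCx Y ((TT Y).D W) at e1
    rw [← e1]
    exact (Std G).D_mem_Bo ((pL (Std G).toPCx Y).dg _ _ hWd) (k4 W hW2)
  have e2 : z = z' + (TT Y).D W := by rw [hz']; abel
  rw [e2, map_add]
  exact Submodule.add_mem _ ((Std G).Bo_mono Set.subset_union_left h6)
    ((Std G).Bo_mono Set.subset_union_right h7)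

theorem red_all (n : ℕ) (hvert : ∀ y, Y.deg y = 0 → IsNull (Y.stab y).subtype n)
    (hstab : ∀ y, Y.deg y ≠ 0 → Y.deg y ≤ n → IsNull (MonoidHom.id (Y.stab y)) (n - Y.deg y)) :
    ∀ j ≤ n, Red Y n j := by
  intro j
  induction j with
  | zero => intro _; exact red_zero Y n hvert
  | succ j ih =>
    intro hj
    exact red_succ Y n j hj (fun y hy => by
      have := hstab y (by omega) (by omega)
      rwa [hy] at this) (ih (by omega))

/-- Bounded lifts of horizontal chains. -/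
theorem exists_hlift (T : Set Y.X) (hT : T.Finite) : ∃ T' : Set ((G × List G) × Y.X), T'.Finite ∧
    ∀ n, ∀ u ∈ Y.Dg n, u ∈ Y.Bs T → ∃ w ∈ (TT Y).Dg n, w ∈ (TT Y).Bs T' ∧
      prR (Std G).toPCx Y w = u := by
  classical
  refine ⟨{((1 : G), [])} ×ˢ T, (Set.finite_singleton _).prod hT, fun n u hu1 hu2 => ?_⟩
  let g : Y.X → G := fun y => if h : ∃ g : G, ∃ x ∈ T, y = Y.sm g x then h.choose else 1
  have hg : ∀ y ∈ Y.orb T, ∃ x ∈ T, y = Y.sm (g y) x := by
    rintro y ⟨x, hx, k, hk⟩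
    have hex : ∃ g : G, ∃ x ∈ T, y = Y.sm g x := ⟨k, x, hx, hk⟩
    have : g y = hex.choose := by simp only [g]; rw [dif_pos hex]
    rw [this]
    exact hex.choose_spec
  let L : (Y.X →₀ ℤ) →ₗ[ℤ] ((G × List G) × Y.X →₀ ℤ) :=
    Finsupp.lmapDomain ℤ ℤ fun y => ((g y, []), y)
  have hL : ∀ y, L (single y 1) = single (((g y, []) : G × List G), y) 1 := fun y => by
    simp [L]
  refine ⟨L u, ?_, ?_, ?_⟩
  · refine lin_mem_of _ _ (fun y hy => ?_) u hu1
    rw [hL]
    refine (TT Y).single_mem_Dg ?_ 1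
    have hy' : Y.deg y = n := hy
    change ([] : List G).length + Y.deg y = n
    simp [hy']
  · refine lin_mem_of _ _ (fun y hy => ?_) u hu2
    rw [hL]
    obtain ⟨x, hx, e⟩ := hg y hy
    have hmem : (((g y, []) : G × List G), y) ∈
        (TT Y).orb ({((1 : G), ([] : List G))} ×ˢ T) := by
      refine ⟨(((1 : G), []), x), ⟨rfl, hx⟩, g y, ?_⟩
      refine Prod.ext ?_ e
      change ((g y, []) : G × List G) = smX (g y) (1, [])
      simp [smX]
    exact (TT Y).single_mem_Bs hmem 1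
  · have : (prR (Std G).toPCx Y).comp L = LinearMap.id := lin_ext fun y => by
      rw [LinearMap.comp_apply, hL]
      have hs : prR (Std G).toPCx Y (single (((g y, []) : G × List G), y) 1) =
        (Std G).ep (g y, []) • single y (1 : ℤ) := by simp [prR]
      rw [hs]
      have : (Std G).ep ((g y, []) : G × List G) = 1 := rfl
      rw [this, one_smul]; rfl
    exact LinearMap.congr_fun this u

/-- **Resolution lemma** (bounded Brown criterion). -/
theorem resolution_null (hY : Y.Acyclic) (n : ℕ) (hb : BAc Y n)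
    (hvert : ∀ y, Y.deg y = 0 → IsNull (Y.stab y).subtype n)
    (hstab : ∀ y, Y.deg y ≠ 0 → Y.deg y ≤ n → IsNull (MonoidHom.id (Y.stab y)) (n - Y.deg y)) :
    IsNull (MonoidHom.id G) n := by
  classical
  refine IsNull.of_kill (A := TT Y) (Tens_acyclic _ _ (Std_acyclic G) hY) (B := Std G)
    (pL (Std G).toPCx Y) ?_
  intro T0 hT0
  obtain ⟨T1, hT1, k1⟩ := (pR (Std G).toPCx Y).cy T0 hT0
  obtain ⟨T2, hT2, k2⟩ := hb T1 hT1
  obtain ⟨T3, hT3, k3⟩ := exists_hlift Y T2 hT2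
  obtain ⟨T4, hT4, k4⟩ := Eqv.bdd (φ := MonoidHom.id G) (A := TT Y) (B := TT Y) (F := (TT Y).D)
    (fun g c => (TT Y).D_tr g c) T3 hT3
  obtain ⟨T5, hT5, k5⟩ := red_all Y n hvert hstab n le_rfl (T0 ∪ T4) (hT0.union hT4)
  obtain ⟨T6, hT6, k6⟩ := Eqv.bdd (φ := MonoidHom.id G) (A := TT Y) (B := (Std G).toPCx)
    (F := prL (Std G).toPCx Y) (fun g c => (pL (Std G).toPCx Y).eqv g c) T3 hT3
  refine ⟨T5 ∪ T6, hT5.union hT6, fun z hz => ?_⟩
  have hz' := (TT Y).mem_Cy.1 hz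
  obtain ⟨hz1, hz2, hz3, hz4⟩ := hz'
  obtain ⟨u, hu1, hu2, hu3⟩ := Y.mem_Bo.1 (k2 (k1 n z hz))
  obtain ⟨W, hW1, hW2, hW3⟩ := k3 (n + 1) u hu1 hu2
  have hDW : prR (Std G).toPCx Y ((TT Y).D W) = prR (Std G).toPCx Y z := by
    have e1 := (pR (Std G).toPCx Y).comm W
    change Y.D (prR (Std G).toPCx Y W) = prR (Std G).toPCx Y ((TT Y).D W) at e1
    rw [← e1, hW3]
    exact hu3
  have h1 : z - (TT Y).D W ∈ (TT Y).Dg n := Submodule.sub_mem _ hz1 ((TT Y).D_mem hW1)
  have h6 := k5 (z - (TT Y).D W) h1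
    (Submodule.sub_mem _ ((TT Y).Bs_mono Set.subset_union_left hz2)
      ((TT Y).Bs_mono Set.subset_union_right (k4 W hW2)))
    (by rw [map_sub, hz3, (TT Y).D_D, sub_zero])
    (Finsupp.supported_mono (fun x hx => by
      have hx' : (Std G).deg x.1 + Y.deg x.2 = n := hx
      change Y.deg x.2 ≤ n
      omega) h1)
    (by rw [map_sub, hDW, sub_self])
  have h7 : prL (Std G).toPCx Y ((TT Y).D W) ∈ (Std G).Bo n T6 := by
    have e1 := (pL (Std G).toPCx Y).comm W
    change (Std G).D (prL (Std G).toPCx Y W) = prL (Std G).toPCx Y ((TT Y).D W) at e1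
    rw [← e1]
    exact (Std G).D_mem_Bo ((pL (Std G).toPCx Y).dg _ _ hW1) (k6 W hW2)
  have e2 : z = (z - (TT Y).D W) + (TT Y).D W := by abel
  have e3 : (pL (Std G).toPCx Y).F z = prL (Std G).toPCx Y (z - (TT Y).D W) +
      prL (Std G).toPCx Y ((TT Y).D W) := by
    rw [← map_add, ← e2]; rfl
  rw [e3]
  exact Submodule.add_mem _ ((Std G).Bo_mono Set.subset_union_left h6)
    ((Std G).Bo_mono Set.subset_union_right h7)

/-- Finitely many orbits. -/
theorem BAc_of_finite (hY : Y.Acyclic) (n : ℕ)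
    (hfin : ∃ T : Set Y.X, T.Finite ∧ ∀ y, Y.deg y = n + 1 → y ∈ Y.orb T) : BAc Y n := by
  obtain ⟨T', hT', h⟩ := hfin
  intro T _
  refine ⟨T', hT', fun z hz => ?_⟩
  obtain ⟨h1, -, h3, h4⟩ := Y.mem_Cy.1 hz
  obtain ⟨c, hc1, hc2⟩ := hY.2 n z h1 h3 h4
  exact Y.mem_Bo.2 ⟨c, hc1, Finsupp.supported_mono (fun y hy => h y hy) hc1, hc2⟩

end Resolution

end Crest.Agent.R185.Null
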