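import Crest.Agent.R185.Null2

/-!
# Row 185 (Q2): connectivity theories for preorders (helper424)

Interface for the proof that `Q(Γ,Y)` is of type `F_∞`.  `ConTh` collects the properties of
"`(m-1)`-connected" (of the nerve of a subset `A` of a preordered set) that are used.
Two instances are needed: homology (`homTh`) and coverings (`covTh`).
-/

set_option autoImplicit false

namespace Crest.Agent.R185.Q

/-- a connectivity theory: `Con r m A` = the nerve of `(A, r)` is `(m-1)`-connected -/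
structure ConTh where
  Con : ∀ {O : Type}, (O → O → Prop) → ℕ → Set O → Prop
  zero : ∀ {O : Type} {r : O → O → Prop} {A : Set O}, A.Nonempty → Con r 0 A
  /-- a greatest element -/
  cone : ∀ {O : Type} {r : O → O → Prop}, (∀ x, r x x) → (∀ x y z, r x y → r y z → r x z) →
    ∀ (A : Set O) (a : O), a ∈ A → (∀ x ∈ A, r x a) → ∀ m, Con r m A
  /-- homotopy retract -/
  transfer : ∀ {O O' : Type} {r : O → O → Prop} {r' : O' → O' → Prop},
    (∀ x, r x x) → (∀ x y z, r x y → r y z → r x z) →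
    (∀ x, r' x x) → (∀ x y z, r' x y → r' y z → r' x z) →
    ∀ (A : Set O) (A' : Set O') (f : O → O') (g : O' → O),
      (∀ x ∈ A, f x ∈ A') → (∀ x ∈ A', g x ∈ A) →
      (∀ x ∈ A, ∀ y ∈ A, r x y → r' (f x) (f y)) →
      (∀ x ∈ A', ∀ y ∈ A', r' x y → r (g x) (g y)) →
      (∀ x ∈ A, r x (g (f x))) → ∀ m, Con r' m A' → Con r m A
  /-- gluing two lower sets -/
  glue : ∀ {O : Type} {r : O → O → Prop},
    (∀ x, r x x) → (∀ x y z, r x y → r y z → r x z) →
    ∀ (B C : Set O), (∀ x ∈ B, ∀ y ∈ C, r y x → y ∈ B) → (∀ x ∈ C, ∀ y ∈ B, r y x → y ∈ C) →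
      ∀ m, Con r (m + 1) B → Con r (m + 1) C → Con r m (B ∩ C) → Con r (m + 1) (B ∪ C)
  /-- removing maximal elements with highly connected descending links -/
  morse : ∀ {O : Type} {r : O → O → Prop},
    (∀ x, r x x) → (∀ x y z, r x y → r y z → r x z) →
    ∀ (A B : Set O), B ⊆ A → (∀ x ∈ A, x ∉ B → ∀ y ∈ A, r x y → y ∉ B ∧ r y x) →
      ∀ m, Con r m A → (∀ x ∈ A, x ∉ B → Con r m {y | y ∈ B ∧ r y x}) → Con r m B
  /-- directed unions -/
  union : ∀ {O : Type} {r : O → O → Prop},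
    (∀ x, r x x) → (∀ x y z, r x y → r y z → r x z) →
    ∀ {ι : Type} [Nonempty ι] (A : ι → Set O), (∀ i j, ∃ k, A i ⊆ A k ∧ A j ⊆ A k) →
      ∀ m, (∀ i, Con r m (A i)) → Con r m (⋃ i, A i)

/-! ### what has to be proved about the two theories -/

/-- decreasing tuples of elements of `A` -/
def Tup {O : Type} (r : O → O → Prop) (A : Set O) : Set (O × List O) :=
  {t | (t.1 :: t.2).Pairwise (fun a b => r b a) ∧ ∀ a ∈ t.1 :: t.2, a ∈ A}

/-- reduced acyclicity in degree `n` of the nerve of `(A, r)` -/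
def HAc {O : Type} (r : O → O → Prop) (A : Set O) (n : ℕ) : Prop :=
  ∀ z ∈ Finsupp.supported ℤ ℤ (Tup r A), z ∈ Finsupp.supported ℤ ℤ {t : O × List O | t.2.length = n} →
    Null.sD z = 0 → Null.sE z = 0 →
    ∃ c ∈ Finsupp.supported ℤ ℤ (Tup r A), c ∈ Finsupp.supported ℤ ℤ {t : O × List O | t.2.length = n + 1} ∧
      Null.sD c = z

/-- the homology theory -/
def HCon {O : Type} (r : O → O → Prop) (m : ℕ) (A : Set O) : Prop :=
  A.Nonempty ∧ ∀ n < m, HAc r A n

/-- connectedness -/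
def Cnd {O : Type} (r : O → O → Prop) (A : Set O) : Prop :=
  ∀ f : O → Prop, (∀ x ∈ A, ∀ y ∈ A, r x y → (f x ↔ f y)) → ∀ x ∈ A, ∀ y ∈ A, (f x ↔ f y)

/-- every cocycle with values in a group is a coboundary (no coverings) -/
def CT {O : Type} (r : O → O → Prop) (A : Set O) : Prop :=
  ∀ (K : Type) [Group K] (c : O → O → K),
    (∀ x ∈ A, ∀ y ∈ A, ∀ z ∈ A, r x y → r y z → c x z = c x y * c y z) →
    ∃ b : O → K, ∀ x ∈ A, ∀ y ∈ A, r x y → c x y = (b x)⁻¹ * b y

/-- the covering theory -/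
def CCon {O : Type} (r : O → O → Prop) (m : ℕ) (A : Set O) : Prop :=
  A.Nonempty ∧ (1 ≤ m → Cnd r A) ∧ (2 ≤ m → CT r A)

/-- the finiteness criterion for finite presentation (statement) -/
def FPCrit : Prop :=
  ∀ (G X : Type) [Group G] [MulAction G X] [Nonempty X] (r : X → X → Prop),
    (∀ x, r x x) → (∀ x y z, r x y → r y z → r x z) → (∀ (g : G) x y, r x y → r (g • x) (g • y)) →
    Cnd r Set.univ → CT r Set.univ →
    (∃ T : Set (X × X × X), T.Finite ∧ ∀ x y z, r x y → r y z →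
      ∃ g : G, (g • x, g • y, g • z) ∈ T) →
    (∀ x : X, Group.IsFinitelyPresented (MulAction.stabilizer G x)) →
    (∀ x y : X, r x y → Group.FG ↥(MulAction.stabilizer G x ⊓ MulAction.stabilizer G y)) →
    Group.IsFinitelyPresented G

/-- the resolution lemma (statement) -/
def ResLemma : Prop :=
  ∀ (G : Type) [Group G] (A : Null.PCx.{0, 0} G), (∃ v ∈ A.Dg 0, A.E v = 1) →
    (∀ n, Null.BAc A n) →
    (∀ (x : A.X) (S : Subgroup G), (∀ g, g ∈ S ↔ A.sm g x = x) →
      ∀ n, Null.IsNull (MonoidHom.id S) n) →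
    ∀ n, Null.IsNull (MonoidHom.id G) n

end Crest.Agent.R185.Q
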