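import Crest.Agent.R185.Null13
import Crest.Agent.R185.QTh

/-!
# R185, null calculus, part 14: `ResLemma`, isomorphisms, products, finite products
-/

set_option autoImplicit false

namespace Crest.Agent.R185.Null

open Finsupp

universe u v w u' v' w'

section Iso

variable {G : Type u} [Group G] {H : Type u'} [Group H]

/-- Transport along an isomorphism. -/
theorem isNull_id_of_equiv (e : G ≃* H) {n : ℕ} (h : IsNull (MonoidHom.id G) n) :
    IsNull (MonoidHom.id H) n := by
  have h1 := (h.comp e.toMonoidHom).precomp e.symm.toMonoidHom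
  have e1 : (e.toMonoidHom.comp (MonoidHom.id G)).comp e.symm.toMonoidHom = MonoidHom.id H := by
    ext x; simp
  rwa [e1] at h1

/-- If the identity is null then every homomorphism is null. -/
theorem isNull_of_id (φ : G →* H) {n : ℕ} (h : IsNull (MonoidHom.id G) n) : IsNull φ n :=
  h.comp φ

/-- Trivial groups. -/
theorem isNull_of_subsingleton (G : Type u) [Group G] [Subsingleton G] (n : ℕ) :
    IsNull (MonoidHom.id G) n := by
  classical
  rw [null_id_iff (Std_acyclic G)]
  intro T hT
  obtain ⟨v, hv, hv1⟩ := (Std_acyclic G).1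
  obtain ⟨s, s1, s2⟩ := exists_contr (Std G).toPCx (Std_acyclic G) v hv hv1
  refine ⟨⋃ x ∈ T, ((s (single x 1)).support : Set (G × List G)),
    hT.biUnion fun x _ => Finset.finite_toSet _, fun z hz => ?_⟩
  obtain ⟨h1, h2, h3, h4⟩ := (Std G).mem_Cy.1 hz
  refine (Std G).mem_Bo.2 ⟨s z, s1 n z h1, ?_, ?_⟩
  · refine lin_mem_of _ _ (fun x hx => ?_) z h2
    obtain ⟨y, hy, g, hg⟩ := hx
    have hg1 : g = 1 := Subsingleton.elim _ _
    rw [hg1, (Std G).sm_one] at hg
    subst hg
    exact (Std G).mem_Bs_of_subset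
      (Set.subset_biUnion_of_mem (u := fun x => ((s (single x 1)).support : Set (G × List G))) hy)
  · have := s2 z
    rw [h3, map_zero, add_zero, h4, zero_smul, sub_zero] at this
    exact this

end Iso

section Prod

variable {G : Type u} [Group G] {H : Type u} [Group H]

/-- Products of null groups. -/
theorem isNull_prod (n : ℕ) (hG : ∀ m ≤ n, IsNull (MonoidHom.id G) m)
    (hH : ∀ m ≤ n, IsNull (MonoidHom.id H) m) : IsNull (MonoidHom.id (G × H)) n := by
  set Y : PCx (G × H) := (Std G).toPCx.pull (MonoidHom.fst G H) with hY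
  have hst : ∀ y : Y.X, Nonempty (H ≃* Y.stab y) := by
    intro y
    have hmem : ∀ g : G × H, g ∈ Y.stab y ↔ g.1 = 1 := by
      intro g
      constructor
      · intro hg
        have h1 : (Std G).sm g.1 y = y := hg
        have h2 := congrArg Prod.fst h1
        have h3 : g.1 * y.1 = y.1 := h2
        simpa using h3
      · intro hg
        change (Std G).sm g.1 y = y
        rw [hg, (Std G).sm_one]
    exact ⟨{ toFun := fun h => ⟨(1, h), (hmem _).2 rfl⟩
             invFun := fun g => g.1.2
             left_inv := fun h => rfl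
             right_inv := fun g => Subtype.ext (Prod.ext ((hmem _).1 g.2).symm rfl)
             map_mul' := fun a b => Subtype.ext (Prod.ext (by simp) rfl) }⟩
  have hstn : ∀ (y : Y.X) (m : ℕ), m ≤ n → IsNull (MonoidHom.id (Y.stab y)) m := by
    intro y m hm
    obtain ⟨e⟩ := hst y
    exact isNull_id_of_equiv e (hH m hm)
  refine resolution_null Y (PCx.pull_acyclic _ _ (Std_acyclic G)) n ?_
    (fun y _ => isNull_of_id _ (hstn y n le_rfl)) (fun y _ _ => hstn y _ (Nat.sub_le _ _))
  -- bounded acyclicity
  intro T hT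
  obtain ⟨T', hT', h⟩ := (null_id_iff (Std_acyclic G)).1 (hG n le_rfl) T hT
  refine ⟨T', hT', fun z hz => ?_⟩
  obtain ⟨h1, h2, h3, h4⟩ := Y.mem_Cy.1 hz
  have h2' : z ∈ (Std G).Bs T := (Std G).toPCx.pull_Bs_le (MonoidHom.fst G H) T h2
  obtain ⟨b, hb1, hb2, hb3⟩ := (Std G).mem_Bo.1 (h ((Std G).mem_Cy.2 ⟨h1, h2', h3, h4⟩))
  refine Y.mem_Bo.2 ⟨b, hb1, Finsupp.supported_mono ?_ hb2, hb3⟩
  rintro _ ⟨x, hx, g, rfl⟩
  exact ⟨x, hx, (g, 1), rfl⟩

/-- Finite products. -/
theorem isNull_pi (s : ℕ) : ∀ (K : Fin s → Type u) [∀ i, Group (K i)] (n : ℕ),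
    (∀ i, ∀ m ≤ n, IsNull (MonoidHom.id (K i)) m) → IsNull (MonoidHom.id (∀ i, K i)) n := by
  induction s with
  | zero =>
    intro K _ n _
    exact isNull_of_subsingleton _ n
  | succ s ih =>
    intro K _ n h
    have h1 : ∀ m ≤ n, IsNull (MonoidHom.id (∀ i : Fin s, K i.succ)) m := fun m hm =>
      ih (fun i => K i.succ) m fun i k hk => h i.succ k (hk.trans hm)
    have e : (K 0 × (∀ i : Fin s, K i.succ)) ≃* (∀ i, K i) :=
      { toFun := fun p => Fin.cons p.1 p.2
        invFun := fun f => (f 0, fun i => f i.succ)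
        left_inv := fun p => by simp
        right_inv := fun f => by
          funext i
          refine Fin.cases ?_ (fun j => ?_) i
          · simp
          · simp
        map_mul' := fun a b => by
          funext i
          refine Fin.cases ?_ (fun j => ?_) i
          · simp
          · simp }
    exact isNull_id_of_equiv e (isNull_prod n (fun m hm => h 0 m hm) h1)

end Prod

/-- helper424's form of the resolution lemma. -/
theorem resLemma : Q.ResLemma := by
  intro G _ A hv hb hst n
  refine resolution_null A (acyclic_of_BAc hv hb) n (hb n)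
    (fun y _ => isNull_of_id _ (hst y (A.stab y) (fun _ => Iff.rfl) n))
    (fun y _ _ => hst y (A.stab y) (fun _ => Iff.rfl) _)

end Crest.Agent.R185.Null
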