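import Crest.Agent.R185.Null2

/-!
# R185, null calculus, part 3: tensor products and the diagonal lemma
-/

set_option autoImplicit false

namespace Crest.Agent.R185.Null

open Finsupp

universe u v w u' v' w'

/-! ## The bilinear product of chains -/

section Tp

variable {X : Type v} {Y : Type w} {X' : Type v'} {Y' : Type w'}

/-- `a ⊗ b`. -/
noncomputable def tp : (X →₀ ℤ) →ₗ[ℤ] (Y →₀ ℤ) →ₗ[ℤ] (X × Y →₀ ℤ) :=
  Finsupp.linearCombination ℤ fun x => Finsupp.lmapDomain ℤ ℤ (fun y => (x, y))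

@[simp] theorem tp_single (x : X) (y : Y) :
    tp (single x (1 : ℤ)) (single y (1 : ℤ)) = single (x, y) (1 : ℤ) := by
  simp [tp]

theorem bil_ext {M : Type*} [AddCommGroup M]
    (Φ Ψ : (X →₀ ℤ) →ₗ[ℤ] (Y →₀ ℤ) →ₗ[ℤ] M)
    (h : ∀ x y, Φ (single x 1) (single y 1) = Ψ (single x 1) (single y 1)) (a : X →₀ ℤ)
    (b : Y →₀ ℤ) : Φ a b = Ψ a b := by
  have : Φ = Ψ := lin_ext fun x => lin_ext fun y => h x y
  rw [this]

theorem tp_mem {s : Set X} {t : Set Y} {a : X →₀ ℤ} {b : Y →₀ ℤ}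
    (ha : a ∈ Finsupp.supported ℤ ℤ s) (hb : b ∈ Finsupp.supported ℤ ℤ t) :
    tp a b ∈ Finsupp.supported ℤ ℤ (s ×ˢ t) := by
  refine lin_mem_of (f := tp.flip b) s _ (fun x hx => ?_) a ha
  rw [LinearMap.flip_apply]
  refine lin_mem_of (f := tp (single x 1)) t _ (fun y hy => ?_) b hb
  rw [tp_single]
  exact Finsupp.single_mem_supported ℤ 1 (Set.mk_mem_prod hx hy)

/-- Functoriality. -/
noncomputable def tmap (f : (X →₀ ℤ) →ₗ[ℤ] (X' →₀ ℤ)) (g : (Y →₀ ℤ) →ₗ[ℤ] (Y' →₀ ℤ)) :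
    (X × Y →₀ ℤ) →ₗ[ℤ] (X' × Y' →₀ ℤ) :=
  Finsupp.linearCombination ℤ fun p => tp (f (single p.1 1)) (g (single p.2 1))

@[simp] theorem tmap_single (f : (X →₀ ℤ) →ₗ[ℤ] (X' →₀ ℤ)) (g : (Y →₀ ℤ) →ₗ[ℤ] (Y' →₀ ℤ))
    (p : X × Y) : tmap f g (single p 1) = tp (f (single p.1 1)) (g (single p.2 1)) := by
  simp [tmap]

@[simp] theorem tmap_tp (f : (X →₀ ℤ) →ₗ[ℤ] (X' →₀ ℤ)) (g : (Y →₀ ℤ) →ₗ[ℤ] (Y' →₀ ℤ))
    (a : X →₀ ℤ) (b : Y →₀ ℤ) : tmap f g (tp a b) = tp (f a) (g b) :=
  bil_ext (tp.compr₂ (tmap f g)) (tp.compl₁₂ f g) (fun x y => by simp) a b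

/-- linear maps out of the product which agree on pure tensors. -/
theorem tens_ext {M : Type*} [AddCommGroup M] {f g : (X × Y →₀ ℤ) →ₗ[ℤ] M}
    (h : ∀ x y, f (tp (single x 1) (single y 1)) = g (tp (single x 1) (single y 1))) : f = g :=
  lin_ext fun p => by simpa using h p.1 p.2

end Tp

/-! ## Signs -/

namespace PCx

variable {G : Type u} [Group G] (A : PCx.{u, v} G)

/-- The sign involution. -/
noncomputable def sg : (A.X →₀ ℤ) →ₗ[ℤ] (A.X →₀ ℤ) :=
  Finsupp.linearCombination ℤ fun x => single x ((-1) ^ A.deg x)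

theorem sg_of_mem {n : ℕ} {c : A.X →₀ ℤ} (hc : c ∈ A.Dg n) : A.sg c = (-1 : ℤ) ^ n • c := by
  refine lin_ext_on (f := A.sg) (g := ((-1 : ℤ) ^ n) • LinearMap.id) _ (fun x hx => ?_) c hc
  have hx' : A.deg x = n := hx
  rw [LinearMap.smul_apply, LinearMap.id_apply, Finsupp.smul_single, smul_eq_mul, mul_one]
  simp only [sg, Finsupp.linearCombination_single, one_smul, hx']

@[simp] theorem sg_single (x : A.X) :
    A.sg (single x 1) = (-1 : ℤ) ^ A.deg x • (single x 1 : A.X →₀ ℤ) :=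
  A.sg_of_mem (A.single_mem_Dg rfl 1)

theorem sg_bd (x : A.X) : A.sg (A.bd x) = -((-1 : ℤ) ^ A.deg x • A.bd x) := by
  rcases Nat.eq_zero_or_pos (A.deg x) with h0 | hpos
  · rw [A.bd_zero x h0]; simp
  · obtain ⟨n, hn⟩ : ∃ n, A.deg x = n + 1 := ⟨A.deg x - 1, by omega⟩
    rw [A.sg_of_mem (A.bd_mem x hn), hn, pow_succ]
    simp

theorem sg_D (c : A.X →₀ ℤ) : A.sg (A.D c) = -A.D (A.sg c) := by
  have : A.sg.comp A.D = -(A.D.comp A.sg) := lin_ext fun x => by
    simp [A.sg_bd]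
  exact LinearMap.congr_fun this c

theorem sg_sg (c : A.X →₀ ℤ) : A.sg (A.sg c) = c := by
  have : A.sg.comp A.sg = LinearMap.id := lin_ext fun x => by
    simp only [LinearMap.comp_apply, sg_single, map_smul, smul_smul, ← mul_pow]
    simp
  exact LinearMap.congr_fun this c

theorem sg_tr (g : G) (c : A.X →₀ ℤ) : A.sg (A.tr g c) = A.tr g (A.sg c) := by
  have : A.sg.comp (A.tr g) = (A.tr g).comp A.sg := lin_ext fun x => by
    simp [A.deg_sm]
  exact LinearMap.congr_fun this c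

theorem E_sg (c : A.X →₀ ℤ) : A.E (A.sg c) = A.E c := by
  have : A.E.comp A.sg = A.E := lin_ext fun x => by
    rcases eq_or_ne (A.deg x) 0 with h | h
    · simp [h]
    · simp [A.ep_deg x h]
  exact LinearMap.congr_fun this c

theorem sg_mem_Dg {n : ℕ} {c : A.X →₀ ℤ} (hc : c ∈ A.Dg n) : A.sg c ∈ A.Dg n := by
  rw [A.sg_of_mem hc]; exact Submodule.smul_mem _ _ hc

theorem sg_mem_supported {s : Set A.X} {c : A.X →₀ ℤ} (hc : c ∈ Finsupp.supported ℤ ℤ s) :
    A.sg c ∈ Finsupp.supported ℤ ℤ s :=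
  lin_mem_of _ _ (fun x hx => by
    rw [sg_single]; exact Submodule.smul_mem _ _ (Finsupp.single_mem_supported ℤ 1 hx)) c hc

theorem sg_mem_Bs {T : Set A.X} {c : A.X →₀ ℤ} (hc : c ∈ A.Bs T) : A.sg c ∈ A.Bs T :=
  A.sg_mem_supported hc

end PCx

/-- A degree preserving map commutes with signs. -/
theorem sg_comm0 {G : Type u} [Group G] {H : Type u'} [Group H] {A : PCx.{u, v} G}
    {B : PCx.{u', v'} H} {f : (A.X →₀ ℤ) →ₗ[ℤ] (B.X →₀ ℤ)}
    (hf : ∀ n, ∀ c ∈ A.Dg n, f c ∈ B.Dg n) (c : A.X →₀ ℤ) : B.sg (f c) = f (A.sg c) := by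
  have : B.sg.comp f = f.comp A.sg := lin_ext fun x => by
    simp only [LinearMap.comp_apply, PCx.sg_single, map_smul]
    exact B.sg_of_mem (hf _ _ (A.single_mem_Dg rfl 1))
  exact LinearMap.congr_fun this c

/-- A degree one map anticommutes with signs. -/
theorem sg_comm1 {G : Type u} [Group G] {H : Type u'} [Group H] {A : PCx.{u, v} G}
    {B : PCx.{u', v'} H} {f : (A.X →₀ ℤ) →ₗ[ℤ] (B.X →₀ ℤ)}
    (hf : ∀ n, ∀ c ∈ A.Dg n, f c ∈ B.Dg (n + 1)) (c : A.X →₀ ℤ) :
    B.sg (f c) = -f (A.sg c) := by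
  have : B.sg.comp f = -(f.comp A.sg) := lin_ext fun x => by
    simp only [LinearMap.comp_apply, LinearMap.neg_apply, PCx.sg_single, map_smul]
    rw [B.sg_of_mem (hf _ _ (A.single_mem_Dg rfl 1)), pow_succ]
    simp
  exact LinearMap.congr_fun this c

/-! ## Tensor products of complexes -/

section Tensor

variable {G : Type u} [Group G] (A : PCx.{u, v} G) (B : PCx.{u, w} G)

/-- The boundary of a basis element. -/
noncomputable def tbd (p : A.X × B.X) : A.X × B.X →₀ ℤ :=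
  tp (A.bd p.1) (single p.2 1) + (-1 : ℤ) ^ A.deg p.1 • tp (single p.1 1) (B.bd p.2)

noncomputable def tD : (A.X × B.X →₀ ℤ) →ₗ[ℤ] (A.X × B.X →₀ ℤ) :=
  Finsupp.linearCombination ℤ (tbd A B)

noncomputable def tE : (A.X × B.X →₀ ℤ) →ₗ[ℤ] ℤ :=
  Finsupp.linearCombination ℤ fun p => A.ep p.1 * B.ep p.2

theorem tD_tp (a : A.X →₀ ℤ) (b : B.X →₀ ℤ) :
    tD A B (tp a b) = tp (A.D a) b + tp (A.sg a) (B.D b) := by
  have := bil_ext (tp.compr₂ (tD A B)) (tp.compl₁₂ A.D LinearMap.id + tp.compl₁₂ A.sg B.D)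
    (fun x y => by simp [tD, tbd, -Finsupp.smul_single]) a b
  simpa using this

theorem tE_tp (a : A.X →₀ ℤ) (b : B.X →₀ ℤ) : tE A B (tp a b) = A.E a * B.E b :=
  bil_ext (tp.compr₂ (tE A B)) ((LinearMap.mul ℤ ℤ).compl₁₂ A.E B.E)
    (fun x y => by simp [tE]) a b

theorem tr_tp (g : G) (a : A.X →₀ ℤ) (b : B.X →₀ ℤ) :
    (tp a b).mapDomain (fun p : A.X × B.X => (A.sm g p.1, B.sm g p.2)) =
      tp (A.tr g a) (B.tr g b) :=
  bil_ext (tp.compr₂ (Finsupp.lmapDomain ℤ ℤ (fun p : A.X × B.X => (A.sm g p.1, B.sm g p.2))))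
    (tp.compl₁₂ (A.tr g) (B.tr g)) (fun x y => by simp) a b

/-- Tensor product with diagonal action. -/
@[reducible] noncomputable def Tens : PCx.{u, max v w} G where
  X := A.X × B.X
  sm g p := (A.sm g p.1, B.sm g p.2)
  sm_one p := by simp [A.sm_one, B.sm_one]
  sm_mul g h p := by simp [A.sm_mul, B.sm_mul]
  deg p := A.deg p.1 + B.deg p.2
  deg_sm g p := by simp [A.deg_sm, B.deg_sm]
  bd := tbd A B
  bd_sm g p := by
    unfold tbd
    rw [Finsupp.mapDomain_add, Finsupp.mapDomain_smul, tr_tp, tr_tp, A.tr_single, B.tr_single,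
      A.tr_apply, B.tr_apply, A.bd_sm, B.bd_sm, A.deg_sm]
  bd_deg p q hq := by
    have h1 : tp (A.bd p.1) (single p.2 1) ∈ Finsupp.supported ℤ ℤ
        {q : A.X × B.X | A.deg q.1 + B.deg q.2 + 1 = A.deg p.1 + B.deg p.2} := by
      have ha : A.bd p.1 ∈ Finsupp.supported ℤ ℤ {x | A.deg x + 1 = A.deg p.1} :=
        (Finsupp.mem_supported ℤ _).2 fun x hx => A.bd_deg _ x hx
      have hb : (single p.2 1 : B.X →₀ ℤ) ∈ Finsupp.supported ℤ ℤ {y | y = p.2} :=
        Finsupp.single_mem_supported ℤ 1 rfl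
      refine Finsupp.supported_mono ?_ (tp_mem ha hb)
      rintro ⟨x, y⟩ ⟨hx, hy⟩
      have hx' : A.deg x + 1 = A.deg p.1 := hx
      have hy' : y = p.2 := hy
      subst hy'
      change A.deg x + B.deg p.2 + 1 = _
      omega
    have h2 : tp (single p.1 1) (B.bd p.2) ∈ Finsupp.supported ℤ ℤ
        {q : A.X × B.X | A.deg q.1 + B.deg q.2 + 1 = A.deg p.1 + B.deg p.2} := by
      have hb : B.bd p.2 ∈ Finsupp.supported ℤ ℤ {x | B.deg x + 1 = B.deg p.2} :=
        (Finsupp.mem_supported ℤ _).2 fun x hx => B.bd_deg _ x hx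
      have ha : (single p.1 1 : A.X →₀ ℤ) ∈ Finsupp.supported ℤ ℤ {y | y = p.1} :=
        Finsupp.single_mem_supported ℤ 1 rfl
      refine Finsupp.supported_mono ?_ (tp_mem ha hb)
      rintro ⟨x, y⟩ ⟨hx, hy⟩
      have hx' : x = p.1 := hx
      have hy' : B.deg y + 1 = B.deg p.2 := hy
      subst hx'
      change A.deg p.1 + B.deg y + 1 = _
      omega
    have h3 : tbd A B p ∈ _ := Submodule.add_mem _ h1 (Submodule.smul_mem _ ((-1) ^ A.deg p.1) h2)
    exact (Finsupp.mem_supported ℤ _).1 h3 hq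
  bd_bd p := by
    change tD A B (tbd A B p) = 0
    unfold tbd
    rw [map_add, map_smul, tD_tp, tD_tp, A.sg_bd, A.sg_single]
    have e0 : ((-1 : ℤ) ^ A.deg p.1) * (-1) ^ A.deg p.1 = 1 := by
      rw [← mul_pow]; simp
    have e1 : A.D (A.bd p.1) = 0 := A.bd_bd _
    have e2 : B.D (B.bd p.2) = 0 := B.bd_bd _
    rw [e1, e2]
    simp
  ep p := A.ep p.1 * B.ep p.2
  ep_sm g p := by simp [A.ep_sm, B.ep_sm]
  ep_deg p hp := by
    rcases eq_or_ne (A.deg p.1) 0 with h | h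
    · have : B.deg p.2 ≠ 0 := fun h' => hp (by rw [h, h'])
      rw [B.ep_deg _ this, mul_zero]
    · rw [A.ep_deg _ h, zero_mul]
  ep_bd p := by
    change tE A B (tbd A B p) = 0
    unfold tbd
    rw [map_add, map_smul, tE_tp, tE_tp]
    have e1 : A.E (A.bd p.1) = 0 := A.ep_bd _
    have e2 : B.E (B.bd p.2) = 0 := B.ep_bd _
    rw [e1, e2]
    simp

theorem Tens_D_tp (a : A.X →₀ ℤ) (b : B.X →₀ ℤ) :
    (Tens A B).D (tp a b) = tp (A.D a) b + tp (A.sg a) (B.D b) := tD_tp A B a b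

theorem Tens_E_tp (a : A.X →₀ ℤ) (b : B.X →₀ ℤ) :
    (Tens A B).E (tp a b) = A.E a * B.E b := tE_tp A B a b

theorem Tens_tr_tp (g : G) (a : A.X →₀ ℤ) (b : B.X →₀ ℤ) :
    (Tens A B).tr g (tp a b) = tp (A.tr g a) (B.tr g b) := tr_tp A B g a b

theorem tp_mem_Dg {m n : ℕ} {a : A.X →₀ ℤ} {b : B.X →₀ ℤ} (ha : a ∈ A.Dg m) (hb : b ∈ B.Dg n) :
    tp a b ∈ (Tens A B).Dg (m + n) := by
  refine Finsupp.supported_mono ?_ (tp_mem ha hb)
  rintro ⟨x, y⟩ ⟨hx, hy⟩
  have hx' : A.deg x = m := hx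
  have hy' : B.deg y = n := hy
  change A.deg x + B.deg y = m + n
  omega

/-- Second projection. -/
noncomputable def prR : ((Tens A B).X →₀ ℤ) →ₗ[ℤ] (B.X →₀ ℤ) :=
  Finsupp.linearCombination ℤ fun p => A.ep p.1 • single p.2 1

/-- First projection. -/
noncomputable def prL : ((Tens A B).X →₀ ℤ) →ₗ[ℤ] (A.X →₀ ℤ) :=
  Finsupp.linearCombination ℤ fun p => B.ep p.2 • single p.1 1

theorem prR_tp (a : A.X →₀ ℤ) (b : B.X →₀ ℤ) : prR A B (tp a b) = A.E a • b :=
  bil_ext (tp.compr₂ (prR A B)) ((LinearMap.lsmul ℤ (B.X →₀ ℤ)).comp A.E)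
    (fun x y => by
      change prR A B (tp (single x 1) (single y 1)) = A.E (single x 1) • single y 1
      rw [tp_single, A.E_single]
      change Finsupp.linearCombination ℤ _ _ = _
      rw [Finsupp.linearCombination_single, one_smul, one_mul]) a b

theorem prL_tp (a : A.X →₀ ℤ) (b : B.X →₀ ℤ) : prL A B (tp a b) = B.E b • a :=
  bil_ext (tp.compr₂ (prL A B)) ((LinearMap.lsmul ℤ (A.X →₀ ℤ)).comp B.E).flip
    (fun x y => by
      change prL A B (tp (single x 1) (single y 1)) = B.E (single y 1) • single x 1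
      rw [tp_single, B.E_single]
      change Finsupp.linearCombination ℤ _ _ = _
      rw [Finsupp.linearCombination_single, one_smul, one_mul]) a b

/-- The second projection as a chain map. -/
noncomputable def pR : CMap (MonoidHom.id G) (Tens A B) B where
  F := prR A B
  comm c := by
    have : B.D.comp (prR A B) = (prR A B).comp (Tens A B).D := tens_ext fun x y => by
      simp only [LinearMap.comp_apply]
      rw [prR_tp, Tens_D_tp, map_add, prR_tp, prR_tp, A.E_D, A.E_sg, map_smul]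
      simp
    exact LinearMap.congr_fun this c
  eqv := by
    intro g c
    have : (prR A B).comp ((Tens A B).tr g) = (B.tr g).comp (prR A B) := tens_ext fun x y => by
      simp only [LinearMap.comp_apply]
      rw [Tens_tr_tp, prR_tp, prR_tp, A.E_tr, map_smul]
    exact LinearMap.congr_fun this c
  dg n c hc := by
    refine lin_mem_of _ _ (fun p hp => ?_) c hc
    have hp' : A.deg p.1 + B.deg p.2 = n := hp
    change Finsupp.linearCombination ℤ _ _ ∈ _
    rw [Finsupp.linearCombination_single, one_smul]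
    rcases eq_or_ne (A.deg p.1) 0 with h | h
    · exact Submodule.smul_mem _ _ (B.single_mem_Dg (by omega) 1)
    · rw [A.ep_deg _ h, zero_smul]; exact Submodule.zero_mem _
  aug c := by
    have : B.E.comp (prR A B) = (Tens A B).E := tens_ext fun x y => by
      simp only [LinearMap.comp_apply]
      rw [prR_tp, Tens_E_tp, map_smul, smul_eq_mul]
    exact LinearMap.congr_fun this c

/-- The first projection as a chain map. -/
noncomputable def pL : CMap (MonoidHom.id G) (Tens A B) A where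
  F := prL A B
  comm c := by
    have : A.D.comp (prL A B) = (prL A B).comp (Tens A B).D := tens_ext fun x y => by
      simp only [LinearMap.comp_apply]
      rw [prL_tp, Tens_D_tp, map_add, prL_tp, prL_tp, B.E_D, map_smul]
      simp
    exact LinearMap.congr_fun this c
  eqv := by
    intro g c
    have : (prL A B).comp ((Tens A B).tr g) = (A.tr g).comp (prL A B) := tens_ext fun x y => by
      simp only [LinearMap.comp_apply]
      rw [Tens_tr_tp, prL_tp, prL_tp, B.E_tr, map_smul]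
    exact LinearMap.congr_fun this c
  dg n c hc := by
    refine lin_mem_of _ _ (fun p hp => ?_) c hc
    have hp' : A.deg p.1 + B.deg p.2 = n := hp
    change Finsupp.linearCombination ℤ _ _ ∈ _
    rw [Finsupp.linearCombination_single, one_smul]
    rcases eq_or_ne (B.deg p.2) 0 with h | h
    · exact Submodule.smul_mem _ _ (A.single_mem_Dg (by omega) 1)
    · rw [B.ep_deg _ h, zero_smul]; exact Submodule.zero_mem _
  aug c := by
    have : A.E.comp (prL A B) = (Tens A B).E := tens_ext fun x y => by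
      simp only [LinearMap.comp_apply]
      rw [prL_tp, Tens_E_tp, map_smul, smul_eq_mul, mul_comm]
    exact LinearMap.congr_fun this c

theorem Tens_acyclic (hA : A.Acyclic) (hB : B.Acyclic) : (Tens A B).Acyclic := by
  obtain ⟨v, hv, hv1⟩ := hA.1
  obtain ⟨v', hv', hv1'⟩ := hB.1
  obtain ⟨s, s1, s2⟩ := exists_contr A hA v hv hv1
  refine ⟨⟨tp v v', tp_mem_Dg A B hv hv', by rw [Tens_E_tp, hv1, hv1', mul_one]⟩, ?_⟩
  intro n z hz h0 h1
  set S := tmap s (LinearMap.id : (B.X →₀ ℤ) →ₗ[ℤ] (B.X →₀ ℤ)) with hS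
  have e1 : ∀ w : (Tens A B).X →₀ ℤ, (Tens A B).D (S w) + S ((Tens A B).D w) =
      w - tp v (prR A B w) := by
    intro w
    have : (Tens A B).D.comp S + S.comp (Tens A B).D =
        LinearMap.id - (tp v).comp (prR A B) := tens_ext fun x y => by
      simp only [LinearMap.add_apply, LinearMap.comp_apply, LinearMap.sub_apply,
        LinearMap.id_apply]
      rw [hS, tmap_tp, Tens_D_tp, Tens_D_tp, map_add, tmap_tp, tmap_tp, prR_tp]
      have e2 := s2 (single x 1)
      have e3 := sg_comm1 s1 (single x 1)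
      simp only [LinearMap.id_apply]
      rw [e3]
      have e4 : tp (A.D (s (single x 1))) (single y (1 : ℤ)) +
          tp (s (A.D (single x 1))) (single y (1 : ℤ)) =
          tp (single x 1) (single y 1) - tp v (A.E (single x 1) • single y 1) := by
        rw [← LinearMap.add_apply, ← map_add, e2, map_sub, LinearMap.sub_apply, map_smul,
          map_smul, LinearMap.smul_apply]
      rw [← e4, map_neg, LinearMap.neg_apply]
      abel
    exact LinearMap.congr_fun this w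
  obtain ⟨y, hy, hy1⟩ := hB.2 n (prR A B z) ((pR A B).dg n z hz)
    (by
      have := (pR A B).comm z
      change B.D (prR A B z) = prR A B ((Tens A B).D z) at this
      rw [this, h0, map_zero])
    (by
      have := (pR A B).aug z
      change B.E (prR A B z) = (Tens A B).E z at this
      rw [this, h1])
  have hSz : S z ∈ (Tens A B).Dg (n + 1) := by
    refine lin_mem_of _ _ (fun p hp => ?_) z hz
    have hp' : A.deg p.1 + B.deg p.2 = n := hp
    rw [hS, tmap_single]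
    have := tp_mem_Dg A B (s1 (A.deg p.1) _ (A.single_mem_Dg rfl 1))
      (B.single_mem_Dg (x := p.2) rfl 1)
    rwa [show A.deg p.1 + 1 + B.deg p.2 = n + 1 by omega] at this
  refine ⟨S z + tp v y, Submodule.add_mem _ hSz ?_, ?_⟩
  · have := tp_mem_Dg A B hv hy
    rwa [zero_add] at this
  · have := e1 z
    rw [h0, map_zero, add_zero] at this
    rw [map_add, this, Tens_D_tp, A.D_zero hv, A.sg_of_mem hv, hy1]
    simp

end Tensor

/-! ## External products -/

section Ext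

variable {G : Type u} [Group G] {H : Type u} [Group H] {K : Type w} [Group K]

/-- The external product. -/
@[reducible] noncomputable def Ext (A : PCx.{u, v} G) (B : PCx.{u, w} H) : PCx.{u, max v w} (G × H) :=
  Tens (A.pull (MonoidHom.fst G H)) (B.pull (MonoidHom.snd G H))

/-- The external product of free complexes. -/
@[reducible] noncomputable def FExt (A : FCx.{u, v} G) (B : FCx.{u, w} H) : FCx.{u, max v w} (G × H) :=
  { Ext A.toPCx B.toPCx with
    base := fun p => (A.base p.1, B.base p.2)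
    base_sm := fun g p => Prod.ext (A.base_sm g.1 p.1) (B.base_sm g.2 p.2) }

theorem Ext_acyclic {A : PCx.{u, v} G} {B : PCx.{u, w} H} (hA : A.Acyclic) (hB : B.Acyclic) :
    (Ext A B).Acyclic := Tens_acyclic _ _ (A.pull_acyclic _ hA) (B.pull_acyclic _ hB)

theorem Ext_orb (A : PCx.{u, v} G) (B : PCx.{u, w} H) (S : Set A.X) (T : Set B.X) :
    (Ext A B).orb (S ×ˢ T) = A.orb S ×ˢ B.orb T := by
  ext p
  constructor
  · rintro ⟨⟨x, y⟩, ⟨hx, hy⟩, g, rfl⟩
    exact ⟨⟨x, hx, g.1, rfl⟩, ⟨y, hy, g.2, rfl⟩⟩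
  · obtain ⟨p1, p2⟩ := p
    rintro ⟨⟨x, hx, g, h1⟩, ⟨y, hy, h, h2⟩⟩
    change p1 = _ at h1
    change p2 = _ at h2
    subst h1 h2
    exact ⟨(x, y), ⟨hx, hy⟩, (g, h), rfl⟩

theorem tp_mem_ExtBs {A : PCx.{u, v} G} {B : PCx.{u, w} H} {S : Set A.X} {T : Set B.X}
    {a : A.X →₀ ℤ} {b : B.X →₀ ℤ} (ha : a ∈ A.Bs S) (hb : b ∈ B.Bs T) :
    tp a b ∈ (Ext A B).Bs (S ×ˢ T) := by
  unfold PCx.Bs
  rw [Ext_orb]
  exact tp_mem ha hb

end Ext

end Crest.Agent.R185.Null
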