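import Crest.Agent.R185.Null3

/-!
# R185, null calculus, part 4: partial contractions, the diagonal lemma, the rook certificate
-/

set_option autoImplicit false

namespace Crest.Agent.R185.Null

open Finsupp

universe u v w u' v' w'

/-! ## Closure of a finite set of basis elements under the boundary -/

namespace PCx

variable {G : Type u} [Group G] (A : PCx.{u, v} G)

/-- The set `T` is closed under boundaries. -/
def Clo (T : Set A.X) : Prop := ∀ c ∈ A.Bs T, A.D c ∈ A.Bs T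

theorem clo_of {T : Set A.X} (h : ∀ x ∈ T, A.bd x ∈ A.Bs T) : A.Clo T := by
  refine fun c hc => lin_mem_of _ _ (fun y hy => ?_) c hc
  obtain ⟨x, hx, g, rfl⟩ := hy
  rw [D_single, one_smul, A.bd_sm, ← A.tr_apply]
  exact A.tr_mem_Bs g (h x hx)

theorem exists_clo_aux (n : ℕ) : ∀ T : Set A.X, T.Finite → (∀ x ∈ T, A.deg x ≤ n) →
    ∃ T' : Set A.X, T ⊆ T' ∧ T'.Finite ∧ (∀ x ∈ T', A.deg x ≤ n) ∧ ∀ x ∈ T', A.bd x ∈ A.Bs T' := by
  classical
  induction n with
  | zero =>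
    intro T hT hd
    refine ⟨T, subset_rfl, hT, hd, fun x hx => ?_⟩
    rw [A.bd_zero x (Nat.le_zero.1 (hd x hx))]
    exact Submodule.zero_mem _
  | succ n ih =>
    intro T hT hd
    set S : Set A.X := ⋃ x ∈ T, ((A.bd x).support : Set A.X) with hS
    have hSf : S.Finite := hT.biUnion fun x _ => Finset.finite_toSet _
    have hSd : ∀ y ∈ S, A.deg y ≤ n := by
      intro y hy
      rw [hS, Set.mem_iUnion₂] at hy
      obtain ⟨x, hx, hy⟩ := hy
      have := A.bd_deg x y hy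
      have := hd x hx
      omega
    obtain ⟨S', h1, h2, h3, h4⟩ := ih S hSf hSd
    refine ⟨T ∪ S', Set.subset_union_left, hT.union h2, ?_, ?_⟩
    · rintro x (hx | hx)
      · exact hd x hx
      · exact (h3 x hx).trans (Nat.le_succ n)
    · rintro x (hx | hx)
      · refine (Finsupp.mem_supported ℤ _).2 ?_
        refine subset_trans ?_ (A.subset_orb _)
        refine subset_trans ?_ Set.subset_union_right
        refine subset_trans ?_ h1
        rw [hS]
        exact Set.subset_biUnion_of_mem (u := fun x => ((A.bd x).support : Set A.X)) hx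
      · exact A.Bs_mono Set.subset_union_right (h4 x hx)

theorem exists_clo (T : Set A.X) (hT : T.Finite) :
    ∃ T' : Set A.X, T ⊆ T' ∧ T'.Finite ∧ A.Clo T' := by
  obtain ⟨n, hn⟩ : ∃ n, ∀ x ∈ T, A.deg x ≤ n := by
    obtain ⟨n, hn⟩ := (hT.image A.deg).bddAbove
    exact ⟨n, fun x hx => hn ⟨x, hx, rfl⟩⟩
  obtain ⟨T', h1, h2, -, h4⟩ := A.exists_clo_aux n T hT hn
  exact ⟨T', h1, h2, A.clo_of h4⟩

theorem mem_Bs_of_subset {T : Set A.X} {c : A.X →₀ ℤ} (h : (c.support : Set A.X) ⊆ T) :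
    c ∈ A.Bs T := (Finsupp.mem_supported ℤ c).2 (h.trans (A.subset_orb T))

end PCx

/-! ## Partial contractions -/

section PCon

variable {G : Type u} [Group G] {H : Type u'} [Group H] {K : Type w} [Group K]

/-- `f` has partial contractions below degree `n`. -/
def PCon {φ : G →* H} {A : PCx.{u, v} G} {B : PCx.{u', v'} H} (f : CMap φ A B) (n : ℕ) : Prop :=
  ∃ v ∈ B.Dg 0, B.E v = 1 ∧ ∀ T : Set A.X, T.Finite → ∃ T' : Set B.X, T'.Finite ∧
    ∃ h : (A.X →₀ ℤ) →ₗ[ℤ] (B.X →₀ ℤ), (∀ k, ∀ c ∈ A.Dg k, h c ∈ B.Dg (k + 1)) ∧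
      (∀ c ∈ A.Bs T, h c ∈ B.Bs T') ∧
      ∀ k < n, ∀ c ∈ A.Dg k, c ∈ A.Bs T → B.D (h c) + h (A.D c) = f.F c - A.E c • v

theorem PCon.zero {φ : G →* H} {A : PCx.{u, v} G} {B : PCx.{u', v'} H} (hB : B.Acyclic)
    (f : CMap φ A B) : PCon f 0 := by
  obtain ⟨v, hv, hv1⟩ := hB.1
  exact ⟨v, hv, hv1, fun T _ => ⟨∅, Set.finite_empty, 0, fun k c _ => Submodule.zero_mem _,
    fun c _ => Submodule.zero_mem _, fun k hk => absurd hk (Nat.not_lt_zero k)⟩⟩

theorem PCon.post {φ : G →* H} {ψ : H →* K} {A : PCx.{u, v} G} {B : PCx.{u', v'} H}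
    {C : PCx.{w, w'} K} {f : CMap φ A B} {n : ℕ} (hf : PCon f n) (g : CMap ψ B C) :
    PCon (g.comp f) n := by
  obtain ⟨v, hv, hv1, hf⟩ := hf
  refine ⟨g.F v, g.dg 0 v hv, by rw [g.aug, hv1], fun T hT => ?_⟩
  obtain ⟨T1, hT1, h, h1, h2, h3⟩ := hf T hT
  obtain ⟨T2, hT2, k⟩ := g.eqv.bdd T1 hT1
  refine ⟨T2, hT2, g.F.comp h, fun k c hc => g.dg _ _ (h1 k c hc), fun c hc => k _ (h2 c hc),
    fun k hk c hc hc' => ?_⟩
  rw [LinearMap.comp_apply, LinearMap.comp_apply, g.comm, ← map_add, h3 k hk c hc hc', map_sub,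
    map_smul]
  rfl

theorem PCon.pre {φ : G →* H} {ψ : H →* K} {A : PCx.{u, v} G} {B : PCx.{u', v'} H}
    {C : PCx.{w, w'} K} {g : CMap ψ B C} {n : ℕ} (hg : PCon g n) (f : CMap φ A B) :
    PCon (g.comp f) n := by
  obtain ⟨v, hv, hv1, hg⟩ := hg
  refine ⟨v, hv, hv1, fun T hT => ?_⟩
  obtain ⟨T1, hT1, k⟩ := f.eqv.bdd T hT
  obtain ⟨T2, hT2, h, h1, h2, h3⟩ := hg T1 hT1
  refine ⟨T2, hT2, h.comp f.F, fun k c hc => h1 k _ (f.dg k c hc), fun c hc => h2 _ (k c hc),
    fun j hj c hc hc' => ?_⟩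
  rw [LinearMap.comp_apply, LinearMap.comp_apply, ← f.comm, h3 j hj _ (f.dg j c hc) (k c hc'),
    f.aug]
  rfl

theorem PCon.succ {φ : G →* H} {ψ : H →* K} {A : PCx.{u, v} G} {B : PCx.{u', v'} H}
    {C : PCx.{w, w'} K} {f : CMap φ A B} {n : ℕ} (hf : PCon f n) {g : CMap ψ B C}
    (hg : Kill g n) : PCon (g.comp f) (n + 1) := by
  classical
  obtain ⟨v, hv, hv1, hf⟩ := hf
  refine ⟨g.F v, g.dg 0 v hv, by rw [g.aug, hv1], fun T hT => ?_⟩
  obtain ⟨T0, hTT0, hT0, hclo⟩ := A.exists_clo T hT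
  obtain ⟨T1, hT1, h, h1, h2, h3⟩ := hf T0 hT0
  obtain ⟨T2, hT2, k2⟩ := g.eqv.bdd T1 hT1
  obtain ⟨T3, hT3, k3⟩ := f.eqv.bdd T0 hT0
  -- the cycles to be filled
  set w : A.X → (B.X →₀ ℤ) := fun x => f.F (single x 1) - h (A.bd x) - A.ep x • v with hw
  set T4 : Set B.X := T3 ∪ T1 ∪ (v.support : Set B.X) with hT4
  have hT4f : T4.Finite := (hT3.union hT1).union (Finset.finite_toSet _)
  obtain ⟨T5, hT5, k5⟩ := hg T4 hT4f
  have hwc : ∀ x, A.deg x = n → x ∈ A.orb T0 → w x ∈ B.Cy n T4 := by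
    intro x hx hxT
    have hxs : single x (1 : ℤ) ∈ A.Bs T0 := A.single_mem_Bs hxT 1
    have hDx : A.bd x ∈ A.Bs T0 := by
      have := hclo _ hxs
      rwa [A.D_single, one_smul] at this
    have a1 : w x ∈ B.Dg n := by
      refine Submodule.sub_mem _ (Submodule.sub_mem _ (f.dg _ _ (A.single_mem_Dg hx 1)) ?_) ?_
      · rcases Nat.eq_zero_or_pos n with h0 | hpos
        · subst h0
          rw [A.bd_zero x hx, map_zero]; exact Submodule.zero_mem _
        · obtain ⟨m, rfl⟩ : ∃ m, n = m + 1 := ⟨n - 1, by omega⟩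
          exact h1 m _ (A.bd_mem x hx)
      · rcases Nat.eq_zero_or_pos n with h0 | hpos
        · subst h0; exact Submodule.smul_mem _ _ hv
        · rw [A.ep_deg x (by omega), zero_smul]; exact Submodule.zero_mem _
    refine B.mem_Cy.2 ⟨a1, ?_, ?_, ?_⟩
    · refine Submodule.sub_mem _ (Submodule.sub_mem _ ?_ ?_) (Submodule.smul_mem _ _ ?_)
      · exact B.Bs_mono (fun y hy => Or.inl (Or.inl hy)) (k3 _ hxs)
      · exact B.Bs_mono (fun y hy => Or.inl (Or.inr hy)) (h2 _ hDx)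
      · exact B.mem_Bs_of_subset Set.subset_union_right
    · rcases Nat.eq_zero_or_pos n with h0 | hpos
      · subst h0; exact B.D_zero a1
      · obtain ⟨m, rfl⟩ : ∃ m, n = m + 1 := ⟨n - 1, by omega⟩
        have e1 := h3 m (Nat.lt_succ_self m) (A.bd x) (A.bd_mem x hx) hDx
        have e2 : A.D (A.bd x) = 0 := A.bd_bd _
        have e3 : A.E (A.bd x) = 0 := A.ep_bd _
        rw [e2, map_zero, add_zero, e3, zero_smul, sub_zero] at e1
        simp only [hw]
        rw [map_sub, map_sub, f.comm, A.D_single, one_smul, e1, A.ep_deg x (by omega)]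
        simp
    · rcases Nat.eq_zero_or_pos n with h0 | hpos
      · subst h0
        simp only [hw]
        rw [map_sub, map_sub, f.aug, A.bd_zero x hx, map_zero, map_zero, map_smul, hv1,
          A.E_single]
        simp
      · exact B.E_eq_zero (by omega) a1
  have hfill : ∀ x, ∃ y : C.X →₀ ℤ, y ∈ C.Dg (n + 1) ∧ y ∈ C.Bs T5 ∧
      (A.deg x = n → x ∈ A.orb T0 → C.D y = g.F (w x)) := by
    intro x
    by_cases hx : A.deg x = n ∧ x ∈ A.orb T0
    · obtain ⟨b, hb1, hb2, hb3⟩ := C.mem_Bo.1 (k5 _ (hwc x hx.1 hx.2))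
      exact ⟨b, hb1, hb2, fun _ _ => hb3⟩
    · exact ⟨0, Submodule.zero_mem _, Submodule.zero_mem _, fun a b => absurd ⟨a, b⟩ hx⟩
  choose y hy1 hy2 hy3 using hfill
  set h' : (A.X →₀ ℤ) →ₗ[ℤ] (C.X →₀ ℤ) := Finsupp.linearCombination ℤ fun x =>
    if A.deg x = n then y x else g.F (h (single x 1)) with hh'
  have h's : ∀ x, h' (single x 1) = if A.deg x = n then y x else g.F (h (single x 1)) := by
    intro x; simp [hh']
  have h'l : ∀ k, k ≠ n → ∀ c ∈ A.Dg k, h' c = g.F (h c) := by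
    intro k hk c hc
    refine lin_ext_on (f := h') (g := g.F.comp h) _ (fun x hx => ?_) c hc
    have hx' : A.deg x = k := hx
    rw [h's, if_neg (by omega)]; rfl
  refine ⟨T2 ∪ T5, hT2.union hT5, h', ?_, ?_, ?_⟩
  · intro k c hc
    refine lin_mem_of _ _ (fun x hx => ?_) c hc
    have hx' : A.deg x = k := hx
    rw [h's]
    split_ifs with hn
    · rw [← hx', hn]; exact hy1 x
    · exact g.dg _ _ (h1 k _ (A.single_mem_Dg hx 1))
  · intro c hc
    refine lin_mem_of _ _ (fun x hx => ?_) c hc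
    rw [h's]
    split_ifs with hn
    · exact C.Bs_mono Set.subset_union_right (hy2 x)
    · exact C.Bs_mono Set.subset_union_left
        (k2 _ (h2 _ (A.single_mem_Bs (A.orb_mono hTT0 hx) 1)))
  · intro k hk c hc hcT
    have hcT0 : c ∈ A.Bs T0 := A.Bs_mono hTT0 hcT
    have hDc : h' (A.D c) = g.F (h (A.D c)) := by
      rcases Nat.eq_zero_or_pos k with h0 | hpos
      · subst h0; rw [A.D_zero hc, map_zero, map_zero, map_zero]
      · obtain ⟨m, rfl⟩ : ∃ m, k = m + 1 := ⟨k - 1, by omega⟩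
        exact h'l m (by omega) _ (A.D_mem hc)
    rcases Nat.lt_or_ge k n with hkn | hkn
    · rw [h'l k (by omega) c hc, hDc, g.comm, ← map_add, h3 k hkn c hc hcT0, map_sub, map_smul]
      rfl
    · obtain rfl : k = n := by omega
      have hcc : c ∈ Finsupp.supported ℤ ℤ ({x | A.deg x = k} ∩ A.orb T0) := by
        refine (Finsupp.mem_supported ℤ c).2 (Set.subset_inter ?_ ?_)
        · exact (Finsupp.mem_supported ℤ c).1 hc
        · exact (Finsupp.mem_supported ℤ c).1 hcT0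
      have e1 : C.D (h' c) = g.F (f.F c) - g.F (h (A.D c)) - A.E c • g.F v := by
        have := lin_ext_on (f := C.D.comp h')
          (g := g.F.comp f.F - (g.F.comp (h.comp A.D)) - A.E.smulRight (g.F v)) _
          (fun x hx => ?_) c hcc
        · simpa using this
        · obtain ⟨hx1, hx2⟩ := hx
          have hx1' : A.deg x = k := hx1
          rw [LinearMap.comp_apply, h's, if_pos hx1', hy3 x hx1' hx2]
          simp only [hw, LinearMap.sub_apply, LinearMap.comp_apply, LinearMap.smulRight_apply,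
            map_sub, map_smul, A.D_single, one_smul, A.E_single, one_mul]
      rw [e1, hDc]
      change _ = g.F (f.F c) - _
      abel

/-- A homomorphism with partial contractions. -/
def PC (φ : G →* H) (n : ℕ) : Prop :=
  ∃ f : CMap φ (Std G).toPCx (Std H).toPCx, PCon f n

theorem PC.zero (φ : G →* H) : PC φ 0 := by
  obtain ⟨f⟩ := exists_cmap φ (Std G) (Std H).toPCx (Std_acyclic H)
  exact ⟨f, PCon.zero (Std_acyclic H) f⟩

theorem PC.succ {φ : G →* H} {n : ℕ} (h : PC φ n) {ψ : H →* K} (h' : IsNull ψ n) :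
    PC (ψ.comp φ) (n + 1) := by
  obtain ⟨f, hf⟩ := h
  obtain ⟨g, hg⟩ := h'
  exact ⟨g.comp f, hf.succ hg⟩

theorem PC.comp {φ : G →* H} {n : ℕ} (h : PC φ n) (ψ : H →* K) : PC (ψ.comp φ) n := by
  obtain ⟨f, hf⟩ := h
  obtain ⟨g⟩ := exists_cmap ψ (Std H) (Std K).toPCx (Std_acyclic K)
  exact ⟨g.comp f, hf.post g⟩

theorem PC.precomp {ψ : H →* K} {n : ℕ} (h : PC ψ n) (φ : G →* H) : PC (ψ.comp φ) n := by
  obtain ⟨g, hg⟩ := h
  obtain ⟨f⟩ := exists_cmap φ (Std G) (Std H).toPCx (Std_acyclic H)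
  exact ⟨g.comp f, hg.pre f⟩

end PCon

end Crest.Agent.R185.Null
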