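import Crest.Agent.R185.Null4

/-!
# R185, null calculus, part 5: the diagonal lemma and certificates
-/

set_option autoImplicit false

namespace Crest.Agent.R185.Null

open Finsupp

universe u v w u' v' w'

section Diag

variable {G : Type u} [Group G] {H : Type u'} [Group H] {K : Type w} [Group K]

/-- The identity as a chain map from the pulled back complex. -/
noncomputable def pullC (φ : G →* H) (B : PCx.{u', v'} H) : CMap φ (B.pull φ) B where
  F := LinearMap.id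
  comm _ := rfl
  eqv _ _ := rfl
  dg _ _ hc := hc
  aug _ := rfl

/-- `f ⊗ f`. -/
noncomputable def ff {φ : G →* H} {A : PCx.{u, v} G} {B : PCx.{u', v'} H} (f : CMap φ A B) :
    CMap (φ.prodMap φ) (Ext A A) (Ext B B) where
  F := tmap f.F f.F
  comm c := by
    have : (Ext B B).D.comp (tmap f.F f.F) = (tmap f.F f.F).comp (Ext A A).D :=
      tens_ext fun x y => by
        simp only [LinearMap.comp_apply]
        rw [tmap_tp, Tens_D_tp, Tens_D_tp, map_add, tmap_tp, tmap_tp]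
        have e1 := f.comm (single x 1)
        have e2 := f.comm (single y 1)
        have e3 := sg_comm0 f.dg (single x 1)
        change tp (B.D (f.F (single x 1))) (f.F (single y 1)) +
          tp (B.sg (f.F (single x 1))) (B.D (f.F (single y 1))) = _
        rw [e1, e2, e3]
        rfl
    exact LinearMap.congr_fun this c
  eqv := by
    intro g c
    have : (tmap f.F f.F).comp ((Ext A A).tr g) =
        ((Ext B B).tr (φ.prodMap φ g)).comp (tmap f.F f.F) :=
      tens_ext fun x y => by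
        simp only [LinearMap.comp_apply]
        rw [tmap_tp, Tens_tr_tp, Tens_tr_tp, tmap_tp]
        have e1 := f.eqv g.1 (single x 1)
        have e2 := f.eqv g.2 (single y 1)
        change tp (f.F (A.tr g.1 (single x 1))) (f.F (A.tr g.2 (single y 1))) = _
        rw [e1, e2]
        rfl
    exact LinearMap.congr_fun this c
  dg n c hc := by
    refine lin_mem_of _ _ (fun p hp => ?_) c hc
    have hp' : A.deg p.1 + A.deg p.2 = n := hp
    rw [tmap_single]
    have := tp_mem_Dg (B.pull (MonoidHom.fst H H)) (B.pull (MonoidHom.snd H H))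
      (f.dg _ _ (A.single_mem_Dg (x := p.1) rfl 1)) (f.dg _ _ (A.single_mem_Dg (x := p.2) rfl 1))
    rw [hp'] at this
    exact this
  aug c := by
    have : (Ext B B).E.comp (tmap f.F f.F) = (Ext A A).E :=
      tens_ext fun x y => by
        simp only [LinearMap.comp_apply]
        rw [tmap_tp, Tens_E_tp, Tens_E_tp]
        have e1 := f.aug (single x 1)
        have e2 := f.aug (single y 1)
        change B.E (f.F (single x 1)) * B.E (f.F (single y 1)) = _
        rw [e1, e2]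
        rfl
    exact LinearMap.congr_fun this c

/-- `c ↦ μ (v ⊗ c)`. -/
noncomputable def mR {β₁ β₂ : H →* K} {hc : ∀ x y, Commute (β₁ x) (β₂ y)} {B : PCx.{u', v'} H}
    {C : PCx.{w, w'} K} (μ : CMap (MonoidHom.noncommCoprod β₁ β₂ hc) (Ext B B) C)
    (v : B.X →₀ ℤ) (hv : v ∈ B.Dg 0) (hv1 : B.E v = 1) : CMap β₂ B C where
  F := μ.F.comp (tp v)
  comm c := by
    rw [LinearMap.comp_apply, μ.comm]
    have e : (Ext B B).D (tp v c) = tp (B.D v) c + tp (B.sg v) (B.D c) := Tens_D_tp _ _ v c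
    rw [e, B.D_zero hv, B.sg_of_mem hv]
    simp
  eqv g c := by
    have e : tp v (B.tr g c) = (Ext B B).tr (1, g) (tp v c) := by
      rw [Tens_tr_tp]
      change _ = tp (B.tr 1 v) (B.tr g c)
      rw [B.tr_one]
    rw [LinearMap.comp_apply, e, μ.eqv]
    simp
  dg n c hc := by
    refine μ.dg n _ ?_
    have := tp_mem_Dg (B.pull (MonoidHom.fst H H)) (B.pull (MonoidHom.snd H H)) hv hc
    rwa [zero_add] at this
  aug c := by
    rw [LinearMap.comp_apply, μ.aug, Tens_E_tp]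
    change B.E v * B.E c = _
    rw [hv1, one_mul]

/-- `c ↦ μ (c ⊗ v)`. -/
noncomputable def mL {β₁ β₂ : H →* K} {hc : ∀ x y, Commute (β₁ x) (β₂ y)} {B : PCx.{u', v'} H}
    {C : PCx.{w, w'} K} (μ : CMap (MonoidHom.noncommCoprod β₁ β₂ hc) (Ext B B) C)
    (v : B.X →₀ ℤ) (hv : v ∈ B.Dg 0) (hv1 : B.E v = 1) : CMap β₁ B C where
  F := μ.F.comp (tp.flip v)
  comm c := by
    rw [LinearMap.comp_apply, μ.comm, LinearMap.flip_apply]
    have e : (Ext B B).D (tp c v) = tp (B.D c) v + tp (B.sg c) (B.D v) := Tens_D_tp _ _ c v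
    rw [e, B.D_zero hv]
    simp
  eqv g c := by
    have e : tp (B.tr g c) v = (Ext B B).tr (g, 1) (tp c v) := by
      rw [Tens_tr_tp]
      change _ = tp (B.tr g c) (B.tr 1 v)
      rw [B.tr_one]
    rw [LinearMap.comp_apply, LinearMap.flip_apply, e, μ.eqv]
    simp
  dg n c hc := by
    refine μ.dg n _ ?_
    rw [LinearMap.flip_apply]
    have := tp_mem_Dg (B.pull (MonoidHom.fst H H)) (B.pull (MonoidHom.snd H H)) hc hv
    rwa [add_zero] at this
  aug c := by
    rw [LinearMap.comp_apply, μ.aug, LinearMap.flip_apply, Tens_E_tp]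
    change B.E c * B.E v = _
    rw [hv1, mul_one]

/-- **The diagonal lemma.** -/
theorem diag_negl {φ : G →* H} {A : FCx.{u, v} G} (hA : A.Acyclic) {B : FCx.{u', v'} H}
    {C : PCx.{w, w'} K} (hC : C.Acyclic) (f : CMap φ A.toPCx B.toPCx) {n : ℕ} (hn : n ≠ 0)
    (hf : PCon f n) {β₁ β₂ γ : H →* K} (hc : ∀ x y, Commute (β₁ x) (β₂ y))
    (hγ : ∀ x, γ x = β₁ x * β₂ x) (F : CMap (γ.comp φ) A.toPCx C)
    (F₁ : CMap (β₁.comp φ) A.toPCx C) (F₂ : CMap (β₂.comp φ) A.toPCx C) :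
    F.F - (F₁.F + F₂.F) ∈ negl A.toPCx C n := by
  classical
  obtain ⟨v, hv, hv1, hf⟩ := hf
  obtain ⟨μ⟩ := exists_cmap (MonoidHom.noncommCoprod β₁ β₂ hc) (FExt B B) C hC
  obtain ⟨Δ⟩ := exists_cmap ((MonoidHom.id G).prod (MonoidHom.id G)) A (Ext A.toPCx A.toPCx)
    (Ext_acyclic hA hA)
  -- reduction to the canonical maps
  have hγ' : ((MonoidHom.noncommCoprod β₁ β₂ hc).comp (φ.prodMap φ)).comp
      ((MonoidHom.id G).prod (MonoidHom.id G)) = γ.comp φ := by
    ext g; simp [hγ]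
  let F' : CMap (γ.comp φ) A.toPCx C := ((μ.comp (ff f)).comp Δ).cast hγ'
  let F₁' : CMap (β₁.comp φ) A.toPCx C := (mL μ v hv hv1).comp f
  let F₂' : CMap (β₂.comp φ) A.toPCx C := (mR μ v hv hv1).comp f
  have r0 := sub_mem_negl hC F F' n
  have r1 := sub_mem_negl hC F₁' F₁ n
  have r2 := sub_mem_negl hC F₂' F₂ n
  suffices hmain : F'.F - (F₁'.F + F₂'.F) ∈ negl A.toPCx C n by
    have := Submodule.add_mem _ (Submodule.add_mem _ (Submodule.add_mem _ r0 hmain) r1) r2
    have e : F.F - F'.F + (F'.F - (F₁'.F + F₂'.F)) + (F₁'.F - F₁.F) + (F₂'.F - F₂.F) =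
        F.F - (F₁.F + F₂.F) := by abel
    rwa [e] at this
  -- homotopies for the projections
  let πL : CMap (MonoidHom.id G) A.toPCx A.toPCx :=
    (((pullC (MonoidHom.fst G G) A.toPCx).comp
      (pL (A.toPCx.pull (MonoidHom.fst G G)) (A.toPCx.pull (MonoidHom.snd G G)))).comp Δ).cast
      (by ext g; rfl)
  let πR : CMap (MonoidHom.id G) A.toPCx A.toPCx :=
    (((pullC (MonoidHom.snd G G) A.toPCx).comp
      (pR (A.toPCx.pull (MonoidHom.fst G G)) (A.toPCx.pull (MonoidHom.snd G G)))).comp Δ).cast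
      (by ext g; rfl)
  obtain ⟨g1, g1e, g1d, g1h⟩ := exists_htpy hA πL (CMap.id A.toPCx)
  obtain ⟨g2, g2e, g2d, g2h⟩ := exists_htpy hA πR (CMap.id A.toPCx)
  intro T hT
  obtain ⟨T2, hT2, kΔ⟩ := Δ.eqv.bdd T hT
  obtain ⟨Tg1, hTg1, kg1⟩ := g1e.bdd T hT
  obtain ⟨Tg2, hTg2, kg2⟩ := g2e.bdd T hT
  obtain ⟨TA, hTA, hTAf, cloA⟩ := A.exists_clo
    (T ∪ (Prod.fst '' T2 ∪ Prod.snd '' T2) ∪ (Tg1 ∪ Tg2))
    ((hT.union ((hT2.image _).union (hT2.image _))).union (hTg1.union hTg2))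
  obtain ⟨T3, hT3, h, h1, h2, h3⟩ := hf TA hTAf
  obtain ⟨T4, hT4, k4⟩ := f.eqv.bdd TA hTAf
  obtain ⟨TB, hTB, hTBf, cloB⟩ := B.exists_clo
    (T3 ∪ T4 ∪ (v.support : Set B.X)) ((hT3.union hT4).union (Finset.finite_toSet _))
  obtain ⟨T', hT', kμ⟩ := μ.eqv.bdd (TB ×ˢ TB) (hTBf.prod hTBf)
  refine ⟨T', hT', fun z hz => ?_⟩
  rw [PCx.mem_Cy] at hz
  obtain ⟨hz1, hz2, hz3, hz4⟩ := hz
  -- bounded pieces
  have bh : ∀ c ∈ A.Bs TA, h c ∈ B.Bs TB := fun c hc =>
    B.Bs_mono (fun x hx => hTB (Or.inl (Or.inl hx))) (h2 c hc)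
  have bf : ∀ c ∈ A.Bs TA, f.F c ∈ B.Bs TB := fun c hc =>
    B.Bs_mono (fun x hx => hTB (Or.inl (Or.inr hx))) (k4 c hc)
  have bv : v ∈ B.Bs TB := B.mem_Bs_of_subset fun x hx => hTB (Or.inr hx)
  set κ : (A.X →₀ ℤ) →ₗ[ℤ] (B.X →₀ ℤ) := f.F - B.D.comp h - h.comp A.D with hκ
  have κa : ∀ c, κ c = f.F c - B.D (h c) - h (A.D c) := fun c => rfl
  have bκ : ∀ c ∈ A.Bs TA, κ c ∈ B.Bs TB := fun c hc => by
    rw [κa]
    exact Submodule.sub_mem _ (Submodule.sub_mem _ (bf c hc) (cloB _ (bh c hc)))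
      (bh _ (cloA c hc))
  have κD : ∀ c, B.D (κ c) = κ (A.D c) := fun c => by
    rw [κa, κa, map_sub, map_sub, f.comm, B.D_D, A.D_D, map_zero]; abel
  have κd : ∀ k, ∀ c ∈ A.Dg k, κ c ∈ B.Dg k := by
    intro k c hc
    rw [κa]
    refine Submodule.sub_mem _ (Submodule.sub_mem _ (f.dg k c hc) (B.D_mem (h1 k c hc))) ?_
    rcases Nat.eq_zero_or_pos k with h0 | hpos
    · subst h0; rw [A.D_zero hc, map_zero]; exact Submodule.zero_mem _
    · obtain ⟨m, rfl⟩ : ∃ m, k = m + 1 := ⟨k - 1, by omega⟩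
      exact h1 m _ (A.D_mem hc)
  have κlow : ∀ k < n, ∀ c ∈ A.Dg k, c ∈ A.Bs TA → κ c = A.E c • v := by
    intro k hk c hc hc'
    have := h3 k hk c hc hc'
    rw [κa]
    have e : f.F c = A.E c • v + (B.D (h c) + h (A.D c)) := by rw [this]; abel
    rw [e]; abel
  -- the homotopy on the tensor product
  set HH : (A.X × A.X →₀ ℤ) →ₗ[ℤ] (B.X × B.X →₀ ℤ) :=
    tmap h f.F + tmap (κ.comp A.sg) h with hHH
  have id1 : ∀ w : A.X × A.X →₀ ℤ, (Ext B.toPCx B.toPCx).D (HH w) +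
      HH ((Ext A.toPCx A.toPCx).D w) = tmap f.F f.F w - tmap κ κ w := by
    intro w
    have : (Ext B.toPCx B.toPCx).D.comp HH + HH.comp (Ext A.toPCx A.toPCx).D =
        tmap f.F f.F - tmap κ κ := tens_ext fun x y => by
      simp only [LinearMap.add_apply, LinearMap.comp_apply, LinearMap.sub_apply, hHH, tmap_tp,
        map_add]
      have q1 : ∀ (a b : B.X →₀ ℤ), (Ext B.toPCx B.toPCx).D (tp a b) =
          tp (B.D a) b + tp (B.sg a) (B.D b) := fun a b => Tens_D_tp _ _ a b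
      have q2 : (Ext A.toPCx A.toPCx).D (tp (single x 1) (single y 1)) =
          tp (A.D (single x 1)) (single y 1) + tp (A.sg (single x 1)) (A.D (single y 1)) :=
        Tens_D_tp _ _ _ _
      rw [q1, q1, q2]
      set a : A.X →₀ ℤ := single x 1 with ha
      set b : A.X →₀ ℤ := single y 1 with hb
      simp only [map_add, tmap_tp, LinearMap.comp_apply]
      rw [sg_comm1 h1 a, sg_comm0 κd (A.sg a), A.sg_sg, f.comm, κD, A.sg_D, map_neg κ]
      have e1 : f.F a = κ a + (B.D (h a) + h (A.D a)) := by rw [κa]; abel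
      have e2 : f.F b = κ b + (B.D (h b) + h (A.D b)) := by rw [κa]; abel
      have e3 : tp (f.F a) (f.F b) = tp (κ a) (κ b) + tp (κ a) (B.D (h b) + h (A.D b)) +
          tp (B.D (h a) + h (A.D a)) (f.F b) := by
        conv_lhs => rw [e1, map_add, LinearMap.add_apply]
        rw [← map_add (tp (κ a)), ← e2]
      rw [e3]
      simp only [map_add, LinearMap.add_apply, map_neg, LinearMap.neg_apply]
      abel
    exact LinearMap.congr_fun this w
  have id2 : ∀ w : A.X × A.X →₀ ℤ, w ∈ (Ext A.toPCx A.toPCx).Dg n →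
      w ∈ (Ext A.toPCx A.toPCx).Bs (TA ×ˢ TA) →
      tmap κ κ w = tp v (κ (prR (A.toPCx.pull (MonoidHom.fst G G))
        (A.toPCx.pull (MonoidHom.snd G G)) w)) +
        tp (κ (prL (A.toPCx.pull (MonoidHom.fst G G))
        (A.toPCx.pull (MonoidHom.snd G G)) w)) v := by
    intro w hw1 hw2
    have hww : w ∈ Finsupp.supported ℤ ℤ ({p : A.X × A.X | A.deg p.1 + A.deg p.2 = n} ∩
        (A.orb TA ×ˢ A.orb TA)) := by
      refine (Finsupp.mem_supported ℤ w).2 (Set.subset_inter ?_ ?_)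
      · exact (Finsupp.mem_supported ℤ w).1 hw1
      · rw [← Ext_orb]
        exact (Finsupp.mem_supported ℤ w).1 hw2
    have := lin_ext_on (f := tmap κ κ) (g := ((tp v).comp κ).comp
      (prR (A.toPCx.pull (MonoidHom.fst G G)) (A.toPCx.pull (MonoidHom.snd G G))) +
      ((tp.flip v).comp κ).comp
      (prL (A.toPCx.pull (MonoidHom.fst G G)) (A.toPCx.pull (MonoidHom.snd G G)))) _
      (fun p hp => ?_) w hww
    · simpa using this
    · obtain ⟨x, y⟩ := p
      obtain ⟨hp1, hp2, hp3⟩ := hp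
      have hp1' : A.deg x + A.deg y = n := hp1
      have hp2' : x ∈ A.orb TA := hp2
      have hp3' : y ∈ A.orb TA := hp3
      have s1 : prR (A.toPCx.pull (MonoidHom.fst G G)) (A.toPCx.pull (MonoidHom.snd G G))
          (single (x, y) 1) = A.ep x • single y 1 := by
        simp [prR]
      have s2 : prL (A.toPCx.pull (MonoidHom.fst G G)) (A.toPCx.pull (MonoidHom.snd G G))
          (single (x, y) 1) = A.ep y • single x 1 := by
        simp [prL]
      simp only [tmap_single, LinearMap.add_apply, LinearMap.comp_apply, s1, s2]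
      rw [map_smul, map_smul, map_smul, LinearMap.flip_apply, map_smul, LinearMap.smul_apply]
      have kx : A.deg x < n → κ (single x 1) = A.ep x • v := fun hlt => by
        have := κlow (A.deg x) hlt (single x 1) (A.single_mem_Dg rfl 1) (A.single_mem_Bs hp2' 1)
        rwa [A.E_single, one_mul] at this
      have ky : A.deg y < n → κ (single y 1) = A.ep y • v := fun hlt => by
        have := κlow (A.deg y) hlt (single y 1) (A.single_mem_Dg rfl 1) (A.single_mem_Bs hp3' 1)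
        rwa [A.E_single, one_mul] at this
      rcases Nat.eq_zero_or_pos (A.deg x) with hx0 | hxpos
      · have hy0 : A.deg y ≠ 0 := by omega
        rw [kx (by omega), A.ep_deg y hy0, zero_smul, add_zero, map_smul, LinearMap.smul_apply]
      · rw [A.ep_deg x (by omega), zero_smul, zero_add]
        rw [ky (by omega), map_smul]
  -- the computation
  have hΔ1 : Δ.F z ∈ (Ext A.toPCx A.toPCx).Bs (TA ×ˢ TA) := by
    refine (Ext A.toPCx A.toPCx).Bs_mono ?_ (kΔ z hz2)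
    intro p hp
    refine ⟨hTA (Or.inl (Or.inr (Or.inl ⟨p, hp, rfl⟩))), hTA (Or.inl (Or.inr (Or.inr ⟨p, hp, rfl⟩)))⟩
  have hΔ2 : Δ.F z ∈ (Ext A.toPCx A.toPCx).Dg n := Δ.dg n z hz1
  have hΔ3 : (Ext A.toPCx A.toPCx).D (Δ.F z) = 0 := by rw [Δ.comm, hz3, map_zero]
  have hzTA : z ∈ A.Bs TA := A.Bs_mono (fun x hx => hTA (Or.inl (Or.inl hx))) hz2
  have hg1TA : g1 z ∈ A.Bs TA := A.Bs_mono (fun x hx => hTA (Or.inr (Or.inl hx))) (kg1 z hz2)
  have hg2TA : g2 z ∈ A.Bs TA := A.Bs_mono (fun x hx => hTA (Or.inr (Or.inr hx))) (kg2 z hz2)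
  have pLz : prL (A.toPCx.pull (MonoidHom.fst G G)) (A.toPCx.pull (MonoidHom.snd G G)) (Δ.F z) =
      z + A.D (g1 z) := by
    have := g1h z
    rw [hz3, map_zero, add_zero] at this
    rw [this]
    change _ = z + (prL _ _ (Δ.F z) - z)
    abel
  have pRz : prR (A.toPCx.pull (MonoidHom.fst G G)) (A.toPCx.pull (MonoidHom.snd G G)) (Δ.F z) =
      z + A.D (g2 z) := by
    have := g2h z
    rw [hz3, map_zero, add_zero] at this
    rw [this]
    change _ = z + (prR _ _ (Δ.F z) - z)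
    abel
  have κz : ∀ c, κ (z + A.D c) = f.F z + B.D (κ c - h z) := fun c => by
    rw [map_add, ← κD, κa z, hz3, map_zero, map_sub]; abel
  have main : tmap f.F f.F (Δ.F z) = tp v (f.F z) + tp (f.F z) v +
      (Ext B.toPCx B.toPCx).D (tp v (κ (g2 z) - h z) + tp (κ (g1 z) - h z) v + HH (Δ.F z)) := by
    have e1 := id1 (Δ.F z)
    rw [hΔ3, map_zero, add_zero] at e1
    have e2 := id2 (Δ.F z) hΔ2 hΔ1
    rw [pLz, pRz, κz, κz, map_add, map_add, LinearMap.add_apply] at e2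
    have e3 : (Ext B.toPCx B.toPCx).D (tp v (κ (g2 z) - h z)) = tp v (B.D (κ (g2 z) - h z)) := by
      have : (Ext B.toPCx B.toPCx).D (tp v (κ (g2 z) - h z)) = tp (B.D v) (κ (g2 z) - h z) +
        tp (B.sg v) (B.D (κ (g2 z) - h z)) := Tens_D_tp _ _ _ _
      rw [this, B.D_zero hv, B.sg_of_mem hv]; simp
    have e4 : (Ext B.toPCx B.toPCx).D (tp (κ (g1 z) - h z) v) = tp (B.D (κ (g1 z) - h z)) v := by
      have : (Ext B.toPCx B.toPCx).D (tp (κ (g1 z) - h z) v) = tp (B.D (κ (g1 z) - h z)) v +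
        tp (B.sg (κ (g1 z) - h z)) (B.D v) := Tens_D_tp _ _ _ _
      rw [this, B.D_zero hv]; simp
    rw [map_add, map_add, e3, e4, e1, e2]
    abel
  have hW1 : tp v (κ (g2 z) - h z) + tp (κ (g1 z) - h z) v + HH (Δ.F z) ∈
      (Ext B.toPCx B.toPCx).Dg (n + 1) := by
    refine Submodule.add_mem _ (Submodule.add_mem _ ?_ ?_) ?_
    · have := tp_mem_Dg (B.toPCx.pull (MonoidHom.fst H H)) (B.toPCx.pull (MonoidHom.snd H H)) hv
        (Submodule.sub_mem _ (κd _ _ (g2d n z hz1)) (h1 n z hz1))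
      rwa [zero_add] at this
    · have := tp_mem_Dg (B.toPCx.pull (MonoidHom.fst H H)) (B.toPCx.pull (MonoidHom.snd H H))
        (Submodule.sub_mem _ (κd _ _ (g1d n z hz1)) (h1 n z hz1)) hv
      rwa [add_zero] at this
    · refine lin_mem_of _ _ (fun p hp => ?_) _ hΔ2
      have hp' : A.deg p.1 + A.deg p.2 = n := hp
      rw [hHH, LinearMap.add_apply, tmap_single, tmap_single]
      refine Submodule.add_mem _ ?_ ?_
      · have := tp_mem_Dg (B.toPCx.pull (MonoidHom.fst H H)) (B.toPCx.pull (MonoidHom.snd H H))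
          (h1 _ _ (A.single_mem_Dg (x := p.1) rfl 1)) (f.dg _ _ (A.single_mem_Dg (x := p.2) rfl 1))
        rwa [show A.deg p.1 + 1 + A.deg p.2 = n + 1 by omega] at this
      · have := tp_mem_Dg (B.toPCx.pull (MonoidHom.fst H H)) (B.toPCx.pull (MonoidHom.snd H H))
          (κd _ _ (A.sg_mem_Dg (A.single_mem_Dg (x := p.1) rfl 1)))
          (h1 _ _ (A.single_mem_Dg (x := p.2) rfl 1))
        rwa [show A.deg p.1 + (A.deg p.2 + 1) = n + 1 by omega] at this
  have hW2 : tp v (κ (g2 z) - h z) + tp (κ (g1 z) - h z) v + HH (Δ.F z) ∈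
      (Ext B.toPCx B.toPCx).Bs (TB ×ˢ TB) := by
    refine Submodule.add_mem _ (Submodule.add_mem _ ?_ ?_) ?_
    · exact tp_mem_ExtBs bv (Submodule.sub_mem _ (bκ _ hg2TA) (bh _ hzTA))
    · exact tp_mem_ExtBs (Submodule.sub_mem _ (bκ _ hg1TA) (bh _ hzTA)) bv
    · have hΔ4 : Δ.F z ∈ Finsupp.supported ℤ ℤ (A.orb TA ×ˢ A.orb TA) := by
        rw [← Ext_orb]; exact hΔ1
      refine lin_mem_of _ _ (fun p hp => ?_) _ hΔ4
      obtain ⟨hp1, hp2⟩ := hp
      have t1 := A.single_mem_Bs hp1 1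
      have t2 := A.single_mem_Bs hp2 1
      rw [hHH, LinearMap.add_apply, tmap_single, tmap_single]
      exact Submodule.add_mem _ (tp_mem_ExtBs (bh _ t1) (bf _ t2))
        (tp_mem_ExtBs (bκ _ (A.sg_mem_Bs t1)) (bh _ t2))
  refine C.mem_Bo.2 ⟨μ.F (tp v (κ (g2 z) - h z) + tp (κ (g1 z) - h z) v + HH (Δ.F z)),
    μ.dg _ _ hW1, kμ _ hW2, ?_⟩
  rw [μ.comm]
  have e5 : (Ext B.toPCx B.toPCx).D
      (tp v (κ (g2 z) - h z) + tp (κ (g1 z) - h z) v + HH (Δ.F z)) =
      tmap f.F f.F (Δ.F z) - tp v (f.F z) - tp (f.F z) v := by rw [main]; abel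
  have e6 : (F'.F - (F₁'.F + F₂'.F)) z = μ.F (tmap f.F f.F (Δ.F z)) -
      (μ.F (tp (f.F z) v) + μ.F (tp v (f.F z))) := rfl
  rw [e6]
  refine (congrArg μ.F e5).trans ?_
  rw [map_sub, map_sub]; abel

end Diag

end Crest.Agent.R185.Null
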