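import Crest.Agent.R185.Null5

/-!
# R185, null calculus, part 6: classes of homomorphisms and certificates
-/

set_option autoImplicit false

namespace Crest.Agent.R185.Null

open Finsupp

universe u v w u' v' w'

section Classes

variable {G : Type u} [Group G] {H : Type u'} [Group H] {K : Type w} [Group K]

/-- The class of a homomorphism modulo negligible maps. -/
noncomputable def cl (φ : G →* H) (n : ℕ) : NQ (Std G).toPCx (Std H).toPCx n :=
  Submodule.Quotient.mk
    (Classical.choice (exists_cmap φ (Std G) (Std H).toPCx (Std_acyclic H))).F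

theorem cl_eq {φ : G →* H} (n : ℕ) (f : CMap φ (Std G).toPCx (Std H).toPCx) :
    cl φ n = Submodule.Quotient.mk f.F :=
  (Submodule.Quotient.eq _).2 (sub_mem_negl (Std_acyclic H) _ _ n)

theorem cl_eq_zero {φ : G →* H} {n : ℕ} : cl φ n = 0 ↔ IsNull φ n := by
  constructor
  · intro h
    exact ⟨_, (Submodule.Quotient.mk_eq_zero _).1 h⟩
  · rintro ⟨f, hf⟩
    rw [cl_eq n f]
    exact (Submodule.Quotient.mk_eq_zero _).2 hf

/-- **Additivity.** -/
theorem cl_mul {φ : G →* H} {n : ℕ} (hφ : PC φ n) (hn : n ≠ 0) {β₁ β₂ γ : H →* K}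
    (hc : ∀ x y, Commute (β₁ x) (β₂ y)) (hγ : ∀ x, γ x = β₁ x * β₂ x) :
    cl (γ.comp φ) n = cl (β₁.comp φ) n + cl (β₂.comp φ) n := by
  obtain ⟨f, hf⟩ := hφ
  have := diag_negl (Std_acyclic G) (Std_acyclic K) f hn hf hc hγ
    (Classical.choice (exists_cmap (γ.comp φ) (Std G) (Std K).toPCx (Std_acyclic K)))
    (Classical.choice (exists_cmap (β₁.comp φ) (Std G) (Std K).toPCx (Std_acyclic K)))
    (Classical.choice (exists_cmap (β₂.comp φ) (Std G) (Std K).toPCx (Std_acyclic K)))
  exact (Submodule.Quotient.eq _).2 this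

/-- The action of `H` on classes. -/
noncomputable def ctr (A : PCx.{u, v} G) (B : PCx.{u', v'} H) (n : ℕ) (k : H) :
    NQ A B n →ₗ[ℤ] NQ A B n :=
  Submodule.mapQ (negl A B n) (negl A B n)
    { toFun := fun e => (B.tr k).comp e
      map_add' := fun _ _ => LinearMap.comp_add _ _ _
      map_smul' := fun _ _ => LinearMap.comp_smul _ _ _ }
    (fun _ he => negl_tr he k)

theorem cl_conj {φ ψ : G →* H} (n : ℕ) (k : H) (h : ∀ g, k * φ g * k⁻¹ = ψ g) :
    cl ψ n = ctr _ _ n k (cl φ n) := by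
  obtain ⟨f⟩ := exists_cmap φ (Std G) (Std H).toPCx (Std_acyclic H)
  have e : (MulAut.conj k).toMonoidHom.comp φ = ψ := by ext g; simp [h]
  rw [cl_eq n f, cl_eq n ((f.conj k).cast e)]
  rfl

theorem cl_one {φ : G →* H} {n : ℕ} (hφ : PC φ n) (hn : n ≠ 0) :
    cl ((1 : H →* K).comp φ) n = 0 := by
  have := cl_mul (K := K) hφ hn (β₁ := 1) (β₂ := 1) (γ := 1) (fun x y => Commute.one_left _)
    (fun x => by simp)
  simpa using this

/-- Additivity for finitely many pairwise commuting homomorphisms. -/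
theorem cl_prod_aux {φ : G →* H} {n : ℕ} (hφ : PC φ n) (hn : n ≠ 0) (m : ℕ) :
    ∀ v : Fin m → (H →* K), (∀ i j, i ≠ j → ∀ x y, Commute (v i x) (v j y)) →
      ∃ γ : H →* K, (∀ x, γ x = (List.ofFn fun i => v i x).prod) ∧
        cl (γ.comp φ) n = ∑ i, cl ((v i).comp φ) n := by
  induction m with
  | zero =>
    intro v _
    exact ⟨1, fun x => by simp, by rw [cl_one hφ hn]; simp⟩
  | succ m ih =>
    intro v hv
    obtain ⟨γ', h1, h2⟩ := ih (fun i => v i.succ)
      (fun i j hij x y => hv _ _ (fun h => hij (Fin.succ_injective _ h)) x y)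
    have hc : ∀ x y, Commute (v 0 x) (γ' y) := by
      intro x y
      rw [h1]
      refine Commute.list_prod_right _ _ fun z hz => ?_
      rw [List.mem_ofFn] at hz
      obtain ⟨i, rfl⟩ := hz
      exact hv 0 i.succ (Fin.succ_ne_zero i).symm x y
    refine ⟨(MonoidHom.noncommCoprod (v 0) γ' hc).comp ((MonoidHom.id H).prod (MonoidHom.id H)),
      fun x => by simp [h1, List.ofFn_succ], ?_⟩
    rw [cl_mul hφ hn hc (γ := (MonoidHom.noncommCoprod (v 0) γ' hc).comp
      ((MonoidHom.id H).prod (MonoidHom.id H))) (fun x => by simp), h2, Fin.sum_univ_succ]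

theorem cl_prod {φ : G →* H} {n : ℕ} (hφ : PC φ n) (hn : n ≠ 0) {m : ℕ}
    (v : Fin m → (H →* K)) (hv : ∀ i j, i ≠ j → ∀ x y, Commute (v i x) (v j y))
    (γ : H →* K) (hγ : ∀ x, γ x = (List.ofFn fun i => v i x).prod) :
    cl (γ.comp φ) n = ∑ i, cl ((v i).comp φ) n := by
  obtain ⟨γ', h1, h2⟩ := cl_prod_aux hφ hn m v hv
  have : γ = γ' := by ext x; rw [hγ, h1]
  rw [this, h2]

/-- The rook identity: rows and columns of an array have the same total class. -/
theorem rook_sum {φ : G →* H} {n : ℕ} (hφ : PC φ n) (hn : n ≠ 0) {m m' : ℕ}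
    (v : Fin m → Fin m' → (H →* K))
    (hrow : ∀ i j j', j ≠ j' → ∀ x y, Commute (v i j x) (v i j' y))
    (hcol : ∀ i i' j, i ≠ i' → ∀ x y, Commute (v i j x) (v i' j y))
    (r : Fin m → (H →* K)) (hr : ∀ i x, r i x = (List.ofFn fun j => v i j x).prod)
    (c : Fin m' → (H →* K)) (hc : ∀ j x, c j x = (List.ofFn fun i => v i j x).prod) :
    ∑ i, cl ((r i).comp φ) n = ∑ j, cl ((c j).comp φ) n := by
  have h1 : ∀ i, cl ((r i).comp φ) n = ∑ j, cl ((v i j).comp φ) n := fun i =>
    cl_prod hφ hn (v i) (hrow i) (r i) (hr i)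
  have h2 : ∀ j, cl ((c j).comp φ) n = ∑ i, cl ((v i j).comp φ) n := fun j =>
    cl_prod hφ hn (fun i => v i j) (fun i i' h => hcol i i' j h) (c j) (hc j)
  simp only [h1, h2]
  exact Finset.sum_comm

/-- **The rook certificate** (helper681's form). -/
theorem rook_null {φ : G →* H} {n : ℕ} (hφ : PC φ n) (hn : n ≠ 0) {m : ℕ}
    (v : Fin m → Fin (m + 1) → (H →* K))
    (hrow : ∀ i j j', j ≠ j' → ∀ x y, Commute (v i j x) (v i j' y))
    (hcol : ∀ i i' j, i ≠ i' → ∀ x y, Commute (v i j x) (v i' j y))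
    (r : Fin m → (H →* K)) (hr : ∀ i x, r i x = (List.ofFn fun j => v i j x).prod)
    (c : Fin (m + 1) → (H →* K)) (hc : ∀ j x, c j x = (List.ofFn fun i => v i j x).prod)
    (β : H →* K) (hrβ : ∀ i x y, Commute (r i x) (β y)) (hcβ : ∀ j x y, Commute (c j x) (β y))
    (s : K) (hsr : ∀ i x, s * r i x * s⁻¹ = r i x * β x)
    (hsc : ∀ j x, s * c j x * s⁻¹ = c j x * β x) : IsNull (β.comp φ) n := by
  rw [← cl_eq_zero]
  have e0 := rook_sum hφ hn v hrow hcol r hr c hc
  -- conjugated homs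
  have er : ∀ i, ctr _ _ n s (cl ((r i).comp φ) n) =
      cl ((r i).comp φ) n + cl (β.comp φ) n := by
    intro i
    have h1 : ∀ x, ((MulAut.conj s).toMonoidHom.comp (r i)) x = r i x * β x := fun x => by
      simp [hsr]
    rw [← cl_mul hφ hn (γ := (MulAut.conj s).toMonoidHom.comp (r i)) (hrβ i) h1]
    exact (cl_conj n s (fun g => by simp)).symm
  have ec : ∀ j, ctr _ _ n s (cl ((c j).comp φ) n) =
      cl ((c j).comp φ) n + cl (β.comp φ) n := by
    intro j
    have h1 : ∀ x, ((MulAut.conj s).toMonoidHom.comp (c j)) x = c j x * β x := fun x => by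
      simp [hsc]
    rw [← cl_mul hφ hn (γ := (MulAut.conj s).toMonoidHom.comp (c j)) (hcβ j) h1]
    exact (cl_conj n s (fun g => by simp)).symm
  have e1 := congrArg (ctr _ _ n s) e0
  rw [map_sum, map_sum] at e1
  simp only [er, ec, Finset.sum_add_distrib] at e1
  rw [e0] at e1
  have e2 := add_left_cancel e1
  simp only [Finset.sum_const, Finset.card_univ, Fintype.card_fin] at e2
  rw [succ_nsmul] at e2
  exact (left_eq_add.1 e2)

/-- **The rook certificate** (helper144's HNN form). -/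
theorem rook_null' {φ : G →* H} {n : ℕ} (hφ : PC φ n) (hn : n ≠ 0) {m : ℕ}
    (v : Fin m → Fin (m + 1) → (H →* K))
    (hrow : ∀ i j j', j ≠ j' → ∀ x y, Commute (v i j x) (v i j' y))
    (hcol : ∀ i i' j, i ≠ i' → ∀ x y, Commute (v i j x) (v i' j y))
    (r : Fin m → (H →* K)) (hr : ∀ i x, r i x = (List.ofFn fun j => v i j x).prod)
    (c : Fin (m + 1) → (H →* K)) (hc : ∀ j x, c j x = (List.ofFn fun i => v i j x).prod)
    (β : H →* K) (a : Fin m → K) (b : Fin (m + 1) → K)
    (haa : ∀ i x, a i * r i x * (a i)⁻¹ = β x)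
    (haa' : ∀ i i', i' ≠ i → ∀ x, a i * r i' x * (a i)⁻¹ = r i' x)
    (hac : ∀ i j x, a i * c j x * (a i)⁻¹ = c j x)
    (hbb : ∀ j x, b j * c j x * (b j)⁻¹ = β x)
    (hbb' : ∀ j j', j' ≠ j → ∀ x, b j * c j' x * (b j)⁻¹ = c j' x)
    (hbr : ∀ j i x, b j * r i x * (b j)⁻¹ = r i x) : IsNull (β.comp φ) n := by
  classical
  rw [← cl_eq_zero]
  have e0 := rook_sum hφ hn v hrow hcol r hr c hc
  have er : ∀ i, cl ((r i).comp φ) n = cl (β.comp φ) n := by
    intro i
    have e1 := congrArg (ctr _ _ n (a i)) e0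
    rw [map_sum, map_sum] at e1
    have k1 : ∀ j, ctr _ _ n (a i) (cl ((c j).comp φ) n) = cl ((c j).comp φ) n := fun j =>
      (cl_conj n (a i) (fun g => by simp [hac])).symm
    have k2 : ∀ i', i' ≠ i → ctr _ _ n (a i) (cl ((r i').comp φ) n) = cl ((r i').comp φ) n :=
      fun i' h => (cl_conj n (a i) (fun g => by simp [haa' i i' h])).symm
    have k3 : ctr _ _ n (a i) (cl ((r i).comp φ) n) = cl (β.comp φ) n :=
      (cl_conj n (a i) (fun g => by simp [haa])).symm
    simp only [k1] at e1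
    rw [← e0, ← Finset.add_sum_erase _ _ (Finset.mem_univ i),
      ← Finset.add_sum_erase _ (fun i => cl ((r i).comp φ) n) (Finset.mem_univ i), k3] at e1
    rw [Finset.sum_congr rfl (fun i' hi' => k2 i' (Finset.ne_of_mem_erase hi'))] at e1
    exact (add_right_cancel e1).symm
  have ec : ∀ j, cl ((c j).comp φ) n = cl (β.comp φ) n := by
    intro j
    have e1 := congrArg (ctr _ _ n (b j)) e0
    rw [map_sum, map_sum] at e1
    have k1 : ∀ i, ctr _ _ n (b j) (cl ((r i).comp φ) n) = cl ((r i).comp φ) n := fun i =>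
      (cl_conj n (b j) (fun g => by simp [hbr])).symm
    have k2 : ∀ j', j' ≠ j → ctr _ _ n (b j) (cl ((c j').comp φ) n) = cl ((c j').comp φ) n :=
      fun j' h => (cl_conj n (b j) (fun g => by simp [hbb' j j' h])).symm
    have k3 : ctr _ _ n (b j) (cl ((c j).comp φ) n) = cl (β.comp φ) n :=
      (cl_conj n (b j) (fun g => by simp [hbb])).symm
    simp only [k1] at e1
    rw [e0, ← Finset.add_sum_erase _ _ (Finset.mem_univ j),
      ← Finset.add_sum_erase _ (fun j => ctr _ _ n (b _) (cl ((c j).comp φ) n))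
      (Finset.mem_univ j), k3] at e1
    rw [Finset.sum_congr rfl (fun j' hj' => k2 j' (Finset.ne_of_mem_erase hj'))] at e1
    exact add_right_cancel e1
  simp only [er, ec, Finset.sum_const, Finset.card_univ, Fintype.card_fin] at e0
  rw [succ_nsmul] at e0
  exact left_eq_add.1 e0

end Classes

/-! ## Null in all degrees -/

section Powers

variable {U : Type u} [Group U]

/-- Iterates of an endomorphism. -/
def ipow (ψ : U →* U) : ℕ → (U →* U)
  | 0 => MonoidHom.id U
  | n + 1 => ψ.comp (ipow ψ n)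

theorem ipow_add (ψ : U →* U) (m n : ℕ) : ipow ψ (m + n) = (ipow ψ m).comp (ipow ψ n) := by
  induction m with
  | zero => rw [Nat.zero_add]; rfl
  | succ m ih => rw [Nat.succ_add, ipow, ih]; rfl

theorem ipow_one (ψ : U →* U) : ipow ψ 1 = ψ := rfl

/-- Telescope: an endomorphism which becomes `n`-null after lower null maps. -/
theorem exists_pow_null (ψ : U →* U) (h0 : IsNull (MonoidHom.id U) 0)
    (h : ∀ n, n ≠ 0 → ∀ φ : U →* U, PC φ n → IsNull (ψ.comp φ) n) :
    ∀ n, ∃ N : ℕ, IsNull (ipow ψ N) n := by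
  have key : ∀ n, (∃ N : ℕ, PC (ipow ψ N) n) := by
    intro n
    induction n with
    | zero => exact ⟨0, PC.zero _⟩
    | succ n ih =>
      obtain ⟨N, hN⟩ := ih
      rcases Nat.eq_zero_or_pos n with h0' | hpos
      · subst h0'
        refine ⟨0 + N, ?_⟩
        rw [ipow_add]
        exact hN.succ (ψ := ipow ψ 0) h0
      · have := h n (by omega) _ hN
        refine ⟨(N + 1) + N, ?_⟩
        rw [ipow_add]
        exact hN.succ (ψ := ipow ψ (N + 1)) this
  intro n
  rcases Nat.eq_zero_or_pos n with h0' | hpos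
  · subst h0'; exact ⟨0, h0⟩
  · obtain ⟨N, hN⟩ := key n
    exact ⟨N + 1, h n (by omega) _ hN⟩

/-- Self-similar endomorphisms: `β ∘ β` is conjugate to `β`. -/
theorem null_of_conj_sq (β : U →* U) (h0 : IsNull β 0) (g : U)
    (hg : ∀ x, β (β x) = g * β x * g⁻¹)
    (h : ∀ n, n ≠ 0 → ∀ φ : U →* U, PC φ n → IsNull (β.comp φ) n) :
    ∀ n, IsNull β n := by
  have key : ∀ n, PC β n ∧ IsNull β n := by
    intro n
    -- `β` is conjugate to `β ∘ β`
    have hconj : ∀ n, IsNull (β.comp β) n → IsNull β n := fun n hn =>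
      hn.of_conj g⁻¹ (fun x => by simp [hg]; group)
    have hpconj : ∀ n, PC (β.comp β) n → PC β n := by
      intro n hn
      have := hn.comp (MulAut.conj g⁻¹).toMonoidHom
      have e : (MulAut.conj g⁻¹).toMonoidHom.comp (β.comp β) = β := by
        ext x; simp [hg]; group
      rwa [e] at this
    induction n with
    | zero => exact ⟨PC.zero _, h0⟩
    | succ n ih =>
      have hp : PC β (n + 1) := hpconj _ (ih.1.succ ih.2)
      exact ⟨hp, hconj _ (h (n + 1) (by omega) β hp)⟩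
  exact fun n => (key n).2

end Powers

end Crest.Agent.R185.Null
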