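import Crest.Agent.R185.Null6

/-!
# R185, null calculus, part 7: subcomplexes, simplicial maps, decomposition by classes, cones
-/

set_option autoImplicit false

namespace Crest.Agent.R185.Null

open Finsupp

universe u v w u' v' w'

/-! ## Subcomplexes -/

section Sub

variable {G : Type u} [Group G] (A : PCx.{u, v} G)

/-- The inclusion of chains. -/
noncomputable def inc (S : Set A.X) : (S →₀ ℤ) →ₗ[ℤ] (A.X →₀ ℤ) :=
  Finsupp.lmapDomain ℤ ℤ Subtype.val

theorem inc_inj (S : Set A.X) : Function.Injective (inc A S) :=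
  Finsupp.mapDomain_injective Subtype.val_injective

theorem inc_single (S : Set A.X) (x : S) (n : ℤ) : inc A S (single x n) = single x.1 n := by
  simp [inc]

theorem inc_mem (S : Set A.X) (c : S →₀ ℤ) : inc A S c ∈ Finsupp.supported ℤ ℤ S := by
  have h : c ∈ Finsupp.supported ℤ ℤ (Set.univ : Set S) := by simp
  exact lin_mem_of _ _ (fun x _ => by
    rw [inc_single]; exact Finsupp.single_mem_supported ℤ 1 x.2) c h

/-- Restriction of a chain. -/
noncomputable def res (S : Set A.X) (c : A.X →₀ ℤ) : S →₀ ℤ :=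
  c.comapDomain Subtype.val Subtype.val_injective.injOn

theorem inc_res (S : Set A.X) (c : A.X →₀ ℤ) (hc : c ∈ Finsupp.supported ℤ ℤ S) :
    inc A S (res A S c) = c :=
  Finsupp.mapDomain_comapDomain _ Subtype.val_injective _ (by
    rw [Subtype.range_val]; exact (Finsupp.mem_supported ℤ c).1 hc)

/-- A subset which spans a subcomplex. -/
structure IsSub (S : Set A.X) : Prop where
  sm : ∀ g x, x ∈ S → A.sm g x ∈ S
  bd : ∀ x ∈ S, A.bd x ∈ Finsupp.supported ℤ ℤ S

variable {A}

theorem inc_lift {S : Set A.X} (hS : IsSub A S) (x : S) :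
    inc A S (res A S (A.bd x)) = A.bd x := inc_res A S _ (hS.bd x.1 x.2)

theorem inc_sm {S : Set A.X} (hS : IsSub A S) (g : G) (c : S →₀ ℤ) :
    inc A S (c.mapDomain fun x => ⟨A.sm g x.1, hS.sm g x.1 x.2⟩) = A.tr g (inc A S c) := by
  have : (inc A S).comp (Finsupp.lmapDomain ℤ ℤ fun x => ⟨A.sm g x.1, hS.sm g x.1 x.2⟩) =
      (A.tr g).comp (inc A S) := lin_ext fun x => by
    simp [inc]
  exact LinearMap.congr_fun this c

theorem inc_D {S : Set A.X} (hS : IsSub A S) (c : S →₀ ℤ) :
    inc A S (Finsupp.linearCombination ℤ (fun x : S => res A S (A.bd x)) c) =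
      A.D (inc A S c) := by
  have : (inc A S).comp (Finsupp.linearCombination ℤ (fun x : S => res A S (A.bd x))) =
      A.D.comp (inc A S) := lin_ext fun x => by
    simp only [LinearMap.comp_apply, Finsupp.linearCombination_single, one_smul]
    rw [inc_lift hS, inc_single, A.D_single, one_smul]
  exact LinearMap.congr_fun this c

theorem inc_E {S : Set A.X} (c : S →₀ ℤ) :
    Finsupp.linearCombination ℤ (fun x : S => A.ep x.1) c = A.E (inc A S c) := by
  have : Finsupp.linearCombination ℤ (fun x : S => A.ep x.1) =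
      A.E.comp (inc A S) := lin_ext fun x => by
    simp [inc_single]
  exact LinearMap.congr_fun this c

/-- The subcomplex. -/
@[reducible] noncomputable def PCx.sub (A : PCx.{u, v} G) (S : Set A.X) (hS : IsSub A S) :
    PCx.{u, v} G where
  X := S
  sm g x := ⟨A.sm g x.1, hS.sm g x.1 x.2⟩
  sm_one x := Subtype.ext (A.sm_one _)
  sm_mul g h x := Subtype.ext (A.sm_mul _ _ _)
  deg x := A.deg x.1
  deg_sm g x := A.deg_sm _ _
  bd x := res A S (A.bd x)
  bd_sm g x := inc_inj A S (by
    rw [inc_sm hS, inc_lift hS, inc_lift hS, A.bd_sm]; rfl)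
  bd_deg x y hy := by
    refine A.bd_deg x.1 y.1 ?_
    rw [Finsupp.mem_support_iff] at hy ⊢
    exact hy
  bd_bd x := inc_inj A S (by
    rw [inc_D hS, inc_lift hS, map_zero]; exact A.bd_bd _)
  ep x := A.ep x.1
  ep_sm g x := A.ep_sm _ _
  ep_deg x hx := A.ep_deg _ hx
  ep_bd x := by
    rw [inc_E, inc_lift hS]; exact A.ep_bd _

theorem sub_D {S : Set A.X} (hS : IsSub A S) (c : S →₀ ℤ) :
    inc A S ((A.sub S hS).D c) = A.D (inc A S c) := inc_D hS c

theorem sub_E {S : Set A.X} (hS : IsSub A S) (c : S →₀ ℤ) :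
    (A.sub S hS).E c = A.E (inc A S c) := inc_E c

theorem sub_tr {S : Set A.X} (hS : IsSub A S) (g : G) (c : S →₀ ℤ) :
    inc A S ((A.sub S hS).tr g c) = A.tr g (inc A S c) := inc_sm hS g c

end Sub

/-! ## Simplicial maps -/

section Simplicial

variable {G : Type u} [Group G] {H : Type u'} [Group H]

/-- The map on tuples induced by a map of points. -/
def mapX {O : Type v} {O' : Type w} (f : O → O') (x : O × List O) : O' × List O' :=
  (f x.1, x.2.map f)

theorem Simp_D_s {O : Type v} [MulAction G O] (x : O × List O) :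
    (Simp G O).D (single x 1) = sbd x.2 x.1 :=
  ((Simp G O).D_single x 1).trans (one_smul _ _)

theorem Simp_E_s {O : Type v} [MulAction G O] (x : O × List O) :
    (Simp G O).E (single x 1) = sep x :=
  ((Simp G O).E_single x 1).trans (one_mul _)

theorem Simp_tr_s {O : Type v} [MulAction G O] (g : G) (x : O × List O) :
    (Simp G O).tr g (single x 1) = single (smX g x) 1 :=
  (Simp G O).tr_single g x 1

/-- The chain map induced by an equivariant map of points. -/
noncomputable def simpMap (φ : G →* H) {O : Type v} {O' : Type w} [MulAction G O]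
    [MulAction H O'] (f : O → O') (hf : ∀ g o, f (g • o) = φ g • f o) :
    CMap φ (Simp G O) (Simp H O') where
  F := Finsupp.lmapDomain ℤ ℤ (mapX f)
  comm c := by
    have : (Simp H O').D.comp (Finsupp.lmapDomain ℤ ℤ (mapX f)) =
        (Finsupp.lmapDomain ℤ ℤ (mapX f)).comp (Simp G O).D := lin_ext fun x => by
      rw [LinearMap.comp_apply, LinearMap.comp_apply, Simp_D_s, Finsupp.lmapDomain_apply,
        Finsupp.mapDomain_single, Simp_D_s]
      exact sbd_map f x.2 x.1
    exact LinearMap.congr_fun this c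
  eqv := by
    refine Eqv.of_single fun g x => ?_
    rw [Finsupp.lmapDomain_apply, Finsupp.lmapDomain_apply, Finsupp.mapDomain_single,
      Finsupp.mapDomain_single, Simp_tr_s]
    congr 1
    simp only [mapX, smX, hf, List.map_map]
    congr 1
    refine List.map_congr_left fun o _ => ?_
    exact hf g o
  dg n c hc := by
    refine lin_mem_of _ _ (fun x hx => ?_) c hc
    rw [Finsupp.lmapDomain_apply, Finsupp.mapDomain_single]
    refine PCx.single_mem_Dg _ ?_ 1
    have hx' : x.2.length = n := hx
    simp [mapX, hx']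
  aug c := by
    have : (Simp H O').E.comp (Finsupp.lmapDomain ℤ ℤ (mapX f)) = (Simp G O).E :=
      lin_ext fun x => by
        rw [LinearMap.comp_apply, Finsupp.lmapDomain_apply, Finsupp.mapDomain_single, Simp_E_s,
          Simp_E_s]
        simp [sep, mapX]
    exact LinearMap.congr_fun this c

@[simp] theorem simpMap_single (φ : G →* H) {O : Type v} {O' : Type w} [MulAction G O]
    [MulAction H O'] (f : O → O') (hf : ∀ g o, f (g • o) = φ g • f o) (x : O × List O) (n : ℤ) :
    (simpMap φ f hf).F (single x n) = single (mapX f x) n := by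
  simp [simpMap]

/-- The standard chain map of a homomorphism. -/
noncomputable def stdMap (φ : G →* H) : CMap φ (Std G).toPCx (Std H).toPCx :=
  simpMap φ φ (fun g o => map_mul φ g o)

end Simplicial

/-! ## Decomposition by classes -/

section Decomp

variable {X : Type v} {I : Type w}

open Classical in
/-- The component in the class `i`. -/
noncomputable def flt (κ : X → I) (i : I) : (X →₀ ℤ) →ₗ[ℤ] (X →₀ ℤ) :=
  Finsupp.linearCombination ℤ fun x => if κ x = i then single x 1 else 0

open Classical in
theorem flt_single (κ : X → I) (i : I) (x : X) :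
    flt κ i (single x 1) = if κ x = i then single x 1 else 0 := by
  simp [flt]

theorem flt_mem (κ : X → I) (i : I) {s : Set X} {c : X →₀ ℤ}
    (hc : c ∈ Finsupp.supported ℤ ℤ s) :
    flt κ i c ∈ Finsupp.supported ℤ ℤ ({x | κ x = i} ∩ s) := by
  classical
  refine lin_mem_of _ _ (fun x hx => ?_) c hc
  rw [flt_single]
  split_ifs with h
  · exact Finsupp.single_mem_supported ℤ 1 ⟨h, hx⟩
  · exact Submodule.zero_mem _

theorem flt_mem' (κ : X → I) (i : I) {s : Set X} {c : X →₀ ℤ}
    (hc : c ∈ Finsupp.supported ℤ ℤ s) : flt κ i c ∈ Finsupp.supported ℤ ℤ s :=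
  Finsupp.supported_mono Set.inter_subset_right (flt_mem κ i hc)

/-- An operator preserving classes commutes with the components. -/
theorem flt_comm (κ : X → I) (i : I) (D : (X →₀ ℤ) →ₗ[ℤ] (X →₀ ℤ))
    (hD : ∀ x, D (single x 1) ∈ Finsupp.supported ℤ ℤ {y | κ y = κ x}) (c : X →₀ ℤ) :
    D (flt κ i c) = flt κ i (D c) := by
  classical
  have : D.comp (flt κ i) = (flt κ i).comp D := lin_ext fun x => by
    simp only [LinearMap.comp_apply, flt_single]
    split_ifs with h
    · refine (lin_ext_on (f := flt κ i) (g := LinearMap.id) _ (fun y hy => ?_) _ (hD x)).symm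
      have hy' : κ y = κ x := hy
      rw [flt_single, if_pos (hy'.trans h)]; rfl
    · rw [map_zero]
      refine (lin_ext_on (f := flt κ i) (g := 0) _ (fun y hy => ?_) _ (hD x)).symm
      have hy' : κ y = κ x := hy
      rw [flt_single, if_neg (fun e => h (hy'.symm.trans e))]; rfl
  exact LinearMap.congr_fun this c

open Classical in
theorem sum_flt (κ : X → I) (c : X →₀ ℤ) :
    ∑ i ∈ c.support.image κ, flt κ i c = c := by
  have h : c ∈ Finsupp.supported ℤ ℤ {x | κ x ∈ c.support.image κ} := by
    refine (Finsupp.mem_supported ℤ c).2 fun x hx => ?_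
    exact Finset.mem_image_of_mem κ hx
  have := lin_ext_on (f := ∑ i ∈ c.support.image κ, flt κ i) (g := LinearMap.id) _
    (fun x hx => ?_) c h
  · simpa using this
  · have hx' : κ x ∈ c.support.image κ := hx
    rw [LinearMap.sum_apply, LinearMap.id_apply]
    simp only [flt_single]
    rw [Finset.sum_ite_eq, if_pos hx']

/-- Decomposition principle. -/
theorem flt_induction {M : Type*} [AddCommGroup M] (κ : X → I) (F : (X →₀ ℤ) →ₗ[ℤ] M)
    (N : Submodule ℤ M) (c : X →₀ ℤ) (h : ∀ i, F (flt κ i c) ∈ N) : F c ∈ N := by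
  classical
  rw [← sum_flt κ c, map_sum]
  exact Submodule.sum_mem _ fun i _ => h i

end Decomp

end Crest.Agent.R185.Null
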