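import Crest.Agent.R185.Null7

/-!
# R185, null calculus, part 8: mapping tori (ascending HNN extensions)
-/

set_option autoImplicit false

namespace Crest.Agent.R185.Null

open Finsupp

universe u v w u' v' w'

/-! ## Restricting the codomain of a chain map -/

section CodRes

variable {G : Type u} [Group G] {H : Type u'} [Group H]

/-- Corestriction of a chain map to a subcomplex. -/
noncomputable def CMap.cod {φ : G →* H} {A : PCx.{u, v} G} {B : PCx.{u', v'} H} (f : CMap φ A B)
    (S : Set B.X) (hS : IsSub B S) (h : ∀ x, f.F (single x 1) ∈ Finsupp.supported ℤ ℤ S) :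
    CMap φ A (B.sub S hS) := by
  have key : ∀ c, inc B S (Finsupp.linearCombination ℤ
      (fun x => res B S (f.F (single x 1))) c) = f.F c := by
    intro c
    have : (inc B S).comp (Finsupp.linearCombination ℤ
      (fun x => res B S (f.F (single x 1)))) = f.F := lin_ext fun x => by
      rw [LinearMap.comp_apply, Finsupp.linearCombination_single, one_smul,
        inc_res B S _ (h x)]
    exact LinearMap.congr_fun this c
  exact
    { F := Finsupp.linearCombination ℤ (fun x => res B S (f.F (single x 1)))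
      comm := fun c => inc_inj B S (by
        rw [sub_D, key, key, f.comm])
      eqv := fun g c => inc_inj B S (by
        rw [sub_tr, key, key]; exact f.eqv g c)
      dg := fun n c hc => by
        have h1 : inc B S (Finsupp.linearCombination ℤ
          (fun x => res B S (f.F (single x 1))) c) ∈ B.Dg n := by
          rw [key]; exact f.dg n c hc
        refine (Finsupp.mem_supported ℤ _).2 fun x hx => ?_
        have h2 := (Finsupp.mem_supported ℤ _).1 h1
        have : x.1 ∈ (inc B S (Finsupp.linearCombination ℤ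
          (fun x => res B S (f.F (single x 1))) c)).support := by
          rw [Finsupp.mem_support_iff]
          change Finsupp.mapDomain Subtype.val _ x.1 ≠ 0
          rw [Finsupp.mapDomain_apply Subtype.val_injective]
          exact Finsupp.mem_support_iff.1 hx
        exact h2 this
      aug := fun c => by
        rw [sub_E, key, f.aug] }

theorem CMap.inc_cod {φ : G →* H} {A : PCx.{u, v} G} {B : PCx.{u', v'} H} (f : CMap φ A B)
    (S : Set B.X) (hS : IsSub B S) (h : ∀ x, f.F (single x 1) ∈ Finsupp.supported ℤ ℤ S)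
    (c : A.X →₀ ℤ) : inc B S ((f.cod S hS h).F c) = f.F c := by
  have : (inc B S).comp (Finsupp.linearCombination ℤ
    (fun x => res B S (f.F (single x 1)))) = f.F := lin_ext fun x => by
    rw [LinearMap.comp_apply, Finsupp.linearCombination_single, one_smul,
      inc_res B S _ (h x)]
  exact LinearMap.congr_fun this c

end CodRes

/-! ## Cones of `1 - p` -/

section Cone

variable {G : Type u} [Group G]

/-- An equivariant basis map commuting with everything. -/
structure BMap (M : PCx.{u, v} G) where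
  p : M.X → M.X
  sm : ∀ g x, p (M.sm g x) = M.sm g (p x)
  deg : ∀ x, M.deg (p x) = M.deg x
  bd : ∀ x, M.bd (p x) = (M.bd x).mapDomain p
  ep : ∀ x, M.ep (p x) = M.ep x

variable {M : PCx.{u, v} G} (P : BMap M)

/-- The linear extension. -/
noncomputable def BMap.L : (M.X →₀ ℤ) →ₗ[ℤ] (M.X →₀ ℤ) := Finsupp.lmapDomain ℤ ℤ P.p

@[simp] theorem BMap.L_single (x : M.X) (n : ℤ) : P.L (single x n) = single (P.p x) n := by
  simp [BMap.L]

theorem BMap.L_D (c : M.X →₀ ℤ) : P.L (M.D c) = M.D (P.L c) := by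
  have : P.L.comp M.D = M.D.comp P.L := lin_ext fun x => by
    simp only [LinearMap.comp_apply, BMap.L_single, PCx.D_single, one_smul, P.bd]
    rfl
  exact LinearMap.congr_fun this c

theorem BMap.L_tr (g : G) (c : M.X →₀ ℤ) : P.L (M.tr g c) = M.tr g (P.L c) := by
  have : P.L.comp (M.tr g) = (M.tr g).comp P.L := lin_ext fun x => by
    simp [P.sm]
  exact LinearMap.congr_fun this c

theorem BMap.L_E (c : M.X →₀ ℤ) : M.E (P.L c) = M.E c := by
  have : M.E.comp P.L = M.E := lin_ext fun x => by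
    simp [P.ep]
  exact LinearMap.congr_fun this c

theorem BMap.L_mem {n : ℕ} {c : M.X →₀ ℤ} (hc : c ∈ M.Dg n) : P.L c ∈ M.Dg n :=
  lin_mem_of _ _ (fun x hx => by
    rw [BMap.L_single]; exact M.single_mem_Dg ((P.deg x).trans hx) 1) c hc

variable (M) in
/-- left inclusion -/
noncomputable def iL : (M.X →₀ ℤ) →ₗ[ℤ] (M.X ⊕ M.X →₀ ℤ) := Finsupp.lmapDomain ℤ ℤ Sum.inl

variable (M) in
/-- right inclusion -/
noncomputable def iR : (M.X →₀ ℤ) →ₗ[ℤ] (M.X ⊕ M.X →₀ ℤ) := Finsupp.lmapDomain ℤ ℤ Sum.inr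

@[simp] theorem iL_single (x : M.X) (n : ℤ) : iL M (single x n) = single (Sum.inl x) n := by
  simp [iL]

@[simp] theorem iR_single (x : M.X) (n : ℤ) : iR M (single x n) = single (Sum.inr x) n := by
  simp [iR]

/-- The boundary in the cone. -/
noncomputable def cbd : M.X ⊕ M.X → (M.X ⊕ M.X →₀ ℤ)
  | Sum.inl x => iL M (M.bd x)
  | Sum.inr x => iL M (single x 1 - single (P.p x) 1) - iR M (M.bd x)

noncomputable def cD : (M.X ⊕ M.X →₀ ℤ) →ₗ[ℤ] (M.X ⊕ M.X →₀ ℤ) :=
  Finsupp.linearCombination ℤ (cbd P)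

theorem cD_iL (c : M.X →₀ ℤ) : cD P (iL M c) = iL M (M.D c) := by
  have : (cD P).comp (iL M) = (iL M).comp M.D := lin_ext fun x => by
    simp [cD, cbd]
  exact LinearMap.congr_fun this c

theorem cD_iR (c : M.X →₀ ℤ) : cD P (iR M c) = iL M (c - P.L c) - iR M (M.D c) := by
  have : (cD P).comp (iR M) = (iL M).comp (LinearMap.id - P.L) - (iR M).comp M.D :=
    lin_ext fun x => by
      simp [cD, cbd]
  exact LinearMap.congr_fun this c

/-- augmentation of the cone -/
noncomputable def cep : M.X ⊕ M.X → ℤ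
  | Sum.inl x => M.ep x
  | Sum.inr _ => 0

noncomputable def cE : (M.X ⊕ M.X →₀ ℤ) →ₗ[ℤ] ℤ := Finsupp.linearCombination ℤ cep

theorem cE_iL (c : M.X →₀ ℤ) : cE (iL M c) = M.E c := by
  have : (cE (M := M)).comp (iL M) = M.E := lin_ext fun x => by
    simp [cE, cep]
  exact LinearMap.congr_fun this c

theorem cE_iR (c : M.X →₀ ℤ) : cE (iR M c) = 0 := by
  have : (cE (M := M)).comp (iR M) = 0 := lin_ext fun x => by
    simp [cE, cep]
  exact LinearMap.congr_fun this c

theorem sum_ext {N : Type*} [AddCommGroup N] {f g : (M.X ⊕ M.X →₀ ℤ) →ₗ[ℤ] N}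
    (h1 : ∀ x, f (iL M (single x 1)) = g (iL M (single x 1)))
    (h2 : ∀ x, f (iR M (single x 1)) = g (iR M (single x 1))) : f = g := by
  refine lin_ext fun x => ?_
  rcases x with x | x
  · simpa using h1 x
  · simpa using h2 x

/-- degree -/
def cdeg : M.X ⊕ M.X → ℕ
  | Sum.inl x => M.deg x
  | Sum.inr x => M.deg x + 1

/-- action -/
def csm (g : G) : M.X ⊕ M.X → M.X ⊕ M.X := Sum.map (M.sm g) (M.sm g)

theorem ctr_iL (g : G) (c : M.X →₀ ℤ) : (iL M c).mapDomain (csm g) = iL M (M.tr g c) := by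
  have : (Finsupp.lmapDomain ℤ ℤ (csm g)).comp (iL M) = (iL M).comp (M.tr g) :=
    lin_ext fun x => by simp [csm]
  exact LinearMap.congr_fun this c

theorem ctr_iR (g : G) (c : M.X →₀ ℤ) : (iR M c).mapDomain (csm g) = iR M (M.tr g c) := by
  have : (Finsupp.lmapDomain ℤ ℤ (csm g)).comp (iR M) = (iR M).comp (M.tr g) :=
    lin_ext fun x => by simp [csm]
  exact LinearMap.congr_fun this c

theorem iL_supp {s : Set M.X} {t : Set (M.X ⊕ M.X)} (h : ∀ x ∈ s, Sum.inl x ∈ t)
    {c : M.X →₀ ℤ} (hc : c ∈ Finsupp.supported ℤ ℤ s) : iL M c ∈ Finsupp.supported ℤ ℤ t :=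
  lin_mem_of _ _ (fun x hx => by
    rw [iL_single]; exact Finsupp.single_mem_supported ℤ 1 (h x hx)) c hc

theorem iR_supp {s : Set M.X} {t : Set (M.X ⊕ M.X)} (h : ∀ x ∈ s, Sum.inr x ∈ t)
    {c : M.X →₀ ℤ} (hc : c ∈ Finsupp.supported ℤ ℤ s) : iR M c ∈ Finsupp.supported ℤ ℤ t :=
  lin_mem_of _ _ (fun x hx => by
    rw [iR_single]; exact Finsupp.single_mem_supported ℤ 1 (h x hx)) c hc

/-- The cone. -/
@[reducible] noncomputable def Cone : PCx.{u, v} G where
  X := M.X ⊕ M.X
  sm := csm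
  sm_one x := by rcases x with x | x <;> simp [csm, M.sm_one]
  sm_mul g h x := by rcases x with x | x <;> simp [csm, M.sm_mul]
  deg := cdeg
  deg_sm g x := by rcases x with x | x <;> simp [csm, cdeg, M.deg_sm]
  bd := cbd P
  bd_sm g x := by
    rcases x with x | x
    · change iL M (M.bd (M.sm g x)) = (iL M (M.bd x)).mapDomain (csm g)
      rw [ctr_iL, M.bd_sm]; rfl
    · have h := map_sub (Finsupp.lmapDomain ℤ ℤ (csm (M := M) g))
        (iL M (single x 1 - single (P.p x) 1)) (iR M (M.bd x))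
      refine Eq.trans ?_ h.symm
      change iL M (single (M.sm g x) 1 - single (P.p (M.sm g x)) 1) - iR M (M.bd (M.sm g x)) =
        (iL M (single x 1 - single (P.p x) 1)).mapDomain (csm g) -
        (iR M (M.bd x)).mapDomain (csm g)
      rw [ctr_iL, ctr_iR, M.bd_sm, P.sm, map_sub (M.tr g), M.tr_single, M.tr_single]; rfl
  bd_deg x y hy := by
    rcases x with x | x
    · have h : iL M (M.bd x) ∈ Finsupp.supported ℤ ℤ {y : M.X ⊕ M.X | cdeg y + 1 = M.deg x} :=
        iL_supp (s := {y | M.deg y + 1 = M.deg x}) (fun y hy => hy)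
          ((Finsupp.mem_supported ℤ _).2 fun y hy => M.bd_deg x y hy)
      exact (Finsupp.mem_supported ℤ _).1 h hy
    · have h1 : iL M (single x 1 - single (P.p x) 1) ∈
          Finsupp.supported ℤ ℤ {y : M.X ⊕ M.X | cdeg y + 1 = M.deg x + 1} :=
        iL_supp (s := {y | M.deg y = M.deg x}) (fun y hy => by
          have hy' : M.deg y = M.deg x := hy
          change M.deg y + 1 = M.deg x + 1
          rw [hy'])
          (Submodule.sub_mem _ (Finsupp.single_mem_supported ℤ 1 rfl)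
            (Finsupp.single_mem_supported ℤ 1 (P.deg x)))
      have h2 : iR M (M.bd x) ∈
          Finsupp.supported ℤ ℤ {y : M.X ⊕ M.X | cdeg y + 1 = M.deg x + 1} :=
        iR_supp (s := {y | M.deg y + 1 = M.deg x}) (fun y hy => by
          have hy' : M.deg y + 1 = M.deg x := hy
          change M.deg y + 1 + 1 = M.deg x + 1
          rw [hy'])
          ((Finsupp.mem_supported ℤ _).2 fun y hy => M.bd_deg x y hy)
      exact (Finsupp.mem_supported ℤ _).1 (Submodule.sub_mem _ h1 h2) hy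
  bd_bd x := by
    change cD P (cbd P x) = 0
    rcases x with x | x
    · change cD P (iL M (M.bd x)) = 0
      rw [cD_iL]
      have : M.D (M.bd x) = 0 := M.bd_bd x
      rw [this, map_zero]
    · change cD P (iL M (single x 1 - single (P.p x) 1) - iR M (M.bd x)) = 0
      have : M.D (M.bd x) = 0 := M.bd_bd x
      rw [map_sub, cD_iL, cD_iR, this, map_zero, sub_zero, map_sub, M.D_single, M.D_single,
        one_smul, one_smul, P.bd]
      change iL M (M.bd x - P.L (M.bd x)) - iL M (M.bd x - P.L (M.bd x)) = 0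
      rw [sub_self]
  ep := cep
  ep_sm g x := by rcases x with x | x <;> simp [csm, cep, M.ep_sm]
  ep_deg x hx := by
    rcases x with x | x
    · exact M.ep_deg x hx
    · rfl
  ep_bd x := by
    change cE (cbd P x) = 0
    rcases x with x | x
    · change cE (iL M (M.bd x)) = 0
      rw [cE_iL]; exact M.ep_bd x
    · change cE (iL M (single x 1 - single (P.p x) 1) - iR M (M.bd x)) = 0
      rw [map_sub, cE_iL, cE_iR, map_sub, M.E_single, M.E_single, P.ep]; simp

/-- the left component -/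
noncomputable def prA : (M.X ⊕ M.X →₀ ℤ) →ₗ[ℤ] (M.X →₀ ℤ) :=
  Finsupp.linearCombination ℤ (Sum.elim (fun x => single x 1) (fun _ => 0))

/-- the right component -/
noncomputable def prB : (M.X ⊕ M.X →₀ ℤ) →ₗ[ℤ] (M.X →₀ ℤ) :=
  Finsupp.linearCombination ℤ (Sum.elim (fun _ => 0) (fun x => single x 1))

theorem prAB (z : M.X ⊕ M.X →₀ ℤ) : z = iL M (prA z) + iR M (prB z) := by
  have : LinearMap.id = (iL M).comp prA + (iR M).comp prB := lin_ext fun x => by
    rcases x with x | x <;> simp [prA, prB]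
  exact LinearMap.congr_fun this z

theorem prA_iL (c : M.X →₀ ℤ) : prA (iL M c) = c := by
  have : prA.comp (iL M) = LinearMap.id := lin_ext fun x => by simp [prA]
  exact LinearMap.congr_fun this c

theorem prA_iR (c : M.X →₀ ℤ) : prA (iR M c) = 0 := by
  have : prA.comp (iR M) = 0 := lin_ext fun x => by simp [prA]
  exact LinearMap.congr_fun this c

theorem prB_iL (c : M.X →₀ ℤ) : prB (iL M c) = 0 := by
  have : prB.comp (iL M) = 0 := lin_ext fun x => by simp [prB]
  exact LinearMap.congr_fun this c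

theorem prB_iR (c : M.X →₀ ℤ) : prB (iR M c) = c := by
  have : prB.comp (iR M) = LinearMap.id := lin_ext fun x => by simp [prB]
  exact LinearMap.congr_fun this c

theorem iL_inj : Function.Injective (iL M) := fun a b h => by
  rw [← prA_iL a, h, prA_iL]

theorem iR_inj : Function.Injective (iR M) := fun a b h => by
  rw [← prB_iR a, h, prB_iR]

theorem prA_mem {s : Set (M.X ⊕ M.X)} {z : M.X ⊕ M.X →₀ ℤ} (hz : z ∈ Finsupp.supported ℤ ℤ s) :
    prA z ∈ Finsupp.supported ℤ ℤ (Sum.inl ⁻¹' s) :=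
  lin_mem_of _ _ (fun x hx => by
    rcases x with x | x
    · have : prA (single (Sum.inl x) 1 : M.X ⊕ M.X →₀ ℤ) = single x 1 := by simp [prA]
      rw [this]
      exact Finsupp.single_mem_supported ℤ 1 hx
    · have : prA (single (Sum.inr x) 1 : M.X ⊕ M.X →₀ ℤ) = 0 := by simp [prA]
      rw [this]; exact Submodule.zero_mem _) z hz

theorem prB_mem {s : Set (M.X ⊕ M.X)} {z : M.X ⊕ M.X →₀ ℤ} (hz : z ∈ Finsupp.supported ℤ ℤ s) :
    prB z ∈ Finsupp.supported ℤ ℤ (Sum.inr ⁻¹' s) :=
  lin_mem_of _ _ (fun x hx => by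
    rcases x with x | x
    · have : prB (single (Sum.inl x) 1 : M.X ⊕ M.X →₀ ℤ) = 0 := by simp [prB]
      rw [this]; exact Submodule.zero_mem _
    · have : prB (single (Sum.inr x) 1 : M.X ⊕ M.X →₀ ℤ) = single x 1 := by simp [prB]
      rw [this]
      exact Finsupp.single_mem_supported ℤ 1 hx) z hz

theorem inl_orb {T : Set (M.X ⊕ M.X)} {x : M.X} (h : Sum.inl x ∈ (Cone P).orb T) :
    x ∈ M.orb (Sum.inl ⁻¹' T) := by
  obtain ⟨y, hy, g, e⟩ := h
  rcases y with y | y
  · have e' : Sum.inl x = Sum.inl (M.sm g y) := e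
    exact ⟨y, hy, g, Sum.inl_injective e'⟩
  · have e' : Sum.inl x = Sum.inr (M.sm g y) := e
    cases e'

theorem inr_orb {T : Set (M.X ⊕ M.X)} {x : M.X} (h : Sum.inr x ∈ (Cone P).orb T) :
    x ∈ M.orb (Sum.inr ⁻¹' T) := by
  obtain ⟨y, hy, g, e⟩ := h
  rcases y with y | y
  · have e' : Sum.inr x = Sum.inl (M.sm g y) := e
    cases e'
  · have e' : Sum.inr x = Sum.inr (M.sm g y) := e
    exact ⟨y, hy, g, Sum.inr_injective e'⟩

theorem iL_Bs {T : Set M.X} {c : M.X →₀ ℤ} (hc : c ∈ M.Bs T) :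
    iL M c ∈ (Cone P).Bs (Sum.inl '' T) :=
  iL_supp (fun x hx => by
    obtain ⟨y, hy, g, rfl⟩ := hx
    exact ⟨Sum.inl y, ⟨y, hy, rfl⟩, g, rfl⟩) hc

theorem iR_Bs {T : Set M.X} {c : M.X →₀ ℤ} (hc : c ∈ M.Bs T) :
    iR M c ∈ (Cone P).Bs (Sum.inr '' T) :=
  iR_supp (fun x hx => by
    obtain ⟨y, hy, g, rfl⟩ := hx
    exact ⟨Sum.inr y, ⟨y, hy, rfl⟩, g, rfl⟩) hc

theorem iL_Dg {n : ℕ} {c : M.X →₀ ℤ} (hc : c ∈ M.Dg n) : iL M c ∈ (Cone P).Dg n :=
  iL_supp (fun _ hx => hx) hc

theorem iR_Dg {n : ℕ} {c : M.X →₀ ℤ} (hc : c ∈ M.Dg n) : iR M c ∈ (Cone P).Dg (n + 1) :=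
  iR_supp (fun x hx => by
    have hx' : M.deg x = n := hx
    change M.deg x + 1 = n + 1
    rw [hx']) hc

end Cone

end Crest.Agent.R185.Null
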