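import Crest.Agent.R185.Null8

/-!
# R185, null calculus, part 9: the mapping torus theorem
-/

set_option autoImplicit false

namespace Crest.Agent.R185.Null

open Finsupp

universe u v w u' v' w'

/-- All entries satisfy `P`. -/
def AllP {O : Type v} (P : O → Prop) : Set (O × List O) := {x | P x.1 ∧ ∀ y ∈ x.2, P y}

theorem sbd_allP {O : Type v} (P : O → Prop) (l : List O) (g : O) (hg : P g) (hl : ∀ y ∈ l, P y) :
    sbd l g ∈ Finsupp.supported ℤ ℤ (AllP P) := by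
  induction l generalizing g with
  | nil => simp [sbd]
  | cons h l ih =>
    rw [sbd_eq]
    have hh : P h := hl h (by simp)
    have hl' : ∀ y ∈ l, P y := fun y hy => hl y (by simp [hy])
    refine Submodule.sub_mem _ (Submodule.sub_mem _ ?_ ?_) (Submodule.smul_mem _ _ ?_)
    · exact Finsupp.single_mem_supported ℤ 1 ⟨hh, hl'⟩
    · refine lin_mem_of _ _ (fun x hx => ?_) _ (ih h hh hl')
      rw [cn_single]
      refine Finsupp.single_mem_supported ℤ 1 ⟨hg, fun y hy => ?_⟩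
      rcases List.mem_cons.1 hy with rfl | hy
      · exact hx.1
      · exact hx.2 y hy
    · exact Finsupp.single_mem_supported ℤ 1 ⟨hg, fun y hy => absurd hy (by simp)⟩

section Torus

variable {Γ : Type u} [Group Γ] {U : Type u} [Group U] (ι : U →* Γ)

/-- Tuples inside one left coset. -/
def CosS : Set (Γ × List Γ) := {x | ∀ y ∈ x.2, x.1⁻¹ * y ∈ ι.range}

theorem allP_cos (g : Γ) (x : Γ × List Γ) (hx : x ∈ AllP (fun y => g⁻¹ * y ∈ ι.range)) :
    x ∈ CosS ι := by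
  intro y hy
  have h1 := hx.1
  have h2 := hx.2 y hy
  have : x.1⁻¹ * y = (g⁻¹ * x.1)⁻¹ * (g⁻¹ * y) := by group
  rw [this]
  exact mul_mem (inv_mem h1) h2

theorem cos_allP (x : Γ × List Γ) (hx : x ∈ CosS ι) :
    x ∈ AllP (fun y => x.1⁻¹ * y ∈ ι.range) := by
  refine ⟨?_, hx⟩
  change x.1⁻¹ * x.1 ∈ ι.range
  rw [inv_mul_cancel]; exact one_mem _

theorem cosSub : IsSub (Std Γ).toPCx (CosS ι) where
  sm g x hx := by
    intro y hy
    have hy' : y ∈ x.2.map (g • ·) := hy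
    rw [List.mem_map] at hy'
    obtain ⟨z, hz, rfl⟩ := hy'
    have := hx z hz
    change (g * x.1)⁻¹ * (g * z) ∈ _
    have e : (g * x.1)⁻¹ * (g * z) = x.1⁻¹ * z := by group
    rwa [e]
  bd x hx := by
    have h := cos_allP ι x hx
    exact Finsupp.supported_mono (allP_cos ι x.1) (sbd_allP _ x.2 x.1 h.1 h.2)

/-- The complex of tuples inside cosets. -/
@[reducible] noncomputable def Mc : PCx.{u, u} Γ := (Std Γ).toPCx.sub (CosS ι) (cosSub ι)

/-- The coset of a tuple. -/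
def cosOf (x : CosS ι) : Γ ⧸ ι.range := (x.1.1 : Γ ⧸ ι.range)

theorem res_mem {A : PCx.{u, v} Γ} {S : Set A.X} {c : A.X →₀ ℤ} {s : Set A.X}
    (hc : c ∈ Finsupp.supported ℤ ℤ s) :
    res A S c ∈ Finsupp.supported ℤ ℤ (Subtype.val ⁻¹' s) := by
  refine (Finsupp.mem_supported ℤ _).2 fun x hx => ?_
  have : x.1 ∈ c.support := by
    rw [Finset.mem_coe, Finsupp.mem_support_iff] at hx
    rw [Finsupp.mem_support_iff]
    exact hx
  exact (Finsupp.mem_supported ℤ _).1 hc this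

theorem Mc_D_class (x : CosS ι) :
    (Mc ι).D (single x 1) ∈ Finsupp.supported ℤ ℤ {y | cosOf ι y = cosOf ι x} := by
  have h := cos_allP ι x.1 x.2
  have h1 := res_mem (A := (Std Γ).toPCx) (S := CosS ι) (sbd_allP _ x.1.2 x.1.1 h.1 h.2)
  have e : (Mc ι).D (single x 1) = res (Std Γ).toPCx (CosS ι) (sbd x.1.2 x.1.1) :=
    ((Mc ι).D_single x 1).trans (one_smul _ _)
  rw [e]
  refine Finsupp.supported_mono ?_ h1
  intro y hy
  have hy1 : x.1.1⁻¹ * y.1.1 ∈ ι.range := hy.1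
  exact (QuotientGroup.eq.2 hy1).symm

variable (t : Γ) (ψ : U →* U) (ht : ∀ u, t * ι u * t⁻¹ = ι (ψ u))

include ht in
theorem cos_shift (x : Γ × List Γ) (hx : x ∈ CosS ι) : mapX (· * t⁻¹) x ∈ CosS ι := by
  intro y hy
  have hy' : y ∈ x.2.map (· * t⁻¹) := hy
  rw [List.mem_map] at hy'
  obtain ⟨z, hz, rfl⟩ := hy'
  obtain ⟨u, hu⟩ := hx z hz
  change (x.1 * t⁻¹)⁻¹ * (z * t⁻¹) ∈ _
  have e : (x.1 * t⁻¹)⁻¹ * (z * t⁻¹) = t * (x.1⁻¹ * z) * t⁻¹ := by group
  rw [e, ← hu, ht]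
  exact ⟨_, rfl⟩

/-- Right multiplication by `t⁻¹`. -/
noncomputable def shiftB : BMap (Mc ι) where
  p x := ⟨mapX (· * t⁻¹) x.1, cos_shift ι t ψ ht x.1 x.2⟩
  sm g x := by
    apply Subtype.ext
    change mapX (· * t⁻¹) (smX g x.1) = smX g (mapX (· * t⁻¹) x.1)
    simp [mapX, smX, mul_assoc]
  deg x := by
    change (x.1.2.map (· * t⁻¹)).length = x.1.2.length
    simp
  bd x := by
    apply inc_inj (Std Γ).toPCx (CosS ι)
    have e1 := inc_lift (cosSub ι) ⟨mapX (· * t⁻¹) x.1, cos_shift ι t ψ ht x.1 x.2⟩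
    have e2 := inc_lift (cosSub ι) x
    refine e1.trans ?_
    have e3 : ∀ c : CosS ι →₀ ℤ, inc (Std Γ).toPCx (CosS ι)
        (c.mapDomain fun x => ⟨mapX (· * t⁻¹) x.1, cos_shift ι t ψ ht x.1 x.2⟩) =
        (inc (Std Γ).toPCx (CosS ι) c).mapDomain (mapX (· * t⁻¹)) := by
      intro c
      change Finsupp.mapDomain _ _ = Finsupp.mapDomain _ (Finsupp.mapDomain _ _)
      rw [← Finsupp.mapDomain_comp, ← Finsupp.mapDomain_comp]
      rfl
    refine Eq.trans ?_ (e3 _).symm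
    rw [e2]
    exact sbd_map (· * t⁻¹) x.1.2 x.1.1
  ep x := by
    change sep (mapX (· * t⁻¹) x.1) = sep x.1
    simp [sep, mapX]

/-- The chain map `Std U → Mc`. -/
noncomputable def Jm : CMap ι (Std U).toPCx (Mc ι) :=
  (stdMap ι).cod (CosS ι) (cosSub ι) (fun x => by
    have e : (stdMap ι).F (single x 1) = single (mapX ι x) 1 := simpMap_single _ _ _ x 1
    rw [e]
    refine Finsupp.single_mem_supported ℤ 1 ?_
    intro y hy
    have hy' : y ∈ x.2.map ι := hy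
    rw [List.mem_map] at hy'
    obtain ⟨z, -, rfl⟩ := hy'
    exact ⟨x.1⁻¹ * z, by simp [mapX]⟩)

theorem inc_Jm (c : U × List U →₀ ℤ) :
    inc (Std Γ).toPCx (CosS ι) ((Jm ι).F c) = c.mapDomain (mapX ι) := by
  unfold Jm
  rw [CMap.inc_cod]
  rfl

theorem inc_shift (c : CosS ι →₀ ℤ) : inc (Std Γ).toPCx (CosS ι) ((shiftB ι t ψ ht).L c) =
    (inc (Std Γ).toPCx (CosS ι) c).mapDomain (mapX (· * t⁻¹)) := by
  change Finsupp.mapDomain _ (Finsupp.mapDomain _ _) = Finsupp.mapDomain _ (Finsupp.mapDomain _ _)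
  rw [← Finsupp.mapDomain_comp, ← Finsupp.mapDomain_comp]
  rfl

theorem stdMap_apply {G : Type u} [Group G] {H : Type v} [Group H] (φ : G →* H)
    (c : G × List G →₀ ℤ) : (stdMap φ).F c = c.mapDomain (mapX φ) := rfl

theorem shift_Jm (c : U × List U →₀ ℤ) : (shiftB ι t ψ ht).L ((Jm ι).F c) =
    (Mc ι).tr t⁻¹ ((Jm ι).F ((stdMap ψ).F c)) := by
  apply inc_inj (Std Γ).toPCx (CosS ι)
  rw [inc_shift, inc_Jm]
  refine Eq.trans ?_ (sub_tr (cosSub ι) t⁻¹ _).symm
  rw [inc_Jm, stdMap_apply, ← Finsupp.mapDomain_comp, ← Finsupp.mapDomain_comp]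
  change _ = Finsupp.mapDomain _ (Finsupp.mapDomain _ _)
  rw [← Finsupp.mapDomain_comp]
  congr 1
  funext x
  have hh : ∀ u, ι u * t⁻¹ = t⁻¹ * ι (ψ u) := fun u => by rw [← ht]; group
  change (ι x.1 * t⁻¹, (x.2.map ι).map (· * t⁻¹)) = (t⁻¹ * ι (ψ x.1), ((x.2.map ψ).map ι).map _)
  rw [hh, List.map_map, List.map_map, List.map_map]
  congr 1
  refine List.map_congr_left fun u _ => ?_
  exact hh u

theorem pow_shift_Jm (N : ℕ) (c : U × List U →₀ ℤ) :
    ((shiftB ι t ψ ht).L ^ N : Module.End ℤ _) ((Jm ι).F c) =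
      (Mc ι).tr (t⁻¹ ^ N) ((Jm ι).F ((stdMap (ipow ψ N)).F c)) := by
  induction N with
  | zero =>
    rw [pow_zero, pow_zero, PCx.tr_one]
    have : (stdMap (ipow ψ 0)).F c = c := by
      rw [stdMap_apply]
      have : mapX (ipow ψ 0) = id := by
        funext x
        simp [mapX, ipow]
      rw [this, Finsupp.mapDomain_id]
    rw [this]; rfl
  | succ N ih =>
    rw [pow_succ', Module.End.mul_apply, ih, BMap.L_tr, shift_Jm, ← PCx.tr_mul, ← pow_succ]
    congr 2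
    rw [stdMap_apply, stdMap_apply, stdMap_apply, ← Finsupp.mapDomain_comp]
    congr 1
    funext x
    change (ψ ((ipow ψ N) x.1), (x.2.map _).map _) = _
    rw [List.map_map]
    rfl

open Classical in
/-- A section of `ι` on its range. -/
noncomputable def secι (γ : Γ) : U := if h : ∃ u, ι u = γ then h.choose else 1

theorem ι_sec {γ : Γ} (h : γ ∈ ι.range) : ι (secι ι γ) = γ := by
  classical
  have h' : ∃ u, ι u = γ := h
  unfold secι
  rw [dif_pos h']
  exact h'.choose_spec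

theorem sec_mul (hι : Function.Injective ι) {a b : Γ} (ha : a ∈ ι.range) (hb : b ∈ ι.range) :
    secι ι (a * b) = secι ι a * secι ι b := by
  apply hι
  rw [ι_sec ι (mul_mem ha hb), map_mul, ι_sec ι ha, ι_sec ι hb]

/-- Tuples inside `U`. -/
def InU : Set (CosS ι) := {x | x.1.1 ∈ ι.range}

include ht in
/-- Key lemma on the coset `U`. -/
theorem key_in (hι : Function.Injective ι) {n N : ℕ} (hN : IsNull (ipow ψ N) n)
    (T : Set (CosS ι)) (hT : T.Finite) : ∃ T' : Set (CosS ι), T'.Finite ∧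
      ∀ b ∈ (Mc ι).Dg n, b ∈ (Mc ι).Bs T → (Mc ι).D b = 0 → (Mc ι).E b = 0 →
        b ∈ Finsupp.supported ℤ ℤ (InU ι) →
        ((shiftB ι t ψ ht).L ^ N : Module.End ℤ _) b ∈ (Mc ι).Bo n T' := by
  classical
  set T2 : Set (U × List U) :=
    (fun x : CosS ι => ((1 : U), x.1.2.map fun y => secι ι (x.1.1⁻¹ * y))) '' T with hT2
  have hT2f : T2.Finite := hT.image _
  obtain ⟨T3, hT3, k3⟩ := hN.kill (Std_acyclic U) (stdMap (ipow ψ N)) T2 hT2f
  obtain ⟨T4, hT4, k4⟩ := (Jm ι).bo T3 hT3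
  refine ⟨T4, hT4, fun b hb1 hb2 hb3 hb4 hb5 => ?_⟩
  set c : U × List U →₀ ℤ := (inc (Std Γ).toPCx (CosS ι) b).mapDomain (mapX (secι ι)) with hc
  have hJ : (Jm ι).F c = b := by
    apply inc_inj (Std Γ).toPCx (CosS ι)
    rw [inc_Jm, hc, ← Finsupp.mapDomain_comp]
    have e : inc (Std Γ).toPCx (CosS ι) b ∈ Finsupp.supported ℤ ℤ
        (AllP (fun y : Γ => y ∈ ι.range)) := by
      refine lin_mem_of _ _ (fun x hx => ?_) b hb5
      rw [inc_single]
      refine Finsupp.single_mem_supported ℤ 1 ⟨hx, fun y hy => ?_⟩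
      have h1 := x.2 y hy
      have h2 : x.1.1 ∈ ι.range := hx
      have : y = x.1.1 * (x.1.1⁻¹ * y) := by group
      rw [this]; exact mul_mem h2 h1
    have := lin_ext_on (f := Finsupp.lmapDomain ℤ ℤ (mapX ι ∘ mapX (secι ι)))
      (g := LinearMap.id) _ (fun x hx => ?_) _ e
    · exact this
    · rw [Finsupp.lmapDomain_apply, Finsupp.mapDomain_single, LinearMap.id_apply]
      congr 1
      refine Prod.ext (ι_sec ι hx.1) ?_
      change (x.2.map (secι ι)).map ι = x.2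
      rw [List.map_map]
      conv_rhs => rw [← List.map_id x.2]
      exact List.map_congr_left fun y hy => ι_sec ι (hx.2 y hy)
  have hJi : Function.Injective (Jm ι).F := by
    intro a a' h
    have h' := congrArg (inc (Std Γ).toPCx (CosS ι)) h
    rw [inc_Jm, inc_Jm] at h'
    refine Finsupp.mapDomain_injective ?_ h'
    intro x y hxy
    have h1 : ι x.1 = ι y.1 := congrArg Prod.fst hxy
    have h2 : x.2.map ι = y.2.map ι := congrArg Prod.snd hxy
    exact Prod.ext (hι h1) (List.map_injective_iff.2 hι h2)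
  have hcy : c ∈ (Std U).Cy n T2 := by
    refine (Std U).mem_Cy.2 ⟨?_, ?_, ?_, ?_⟩
    · -- degree
      refine (Finsupp.mem_supported ℤ _).2 fun x hx => ?_
      have := Finsupp.mapDomain_support hx
      rw [Finset.mem_image] at this
      obtain ⟨y, hy, rfl⟩ := this
      have hy1 := Finsupp.mapDomain_support hy
      rw [Finset.mem_image] at hy1
      obtain ⟨z, hz, rfl⟩ := hy1
      have := (Finsupp.mem_supported ℤ _).1 hb1 hz
      have h' : z.1.2.length = n := this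
      change (z.1.2.map _).length = n
      simpa using h'
    · refine (Finsupp.mem_supported ℤ _).2 fun x hx => ?_
      have := Finsupp.mapDomain_support hx
      rw [Finset.mem_image] at this
      obtain ⟨y, hy, rfl⟩ := this
      have hy1 := Finsupp.mapDomain_support hy
      rw [Finset.mem_image] at hy1
      obtain ⟨z, hz, rfl⟩ := hy1
      obtain ⟨x0, hx0, g, e⟩ := (Finsupp.mem_supported ℤ _).1 hb2 hz
      have hzU : z.1.1 ∈ ι.range := (Finsupp.mem_supported ℤ _).1 hb5 hz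
      subst e
      refine ⟨_, ⟨x0, hx0, rfl⟩, secι ι (g * x0.1.1), ?_⟩
      change (secι ι (g * x0.1.1), ((x0.1.2.map (g • ·)).map (secι ι))) =
        (secι ι (g * x0.1.1) * 1, (x0.1.2.map _).map _)
      rw [mul_one, List.map_map, List.map_map]
      congr 1
      refine List.map_congr_left fun y hy => ?_
      change secι ι (g * y) = secι ι (g * x0.1.1) * secι ι (x0.1.1⁻¹ * y)
      have hzU' : g * x0.1.1 ∈ ι.range := hzU
      rw [← sec_mul ι hι hzU' (x0.2 y hy)]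
      congr 1
      group
    · apply hJi
      rw [← (Jm ι).comm, hJ, hb3, map_zero]
    · have := (Jm ι).aug c
      rw [hJ, hb4] at this
      exact this.symm
  have h1 := k4 n _ (k3 c hcy)
  rw [← hJ, pow_shift_Jm]
  exact (Mc ι).tr_mem_Bo _ h1

include ht in
/-- Key lemma. -/
theorem key_all (hι : Function.Injective ι) {n N : ℕ} (hN : IsNull (ipow ψ N) n)
    (T : Set (CosS ι)) (hT : T.Finite) : ∃ T' : Set (CosS ι), T'.Finite ∧
      ∀ b ∈ (Mc ι).Dg n, b ∈ (Mc ι).Bs T → (Mc ι).D b = 0 →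
        (∀ i, (Mc ι).E (flt (cosOf ι) i b) = 0) →
        ((shiftB ι t ψ ht).L ^ N : Module.End ℤ _) b ∈ (Mc ι).Bo n T' := by
  classical
  obtain ⟨T', hT', k⟩ := key_in ι t ψ ht hι hN T hT
  refine ⟨T', hT', fun b hb1 hb2 hb3 hb4 => ?_⟩
  refine flt_induction (cosOf ι) ((shiftB ι t ψ ht).L ^ N : Module.End ℤ _) _ b fun i => ?_
  obtain ⟨g, rfl⟩ := QuotientGroup.mk_surjective i
  set bi := flt (cosOf ι) (g : Γ ⧸ ι.range) b with hbi
  have h1 : bi ∈ (Mc ι).Dg n := flt_mem' _ _ hb1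
  have h2 : bi ∈ (Mc ι).Bs T := flt_mem' _ _ hb2
  have h3 : (Mc ι).D bi = 0 := by
    rw [hbi, flt_comm (cosOf ι) _ (Mc ι).D (Mc_D_class ι), hb3, map_zero]
  have h4 : (Mc ι).E bi = 0 := hb4 _
  have h5 : bi ∈ Finsupp.supported ℤ ℤ {x | cosOf ι x = (g : Γ ⧸ ι.range)} :=
    Finsupp.supported_mono Set.inter_subset_left (flt_mem (cosOf ι) _ hb1)
  have h6 : (Mc ι).tr g⁻¹ bi ∈ Finsupp.supported ℤ ℤ (InU ι) := by
    refine lin_mem_of _ _ (fun x hx => ?_) _ h5
    rw [PCx.tr_single]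
    refine Finsupp.single_mem_supported ℤ 1 ?_
    have hx' : (x.1.1 : Γ ⧸ ι.range) = (g : Γ ⧸ ι.range) := hx
    exact QuotientGroup.eq.1 hx'.symm
  have h7 := k _ ((Mc ι).tr_mem_Dg g⁻¹ h1) ((Mc ι).tr_mem_Bs g⁻¹ h2)
    (by rw [PCx.D_tr, h3, map_zero]) (by rw [PCx.E_tr, h4]) h6
  have hcomm : ∀ (N : ℕ) (c : CosS ι →₀ ℤ), ((shiftB ι t ψ ht).L ^ N : Module.End ℤ _)
      ((Mc ι).tr g⁻¹ c) = (Mc ι).tr g⁻¹ (((shiftB ι t ψ ht).L ^ N : Module.End ℤ _) c) := by
    intro N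
    induction N with
    | zero => intro c; rfl
    | succ N ih =>
      intro c
      rw [pow_succ, Module.End.mul_apply, Module.End.mul_apply, BMap.L_tr, ih]
  rw [hcomm] at h7
  have h8 := (Mc ι).tr_mem_Bo g h7
  rwa [PCx.tr_tr_inv] at h8

end Torus

end Crest.Agent.R185.Null
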