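import Crest.Agent.R185.QTh

/-!
# Row 185 (Q2, block P2): the covering theory `covTh` (helper173)
-/

set_option autoImplicit false

namespace Crest.Agent.R185.Q

open Set

variable {O : Type} {r : O → O → Prop} {A : Set O}

/-- two primitives of the same cocycle differ by a left constant on a connected set -/
theorem prim_unique (h : Cnd r A) {K : Type} [Group K] {b b' : O → K}
    (hb : ∀ x ∈ A, ∀ y ∈ A, r x y → (b x)⁻¹ * b y = (b' x)⁻¹ * b' y)
    {x y : O} (hx : x ∈ A) (hy : y ∈ A) : b x * (b' x)⁻¹ = b y * (b' y)⁻¹ := by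
  have key := h (fun z => b z * (b' z)⁻¹ = b y * (b' y)⁻¹) (by
    intro u hu v hv huv
    have e : b u * (b' u)⁻¹ = b v * (b' v)⁻¹ := by
      have e1 : b v = b u * ((b' u)⁻¹ * b' v) := by
        rw [← hb u hu v hv huv]; group
      rw [e1]; group
    simp only [e]) x hx y hy
  exact key.2 rfl

theorem prim_unique' (h : Cnd r A) {K : Type} [Group K] {b b' : O → K}
    (hb : ∀ x ∈ A, ∀ y ∈ A, r x y → (b x)⁻¹ * b y = (b' x)⁻¹ * b' y)
    {x y : O} (hx : x ∈ A) (hy : y ∈ A) : (b x)⁻¹ * b y = (b' x)⁻¹ * b' y := by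
  have e := prim_unique h hb hx hy
  have e1 : b y = b x * (b' x)⁻¹ * b' y := by rw [e]; group
  rw [e1]; group

theorem cov_cone
    (A : Set O) (a : O) (ha : a ∈ A) (hA : ∀ x ∈ A, r x a) (m : ℕ) : CCon r m A := by
  refine ⟨⟨a, ha⟩, fun _ => ?_, fun _ => ?_⟩
  · intro f hf x hx y hy
    rw [hf x hx a ha (hA x hx), hf y hy a ha (hA y hy)]
  · intro K _ c hc
    refine ⟨fun x => (c x a)⁻¹, fun x hx y hy hxy => ?_⟩
    have := hc x hx y hy a ha hxy (hA y hy)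
    show c x y = ((c x a)⁻¹)⁻¹ * (c y a)⁻¹
    rw [this]; group

theorem cov_transfer {O' : Type} {r' : O' → O' → Prop}
    (ht : ∀ x y z, r x y → r y z → r x z)
    (A : Set O) (A' : Set O') (f : O → O') (g : O' → O)
    (hf : ∀ x ∈ A, f x ∈ A') (hg : ∀ x ∈ A', g x ∈ A)
    (hfm : ∀ x ∈ A, ∀ y ∈ A, r x y → r' (f x) (f y))
    (hgm : ∀ x ∈ A', ∀ y ∈ A', r' x y → r (g x) (g y))
    (hfg : ∀ x ∈ A, r x (g (f x))) (m : ℕ) (h : CCon r' m A') : CCon r m A := by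
  obtain ⟨⟨p, hp⟩, h1, h2⟩ := h
  refine ⟨⟨g p, hg p hp⟩, fun hm => ?_, fun hm => ?_⟩
  · intro φ hφ x hx y hy
    have key := h1 hm (fun z => φ (g z)) (fun u hu v hv huv =>
      hφ _ (hg u hu) _ (hg v hv) (hgm u hu v hv huv)) (f x) (hf x hx) (f y) (hf y hy)
    rw [hφ x hx _ (hg _ (hf x hx)) (hfg x hx), hφ y hy _ (hg _ (hf y hy)) (hfg y hy)]
    exact key
  · intro K _ c hc
    obtain ⟨b', hb'⟩ := h2 hm K (fun u v => c (g u) (g v)) (fun u hu v hv w hw huv hvw =>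
      hc _ (hg u hu) _ (hg v hv) _ (hg w hw) (hgm u hu v hv huv) (hgm v hv w hw hvw))
    refine ⟨fun x => b' (f x) * (c x (g (f x)))⁻¹, fun x hx y hy hxy => ?_⟩
    have gx := hg _ (hf x hx)
    have gy := hg _ (hf y hy)
    have gxy := hgm _ (hf x hx) _ (hf y hy) (hfm x hx y hy hxy)
    have e1 := hc x hx _ gx _ gy (hfg x hx) gxy
    have e2 := hc x hx y hy _ gy hxy (hfg y hy)
    have e3 := hb' _ (hf x hx) _ (hf y hy) (hfm x hx y hy hxy)
    have e4 : c x y = c x (g (f x)) * c (g (f x)) (g (f y)) * (c y (g (f y)))⁻¹ := by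
      rw [← e1, e2]; group
    show c x y = (b' (f x) * (c x (g (f x)))⁻¹)⁻¹ * (b' (f y) * (c y (g (f y)))⁻¹)
    rw [e4, e3]; group

theorem cov_glue (B C : Set O)
    (hBC : ∀ x ∈ B, ∀ y ∈ C, r y x → y ∈ B) (hCB : ∀ x ∈ C, ∀ y ∈ B, r y x → y ∈ C)
    (m : ℕ) (hB : CCon r (m + 1) B) (hC : CCon r (m + 1) C) (hI : CCon r m (B ∩ C)) :
    CCon r (m + 1) (B ∪ C) := by
  classical
  obtain ⟨⟨p, hpB, hpC⟩, hI1, -⟩ := hI
  obtain ⟨-, hB1, hB2⟩ := hB
  obtain ⟨-, hC1, hC2⟩ := hC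
  have hB1 := hB1 (by omega)
  have hC1 := hC1 (by omega)
  refine ⟨⟨p, Or.inl hpB⟩, fun _ => ?_, fun hm => ?_⟩
  · intro f hf x hx y hy
    have hfB : ∀ x ∈ B, (f x ↔ f p) := fun x hx =>
      hB1 f (fun u hu v hv => hf u (Or.inl hu) v (Or.inl hv)) x hx p hpB
    have hfC : ∀ x ∈ C, (f x ↔ f p) := fun x hx =>
      hC1 f (fun u hu v hv => hf u (Or.inr hu) v (Or.inr hv)) x hx p hpC
    have hfU : ∀ x ∈ B ∪ C, (f x ↔ f p) := by
      rintro x (hx | hx)
      · exact hfB x hx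
      · exact hfC x hx
    rw [hfU x hx, hfU y hy]
  · intro K _ c hc
    have hI1 := hI1 (by omega)
    obtain ⟨bB, hbB⟩ := hB2 hm K c (fun u hu v hv w hw =>
      hc u (Or.inl hu) v (Or.inl hv) w (Or.inl hw))
    obtain ⟨bC, hbC⟩ := hC2 hm K c (fun u hu v hv w hw =>
      hc u (Or.inr hu) v (Or.inr hv) w (Or.inr hw))
    have hk : ∀ x ∈ B ∩ C, bB x * (bC x)⁻¹ = bB p * (bC p)⁻¹ := fun x hx =>
      prim_unique hI1 (fun u hu v hv huv => by
        rw [← hbB u hu.1 v hv.1 huv, ← hbC u hu.2 v hv.2 huv]) hx ⟨hpB, hpC⟩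
    set k := bB p * (bC p)⁻¹ with hkdef
    have hk' : ∀ x ∈ B ∩ C, bB x = k * bC x := fun x hx => by
      rw [← hk x hx]; group
    refine ⟨fun x => if x ∈ B then bB x else k * bC x, fun x hx y hy hxy => ?_⟩
    by_cases hyB : y ∈ B
    · have hxB : x ∈ B := by
        rcases hx with hx | hx
        · exact hx
        · exact hBC y hyB x hx hxy
      simp only [if_pos hxB, if_pos hyB]
      exact hbB x hxB y hyB hxy
    · have hyC : y ∈ C := hy.resolve_left hyB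
      have hxC : x ∈ C := by
        rcases hx with hx | hx
        · exact hCB y hyC x hx hxy
        · exact hx
      have e : (if x ∈ B then bB x else k * bC x) = k * bC x := by
        split_ifs with hxB
        · exact hk' x ⟨hxB, hxC⟩
        · rfl
      simp only [if_neg hyB, e]
      rw [hbC x hxC y hyC hxy]; group

theorem cov_morse (ht : ∀ x y z, r x y → r y z → r x z)
    (A B : Set O) (hBA : B ⊆ A) (hmax : ∀ x ∈ A, x ∉ B → ∀ y ∈ A, r x y → y ∉ B ∧ r y x)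
    (m : ℕ) (hA : CCon r m A) (hD : ∀ x ∈ A, x ∉ B → CCon r m {y | y ∈ B ∧ r y x}) :
    CCon r m B := by
  classical
  obtain ⟨⟨p, hp⟩, hA1, hA2⟩ := hA
  have hDeq : ∀ x ∈ A, x ∉ B → ∀ y ∈ A, r x y →
      {z | z ∈ B ∧ r z x} = {z | z ∈ B ∧ r z y} := by
    intro x hx hxB y hy hxy
    ext z
    exact ⟨fun hz => ⟨hz.1, ht _ _ _ hz.2 hxy⟩,
      fun hz => ⟨hz.1, ht _ _ _ hz.2 (hmax x hx hxB y hy hxy).2⟩⟩
  refine ⟨?_, fun hm => ?_, fun hm => ?_⟩
  · by_cases hpB : p ∈ B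
    · exact ⟨p, hpB⟩
    · obtain ⟨y, hy⟩ := (hD p hp hpB).1
      exact ⟨y, hy.1⟩
  · intro f hf x hx y hy
    set F : O → Prop := fun z => if z ∈ B then f z else ∃ w ∈ B, r w z ∧ f w with hF
    have hFB : ∀ z ∈ B, (F z ↔ f z) := fun z hz => by simp only [hF, if_pos hz]
    have hFD : ∀ z ∈ A, z ∉ B → ∀ w ∈ B, r w z → (F z ↔ f w) := by
      intro z hz hzB w hw hwz
      simp only [hF, if_neg hzB]
      have hDz := (hD z hz hzB).2.1 hm f (fun u hu v hv => hf u hu.1 v hv.1)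
      constructor
      · rintro ⟨w', hw', hw'z, hfw'⟩
        exact (hDz w' ⟨hw', hw'z⟩ w ⟨hw, hwz⟩).1 hfw'
      · intro h
        exact ⟨w, hw, hwz, h⟩
    have hloc : ∀ u ∈ A, ∀ v ∈ A, r u v → (F u ↔ F v) := by
      intro u hu v hv huv
      by_cases huB : u ∈ B
      · by_cases hvB : v ∈ B
        · rw [hFB u huB, hFB v hvB]
          exact hf u huB v hvB huv
        · rw [hFB u huB, hFD v hv hvB u huB huv]
      · obtain ⟨hvB, -⟩ := hmax u hu huB v hv huv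
        obtain ⟨w, hw⟩ := (hD u hu huB).1
        rw [hFD u hu huB w hw.1 hw.2, hFD v hv hvB w hw.1 (ht _ _ _ hw.2 huv)]
    have := hA1 hm F hloc x (hBA hx) y (hBA hy)
    rwa [hFB x hx, hFB y hy] at this
  · intro K _ c hc
    have hex : ∀ D : Set O, ∃ b : O → K, (∃ x ∈ A, x ∉ B ∧ D = {z | z ∈ B ∧ r z x}) →
        ∀ y ∈ D, ∀ z ∈ D, r y z → c y z = (b y)⁻¹ * b z := by
      intro D
      by_cases h : ∃ x ∈ A, x ∉ B ∧ D = {z | z ∈ B ∧ r z x}
      · obtain ⟨x, hx, hxB, rfl⟩ := h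
        obtain ⟨b, hb⟩ := (hD x hx hxB).2.2 hm K c (fun u hu v hv w hw =>
          hc u hu.1 v hv.1 w hw.1)
        exact ⟨b, fun _ => hb⟩
      · exact ⟨fun _ => 1, fun h' => absurd h' h⟩
    choose bb hbb using hex
    set D : O → Set O := fun x => {z | z ∈ B ∧ r z x} with hDdef
    set c' : O → O → K := fun u v =>
      if v ∈ B then c u v else if u ∈ B then (bb (D v) u)⁻¹ else 1 with hc'
    have hcoc : ∀ u ∈ A, ∀ v ∈ A, ∀ w ∈ A, r u v → r v w → c' u w = c' u v * c' v w := by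
      intro u hu v hv w hw huv hvw
      by_cases hwB : w ∈ B
      · have hvB : v ∈ B := by
          by_contra hvB
          exact (hmax v hv hvB w hw hvw).1 hwB
        have huB : u ∈ B := by
          by_contra huB
          exact (hmax u hu huB v hv huv).1 hvB
        simp only [hc', if_pos hwB, if_pos hvB]
        exact hc u huB v hvB w hwB huv hvw
      · by_cases hvB : v ∈ B
        · have huB : u ∈ B := by
            by_contra huB
            exact (hmax u hu huB v hv huv).1 hvB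
          simp only [hc', if_neg hwB, if_pos hvB, if_pos huB]
          have e := hbb (D w) ⟨w, hw, hwB, rfl⟩ u ⟨huB, ht _ _ _ huv hvw⟩ v ⟨hvB, hvw⟩ huv
          rw [e]; group
        · by_cases huB : u ∈ B
          · simp only [hc', if_neg hwB, if_neg hvB, if_pos huB, mul_one]
            rw [show D v = D w from hDeq v hv hvB w hw hvw]
          · simp only [hc', if_neg hwB, if_neg hvB, if_neg huB, mul_one]
    obtain ⟨b, hb⟩ := hA2 hm K c' hcoc
    refine ⟨b, fun x hx y hy hxy => ?_⟩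
    have := hb x (hBA hx) y (hBA hy) hxy
    simpa only [hc', if_pos hy] using this

theorem cov_union {ι : Type} [Nonempty ι] (A : ι → Set O)
    (hdir : ∀ i j, ∃ k, A i ⊆ A k ∧ A j ⊆ A k) (m : ℕ) (h : ∀ i, CCon r m (A i)) :
    CCon r m (⋃ i, A i) := by
  classical
  obtain ⟨i0⟩ := (inferInstance : Nonempty ι)
  obtain ⟨p, hp⟩ := (h i0).1
  refine ⟨⟨p, mem_iUnion.2 ⟨i0, hp⟩⟩, fun hm => ?_, fun hm => ?_⟩
  · intro f hf x hx y hy
    obtain ⟨i, hx⟩ := mem_iUnion.1 hx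
    obtain ⟨j, hy⟩ := mem_iUnion.1 hy
    obtain ⟨k, hik, hjk⟩ := hdir i j
    exact (h k).2.1 hm f (fun u hu v hv => hf u (mem_iUnion.2 ⟨k, hu⟩) v (mem_iUnion.2 ⟨k, hv⟩))
      x (hik hx) y (hjk hy)
  · intro K _ c hc
    have hex : ∀ k, ∃ b : O → K, ∀ x ∈ A k, ∀ y ∈ A k, r x y → c x y = (b x)⁻¹ * b y := fun k =>
      (h k).2.2 hm K c (fun u hu v hv w hw => hc u (mem_iUnion.2 ⟨k, hu⟩) v
        (mem_iUnion.2 ⟨k, hv⟩) w (mem_iUnion.2 ⟨k, hw⟩))
    choose β hβ using hex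
    -- comparison on a smaller member
    have hcmp : ∀ k l, A k ⊆ A l → ∀ x ∈ A k, ∀ y ∈ A k,
        (β k x)⁻¹ * β k y = (β l x)⁻¹ * β l y := by
      intro k l hkl x hx y hy
      exact prim_unique' ((h k).2.1 (by omega)) (fun u hu v hv huv => by
        rw [← hβ k u hu v hv huv, ← hβ l u (hkl hu) v (hkl hv) huv]) hx hy
    have hcmp' : ∀ k l x, p ∈ A k → x ∈ A k → p ∈ A l → x ∈ A l →
        (β k p)⁻¹ * β k x = (β l p)⁻¹ * β l x := by
      intro k l x hpk hxk hpl hxl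
      obtain ⟨n, hkn, hln⟩ := hdir k l
      rw [hcmp k n hkn p hpk x hxk, hcmp l n hln p hpl x hxl]
    have hsel : ∀ x, ∃ k, x ∈ (⋃ i, A i) → (p ∈ A k ∧ x ∈ A k) := by
      intro x
      by_cases hx : x ∈ ⋃ i, A i
      · obtain ⟨i, hi⟩ := mem_iUnion.1 hx
        obtain ⟨k, h1, h2⟩ := hdir i i0
        exact ⟨k, fun _ => ⟨h2 hp, h1 hi⟩⟩
      · exact ⟨i0, fun h' => absurd h' hx⟩
    choose κ hκ using hsel
    refine ⟨fun x => (β (κ x) p)⁻¹ * β (κ x) x, fun x hx y hy hxy => ?_⟩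
    obtain ⟨hpx, hxx⟩ := hκ x hx
    obtain ⟨hpy, hyy⟩ := hκ y hy
    obtain ⟨n, hxn, hyn⟩ := hdir (κ x) (κ y)
    have e1 : (β (κ x) p)⁻¹ * β (κ x) x = (β n p)⁻¹ * β n x :=
      hcmp' _ _ x hpx hxx (hxn hpx) (hxn hxx)
    have e2 : (β (κ y) p)⁻¹ * β (κ y) y = (β n p)⁻¹ * β n y :=
      hcmp' _ _ y hpy hyy (hyn hpy) (hyn hyy)
    simp only [e1, e2]
    rw [hβ n x (hxn hxx) y (hyn hyy) hxy]; group

/-- the covering theory -/
def covTh : ConTh where
  Con := fun r m A => CCon r m A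
  zero := fun h => ⟨h, fun h' => absurd h' (by omega), fun h' => absurd h' (by omega)⟩
  cone := fun _ _ A a ha hA m => cov_cone A a ha hA m
  transfer := fun _ ht _ _ A A' f g hf hg hfm hgm hfg m h =>
    cov_transfer ht A A' f g hf hg hfm hgm hfg m h
  glue := fun _ ht B C hBC hCB m hB hC hI => cov_glue B C hBC hCB m hB hC hI
  morse := fun _ ht A B hBA hmax m hA hD => cov_morse ht A B hBA hmax m hA hD
  union := fun _ _ _ _ A hdir m h => cov_union A hdir m h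

theorem covTh_Con {O : Type} (r : O → O → Prop) (m : ℕ) (A : Set O) :
    covTh.Con r m A ↔ CCon r m A := Iff.rfl

end Crest.Agent.R185.Q
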