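import Crest.Agent.R185.QDefs

/-!
# Row 185: the group `Q(Γ,Y)`: cuts and generation (helper424)
-/

set_option autoImplicit false

namespace Crest.Agent.R185.Q

open Classical

variable {Γ Y : Type} [Group Γ] [MulAction Γ Y]

instance : Std.Symm (Dj (Y := Y)) := ⟨fun _ _ h => h.symm⟩

theorem Cut.node {L1 L2 : List (W Y → W Y)} (h1 : Cut Γ L1) (h2 : Cut Γ L2) (y : Y) :
    Cut Γ (L1.map (fun m => sh y ∘ m) ++ L2.map (fun m => ch y ∘ m)) := by
  have h0 : Cut Γ (sh y :: ch y :: ([] : List (W Y → W Y))) := Cut.split y id [] Cut.one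
  have h3 : Cut Γ (L1.map (fun m => sh y ∘ m) ++ [ch y]) := h0.graft h1
  have h4 : Cut Γ (ch y :: L1.map (fun m => sh y ∘ m)) := h3.perm (List.perm_append_singleton _ _)
  exact (h4.graft h2).perm List.perm_append_comm

/-- a cut on which `g` is in `M` -/
theorem Adm.exists_cut {g : W Y → W Y} (hg : Adm Γ g) :
    ∃ L, Cut Γ L ∧ ∀ f ∈ L, M Γ (g ∘ f) := by
  induction hg with
  | base m hm => exact ⟨[id], Cut.one, by simpa using hm⟩
  | split y f _ _ ih1 ih2 =>
    obtain ⟨L1, h1, h1'⟩ := ih1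
    obtain ⟨L2, h2, h2'⟩ := ih2
    refine ⟨_, h1.node h2 y, ?_⟩
    intro k hk
    simp only [List.mem_append, List.mem_map] at hk
    rcases hk with ⟨m, hm, rfl⟩ | ⟨m, hm, rfl⟩
    · exact h1' m hm
    · exact h2' m hm

theorem M.tri {m : W Y → W Y} (hm : M Γ m) :
    (∃ γ : Γ, m = ac γ) ∨ (∃ y m', M Γ m' ∧ m = sh y ∘ m') ∨ (∃ y m', M Γ m' ∧ m = ch y ∘ m') := by
  induction hm with
  | one => exact Or.inl ⟨1, by simp⟩
  | cs y m hm _ => exact Or.inr (Or.inl ⟨y, m, hm, rfl⟩)
  | cc y m hm _ => exact Or.inr (Or.inr ⟨y, m, hm, rfl⟩)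
  | ca γ m hm ih =>
    rcases ih with ⟨δ, rfl⟩ | ⟨y, m', hm', rfl⟩ | ⟨y, m', hm', rfl⟩
    · exact Or.inl ⟨γ * δ, by rw [ac_mul]⟩
    · refine Or.inr (Or.inl ⟨γ • y, ac γ ∘ m', M.ca γ _ hm', ?_⟩)
      rw [← Function.comp_assoc, ac_sh, Function.comp_assoc]
    · refine Or.inr (Or.inr ⟨γ • y, ac γ ∘ m', M.ca γ _ hm', ?_⟩)
      rw [← Function.comp_assoc, ac_ch, Function.comp_assoc]

theorem M.dich {m : W Y → W Y} (hm : M Γ m) : ∀ y : Y,
    (∃ m', M Γ m' ∧ m = sh y ∘ m') ∨ (∃ m', M Γ m' ∧ m = ch y ∘ m') ∨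
      (m [] = [] ∧ ∃ v, m v = [(y, 0)]) := by
  induction hm with
  | one => exact fun y => Or.inr (Or.inr ⟨rfl, _, rfl⟩)
  | cs z m hm ih =>
    intro y
    by_cases hz : z = y
    · subst hz; exact Or.inl ⟨m, hm, rfl⟩
    · rcases ih y with ⟨m', hm', rfl⟩ | ⟨m', hm', rfl⟩ | ⟨h0, v, hv⟩
      · refine Or.inl ⟨sh z ∘ m', M.cs z _ hm', ?_⟩
        rw [← Function.comp_assoc, sh_comm, Function.comp_assoc]
      · refine Or.inr (Or.inl ⟨m', hm', ?_⟩)
        rw [← Function.comp_assoc, sh_ch_ne (Ne.symm hz)]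
      · refine Or.inr (Or.inr ⟨by simp [h0], v, ?_⟩)
        simp [hv, sh_cons, Ne.symm hz]
  | cc z m hm _ =>
    intro y
    by_cases hz : z = y
    · subst hz; exact Or.inr (Or.inl ⟨m, hm, rfl⟩)
    · refine Or.inl ⟨ch z ∘ m, M.cc z _ hm, ?_⟩
      rw [← Function.comp_assoc, sh_ch_ne hz]
  | ca γ m hm ih =>
    intro y
    rcases ih (γ⁻¹ • y) with ⟨m', hm', rfl⟩ | ⟨m', hm', rfl⟩ | ⟨h0, v, hv⟩
    · refine Or.inl ⟨ac γ ∘ m', M.ca γ _ hm', ?_⟩
      rw [← Function.comp_assoc, ac_sh, Function.comp_assoc]; simp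
    · refine Or.inr (Or.inl ⟨ac γ ∘ m', M.ca γ _ hm', ?_⟩)
      rw [← Function.comp_assoc, ac_ch, Function.comp_assoc]; simp
    · refine Or.inr (Or.inr ⟨by simp [h0], v, ?_⟩)
      simp [hv]

theorem split_list (y : Y) (L : List (W Y → W Y))
    (h : ∀ f ∈ L, (∃ m', M Γ m' ∧ f = sh y ∘ m') ∨ (∃ m', M Γ m' ∧ f = ch y ∘ m')) :
    ∃ L1 L2 : List (W Y → W Y), (∀ f ∈ L1, M Γ f) ∧ (∀ f ∈ L2, M Γ f) ∧
      L.Perm (L1.map (fun m => sh y ∘ m) ++ L2.map (fun m => ch y ∘ m)) := by
  induction L with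
  | nil => exact ⟨[], [], by simp, by simp, by simp⟩
  | cons f L ih =>
    obtain ⟨L1, L2, h1, h2, hp⟩ := ih (fun g hg => h g (List.mem_cons_of_mem _ hg))
    rcases h f List.mem_cons_self with ⟨m, hm, rfl⟩ | ⟨m, hm, rfl⟩
    · refine ⟨m :: L1, L2, ?_, h2, ?_⟩
      · intro g hg
        rcases List.mem_cons.1 hg with rfl | hg
        · exact hm
        · exact h1 g hg
      · simpa using hp
    · refine ⟨L1, m :: L2, h1, ?_, ?_⟩
      · intro g hg
        rcases List.mem_cons.1 hg with rfl | hg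
        · exact hm
        · exact h2 g hg
      · refine (hp.cons _).trans ?_
        simp only [List.map_cons]
        exact List.perm_middle.symm

theorem Cut.lengthOne (γ : Γ) : Cut Γ [(ac γ : W Y → W Y)] := by
  have := Cut.label γ id ([] : List (W Y → W Y)) Cut.one
  simpa using this

/-- a finite partition of `W` by elements of `M` is a cut -/
theorem cut_of_part : ∀ (n : ℕ) (L : List (W Y → W Y)), L.length = n → (∀ f ∈ L, M Γ f) →
    L.Pairwise Dj → (∀ u, ∃ f ∈ L, ∃ v, f v = u) → Cut Γ L := by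
  intro n
  induction n using Nat.strong_induction_on with
  | _ n IH =>
    intro L hn hM hdj hcov
    obtain ⟨f0, hf0, v0, hv0⟩ := hcov []
    rcases (hM f0 hf0).tri with ⟨γ, rfl⟩ | ⟨y, m0, hm0, rfl⟩ | ⟨y, m0, hm0, rfl⟩
    · -- `f0` surjective
      have hall : ∀ g ∈ L, g = ac γ := by
        intro g hg
        by_contra hne
        have := hdj.forall hg hf0 hne
        obtain ⟨u, hu⟩ := ac_surj γ (g [])
        exact this [] u hu.symm
      obtain ⟨A, B, rfl⟩ := List.append_of_mem hf0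
      have hself : ∀ g : W Y → W Y, ¬ Dj g g := fun g h => h [] [] rfl
      have hA : A = [] := by
        rcases A with _ | ⟨a, A⟩
        · rfl
        · exfalso
          have ha := hall a (by simp)
          subst ha
          rw [List.cons_append, List.pairwise_cons] at hdj
          exact hself _ (hdj.1 (ac γ) (by simp))
      subst hA
      have hB : B = [] := by
        rcases B with _ | ⟨b, B⟩
        · rfl
        · exfalso
          have hb := hall b (by simp)
          subst hb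
          rw [List.nil_append, List.pairwise_cons] at hdj
          exact hself _ (hdj.1 (ac γ) (by simp))
      subst hB
      exact Cut.lengthOne γ
    · -- split along `y`
      have hd : ∀ f ∈ L, (∃ m', M Γ m' ∧ f = sh y ∘ m') ∨ (∃ m', M Γ m' ∧ f = ch y ∘ m') := by
        intro f hf
        rcases (hM f hf).dich y with h | h | ⟨h0, -⟩
        · exact Or.inl h
        · exact Or.inr h
        · by_cases hne : f = sh y ∘ m0
          · exact Or.inl ⟨m0, hm0, hne⟩
          · exact absurd (h0.trans hv0.symm) (hdj.forall hf hf0 hne _ _)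
      obtain ⟨L1, L2, h1, h2, hp⟩ := split_list y L hd
      have hdj' := hp.pairwise hdj (fun h => h.symm)
      rw [List.pairwise_append] at hdj'
      have hcov' : ∀ u, ∃ f ∈ L1.map (fun m => sh y ∘ m) ++ L2.map (fun m => ch y ∘ m),
          ∃ v, f v = u := by
        intro u
        obtain ⟨f, hf, v, hv⟩ := hcov u
        exact ⟨f, hp.mem_iff.1 hf, v, hv⟩
      have hc1 : ∀ u, ∃ f ∈ L1, ∃ v, f v = u := by
        intro u
        obtain ⟨f, hf, v, hv⟩ := hcov' (sh y u)
        simp only [List.mem_append, List.mem_map] at hf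
        rcases hf with ⟨m, hm, rfl⟩ | ⟨m, hm, rfl⟩
        · exact ⟨m, hm, v, sh_inj y hv⟩
        · exact absurd hv.symm (sh_ne_ch y _ _)
      have hc2 : ∀ u, ∃ f ∈ L2, ∃ v, f v = u := by
        intro u
        obtain ⟨f, hf, v, hv⟩ := hcov' (ch y u)
        simp only [List.mem_append, List.mem_map] at hf
        rcases hf with ⟨m, hm, rfl⟩ | ⟨m, hm, rfl⟩
        · exact absurd hv (sh_ne_ch y _ _)
        · exact ⟨m, hm, v, ch_inj y hv⟩
      have hlen : L1.length + L2.length = n := by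
        rw [← hn, hp.length_eq]; simp
      have hl1 : 0 < L1.length := by
        obtain ⟨f, hf, -⟩ := hc1 []
        exact List.length_pos_of_mem hf
      have hl2 : 0 < L2.length := by
        obtain ⟨f, hf, -⟩ := hc2 []
        exact List.length_pos_of_mem hf
      have hp1 : L1.Pairwise Dj := by
        have := hdj'.1
        rw [List.pairwise_map] at this
        exact this.imp (fun h u v e => h u v (congrArg (sh y) e))
      have hp2 : L2.Pairwise Dj := by
        have := hdj'.2.1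
        rw [List.pairwise_map] at this
        exact this.imp (fun h u v e => h u v (congrArg (ch y) e))
      have c1 := IH L1.length (by omega) L1 rfl h1 hp1 hc1
      have c2 := IH L2.length (by omega) L2 rfl h2 hp2 hc2
      exact (c1.node c2 y).perm hp.symm
    · simp at hv0

/-! ### elements from pairs of cuts -/

/-- the bijection attached to a partition -/
theorem Cut.bij {L : List (W Y → W Y)} (h : Cut Γ L) :
    Function.Bijective (fun p : Fin L.length × W Y => L.get p.1 p.2) := by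
  constructor
  · rintro ⟨i, u⟩ ⟨j, v⟩ e
    have hdj := List.pairwise_iff_get.1 h.dj
    rcases lt_trichotomy i j with hij | hij | hij
    · exact absurd e (hdj i j hij _ _)
    · subst hij
      have := (h.mem_M (L.get i) (List.get_mem _ _)).inj e
      simp only at this
      rw [this]
    · exact absurd e.symm (hdj j i hij _ _)
  · intro u
    obtain ⟨f, hf, v, hv⟩ := h.cover u
    obtain ⟨i, rfl⟩ := List.get_of_mem hf
    exact ⟨⟨i, v⟩, hv⟩

theorem exists_mk {L L' : List (W Y → W Y)} (h : Cut Γ L) (h' : Cut Γ L')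
    (hl : L.length = L'.length) :
    ∃ g ∈ QG Γ Y, L' = L.map (fun f => (g : W Y → W Y) ∘ f) := by
  let e := Equiv.ofBijective _ h.bij
  let e' := Equiv.ofBijective _ h'.bij
  let c : Fin L.length × W Y ≃ Fin L'.length × W Y :=
    Equiv.prodCongr (finCongr hl) (Equiv.refl _)
  let g : Equiv.Perm (W Y) := e.symm.trans (c.trans e')
  have key : ∀ (i : Fin L.length), (g : W Y → W Y) ∘ L.get i = L'.get (finCongr hl i) := by
    intro i
    funext v
    have h1 : e.symm (L.get i v) = (i, v) := by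
      rw [Equiv.symm_apply_eq]; rfl
    simp only [g, Function.comp_apply, Equiv.trans_apply, h1]
    rfl
  have key' : ∀ (i : Fin L'.length), (g.symm : W Y → W Y) ∘ L'.get i = L.get (finCongr hl.symm i) := by
    intro i
    have := key (finCongr hl.symm i)
    have hi : finCongr hl (finCongr hl.symm i) = i := by ext; rfl
    rw [hi] at this
    rw [← this]
    funext v
    simp
  refine ⟨g, ⟨?_, ?_⟩, ?_⟩
  · apply h.adm
    intro f hf
    obtain ⟨i, rfl⟩ := List.get_of_mem hf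
    rw [key i]
    exact Adm.base _ (h'.mem_M _ (List.get_mem _ _))
  · apply h'.adm
    intro f hf
    obtain ⟨i, rfl⟩ := List.get_of_mem hf
    rw [key' i]
    exact Adm.base _ (h.mem_M _ (List.get_mem _ _))
  · apply List.ext_get
    · simp [hl]
    · intro n h1 h2
      have := key ⟨n, by simpa using h2⟩
      simp only [List.get_eq_getElem, List.getElem_map] at this ⊢
      exact this.symm

theorem Cut.ext {L : List (W Y → W Y)} (h : Cut Γ L) {g g' : Equiv.Perm (W Y)}
    (e : ∀ f ∈ L, (g : W Y → W Y) ∘ f = g' ∘ f) : g = g' := by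
  ext1 u
  obtain ⟨f, hf, v, rfl⟩ := h.cover u
  exact congrFun (e f hf) v

theorem Cut.ext_map {L : List (W Y → W Y)} (h : Cut Γ L) {g g' : Equiv.Perm (W Y)}
    (e : L.map (fun f => (g : W Y → W Y) ∘ f) = L.map (fun f => (g' : W Y → W Y) ∘ f)) :
    g = g' :=
  h.ext (fun f hf => List.map_inj_left.1 e f hf)

/-- image of a cut under `g` with `M`-images is a cut -/
theorem Cut.map_of_M {L : List (W Y → W Y)} (h : Cut Γ L) (g : Equiv.Perm (W Y))
    (hg : ∀ f ∈ L, M Γ (g ∘ f)) : Cut Γ (L.map (fun f => (g : W Y → W Y) ∘ f)) := by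
  refine cut_of_part _ _ rfl ?_ ?_ ?_
  · intro f hf
    obtain ⟨k, hk, rfl⟩ := List.mem_map.1 hf
    exact hg k hk
  · rw [List.pairwise_map]
    exact h.dj.imp (fun hd u v e => hd u v (g.injective e))
  · intro u
    obtain ⟨f, hf, v, hv⟩ := h.cover (g.symm u)
    exact ⟨g ∘ f, List.mem_map.2 ⟨f, hf, rfl⟩, v, by simp [hv]⟩

/-- every element of `QG` maps a cut to a cut -/
theorem exists_cut_cut {g : Equiv.Perm (W Y)} (hg : g ∈ QG Γ Y) :
    ∃ L, Cut Γ L ∧ Cut Γ (L.map (fun f => (g : W Y → W Y) ∘ f)) := by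
  obtain ⟨L, hL, hM⟩ := Adm.exists_cut hg.1
  exact ⟨L, hL, hL.map_of_M g hM⟩

/-! ### relabelling -/

/-- label relation -/
def Lab (Γ : Type) {Y : Type} [Group Γ] [MulAction Γ Y] (a b : W Y → W Y) : Prop :=
  ∃ γ : Γ, b = a ∘ ac γ

theorem Lab.refl (a : W Y → W Y) : Lab Γ a a := ⟨1, by simp⟩
theorem Lab.symm {a b : W Y → W Y} (h : Lab Γ a b) : Lab Γ b a := by
  obtain ⟨γ, rfl⟩ := h
  exact ⟨γ⁻¹, by rw [Function.comp_assoc, ac_comp_inv]; rfl⟩
theorem Lab.trans {a b c : W Y → W Y} (h : Lab Γ a b) (h' : Lab Γ b c) : Lab Γ a c := by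
  obtain ⟨γ, rfl⟩ := h
  obtain ⟨δ, rfl⟩ := h'
  exact ⟨γ * δ, by rw [ac_mul]; rfl⟩

theorem f2_refl (L : List (W Y → W Y)) : List.Forall₂ (Lab Γ) L L := by
  induction L with
  | nil => exact List.Forall₂.nil
  | cons a L ih => exact List.Forall₂.cons (Lab.refl a) ih

theorem f2_symm {L L' : List (W Y → W Y)} (h : List.Forall₂ (Lab Γ) L L') :
    List.Forall₂ (Lab Γ) L' L := by
  induction h with
  | nil => exact List.Forall₂.nil
  | cons h _ ih => exact List.Forall₂.cons h.symm ih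

theorem f2_trans {L L' L'' : List (W Y → W Y)} (h : List.Forall₂ (Lab Γ) L L')
    (h' : List.Forall₂ (Lab Γ) L' L'') : List.Forall₂ (Lab Γ) L L'' := by
  induction h generalizing L'' with
  | nil => exact h'
  | cons h _ ih =>
    cases h' with
    | cons h1 h2 => exact List.Forall₂.cons (h.trans h1) (ih h2)

/-- permutation and relabelling -/
def Rl (Γ : Type) {Y : Type} [Group Γ] [MulAction Γ Y] (L L' : List (W Y → W Y)) : Prop :=
  ∃ L'', L.Perm L'' ∧ List.Forall₂ (Lab Γ) L'' L'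

theorem Rl.refl (L : List (W Y → W Y)) : Rl Γ L L := ⟨L, List.Perm.refl L, f2_refl L⟩

theorem perm_f2 {L L' L'' : List (W Y → W Y)} (h : List.Forall₂ (Lab Γ) L L') (h' : L'.Perm L'') :
    ∃ K, L.Perm K ∧ List.Forall₂ (Lab Γ) K L'' := by
  have : (Relation.Comp (List.Forall₂ (Lab Γ)) List.Perm) L L'' := ⟨L', h, h'⟩
  rw [List.forall₂_comp_perm_eq_perm_comp_forall₂] at this
  exact this

theorem Rl.perm {L L' L'' : List (W Y → W Y)} (h : Rl Γ L L') (h' : L'.Perm L'') : Rl Γ L L'' := by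
  obtain ⟨K, h1, h2⟩ := h
  obtain ⟨K', h3, h4⟩ := perm_f2 h2 h'
  exact ⟨K', h1.trans h3, h4⟩

theorem Rl.lab {L L' L'' : List (W Y → W Y)} (h : Rl Γ L L') (h' : List.Forall₂ (Lab Γ) L' L'') :
    Rl Γ L L'' := by
  obtain ⟨K, h1, h2⟩ := h
  exact ⟨K, h1, f2_trans h2 h'⟩

theorem Rl.trans {L L' L'' : List (W Y → W Y)} (h : Rl Γ L L') (h' : Rl Γ L' L'') : Rl Γ L L'' := by
  obtain ⟨K, h1, h2⟩ := h'
  exact (h.perm h1).lab h2

theorem Rl.symm {L L' : List (W Y → W Y)} (h : Rl Γ L L') : Rl Γ L' L := by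
  obtain ⟨K, h1, h2⟩ := h
  exact Rl.perm ⟨L', List.Perm.refl _, f2_symm h2⟩ h1.symm

theorem Rl.length_eq {L L' : List (W Y → W Y)} (h : Rl Γ L L') : L.length = L'.length := by
  obtain ⟨K, h1, h2⟩ := h
  rw [h1.length_eq, h2.length_eq]

theorem Cut.of_f2 {L L' : List (W Y → W Y)} (h' : List.Forall₂ (Lab Γ) L L') :
    ∀ A, Cut Γ (A ++ L) → Cut Γ (A ++ L') := by
  induction h' with
  | nil => exact fun A h => h
  | @cons a b L L' hab _ ih =>
    intro A h
    obtain ⟨γ, rfl⟩ := hab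
    have h1 : Cut Γ (a :: (A ++ L)) := h.perm List.perm_middle
    have h2 := Cut.label γ _ _ h1
    have h3 : Cut Γ ((A ++ [a ∘ ac γ]) ++ L) := by
      refine h2.perm ?_
      rw [List.append_assoc]
      exact List.perm_middle.symm
    have := ih _ h3
    simpa using this

theorem Cut.of_Rl {L L' : List (W Y → W Y)} (h : Cut Γ L) (h' : Rl Γ L L') : Cut Γ L' := by
  obtain ⟨K, h1, h2⟩ := h'
  exact Cut.of_f2 h2 [] (h.perm h1)

/-- a cut with at least two elements comes from a split -/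
theorem Cut.decomp {L : List (W Y → W Y)} (h : Cut Γ L) :
    (∃ γ : Γ, L = [ac γ]) ∨
      ∃ f B y, Cut Γ (f :: B) ∧ Rl Γ (f ∘ sh y :: f ∘ ch y :: B) L := by
  induction h with
  | one => exact Or.inl ⟨1, by simp⟩
  | split y f L h _ => exact Or.inr ⟨f, L, y, h, Rl.refl _⟩
  | perm h hp ih =>
    rcases ih with ⟨γ, rfl⟩ | ⟨f, B, y, h1, h2⟩
    · left; exact ⟨γ, List.perm_singleton.1 hp.symm⟩
    · right; exact ⟨f, B, y, h1, h2.perm hp⟩
  | label γ f L h ih =>
    rcases ih with ⟨δ, hδ⟩ | ⟨g, B, y, h1, h2⟩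
    · left
      simp only [List.cons.injEq] at hδ
      obtain ⟨rfl, rfl⟩ := hδ
      exact ⟨δ * γ, by rw [ac_mul]⟩
    · right
      exact ⟨g, B, y, h1, h2.lab (List.Forall₂.cons ⟨γ, rfl⟩ (f2_refl L))⟩

end Crest.Agent.R185.Q
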