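import Mathlib

/-!
# Row 185: the group `Q(Γ,Y)` (helper424)

`W Y = List (Y × ℕ)`, `Γ` acts letterwise.  `sh y` deletes the first `y`-child of the root and
shifts, `ch y` goes to the first `y`-child.  `W = range (sh y) ⊔ range (ch y)`.
`QG Γ Y` = all bijections of `W` that are piecewise given by elements of the monoid `M`
generated by `sh`, `ch` and `Γ`.
-/

set_option autoImplicit false

namespace Crest.Agent.R185.Q

open Classical

/-- words -/
abbrev W (Y : Type) : Type := List (Y × ℕ)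

variable {Γ Y : Type} [Group Γ] [MulAction Γ Y]

/-- shift at `y` -/
noncomputable def sh (y : Y) : W Y → W Y
  | [] => []
  | p :: v => (p.1, if p.1 = y then p.2 + 1 else p.2) :: v

/-- first `y`-child -/
def ch (y : Y) : W Y → W Y := fun v => (y, 0) :: v

/-- letterwise action -/
def ac (γ : Γ) : W Y → W Y := List.map (fun p => (γ • p.1, p.2))

@[simp] theorem sh_nil (y : Y) : sh y [] = [] := rfl
theorem sh_cons (y : Y) (p : Y × ℕ) (v : W Y) :
    sh y (p :: v) = (p.1, if p.1 = y then p.2 + 1 else p.2) :: v := rfl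
@[simp] theorem ch_apply (y : Y) (v : W Y) : ch y v = (y, 0) :: v := rfl
@[simp] theorem ac_nil (γ : Γ) : ac γ ([] : W Y) = [] := rfl
@[simp] theorem ac_cons (γ : Γ) (p : Y × ℕ) (v : W Y) :
    ac γ (p :: v) = (γ • p.1, p.2) :: ac γ v := rfl

theorem sh_inj (y : Y) : Function.Injective (sh y) := by
  intro u v h
  cases u with
  | nil => cases v with
    | nil => rfl
    | cons q v => simp [sh_cons] at h
  | cons p u => cases v with
    | nil => simp [sh_cons] at h
    | cons q v =>
      obtain ⟨p1, p2⟩ := p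
      obtain ⟨q1, q2⟩ := q
      simp only [sh_cons, List.cons.injEq, Prod.mk.injEq] at h ⊢
      obtain ⟨⟨h1, h2⟩, h3⟩ := h
      subst h1
      refine ⟨⟨rfl, ?_⟩, h3⟩
      by_cases hp : p1 = y
      · simpa [hp] using h2
      · simpa [hp] using h2

theorem ch_inj (y : Y) : Function.Injective (ch y) := by
  intro u v h
  simpa using h

theorem ac_mul (γ δ : Γ) : (ac (γ * δ) : W Y → W Y) = ac γ ∘ ac δ := by
  funext v
  induction v with
  | nil => rfl
  | cons p v ih => simp only [ac_cons, Function.comp_apply, mul_smul] at ih ⊢; rw [ih]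

@[simp] theorem ac_one : (ac (1 : Γ) : W Y → W Y) = id := by
  funext v
  induction v with
  | nil => rfl
  | cons p v ih => simp only [ac_cons, id, one_smul] at ih ⊢; rw [ih]

theorem ac_inv_comp (γ : Γ) : (ac γ⁻¹ : W Y → W Y) ∘ ac γ = id := by
  rw [← ac_mul]; simp

theorem ac_comp_inv (γ : Γ) : (ac γ : W Y → W Y) ∘ ac γ⁻¹ = id := by
  rw [← ac_mul]; simp

theorem ac_inj (γ : Γ) : Function.Injective (ac γ : W Y → W Y) :=
  Function.LeftInverse.injective (g := ac γ⁻¹) (fun v => congrFun (ac_inv_comp γ) v)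

theorem ac_surj (γ : Γ) : Function.Surjective (ac γ : W Y → W Y) :=
  fun v => ⟨ac γ⁻¹ v, congrFun (ac_comp_inv γ) v⟩

theorem ac_sh (γ : Γ) (y : Y) : (ac γ : W Y → W Y) ∘ sh y = sh (γ • y) ∘ ac γ := by
  funext v
  cases v with
  | nil => rfl
  | cons p v =>
    simp only [Function.comp_apply, sh_cons, ac_cons]
    have : (γ • p.1 = γ • y) = (p.1 = y) := by
      simp
    simp [this]

theorem ac_ch (γ : Γ) (y : Y) : (ac γ : W Y → W Y) ∘ ch y = ch (γ • y) ∘ ac γ := by
  funext v; rfl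

theorem sh_ac (γ : Γ) (y : Y) : sh y ∘ (ac γ : W Y → W Y) = ac γ ∘ sh (γ⁻¹ • y) := by
  rw [ac_sh]; simp

theorem ch_ac (γ : Γ) (y : Y) : ch y ∘ (ac γ : W Y → W Y) = ac γ ∘ ch (γ⁻¹ • y) := by
  rw [ac_ch]; simp

theorem sh_comm (y z : Y) : sh y ∘ sh z = sh z ∘ (sh y : W Y → W Y) := by
  funext v
  cases v with
  | nil => rfl
  | cons p v =>
    simp only [Function.comp_apply, sh_cons]
    congr 2
    split_ifs <;> rfl

theorem sh_ch_ne {y z : Y} (h : z ≠ y) : sh y ∘ ch z = (ch z : W Y → W Y) := by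
  funext v
  simp [sh_cons, h]

theorem sh_ne_ch (y : Y) (u v : W Y) : sh y u ≠ ch y v := by
  cases u with
  | nil => simp
  | cons p u =>
    intro h
    simp only [sh_cons, ch_apply, List.cons.injEq, Prod.mk.injEq] at h
    obtain ⟨⟨h1, h2⟩, -⟩ := h
    simp [h1] at h2

theorem cover (y : Y) (u : W Y) : (∃ v, sh y v = u) ∨ (∃ v, ch y v = u) := by
  cases u with
  | nil => exact Or.inl ⟨[], rfl⟩
  | cons p v =>
    obtain ⟨p1, p2⟩ := p
    by_cases h : p1 = y
    · subst h
      cases p2 with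
      | zero => exact Or.inr ⟨v, rfl⟩
      | succ n => exact Or.inl ⟨(p1, n) :: v, by simp [sh_cons]⟩
    · exact Or.inl ⟨(p1, p2) :: v, by simp [sh_cons, h]⟩

/-- the monoid generated by `sh y`, `ch y`, `ac γ` -/
inductive M (Γ : Type) {Y : Type} [Group Γ] [MulAction Γ Y] : (W Y → W Y) → Prop
  | one : M Γ id
  | cs (y : Y) (m : W Y → W Y) : M Γ m → M Γ (sh y ∘ m)
  | cc (y : Y) (m : W Y → W Y) : M Γ m → M Γ (ch y ∘ m)
  | ca (γ : Γ) (m : W Y → W Y) : M Γ m → M Γ (ac γ ∘ m)

theorem M.comp {m n : W Y → W Y} (hm : M Γ m) (hn : M Γ n) : M Γ (m ∘ n) := by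
  induction hm with
  | one => exact hn
  | cs y m _ ih => exact M.cs y _ ih
  | cc y m _ ih => exact M.cc y _ ih
  | ca γ m _ ih => exact M.ca γ _ ih

theorem M_sh (y : Y) : M Γ (sh y) := M.cs y id M.one
theorem M_ch (y : Y) : M Γ (ch y) := M.cc y id M.one
theorem M_ac (γ : Γ) : M Γ (ac γ : W Y → W Y) := M.ca γ id M.one

theorem M.inj {m : W Y → W Y} (hm : M Γ m) : Function.Injective m := by
  induction hm with
  | one => exact Function.injective_id
  | cs y m _ ih => exact (sh_inj y).comp ih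
  | cc y m _ ih => exact (ch_inj y).comp ih
  | ca γ m _ ih => exact (ac_inj γ).comp ih

/-- piecewise in `M` -/
inductive Adm (Γ : Type) {Y : Type} [Group Γ] [MulAction Γ Y] : (W Y → W Y) → Prop
  | base (m : W Y → W Y) : M Γ m → Adm Γ m
  | split (y : Y) (f : W Y → W Y) : Adm Γ (f ∘ sh y) → Adm Γ (f ∘ ch y) → Adm Γ f

theorem Adm.comp_ac {f : W Y → W Y} (hf : Adm Γ f) (γ : Γ) : Adm Γ (f ∘ ac γ) := by
  induction hf generalizing γ with
  | base m hm => exact Adm.base _ (hm.comp (M_ac γ))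
  | split y f _ _ ih1 ih2 =>
    refine Adm.split (γ⁻¹ • y) _ ?_ ?_
    · rw [Function.comp_assoc, ← sh_ac]; exact ih1 γ
    · rw [Function.comp_assoc, ← ch_ac]; exact ih2 γ

theorem Adm.comp_sh_ch {f : W Y → W Y} (hf : Adm Γ f) :
    ∀ z, Adm Γ (f ∘ sh z) ∧ Adm Γ (f ∘ ch z) := by
  induction hf with
  | base m hm => exact fun z => ⟨Adm.base _ (hm.comp (M_sh z)), Adm.base _ (hm.comp (M_ch z))⟩
  | split y f h1 h2 ih1 ih2 =>
    intro z
    by_cases hz : z = y
    · subst hz; exact ⟨h1, h2⟩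
    · constructor
      · refine Adm.split y _ ?_ ?_
        · rw [Function.comp_assoc, sh_comm, ← Function.comp_assoc]; exact (ih1 z).1
        · rw [Function.comp_assoc, sh_ch_ne (Ne.symm hz)]; exact h2
      · have := (ih1 z).2
        rw [Function.comp_assoc, sh_ch_ne hz] at this
        exact this

theorem Adm.comp_M {f m : W Y → W Y} (hf : Adm Γ f) (hm : M Γ m) : Adm Γ (f ∘ m) := by
  induction hm generalizing f with
  | one => exact hf
  | cs y m _ ih => exact ih (f := f ∘ Q.sh y) (hf.comp_sh_ch y).1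
  | cc y m _ ih => exact ih (f := f ∘ Q.ch y) (hf.comp_sh_ch y).2
  | ca γ m _ ih => exact ih (f := f ∘ Q.ac γ) (hf.comp_ac γ)

theorem Adm.comp {f g : W Y → W Y} (hf : Adm Γ f) (hg : Adm Γ g) : Adm Γ (f ∘ g) := by
  induction hg with
  | base m hm => exact hf.comp_M hm
  | split y g _ _ ih1 ih2 => exact Adm.split y _ ih1 ih2

theorem Adm.M_comp {f m : W Y → W Y} (hm : M Γ m) (hf : Adm Γ f) : Adm Γ (m ∘ f) :=
  (Adm.base m hm).comp hf

/-- the group `Q(Γ,Y)` -/
def QG (Γ Y : Type) [Group Γ] [MulAction Γ Y] : Subgroup (Equiv.Perm (W Y)) where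
  carrier := {g | Adm Γ (g : W Y → W Y) ∧ Adm Γ (g.symm : W Y → W Y)}
  one_mem' := ⟨Adm.base _ M.one, Adm.base _ M.one⟩
  mul_mem' := by
    rintro a b ⟨ha, ha'⟩ ⟨hb, hb'⟩
    exact ⟨ha.comp hb, hb'.comp ha'⟩
  inv_mem' := by
    rintro a ⟨ha, ha'⟩
    exact ⟨ha', ha⟩

theorem mem_QG {g : Equiv.Perm (W Y)} :
    g ∈ QG Γ Y ↔ Adm Γ (g : W Y → W Y) ∧ Adm Γ (g.symm : W Y → W Y) := Iff.rfl

/-! ### cuts -/

/-- finite lists of elements of `M` whose ranges partition `W`, obtained by splitting -/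
inductive Cut (Γ : Type) {Y : Type} [Group Γ] [MulAction Γ Y] : List (W Y → W Y) → Prop
  | one : Cut Γ [id]
  | split (y : Y) (f : W Y → W Y) (L : List (W Y → W Y)) :
      Cut Γ (f :: L) → Cut Γ (f ∘ sh y :: f ∘ ch y :: L)
  | perm {L L' : List (W Y → W Y)} : Cut Γ L → L.Perm L' → Cut Γ L'
  | label (γ : Γ) (f : W Y → W Y) (L : List (W Y → W Y)) :
      Cut Γ (f :: L) → Cut Γ (f ∘ ac γ :: L)

theorem Cut.mem_M {L : List (W Y → W Y)} (h : Cut Γ L) : ∀ f ∈ L, M Γ f := by
  induction h with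
  | one => intro f hf; simp only [List.mem_singleton] at hf; subst hf; exact M.one
  | split y f L _ ih =>
    intro g hg
    simp only [List.mem_cons] at hg
    rcases hg with rfl | rfl | hg
    · exact (ih f (by simp)).comp (M_sh y)
    · exact (ih f (by simp)).comp (M_ch y)
    · exact ih g (by simp [hg])
  | perm _ hp ih => intro f hf; exact ih f (hp.mem_iff.2 hf)
  | label γ f L _ ih =>
    intro g hg
    simp only [List.mem_cons] at hg
    rcases hg with rfl | hg
    · exact (ih f (by simp)).comp (M_ac γ)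
    · exact ih g (by simp [hg])

/-- `L` covers `W` -/
theorem Cut.cover {L : List (W Y → W Y)} (h : Cut Γ L) : ∀ u, ∃ f ∈ L, ∃ v, f v = u := by
  induction h with
  | one => intro u; exact ⟨id, by simp, u, rfl⟩
  | split y f L _ ih =>
    intro u
    obtain ⟨g, hg, v, rfl⟩ := ih u
    simp only [List.mem_cons] at hg
    rcases hg with rfl | hg
    · rcases Q.cover y v with ⟨w, rfl⟩ | ⟨w, rfl⟩
      · exact ⟨g ∘ sh y, by simp, w, rfl⟩
      · exact ⟨g ∘ ch y, by simp, w, rfl⟩
    · exact ⟨g, by simp [hg], v, rfl⟩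
  | perm _ hp ih =>
    intro u
    obtain ⟨g, hg, v, rfl⟩ := ih u
    exact ⟨g, hp.mem_iff.1 hg, v, rfl⟩
  | label γ f L _ ih =>
    intro u
    obtain ⟨g, hg, v, rfl⟩ := ih u
    simp only [List.mem_cons] at hg
    rcases hg with rfl | hg
    · obtain ⟨w, rfl⟩ := ac_surj γ v
      exact ⟨g ∘ ac γ, by simp, w, rfl⟩
    · exact ⟨g, by simp [hg], v, rfl⟩

/-- disjoint ranges -/
def Dj (f g : W Y → W Y) : Prop := ∀ u v, f u ≠ g v

theorem Dj.symm {f g : W Y → W Y} (h : Dj f g) : Dj g f := fun u v e => h v u e.symm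

theorem Cut.dj {L : List (W Y → W Y)} (h : Cut Γ L) : L.Pairwise Dj := by
  induction h with
  | one => simp
  | split y f L hL ih =>
    have hf : M Γ f := hL.mem_M f (by simp)
    simp only [List.pairwise_cons] at ih ⊢
    refine ⟨?_, ?_, ih.2⟩
    · intro g hg
      simp only [List.mem_cons] at hg
      rcases hg with rfl | hg
      · intro u v e
        exact sh_ne_ch y u v (hf.inj e)
      · intro u v e
        exact ih.1 g hg _ _ e
    · intro g hg u v e
      exact ih.1 g hg _ _ e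
  | perm _ hp ih => exact hp.pairwise ih (fun h => h.symm)
  | label γ f L _ ih =>
    simp only [List.pairwise_cons] at ih ⊢
    exact ⟨fun g hg u v e => ih.1 g hg _ _ e, ih.2⟩

/-- local criterion -/
theorem Cut.adm {L : List (W Y → W Y)} (h : Cut Γ L) {g : W Y → W Y}
    (hg : ∀ f ∈ L, Adm Γ (g ∘ f)) : Adm Γ g := by
  induction h with
  | one => exact hg id (by simp)
  | split y f L _ ih =>
    apply ih
    intro f' hf'
    simp only [List.mem_cons] at hf'
    rcases hf' with rfl | hf'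
    · exact Adm.split y _ (hg (f' ∘ sh y) List.mem_cons_self)
        (hg (f' ∘ ch y) (List.mem_cons_of_mem _ List.mem_cons_self))
    · exact hg f' (by simp [hf'])
  | perm _ hp ih => exact ih (fun f hf => hg f (hp.mem_iff.1 hf))
  | label γ f L _ ih =>
    apply ih
    intro f' hf'
    simp only [List.mem_cons] at hf'
    rcases hf' with rfl | hf'
    · have := (hg (f' ∘ ac γ) (by simp)).comp_ac γ⁻¹
      rw [Function.comp_assoc, Function.comp_assoc, ac_comp_inv] at this
      exact this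
    · exact hg f' (by simp [hf'])

/-- grafting -/
theorem Cut.graft {L L1 : List (W Y → W Y)} {f : W Y → W Y} (h : Cut Γ (f :: L))
    (h1 : Cut Γ L1) : Cut Γ (L1.map (fun m => f ∘ m) ++ L) := by
  induction h1 with
  | one => exact h
  | split y m L1 _ ih => exact Cut.split y _ _ ih
  | perm _ hp ih => exact ih.perm ((hp.map _).append_right L)
  | label γ m L1 _ ih => exact Cut.label γ _ _ ih

theorem Cut.length_pos {L : List (W Y → W Y)} (h : Cut Γ L) : 0 < L.length := by
  induction h with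
  | one => simp
  | split y f L _ ih => simp
  | perm _ hp ih => rwa [← hp.length_eq]
  | label γ f L _ ih => simp

end Crest.Agent.R185.Q
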