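import Crest.Agent.R185.QHom

/-!
# Row 185 (Q2): subcomplexes of based complexes (helper424)
-/

set_option autoImplicit false

namespace Crest.Agent.R185.Q

open Crest.Agent.R185.Null
open Finsupp (single)

variable {G : Type} [Group G]

section Sub

variable {X : Type} (S : Set X)

/-- the inclusion of chains -/
noncomputable def inc : (S →₀ ℤ) →ₗ[ℤ] (X →₀ ℤ) := Finsupp.lmapDomain ℤ ℤ Subtype.val

theorem inc_single (x : S) (k : ℤ) : inc S (single x k) = single x.1 k := by
  simp [inc]

theorem inc_inj : Function.Injective (inc S) :=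
  Finsupp.mapDomain_injective Subtype.val_injective

/-- the restriction of chains -/
noncomputable def resS (c : X →₀ ℤ) : S →₀ ℤ := c.comapDomain Subtype.val Subtype.val_injective.injOn

theorem inc_resS {c : X →₀ ℤ} (h : ∀ x ∈ c.support, x ∈ S) : inc S (resS S c) = c := by
  change Finsupp.mapDomain Subtype.val (Finsupp.comapDomain Subtype.val c _) = c
  refine Finsupp.mapDomain_comapDomain _ Subtype.val_injective _ ?_
  intro x hx
  exact ⟨⟨x, h x hx⟩, rfl⟩

theorem mem_supp_inc {c : S →₀ ℤ} {x : X} (h : x ∈ (inc S c).support) :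
    ∃ hx : x ∈ S, (⟨x, hx⟩ : S) ∈ c.support := by
  classical
  have := Finsupp.mapDomain_support (f := Subtype.val) (s := c) h
  obtain ⟨y, hy, rfl⟩ := Finset.mem_image.1 this
  exact ⟨y.2, hy⟩

theorem supp_inc {c : S →₀ ℤ} {x : S} (h : x ∈ c.support) : x.1 ∈ (inc S c).support := by
  rw [Finsupp.mem_support_iff] at h ⊢
  have : inc S c x.1 = c x := Finsupp.mapDomain_apply Subtype.val_injective c x
  rwa [this]

end Sub

/-- subcomplexes -/
@[reducible] noncomputable def subPC (A : PCx.{0, 0} G) (S : Set A.X) (hsm : ∀ g, ∀ x ∈ S, A.sm g x ∈ S)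
    (hbd : ∀ x ∈ S, ∀ y ∈ (A.bd x).support, y ∈ S) : PCx.{0, 0} G where
  X := S
  sm g x := ⟨A.sm g x, hsm g x x.2⟩
  sm_one x := Subtype.ext (A.sm_one x)
  sm_mul g h x := Subtype.ext (A.sm_mul g h x)
  deg x := A.deg x
  deg_sm g x := A.deg_sm g x
  bd x := resS S (A.bd x)
  bd_sm g x := by
    apply inc_inj S
    rw [inc_resS S (hbd _ (hsm g x x.2)), A.bd_sm]
    have h1 : inc S ((resS S (A.bd x)).mapDomain
        (fun x : S => (⟨A.sm g x, hsm g x x.2⟩ : S))) =
        (inc S (resS S (A.bd x))).mapDomain (A.sm g) := by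
      change Finsupp.mapDomain _ (Finsupp.mapDomain _ _) = Finsupp.mapDomain _ (Finsupp.mapDomain _ _)
      rw [← Finsupp.mapDomain_comp, ← Finsupp.mapDomain_comp]
      rfl
    rw [h1, inc_resS S (hbd _ x.2)]
  bd_deg x y hy := by
    have h1 := supp_inc S hy
    rw [inc_resS S (hbd _ x.2)] at h1
    exact A.bd_deg _ _ h1
  bd_bd x := by
    apply inc_inj S
    have h1 : (inc S).comp (Finsupp.linearCombination ℤ (fun x : S => resS S (A.bd x))) =
        (Finsupp.linearCombination ℤ A.bd).comp (inc S) := lin_ext fun y => by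
      simp only [LinearMap.comp_apply, Finsupp.linearCombination_single, one_smul, inc_single]
      exact inc_resS S (hbd _ y.2)
    have h2 := LinearMap.congr_fun h1 (resS S (A.bd x))
    simp only [LinearMap.comp_apply] at h2
    rw [h2, inc_resS S (hbd _ x.2), A.bd_bd, map_zero]
  ep x := A.ep x
  ep_sm g x := A.ep_sm g x
  ep_deg x hx := A.ep_deg x hx
  ep_bd x := by
    have h1 : Finsupp.linearCombination ℤ (fun x : S => A.ep x) =
        (Finsupp.linearCombination ℤ A.ep).comp (inc S) := lin_ext fun y => by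
      simp only [LinearMap.comp_apply, Finsupp.linearCombination_single, one_smul, inc_single]
    rw [h1, LinearMap.comp_apply, inc_resS S (hbd _ x.2), A.ep_bd]

variable (A : PCx.{0, 0} G) (S : Set A.X) (hsm : ∀ g, ∀ x ∈ S, A.sm g x ∈ S)
    (hbd : ∀ x ∈ S, ∀ y ∈ (A.bd x).support, y ∈ S)

theorem inc_D (c : (subPC A S hsm hbd).X →₀ ℤ) : inc S ((subPC A S hsm hbd).D c) = A.D (inc S c) := by
  have h1 : (inc S).comp (subPC A S hsm hbd).D = A.D.comp (inc S) := lin_ext fun y => by
    have e1 := (subPC A S hsm hbd).D_single y 1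
    have e2 := A.D_single y.1 1
    rw [one_smul] at e1 e2
    change inc S ((subPC A S hsm hbd).D (single y 1)) = A.D (inc S (single y 1))
    rw [inc_single, e1, e2]
    exact inc_resS S (hbd _ y.2)
  exact LinearMap.congr_fun h1 c

theorem inc_E (c : (subPC A S hsm hbd).X →₀ ℤ) : (subPC A S hsm hbd).E c = A.E (inc S c) := by
  have h1 : (subPC A S hsm hbd).E = A.E.comp (inc S) := lin_ext fun y => by
    have e1 := (subPC A S hsm hbd).E_single y 1
    have e2 := A.E_single y.1 1
    change (subPC A S hsm hbd).E (single y 1) = A.E (inc S (single y 1))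
    rw [inc_single, e1, e2]
  exact LinearMap.congr_fun h1 c

end Crest.Agent.R185.Q
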