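import Crest.Agent.R185.QOP2
import Crest.Agent.R185.QSub
import Crest.Agent.R185.QCov
import Crest.Agent.R185.FPC
import Crest.Agent.R185.FPProd
import Crest.Agent.R185.Null14

/-!
# Row 185 (Q2): finiteness properties of `Q(Γ,Y)` (helper424)
-/

set_option autoImplicit false

namespace Crest.Agent.R185.Q

open Classical
open Crest.Agent.R185.Null

variable {Γ Y : Type} [Group Γ] [MulAction Γ Y]

/-! ### the nerve -/

theorem tup_smul (g : QG Γ Y) {t : List (Cls Γ Y) × List (List (Cls Γ Y))}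
    (ht : t ∈ Tup ole {x : List (Cls Γ Y) | IsOP x}) :
    smX g t ∈ Tup ole {x : List (Cls Γ Y) | IsOP x} := by
  obtain ⟨h1, h2⟩ := ht
  have e : ((smX g t).1 :: (smX g t).2) = (t.1 :: t.2).map (fun x => g • x) := rfl
  refine ⟨?_, ?_⟩
  · rw [e, List.pairwise_map]
    exact h1.imp (fun h => ole_smul g _ _ h)
  · rw [e]
    intro a ha
    obtain ⟨b, hb, rfl⟩ := List.mem_map.1 ha
    exact IsOP.smul (h2 b hb) g

theorem tup_bd {t : List (Cls Γ Y) × List (List (Cls Γ Y))}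
    (ht : t ∈ Tup ole {x : List (Cls Γ Y) | IsOP x}) :
    ∀ s ∈ (sbd t.2 t.1).support, s ∈ Tup ole {x : List (Cls Γ Y) | IsOP x} := by
  intro s hs
  have := (Finsupp.mem_supported ℤ _).1 (QHom.sbd_sub t.2 t.1) hs
  exact QHom.tup_sub ht this.1

/-- the nerve of the ordered marked partitions -/
@[reducible] noncomputable def NV (Γ Y : Type) [Group Γ] [MulAction Γ Y] : PCx.{0, 0} (QG Γ Y) :=
  subPC (Simp (QG Γ Y) (List (Cls Γ Y))) (Tup ole {x : List (Cls Γ Y) | IsOP x})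
    (fun g _ hx => tup_smul g hx) (fun _ hx => tup_bd hx)

theorem NV_vertex : ∃ v ∈ (NV Γ Y).Dg 0, (NV Γ Y).E v = 1 := by
  have h0 : (([cls Γ id], []) : List (Cls Γ Y) × List (List (Cls Γ Y))) ∈
      Tup ole {x : List (Cls Γ Y) | IsOP x} := by
    refine ⟨by simp, ?_⟩
    intro a ha
    simp only [List.mem_singleton] at ha
    subst ha
    exact IsOP.of_cut Cut.one
  refine ⟨Finsupp.single ⟨_, h0⟩ 1, (NV Γ Y).single_mem_Dg rfl 1, ?_⟩
  rw [(NV Γ Y).E_single, one_mul]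
  rfl

theorem NV_BAc [FaithfulSMul Γ Y] [Nonempty Y] (hfo : FinOrb Γ Y) (n : ℕ) : BAc (NV Γ Y) n := by
  intro T hT
  set S := Tup ole {x : List (Cls Γ Y) | IsOP x} with hS
  obtain ⟨q0, hq0⟩ : ∃ q0, ∀ t ∈ T, ∀ x ∈ t.1.1 :: t.1.2, x.length ≤ q0 := by
    obtain ⟨q0, hq0⟩ := (hT.image (fun t => ((t.1.1 :: t.1.2).map List.length).sum)).bddAbove
    refine ⟨q0, fun t ht x hx => ?_⟩
    refine le_trans ?_ (hq0 ⟨t, ht, rfl⟩)
    exact List.le_sum_of_mem (List.mem_map.2 ⟨x, hx, rfl⟩)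
  set q1 := max q0 (4 * (n + 1) + 1) with hq1
  obtain ⟨TF, hTF, hF⟩ := hfo q1 (n + 2)
  let T' : Set (NV Γ Y).X := {t | (t.1.1 :: t.1.2) ∈ TF}
  have hT' : T'.Finite := by
    refine hTF.preimage (f := fun t : (NV Γ Y).X => t.1.1 :: t.1.2) ?_
    rintro ⟨⟨a, l⟩, ha⟩ - ⟨⟨b, k⟩, hb⟩ - h
    simp only [List.cons.injEq] at h
    obtain ⟨rfl, rfl⟩ := h
    rfl
  refine ⟨T', hT', fun z hz => ?_⟩
  rw [PCx.mem_Cy] at hz
  obtain ⟨z1, z2, z3, z4⟩ := hz
  have z1' := (Finsupp.mem_supported ℤ _).1 z1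
  have z2' := (Finsupp.mem_supported ℤ _).1 z2
  -- an upper bound
  obtain ⟨C, hC, hub⟩ := exists_above (Γ := Γ)
    (z.support.toList.flatMap (fun t => t.1.1 :: t.1.2)) (by
      intro x hx
      rw [List.mem_flatMap] at hx
      obtain ⟨t, -, ht⟩ := hx
      exact t.2.2 x ht)
  set b : List (Cls Γ Y) := C.map (cls Γ) with hb
  have hbOP : IsOP b := IsOP.of_cut hC
  set Dst : Set (List (Cls Γ Y)) := {x | IsOP x ∧ ole x b ∧ x.length ≤ q1} with hDst
  have hcon := con_OP homTh hbOP (n + 1) q1 (le_max_right _ _)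
  have hac : HAc ole Dst n := hcon.2 n (Nat.lt_succ_self n)
  have hz' : ∀ t ∈ (inc S z).support, t ∈ Tup ole Dst ∧ t.2.length = n := by
    intro t ht
    obtain ⟨htS, htz⟩ := mem_supp_inc S ht
    refine ⟨⟨htS.1, fun x hx => ⟨htS.2 x hx, ?_, ?_⟩⟩, z1' htz⟩
    · apply hub x
      rw [List.mem_flatMap]
      exact ⟨_, Finset.mem_toList.2 htz, hx⟩
    · obtain ⟨t0, ht0, g, e⟩ := z2' htz
      have e1 : t = smX g t0.1 := congrArg Subtype.val e
      rw [e1] at hx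
      have hx' : x ∈ (t0.1.1 :: t0.1.2).map (fun y => g • y) := hx
      obtain ⟨y, hy, rfl⟩ := List.mem_map.1 hx'
      rw [length_smul]
      exact (hq0 t0 ht0 y hy).trans (le_max_left _ _)
  obtain ⟨c, c1, c2, c3⟩ := hac (inc S z)
    ((Finsupp.mem_supported ℤ _).2 fun t ht => (hz' t ht).1)
    ((Finsupp.mem_supported ℤ _).2 fun t ht => (hz' t ht).2)
    (by
      have h1 : inc S ((NV Γ Y).D z) = sD (inc S z) :=
        inc_D (Simp (QG Γ Y) (List (Cls Γ Y))) S _ _ z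
      rw [← h1, z3, map_zero])
    (by
      have h1 : (NV Γ Y).E z = sE (inc S z) :=
        inc_E (Simp (QG Γ Y) (List (Cls Γ Y))) S _ _ z
      rw [← h1, z4])
  have c1' := (Finsupp.mem_supported ℤ _).1 c1
  have c2' := (Finsupp.mem_supported ℤ _).1 c2
  have hcS : ∀ t ∈ c.support, t ∈ S := fun t ht => ⟨(c1' ht).1, fun x hx => ((c1' ht).2 x hx).1⟩
  have hinc : inc S (resS S c) = c := inc_resS S hcS
  have hsupp : ∀ t ∈ (resS S c).support, t.1 ∈ c.support := by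
    intro t ht
    have := supp_inc S ht
    rwa [hinc] at this
  rw [PCx.mem_Bo]
  refine ⟨resS S c, ?_, ?_, ?_⟩
  · refine (Finsupp.mem_supported ℤ _).2 fun t ht => ?_
    exact c2' (hsupp t ht)
  · refine (Finsupp.mem_supported ℤ _).2 fun t ht => ?_
    have h1 := hsupp t ht
    have h2 := c1' h1
    have h3 : t.1.2.length = n + 1 := c2' h1
    obtain ⟨g, hg⟩ := hF (t.1.1 :: t.1.2) (by simp [h3]) h2.1
      (fun x hx => ⟨(h2.2 x hx).1, (h2.2 x hx).2.2⟩)
    refine ⟨(NV Γ Y).sm g t, ?_, g⁻¹, ?_⟩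
    · change ((g • t.1.1) :: t.1.2.map (fun x => g • x)) ∈ TF
      exact hg
    · rw [← (NV Γ Y).sm_mul, inv_mul_cancel, (NV Γ Y).sm_one]
  · apply inc_inj S
    have h1 : inc S ((NV Γ Y).D (resS S c)) = sD (inc S (resS S c)) :=
      inc_D (Simp (QG Γ Y) (List (Cls Γ Y))) S _ _ (resS S c)
    rw [h1, hinc, c3]

theorem NV_stab (hst : StabIso Γ Y) (hn : ∀ n, IsNull (MonoidHom.id Γ) n) (x : (NV Γ Y).X)
    (S : Subgroup (QG Γ Y)) (hS : ∀ g, g ∈ S ↔ (NV Γ Y).sm g x = x) (n : ℕ) :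
    IsNull (MonoidHom.id S) n := by
  have hfix : ∀ g, g ∈ S ↔ ∀ y ∈ x.1.1 :: x.1.2, g • y = y := by
    intro g
    rw [hS g]
    have e1 : (NV Γ Y).sm g x = x ↔ (x.1.1 :: x.1.2).map (fun y => g • y) = (x.1.1 :: x.1.2) := by
      constructor
      · intro h
        have h' : smX g x.1 = x.1 := congrArg Subtype.val h
        have h1 : g • x.1.1 = x.1.1 := congrArg Prod.fst h'
        have h2 : x.1.2.map (fun y => g • y) = x.1.2 := congrArg Prod.snd h'
        rw [List.map_cons, h1, h2]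
      · intro h
        simp only [List.map_cons, List.cons.injEq] at h
        apply Subtype.ext
        exact Prod.ext h.1 h.2
    rw [e1]
    constructor
    · intro h
      have : (x.1.1 :: x.1.2).map (fun y => g • y) = (x.1.1 :: x.1.2).map id := by
        rw [h, List.map_id]
      exact List.map_inj_left.1 this
    · intro h
      conv_rhs => rw [← List.map_id (x.1.1 :: x.1.2)]
      exact List.map_inj_left.2 h
  obtain ⟨s, ⟨e⟩⟩ := hst (x.1.1 :: x.1.2) (by simp) x.2.1 x.2.2 S hfix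
  exact isNull_id_of_equiv e.symm (isNull_pi s (fun _ => Γ) n (fun _ m _ => hn m))

/-- **`Q(Γ,Y)` is null in all degrees** -/
theorem null_QG [FaithfulSMul Γ Y] [Nonempty Y] (hfo : FinOrb Γ Y) (hst : StabIso Γ Y)
    (hn : ∀ n, IsNull (MonoidHom.id Γ) n) : ∀ n, IsNull (MonoidHom.id (QG Γ Y)) n :=
  resLemma (QG Γ Y) (NV Γ Y) NV_vertex (NV_BAc hfo) (NV_stab hst hn)

/-! ### finite presentation -/

/-- bounded ordered marked partitions -/
abbrev OPq (Γ Y : Type) [Group Γ] [MulAction Γ Y] (q : ℕ) : Type :=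
  {x : List (Cls Γ Y) // IsOP x ∧ x.length ≤ q}

instance (q : ℕ) : MulAction (QG Γ Y) (OPq Γ Y q) where
  smul g x := ⟨g • x.1, x.2.1.smul g, by rw [length_smul]; exact x.2.2⟩
  one_smul x := Subtype.ext (one_smul _ _)
  mul_smul g h x := Subtype.ext (mul_smul _ _ _)

theorem smul_OPq {q : ℕ} (g : QG Γ Y) (x : OPq Γ Y q) : (g • x).1 = g • x.1 := rfl

theorem con_all [FaithfulSMul Γ Y] [Nonempty Y] (T : ConTh) (m q : ℕ) (hq : 4 * m + 1 ≤ q) :
    T.Con ole m {x : List (Cls Γ Y) | IsOP x ∧ x.length ≤ q} := by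
  let ι := {b : List (Cls Γ Y) // IsOP b}
  have : Nonempty ι := ⟨⟨[cls Γ id], IsOP.of_cut Cut.one⟩⟩
  have hU : {x : List (Cls Γ Y) | IsOP x ∧ x.length ≤ q} =
      ⋃ b : ι, {x : List (Cls Γ Y) | IsOP x ∧ ole x b.1 ∧ x.length ≤ q} := by
    ext x
    simp only [Set.mem_ofPred_eq, Set.mem_iUnion]
    constructor
    · rintro ⟨h1, h2⟩
      exact ⟨⟨x, h1⟩, h1, ole_refl x, h2⟩
    · rintro ⟨b, h1, -, h2⟩
      exact ⟨h1, h2⟩
  rw [hU]
  refine T.union ole_refl ole_trans _ ?_ m (fun b => con_OP T b.2 m q hq)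
  rintro ⟨b, hb⟩ ⟨c, hc⟩
  obtain ⟨C, hC, h⟩ := exists_above (Γ := Γ) [b, c] (by
    intro x hx
    simp only [List.mem_cons, List.not_mem_nil, or_false] at hx
    rcases hx with rfl | rfl
    · exact hb
    · exact hc)
  refine ⟨⟨_, IsOP.of_cut hC⟩, ?_, ?_⟩
  · rintro x ⟨h1, h2, h3⟩
    exact ⟨h1, ole_trans _ _ _ h2 (h b (by simp)), h3⟩
  · rintro x ⟨h1, h2, h3⟩
    exact ⟨h1, ole_trans _ _ _ h2 (h c (by simp)), h3⟩

theorem con_OPq [FaithfulSMul Γ Y] [Nonempty Y] (T : ConTh) (m q : ℕ) (hq : 4 * m + 1 ≤ q) :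
    T.Con (fun x y : OPq Γ Y q => ole x.1 y.1) m Set.univ := by
  have h := con_all (Γ := Γ) (Y := Y) T m q hq
  have hd : IsOP ([cls Γ id] : List (Cls Γ Y)) ∧ ([cls Γ id] : List (Cls Γ Y)).length ≤ q :=
    ⟨IsOP.of_cut Cut.one, by simp; omega⟩
  let f : OPq Γ Y q → List (Cls Γ Y) := Subtype.val
  let g : List (Cls Γ Y) → OPq Γ Y q := fun x =>
    if h : IsOP x ∧ x.length ≤ q then ⟨x, h⟩ else ⟨_, hd⟩
  have hg : ∀ x, (h : IsOP x ∧ x.length ≤ q) → (g x).1 = x := by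
    intro x h
    simp only [g, h, and_self, ↓reduceDIte]
  refine T.transfer (fun x => ole_refl x.1) (fun x y z => ole_trans x.1 y.1 z.1)
    ole_refl ole_trans _ _ f g ?_ ?_ ?_ ?_ ?_ m h
  · intro x _; exact x.2
  · intro x _; exact Set.mem_univ _
  · intro x _ y _ h; exact h
  · intro x hx y hy h
    change ole (g x).1 (g y).1
    rw [hg x hx, hg y hy]; exact h
  · intro x _
    change ole x.1 (g x.1).1
    rw [hg x.1 x.2]; exact ole_refl _

/-- **`Q(Γ,Y)` is finitely presented** -/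
theorem fp_QG [FaithfulSMul Γ Y] [Nonempty Y] (hfo : FinOrb Γ Y) (hst : StabIso Γ Y)
    (hfp : Group.IsFinitelyPresented Γ) : Group.IsFinitelyPresented (QG Γ Y) := by
  have hcon := con_OPq (Γ := Γ) (Y := Y) covTh 2 9 (by norm_num)
  have hcon' : CCon (fun x y : OPq Γ Y 9 => ole x.1 y.1) 2 Set.univ := hcon
  obtain ⟨x0, -⟩ := hcon'.1
  have : Nonempty (OPq Γ Y 9) := ⟨x0⟩
  obtain ⟨TF, hTF, hF⟩ := hfo 9 3
  have hpi : ∀ s : ℕ, Group.IsFinitelyPresented (Fin s → Γ) := fun s => FPP.fp_pow s Γ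
  refine FPC.fpCrit (QG Γ Y) (OPq Γ Y 9) (fun x y => ole x.1 y.1) (fun x => ole_refl x.1)
    (fun x y z => ole_trans x.1 y.1 z.1) (fun g x y h => ole_smul g _ _ h)
    (hcon'.2.1 (by norm_num)) (hcon'.2.2 (le_refl _)) ?_ ?_ ?_
  · refine ⟨{p | [p.2.2.1, p.2.1.1, p.1.1] ∈ TF}, ?_, ?_⟩
    · refine hTF.preimage (f := fun p : OPq Γ Y 9 × OPq Γ Y 9 × OPq Γ Y 9 =>
        [p.2.2.1, p.2.1.1, p.1.1]) ?_
      rintro ⟨⟨a, ha⟩, ⟨b, hb⟩, ⟨c, hc⟩⟩ - ⟨⟨a', ha'⟩, ⟨b', hb'⟩, ⟨c', hc'⟩⟩ - h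
      simp only [List.cons.injEq, and_true] at h
      obtain ⟨rfl, rfl, rfl⟩ := h
      rfl
    · intro x y z hxy hyz
      obtain ⟨g, hg⟩ := hF [z.1, y.1, x.1] (by simp) (by
        simp only [List.pairwise_cons, List.mem_cons, List.not_mem_nil, or_false,
          forall_eq_or_imp, forall_eq, IsEmpty.forall_iff, implies_true, List.Pairwise.nil,
          and_true]
        exact ⟨⟨hyz, ole_trans _ _ _ hxy hyz⟩, hxy⟩) (by
        intro w hw
        simp only [List.mem_cons, List.not_mem_nil, or_false] at hw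
        rcases hw with rfl | rfl | rfl
        · exact z.2
        · exact y.2
        · exact x.2)
      exact ⟨g, hg⟩
  · intro x
    obtain ⟨s, ⟨e⟩⟩ := hst [x.1] (by simp) (by simp) (by
      intro w hw
      simp only [List.mem_singleton] at hw
      subst hw; exact x.2.1) (MulAction.stabilizer (QG Γ Y) x) (by
      intro g
      rw [MulAction.mem_stabilizer_iff]
      simp only [List.mem_singleton, forall_eq]
      exact Subtype.ext_iff)
    have := hpi s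
    exact Group.IsFinitelyPresented.equiv e.symm
  · intro x y hxy
    obtain ⟨s, ⟨e⟩⟩ := hst [y.1, x.1] (by simp) (by simpa using hxy) (by
      intro w hw
      simp only [List.mem_cons, List.not_mem_nil, or_false] at hw
      rcases hw with rfl | rfl
      · exact y.2.1
      · exact x.2.1) (MulAction.stabilizer (QG Γ Y) x ⊓ MulAction.stabilizer (QG Γ Y) y) (by
      intro g
      rw [Subgroup.mem_inf, MulAction.mem_stabilizer_iff, MulAction.mem_stabilizer_iff]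
      simp only [List.mem_cons, List.not_mem_nil, or_false, forall_eq_or_imp, forall_eq]
      rw [Subtype.ext_iff, Subtype.ext_iff]
      exact and_comm)
    have := hpi s
    have h2 : Group.IsFinitelyPresented
        ↥(MulAction.stabilizer (QG Γ Y) x ⊓ MulAction.stabilizer (QG Γ Y) y) :=
      Group.IsFinitelyPresented.equiv e.symm
    exact FPP.fg_of_fp _

end Crest.Agent.R185.Q
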