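import Crest.Agent.R185.QOP

/-!
# Row 185 (Q2), piece P7: finitely many orbits of bounded decreasing lists (helper173)

After a translation all elements of a decreasing list are cuts; the entries of a cut of size `≤ q`
are classes of words of length `< q` in the letters `sh y`, `ch y`; by high transitivity of `Γ`
on `Y` (and `ac γ ∈ QG`) the letters are moved into a fixed finite set.
-/

set_option autoImplicit false

namespace Crest.Agent.R185.Q

open Classical

variable {Γ Y : Type} [Group Γ] [MulAction Γ Y]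

/-! ### words -/

/-- a letter -/
noncomputable def lt1 (p : Bool × Y) : W Y → W Y := if p.1 then sh p.2 else ch p.2

/-- a word in the letters `sh y`, `ch y` -/
noncomputable def wd : List (Bool × Y) → W Y → W Y
  | [] => id
  | p :: l => lt1 p ∘ wd l

/-- translation of letters -/
def mvl (γ : Γ) : List (Bool × Y) → List (Bool × Y) := List.map (fun p => (p.1, γ • p.2))

theorem ac_lt1 (γ : Γ) (p : Bool × Y) :
    (ac γ : W Y → W Y) ∘ lt1 p = lt1 (p.1, γ • p.2) ∘ ac γ := by
  obtain ⟨b, y⟩ := p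
  cases b
  · simp only [lt1, Bool.false_eq_true, if_false]; exact ac_ch γ y
  · simp only [lt1, if_true]; exact ac_sh γ y

theorem ac_wd (γ : Γ) (l : List (Bool × Y)) :
    (ac γ : W Y → W Y) ∘ wd l = wd (mvl γ l) ∘ ac γ := by
  induction l with
  | nil => rfl
  | cons p l ih =>
    have h1 : (ac γ ∘ wd (p :: l) : W Y → W Y) = (ac γ ∘ lt1 p) ∘ wd l := rfl
    have h2 : (wd (mvl γ (p :: l)) ∘ ac γ : W Y → W Y)
      = lt1 (p.1, γ • p.2) ∘ (wd (mvl γ l) ∘ ac γ) := rfl
    rw [h1, h2, ac_lt1, ← ih]; rfl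

theorem wd_append (l l' : List (Bool × Y)) : wd (l ++ l') = wd l ∘ wd l' := by
  induction l with
  | nil => rfl
  | cons p l ih =>
    change lt1 p ∘ wd (l ++ l') = (lt1 p ∘ wd l) ∘ wd l'
    rw [ih]; rfl

theorem wd_snoc (l : List (Bool × Y)) (p : Bool × Y) : wd (l ++ [p]) = wd l ∘ lt1 p := by
  rw [wd_append]; rfl

/-- entries of cuts are short words -/
theorem Cut.words {K : List (W Y → W Y)} (h : Cut Γ K) :
    ∀ m ∈ K, ∃ (l : List (Bool × Y)) (γ : Γ), l.length < K.length ∧ m = wd l ∘ ac γ := by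
  induction h with
  | one =>
    intro m hm
    simp only [List.mem_singleton] at hm
    subst hm
    exact ⟨[], 1, by simp, by simp [wd]⟩
  | split y f L _ ih =>
    intro m hm
    simp only [List.mem_cons] at hm
    rcases hm with rfl | rfl | hm
    · obtain ⟨l, γ, hl, rfl⟩ := ih _ List.mem_cons_self
      refine ⟨l ++ [(true, γ • y)], γ, by simp at hl ⊢; omega, ?_⟩
      rw [wd_snoc, Function.comp_assoc, ac_sh]; simp [lt1, Function.comp_assoc]
    · obtain ⟨l, γ, hl, rfl⟩ := ih _ List.mem_cons_self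
      refine ⟨l ++ [(false, γ • y)], γ, by simp at hl ⊢; omega, ?_⟩
      rw [wd_snoc, Function.comp_assoc, ac_ch]; simp [lt1, Function.comp_assoc]
    · obtain ⟨l, γ, hl, rfl⟩ := ih _ (List.mem_cons_of_mem _ hm)
      exact ⟨l, γ, by simp at hl ⊢; omega, rfl⟩
  | perm _ hp ih =>
    intro m hm
    obtain ⟨l, γ, hl, e⟩ := ih m (hp.mem_iff.2 hm)
    exact ⟨l, γ, by rwa [← hp.length_eq], e⟩
  | label γ f L _ ih =>
    intro m hm
    simp only [List.mem_cons] at hm
    rcases hm with rfl | hm
    · obtain ⟨l, δ, hl, rfl⟩ := ih _ List.mem_cons_self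
      refine ⟨l, δ * γ, by simpa using hl, ?_⟩
      rw [ac_mul, Function.comp_assoc]
    · obtain ⟨l, δ, hl, rfl⟩ := ih _ (List.mem_cons_of_mem _ hm)
      exact ⟨l, δ, by simpa using hl, rfl⟩

/-! ### ordered marked partitions below a cut are cuts -/

theorem forall₂_of_map_cls {A B : List (W Y → W Y)} (h : A.map (cls Γ) = B.map (cls Γ)) :
    List.Forall₂ (Lab Γ) A B := by
  induction A generalizing B with
  | nil =>
    cases B with
    | nil => exact List.Forall₂.nil
    | cons b B => simp at h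
  | cons a A ih =>
    cases B with
    | nil => simp at h
    | cons b B =>
      simp only [List.map_cons, List.cons.injEq] at h
      exact List.Forall₂.cons (cls_eq.1 h.1) (ih h.2)

theorem exists_list_rep {x : List (Cls Γ Y)} {P : (W Y → W Y) → Prop}
    (h : ∀ b ∈ x, ∃ f, P f ∧ cls Γ f = b) : ∃ L : List (W Y → W Y), (∀ f ∈ L, P f) ∧
      L.map (cls Γ) = x := by
  induction x with
  | nil => exact ⟨[], by simp, rfl⟩
  | cons b x ih =>
    obtain ⟨L, h1, h2⟩ := ih (fun b hb => h b (List.mem_cons_of_mem _ hb))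
    obtain ⟨f, hf, hb⟩ := h b List.mem_cons_self
    refine ⟨f :: L, ?_, by simp [hb, h2]⟩
    intro g hg
    rcases List.mem_cons.1 hg with rfl | hg
    · exact hf
    · exact h1 g hg

theorem dj_of_f2 {A B : List (W Y → W Y)} (h : List.Forall₂ (Lab Γ) A B) :
    (∀ g, (∀ f ∈ A, Dj g f) → ∀ f ∈ B, Dj g f) ∧ (A.Pairwise Dj → B.Pairwise Dj) := by
  induction h with
  | nil => exact ⟨fun g _ => by simp, fun _ => List.Pairwise.nil⟩
  | @cons a b A B hab _ ih =>
    obtain ⟨γ, rfl⟩ := hab
    constructor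
    · intro g hg f hf
      rcases List.mem_cons.1 hf with rfl | hf
      · exact fun u v e => hg a List.mem_cons_self u _ e
      · exact ih.1 g (fun f hf => hg f (List.mem_cons_of_mem _ hf)) f hf
    · intro hp
      rw [List.pairwise_cons] at hp ⊢
      refine ⟨?_, ih.2 hp.2⟩
      apply ih.1
      exact fun f hf u v e => hp.1 f hf _ _ e

theorem cov_of_f2 {A B : List (W Y → W Y)} (h : List.Forall₂ (Lab Γ) A B) {u : W Y}
    (hA : ∃ f ∈ A, ∃ v, f v = u) : ∃ f ∈ B, ∃ v, f v = u := by
  induction h with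
  | nil => simp at hA
  | @cons a b A B hab _ ih =>
    obtain ⟨γ, rfl⟩ := hab
    obtain ⟨f, hf, v, hv⟩ := hA
    rcases List.mem_cons.1 hf with rfl | hf
    · obtain ⟨w, rfl⟩ := ac_surj γ v
      exact ⟨_, List.mem_cons_self, w, hv⟩
    · obtain ⟨f', hf', hv'⟩ := ih ⟨f, hf, v, hv⟩
      exact ⟨f', List.mem_cons_of_mem _ hf', hv'⟩

/-- an ordered marked partition below a cut is a cut -/
theorem IsOP.exists_cut {x : List (Cls Γ Y)} (hx : IsOP x) {L : List (W Y → W Y)} (hL : Cut Γ L)
    (h : ole (L.map (cls Γ)) x) : ∃ K, Cut Γ K ∧ K.map (cls Γ) = x := by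
  have h1 : ∀ b ∈ x, ∃ f, M Γ f ∧ cls Γ f = b := by
    intro b hb
    obtain ⟨a, ha, hab⟩ := h b hb
    obtain ⟨c, hc, rfl⟩ := List.mem_map.1 ha
    obtain ⟨m, hm, rfl⟩ := cle_iff.1 hab
    exact ⟨c ∘ m, (hL.mem_M c hc).comp hm, rfl⟩
  obtain ⟨K, hK, hKx⟩ := exists_list_rep h1
  obtain ⟨g, L', hL', e⟩ := hx
  have h2 : List.Forall₂ (Lab Γ) (L'.map (fun f => (g.1 : W Y → W Y) ∘ f)) K := by
    apply forall₂_of_map_cls
    rw [hKx, e, smul_list, List.map_map, List.map_map]
    rfl
  refine ⟨K, cut_of_part _ K rfl hK ?_ ?_, hKx⟩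
  · apply (dj_of_f2 h2).2
    rw [List.pairwise_map]
    exact hL'.dj.imp (fun hd u v e => hd u v (g.1.injective e))
  · intro u
    apply cov_of_f2 h2
    obtain ⟨f, hf, v, hv⟩ := hL'.cover (g.1.symm u)
    exact ⟨g.1 ∘ f, List.mem_map.2 ⟨f, hf, rfl⟩, v, by simp [hv]⟩

/-! ### labels in `QG` -/

/-- `ac γ` as an element of `QG` -/
def acq (Y : Type) [MulAction Γ Y] (γ : Γ) : QG Γ Y :=
  ⟨⟨ac γ, ac γ⁻¹, fun v => congrFun (ac_inv_comp γ) v, fun v => congrFun (ac_comp_inv γ) v⟩,
    Adm.base _ (M_ac γ), Adm.base _ (M_ac γ⁻¹)⟩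

theorem acq_smul (γ : Γ) (l : List (Bool × Y)) :
    acq Y γ • cls Γ (wd l) = cls Γ (wd (mvl γ l)) := by
  have : acq Y γ • cls Γ (wd l) = cls Γ ((ac γ : W Y → W Y) ∘ wd l) := rfl
  rw [this, ac_wd, cls_ac]

/-! ### finite sets of lists -/

theorem finite_lists {α : Type} {S : Set α} (hS : S.Finite) (n : ℕ) :
    {l : List α | l.length ≤ n ∧ ∀ a ∈ l, a ∈ S}.Finite := by
  have : Finite S := hS
  refine ((List.finite_length_le S n).image (List.map Subtype.val)).subset ?_
  rintro l ⟨h1, h2⟩
  refine ⟨l.attach.map (fun a => ⟨a.1, h2 a.1 a.2⟩), by simpa using h1, ?_⟩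
  simp [List.map_map, Function.comp_def]

theorem length_flatten_le {α : Type} (n : ℕ) (L : List (List α)) (h : ∀ l ∈ L, l.length ≤ n) :
    L.flatten.length ≤ L.length * n := by
  induction L with
  | nil => simp
  | cons a L ih =>
    have h1 := h a List.mem_cons_self
    have h2 := ih (fun l hl => h l (List.mem_cons_of_mem _ hl))
    simp only [List.flatten_cons, List.length_append, List.length_cons]
    nlinarith

theorem exists_list_map {α β : Type} {x : List β} {P : α → Prop} {f : α → β}
    (h : ∀ b ∈ x, ∃ a, P a ∧ f a = b) : ∃ L : List α, (∀ a ∈ L, P a) ∧ L.map f = x := by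
  induction x with
  | nil => exact ⟨[], by simp, rfl⟩
  | cons b x ih =>
    obtain ⟨L, h1, h2⟩ := ih (fun b hb => h b (List.mem_cons_of_mem _ hb))
    obtain ⟨a, ha, hb⟩ := h b List.mem_cons_self
    refine ⟨a :: L, ?_, by simp [hb, h2]⟩
    intro g hg
    rcases List.mem_cons.1 hg with rfl | hg
    · exact ha
    · exact h1 g hg

/-- **P7** -/
theorem finOrb (hinf : Infinite Y)
    (htr : ∀ (n : ℕ) (x y : Fin n → Y), Function.Injective x → Function.Injective y →
      ∃ γ : Γ, ∀ i, γ • x i = y i) : FinOrb Γ Y := by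
  intro q k
  let N : ℕ := k * q * q
  let y0 : Fin N → Y := fun i => Infinite.natEmbedding Y i
  have hy0 : Function.Injective y0 := by
    intro i j e
    exact Fin.ext ((Infinite.natEmbedding Y).injective e)
  have hY0 : (Set.range y0).Finite := Set.finite_range _
  have hS0 : {p : Bool × Y | p.2 ∈ Set.range y0}.Finite := by
    have : {p : Bool × Y | p.2 ∈ Set.range y0} = Set.univ ×ˢ Set.range y0 := by
      ext p; simp
    rw [this]
    exact Set.finite_univ.prod hY0
  have hS1 := finite_lists hS0 q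
  have hS2 := hS1.image (fun l => cls Γ (wd l))
  have hS3 := finite_lists hS2 q
  refine ⟨_, finite_lists hS3 k, ?_⟩
  intro t htk htd hto
  -- reduce to words
  have key : ∃ (g : QG Γ Y) (ww : List (List (List (Bool × Y)))),
      (∀ w ∈ ww, w.length ≤ q ∧ ∀ l ∈ w, l.length ≤ q) ∧
        t.map (g • ·) = ww.map (List.map (fun l => cls Γ (wd l))) := by
    rcases List.eq_nil_or_concat t with rfl | ⟨t', z, rfl⟩
    · exact ⟨1, [], by simp, by simp⟩
    · rw [List.concat_eq_append] at htk htd hto ⊢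
      have hz : IsOP z := (hto z (by simp)).1
      have hzt : ∀ x ∈ t' ++ [z], ole z x := by
        intro x hx
        rw [List.mem_append, List.mem_singleton] at hx
        rcases hx with hx | rfl
        · exact (List.pairwise_append.1 htd).2.2 x hx z (by simp)
        · exact ole_refl x
      obtain ⟨g, L, hL, rfl⟩ := hz
      have h1 : ∀ x ∈ (t' ++ [g • L.map (cls Γ)]).map (g⁻¹ • ·), ∃ w : List (List (Bool × Y)),
          (w.length ≤ q ∧ ∀ l ∈ w, l.length ≤ q) ∧ w.map (fun l => cls Γ (wd l)) = x := by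
        intro x hx
        obtain ⟨x', hx', rfl⟩ := List.mem_map.1 hx
        have h2 : ole (L.map (cls Γ)) (g⁻¹ • x') := by
          have := ole_smul g⁻¹ _ _ (hzt x' hx')
          rwa [inv_smul_smul] at this
        obtain ⟨K, hK, hKx⟩ := ((hto x' hx').1.smul g⁻¹).exists_cut hL h2
        have hlen : K.length ≤ q := by
          have : K.length = x'.length := by
            rw [← length_smul g⁻¹ x', ← hKx, List.length_map]
          rw [this]; exact (hto x' hx').2
        have h3 : ∀ b ∈ g⁻¹ • x', ∃ l : List (Bool × Y), l.length ≤ q ∧ cls Γ (wd l) = b := by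
          intro b hb
          rw [← hKx] at hb
          obtain ⟨m, hm, rfl⟩ := List.mem_map.1 hb
          obtain ⟨l, γ, hl, rfl⟩ := hK.words m hm
          exact ⟨l, by omega, (cls_ac _ _).symm⟩
        obtain ⟨w, hw, hwx⟩ := exists_list_map h3
        refine ⟨w, ⟨?_, hw⟩, hwx⟩
        have : w.length = x'.length := by
          rw [← length_smul g⁻¹ x', ← hwx, List.length_map]
        rw [this]; exact (hto x' hx').2
      obtain ⟨ww, hww, e⟩ := exists_list_map h1
      exact ⟨g⁻¹, ww, hww, e.symm⟩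
  obtain ⟨g, ww, hww, e⟩ := key
  have hlen : ww.length ≤ k := by
    have : ww.length = t.length := by
      have := congrArg List.length e
      simpa using this.symm
    omega
  -- the letters
  let F : Finset Y := (ww.flatten.flatten.map Prod.snd).toFinset
  have hF : F.card ≤ N := by
    refine (List.toFinset_card_le _).trans ?_
    rw [List.length_map]
    have h1 : ww.flatten.length ≤ ww.length * q := length_flatten_le q ww (fun w hw => (hww w hw).1)
    have h2 : ww.flatten.flatten.length ≤ ww.flatten.length * q := by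
      apply length_flatten_le
      intro l hl
      obtain ⟨w, hw, hl⟩ := List.mem_flatten.1 hl
      exact (hww w hw).2 l hl
    calc ww.flatten.flatten.length ≤ ww.flatten.length * q := h2
      _ ≤ (ww.length * q) * q := Nat.mul_le_mul_right _ h1
      _ ≤ k * q * q := Nat.mul_le_mul_right _ (Nat.mul_le_mul_right _ hlen)
  obtain ⟨γ, hγ⟩ := htr F.card (fun i => (F.equivFin.symm i : Y)) (fun i => y0 (Fin.castLE hF i))
    (fun i j h => F.equivFin.symm.injective (Subtype.ext h))
    (fun i j h => Fin.castLE_injective hF (hy0 h))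
  have hγF : ∀ y ∈ F, γ • y ∈ Set.range y0 := by
    intro y hy
    have := hγ (F.equivFin ⟨y, hy⟩)
    simp only [Equiv.symm_apply_apply] at this
    rw [this]
    exact ⟨_, rfl⟩
  refine ⟨acq Y γ * g, ?_⟩
  have e2 : t.map ((acq Y γ * g) • ·) = ww.map (List.map (fun l => cls Γ (wd (mvl γ l)))) := by
    have h1 : t.map ((acq Y γ * g) • ·) = (t.map (g • ·)).map (acq Y γ • ·) := by
      rw [List.map_map]
      apply List.map_congr_left
      intro x _
      exact mul_smul _ _ _
    rw [h1, e, List.map_map]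
    apply List.map_congr_left
    intro w _
    simp only [Function.comp_apply]
    rw [smul_list, List.map_map]
    apply List.map_congr_left
    intro l _
    exact acq_smul γ l
  rw [e2]
  refine ⟨by simpa using hlen, ?_⟩
  intro x hx
  obtain ⟨w, hw, rfl⟩ := List.mem_map.1 hx
  refine ⟨by simpa using (hww w hw).1, ?_⟩
  intro b hb
  obtain ⟨l, hl, rfl⟩ := List.mem_map.1 hb
  refine ⟨mvl γ l, ⟨by simpa [mvl] using (hww w hw).2 l hl, ?_⟩, rfl⟩
  intro p hp
  obtain ⟨p', hp', rfl⟩ := List.mem_map.1 hp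
  apply hγF
  rw [List.mem_toFinset, List.mem_map]
  refine ⟨p', ?_, rfl⟩
  exact List.mem_flatten.2 ⟨l, List.mem_flatten.2 ⟨w, hw, hl⟩, hp'⟩

end Crest.Agent.R185.Q
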