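import Crest.Agent.R185.QOP
import Crest.Agent.R185.Hot2

/-!
# Row 185 (Q2), piece P8: stabilisers of chains of ordered marked partitions (helper340)
-/

set_option autoImplicit false

namespace Crest.Agent.R185.Q

open Classical

variable {Γ Y : Type} [Group Γ] [MulAction Γ Y]

/-! ### the letterwise action on normal forms -/

/-- the action on shift vectors -/
noncomputable def vac (γ : Γ) (v : Y →₀ ℕ) : Y →₀ ℕ := Finsupp.equivMapDomain (MulAction.toPerm γ) v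

theorem vac_apply (γ : Γ) (v : Y →₀ ℕ) (y : Y) : vac γ v y = v (γ⁻¹ • y) := rfl

theorem vac_add (γ : Γ) (v : Y →₀ ℕ) (a : Y) :
    vac γ (v + Finsupp.single a 1) = vac γ v + Finsupp.single (γ • a) 1 := by
  ext y
  simp only [vac_apply, Finsupp.add_apply, Finsupp.single_apply]
  congr 1
  have : (a = γ⁻¹ • y) = (γ • a = y) := by
    rw [eq_inv_smul_iff]
  simp only [this]

theorem ac_shv (γ : Γ) (v : Y →₀ ℕ) (t : W Y) : ac γ (shv v t) = shv (vac γ v) (ac γ t) := by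
  cases t with
  | nil => rfl
  | cons p t => simp [shv, vac_apply]

theorem ac_append (γ : Γ) (w t : W Y) : ac γ (w ++ t) = ac γ w ++ ac γ t := by
  simp [ac]

theorem ac_nf (γ : Γ) (w : W Y) (v : Y →₀ ℕ) (γ0 : Γ) :
    ac γ ∘ nf w v γ0 = nf (ac γ w) (vac γ v) (γ * γ0) := by
  funext t
  simp only [nf, Function.comp_apply, ac_append, ac_shv, ac_mul]

theorem nf_ac (w : W Y) (v : Y →₀ ℕ) (γ0 δ : Γ) : nf w v γ0 ∘ ac δ = nf w v (γ0 * δ) := by
  funext t
  simp only [nf, Function.comp_apply, ac_mul]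

/-- `γ` preserves `m` up to a label -/
def Cd (γ : Γ) (m : W Y → W Y) : Prop := ∃ δ : Γ, ac γ ∘ m = m ∘ ac δ

theorem cd_nf [FaithfulSMul Γ Y] {γ : Γ} {w : W Y} {v : Y →₀ ℕ} {γ0 : Γ} :
    Cd γ (nf w v γ0) ↔ ac γ w = w ∧ vac γ v = v := by
  constructor
  · rintro ⟨δ, h⟩
    rw [ac_nf, nf_ac] at h
    obtain ⟨h1, h2, -⟩ := nf_inj h
    exact ⟨h1, h2⟩
  · rintro ⟨h1, h2⟩
    refine ⟨γ0⁻¹ * γ * γ0, ?_⟩
    rw [ac_nf, nf_ac, h1, h2]
    congr 1
    group

theorem cd_lab {γ : Γ} {f : W Y → W Y} {γ0 : Γ} : Cd γ (f ∘ ac γ0) ↔ Cd γ f := by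
  constructor
  · rintro ⟨δ, h⟩
    refine ⟨γ0 * δ * γ0⁻¹, ?_⟩
    have h2 : (ac γ ∘ f ∘ ac γ0) ∘ ac γ0⁻¹ = ((f ∘ ac γ0) ∘ ac δ) ∘ ac γ0⁻¹ := by rw [h]
    have h3 : ((ac γ ∘ f ∘ ac γ0) ∘ ac γ0⁻¹ : W Y → W Y) = ac γ ∘ f ∘ (ac γ0 ∘ ac γ0⁻¹) := rfl
    rw [h3, ac_comp_inv] at h2
    rw [ac_mul, ac_mul]
    exact h2
  · rintro ⟨δ, h⟩
    refine ⟨γ0⁻¹ * δ * γ0, ?_⟩
    rw [← Function.comp_assoc, h, ac_mul, ac_mul]
    have : ((f ∘ ac γ0) ∘ (ac γ0⁻¹ ∘ ac δ) ∘ ac γ0 : W Y → W Y) =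
      f ∘ (ac γ0 ∘ ac γ0⁻¹) ∘ ac δ ∘ ac γ0 := rfl
    rw [this, ac_comp_inv]
    rfl

theorem cd_split [FaithfulSMul Γ Y] {f : W Y → W Y} (hf : M Γ f) (y : Y) :
    ∃ a : Y, ∀ γ : Γ, (Cd γ (f ∘ sh y) ∧ Cd γ (f ∘ ch y)) ↔ (Cd γ f ∧ γ • a = a) := by
  obtain ⟨w, v, γ0, rfl⟩ := hf.m0.nf
  refine ⟨γ0 • y, fun γ => ?_⟩
  have h1 : nf w v γ0 ∘ ch y = nf (w ++ [(γ0 • y, v (γ0 • y))]) 0 γ0 := by
    have := nf_ch w v γ0 y 1
    rw [mul_one, ac_one] at this
    exact this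
  rw [nf_sh, h1, cd_nf, cd_nf, cd_nf, vac_add, ac_append]
  constructor
  · rintro ⟨⟨h2, h3⟩, h4, -⟩
    rw [h2] at h4
    have h5 : γ • γ0 • y = γ0 • y := by
      have := List.append_cancel_left h4
      simp only [ac_cons, ac_nil, List.cons.injEq, Prod.mk.injEq] at this
      exact this.1.1
    rw [h5] at h3
    exact ⟨⟨h2, add_right_cancel h3⟩, h5⟩
  · rintro ⟨⟨h2, h3⟩, h4⟩
    refine ⟨⟨h2, by rw [h3, h4]⟩, ?_, ?_⟩
    · rw [h2]
      simp [h4]
    · ext z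
      simp [vac_apply]

theorem cut_cd [FaithfulSMul Γ Y] {K : List (W Y → W Y)} (h : Cut Γ K) :
    ∃ F : Finset Y, ∀ γ : Γ, (∀ m ∈ K, Cd γ m) ↔ ∀ a ∈ F, γ • a = a := by
  induction h with
  | one =>
    refine ⟨∅, fun γ => ⟨fun _ => by simp, fun _ m hm => ?_⟩⟩
    simp only [List.mem_singleton] at hm
    subst hm
    exact ⟨γ, rfl⟩
  | split y f L hL ih =>
    obtain ⟨F, hF⟩ := ih
    obtain ⟨a, ha⟩ := cd_split (hL.mem_M f (by simp)) y
    refine ⟨insert a F, fun γ => ?_⟩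
    rw [List.forall_mem_cons, List.forall_mem_cons, ← and_assoc, ha, Finset.forall_mem_insert,
      ← hF, List.forall_mem_cons]
    tauto
  | perm _ hp ih =>
    obtain ⟨F, hF⟩ := ih
    refine ⟨F, fun γ => ?_⟩
    rw [← hF]
    exact ⟨fun h m hm => h m (hp.mem_iff.1 hm), fun h m hm => h m (hp.mem_iff.2 hm)⟩
  | label γ0 f L _ ih =>
    obtain ⟨F, hF⟩ := ih
    refine ⟨F, fun γ => ?_⟩
    rw [← hF, List.forall_mem_cons, List.forall_mem_cons, cd_lab]

/-! ### ordered marked partitions -/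

theorem Dj.lab {f g f' g' : W Y → W Y} (h : Dj f g) (hf : Lab Γ f f') (hg : Lab Γ g g') :
    Dj f' g' := by
  obtain ⟨γ, rfl⟩ := hf
  obtain ⟨δ, rfl⟩ := hg
  exact fun u v e => h _ _ e

theorem lab_of_cls {f g : W Y → W Y} (h : cls Γ f = cls Γ g) : Lab Γ f g := cls_eq.1 h

theorem IsOP.dj {x : List (Cls Γ Y)} (h : IsOP x) :
    x.Pairwise (fun a b => Dj (rep a) (rep b)) := by
  obtain ⟨g, L, hL, rfl⟩ := h
  rw [smul_list, List.pairwise_map, List.pairwise_map]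
  refine hL.dj.imp ?_
  intro a b hab
  have h1 : Dj ((g.1 : W Y → W Y) ∘ a) ((g.1 : W Y → W Y) ∘ b) :=
    fun u v e => hab u v (g.1.injective e)
  refine h1.lab (Γ := Γ) (lab_of_cls ?_) (lab_of_cls ?_)
  · rw [cls_rep, smul_cls]
  · rw [cls_rep, smul_cls]

theorem IsOP.cov {x : List (Cls Γ Y)} (h : IsOP x) (u : W Y) : ∃ b ∈ x, ∃ v, rep b v = u := by
  obtain ⟨g, L, hL, rfl⟩ := h
  obtain ⟨f, hf, v, hv⟩ := hL.cover (g.1.symm u)
  refine ⟨g • cls Γ f, List.mem_map.2 ⟨_, List.mem_map.2 ⟨f, hf, rfl⟩, rfl⟩, ?_⟩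
  have h1 : Lab Γ ((g.1 : W Y → W Y) ∘ f) (rep (g • cls Γ f)) :=
    lab_of_cls (by rw [cls_rep, smul_cls])
  obtain ⟨γ, hγ⟩ := h1
  obtain ⟨v', rfl⟩ := ac_surj γ v
  refine ⟨v', ?_⟩
  rw [hγ]
  simp only [Function.comp_apply, hv, Equiv.apply_symm_apply]

/-- the local condition at a chart `f` -/
def Loc (x : List (Cls Γ Y)) (f : W Y → W Y) (γ : Γ) : Prop :=
  ∀ m, M Γ m → cls Γ (f ∘ m) ∈ x → Cd γ m

theorem loc_fin [FaithfulSMul Γ Y] {x0 x : List (Cls Γ Y)} (hx0 : IsOP x0) (hx : IsOP x)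
    (hle : ole x0 x) {f : W Y → W Y} (hf : cls Γ f ∈ x0) (hfi : Function.Injective f) :
    ∃ F : Finset Y, ∀ γ : Γ, Loc x f γ ↔ ∀ a ∈ F, γ • a = a := by
  have hch : ∀ b : Cls Γ Y, ∃ m : W Y → W Y, cle (cls Γ f) b → M Γ m ∧ cls Γ (f ∘ m) = b := by
    intro b
    by_cases h : cle (cls Γ f) b
    · obtain ⟨m, hm, e⟩ := cle_iff.1 h
      exact ⟨m, fun _ => ⟨hm, e⟩⟩
    · exact ⟨id, fun h' => absurd h' h⟩
  choose μ hμ using hch
  set K : List (W Y → W Y) := (x.filter (fun b => cle (cls Γ f) b)).map μ with hK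
  have hmem : ∀ {b}, b ∈ x.filter (fun b => cle (cls Γ f) b) → b ∈ x ∧ cle (cls Γ f) b := by
    intro b hb
    rw [List.mem_filter] at hb
    exact ⟨hb.1, by simpa using hb.2⟩
  have hlab : ∀ {b}, cle (cls Γ f) b → Lab Γ (rep b) (f ∘ μ b) := by
    intro b hb
    exact lab_of_cls (by rw [cls_rep, (hμ b hb).2])
  have hcut : Cut Γ K := by
    refine cut_of_part _ _ rfl ?_ ?_ ?_
    · intro m hm
      obtain ⟨b, hb, rfl⟩ := List.mem_map.1 hm
      exact (hμ b (hmem hb).2).1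
    · rw [hK, List.pairwise_map]
      have h1 := hx.dj.filter (fun b => decide (cle (cls Γ f) b))
      refine (List.Pairwise.and_mem.1 h1).imp ?_
      rintro a b ⟨ha, hb, hab⟩ u v e
      have h2 := hab.lab (hlab (hmem ha).2) (hlab (hmem hb).2)
      exact h2 u v (congrArg f e)
    · intro u
      obtain ⟨b, hb, v, hv⟩ := hx.cov (f u)
      obtain ⟨a, ha, hab⟩ := hle b hb
      -- `a = cls f`
      have hac : a = cls Γ f := by
        by_contra hne
        have h1 : Dj (rep a) (rep (cls Γ f)) := by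
          have : Std.Symm (fun a b : Cls Γ Y => Dj (rep a) (rep b)) := ⟨fun _ _ h => h.symm⟩
          exact hx0.dj.forall ha hf hne
        obtain ⟨m, hm, e⟩ := cle_iff.1 (show cle (cls Γ (rep a)) b by rwa [cls_rep])
        obtain ⟨γ, hγ⟩ : Lab Γ (rep a ∘ m) (rep b) := lab_of_cls (by rw [cls_rep, e])
        obtain ⟨δ, hδ⟩ : Lab Γ (rep (cls Γ f)) f := lab_of_cls (by rw [cls_rep])
        rw [hγ, hδ] at hv
        exact h1 _ _ hv
      subst hac
      obtain ⟨γ, hγ⟩ := (hlab hab).symm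
      rw [hγ] at hv
      refine ⟨μ b, ?_, ac γ v, hfi hv⟩
      rw [hK, List.mem_map]
      refine ⟨b, ?_, rfl⟩
      rw [List.mem_filter]
      exact ⟨hb, by simpa using hab⟩
  obtain ⟨F, hF⟩ := cut_cd hcut
  refine ⟨F, fun γ => ?_⟩
  rw [← hF]
  constructor
  · intro h m hm
    obtain ⟨b, hb, rfl⟩ := List.mem_map.1 hm
    refine h _ (hμ b (hmem hb).2).1 ?_
    rw [(hμ b (hmem hb).2).2]
    exact (hmem hb).1
  · intro h m hm hx'
    have hc : cle (cls Γ f) (cls Γ (f ∘ m)) := cle_iff.2 ⟨m, hm, rfl⟩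
    have h1 : μ (cls Γ (f ∘ m)) ∈ K := by
      rw [hK, List.mem_map]
      refine ⟨_, ?_, rfl⟩
      rw [List.mem_filter]
      exact ⟨hx', by simpa using hc⟩
    obtain ⟨δ, hδ⟩ := lab_of_cls (hμ _ hc).2
    have h2 : m = μ (cls Γ (f ∘ m)) ∘ ac δ := by
      funext u
      exact hfi (congrFun hδ u)
    have h3 := h _ h1
    rw [h2]
    exact cd_lab.2 h3

theorem fix_iff {g : QG Γ Y} {x : List (Cls Γ Y)} : g • x = x ↔ ∀ b ∈ x, g • b = b := by
  rw [smul_list]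
  constructor
  · intro h b hb
    have h1 : x.map (g • ·) = x.map id := by rw [List.map_id]; exact h
    exact List.map_inj_left.1 h1 b hb
  · intro h
    conv_rhs => rw [← List.map_id x]
    exact List.map_inj_left.2 h

theorem ac_injective [FaithfulSMul Γ Y] {γ δ : Γ} (h : (ac γ : W Y → W Y) = ac δ) : γ = δ := by
  apply FaithfulSMul.eq_of_smul_eq_smul (α := Y)
  intro y
  have := congrFun h [(y, 0)]
  simpa using this

theorem exists_tup (F : Finset Y) : ∃ (n : ℕ) (x : Fin n → Y), Function.Injective x ∧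
    ∀ γ : Γ, (∀ a ∈ F, γ • a = a) ↔ γ ∈ Hot.tupStab x := by
  refine ⟨F.card, fun i => (F.equivFin.symm i : Y),
    Subtype.val_injective.comp F.equivFin.symm.injective, fun γ => ?_⟩
  rw [Hot.mem_tupStab]
  constructor
  · intro h i
    exact h _ (F.equivFin.symm i).2
  · intro h a ha
    have := h (F.equivFin ⟨a, ha⟩)
    simpa using this

/-- **P8**: stabilisers of decreasing lists are powers of `Γ` -/
theorem stabIso [FaithfulSMul Γ Y]
    (hst : ∀ (n : ℕ) (x : Fin n → Y), Function.Injective x →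
      Nonempty (Γ ≃* (Hot.tupStab x : Subgroup Γ))) : StabIso Γ Y := by
  intro t ht hdec hOP S hS
  -- the coarsest element
  set x0 := t.getLast ht with hx0def
  have hx0t : x0 ∈ t := List.getLast_mem ht
  have hx0 : IsOP x0 := hOP _ hx0t
  have hle : ∀ x ∈ t, ole x0 x := by
    intro x hx
    have e : t.dropLast ++ [x0] = t := List.dropLast_append_getLast ht
    rw [← e, List.pairwise_append] at hdec
    rw [← e, List.mem_append, List.mem_singleton] at hx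
    rcases hx with hx | rfl
    · exact hdec.2.2 x hx x0 (by simp)
    · exact ole_refl _
  obtain ⟨g0, L, hL, e0⟩ := id hx0
  -- charts
  obtain ⟨f, hf⟩ : ∃ f : Fin L.length → W Y → W Y,
    f = fun i => (g0.1 : W Y → W Y) ∘ L.get i := ⟨_, rfl⟩
  have hfinj : ∀ i, Function.Injective (f i) := by
    intro i
    rw [hf]
    exact g0.1.injective.comp (hL.mem_M _ (List.get_mem _ _)).inj
  have hfx0 : ∀ i, cls Γ (f i) ∈ x0 := by
    intro i
    rw [e0, smul_list, hf]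
    exact List.mem_map.2 ⟨cls Γ (L.get i), List.mem_map.2 ⟨_, List.get_mem _ _, rfl⟩, rfl⟩
  have hfx0' : ∀ a ∈ x0, ∃ i, a = cls Γ (f i) := by
    intro a ha
    rw [e0, smul_list] at ha
    obtain ⟨b, hb, rfl⟩ := List.mem_map.1 ha
    obtain ⟨l, hl, rfl⟩ := List.mem_map.1 hb
    obtain ⟨i, rfl⟩ := List.get_of_mem hl
    exact ⟨i, by rw [hf]; rfl⟩
  have hfcov : ∀ u, ∃ i v, f i v = u := by
    intro u
    obtain ⟨l, hl, v, hv⟩ := hL.cover (g0.1.symm u)
    obtain ⟨i, rfl⟩ := List.get_of_mem hl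
    refine ⟨i, v, ?_⟩
    rw [hf]
    simp only [Function.comp_apply, hv, Equiv.apply_symm_apply]
  -- the local groups
  have hloc : ∀ i, ∃ F : Finset Y, ∀ γ : Γ, (∀ x ∈ t, Loc x (f i) γ) ↔ ∀ a ∈ F, γ • a = a := by
    intro i
    have h1 : ∀ x, ∃ F : Finset Y, x ∈ t → ∀ γ : Γ, Loc x (f i) γ ↔ ∀ a ∈ F, γ • a = a := by
      intro x
      by_cases hx : x ∈ t
      · obtain ⟨F, hF⟩ := loc_fin hx0 (hOP x hx) (hle x hx) (hfx0 i) (hfinj i)
        exact ⟨F, fun _ => hF⟩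
      · exact ⟨∅, fun h => absurd h hx⟩
    choose F hF using h1
    refine ⟨t.toFinset.biUnion F, fun γ => ?_⟩
    simp only [Finset.mem_biUnion, List.mem_toFinset]
    constructor
    · rintro h a ⟨x, hx, ha⟩
      exact (hF x hx γ).1 (h x hx) a ha
    · intro h x hx
      exact (hF x hx γ).2 (fun a ha => h a ⟨x, hx, ha⟩)
  have hloc2 : ∀ i, ∃ (n : ℕ) (x : Fin n → Y), Function.Injective x ∧
      ∀ γ : Γ, (∀ x ∈ t, Loc x (f i) γ) ↔ γ ∈ Hot.tupStab x := by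
    intro i
    obtain ⟨F, hF⟩ := hloc i
    obtain ⟨n, x, hx, h⟩ := exists_tup (Γ := Γ) F
    exact ⟨n, x, hx, fun γ => (hF γ).trans (h γ)⟩
  choose n tup htup hmem using hloc2
  -- description of the stabiliser
  have key1 : ∀ g ∈ S, ∀ i, ∃ γ : Γ, (g.1 : W Y → W Y) ∘ f i = f i ∘ ac γ ∧
      γ ∈ Hot.tupStab (tup i) := by
    intro g hg i
    have h1 := fix_iff.1 ((hS g).1 hg x0 hx0t) _ (hfx0 i)
    rw [smul_cls] at h1
    obtain ⟨γ, hγ⟩ := lab_of_cls h1.symm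
    refine ⟨γ, hγ, ?_⟩
    rw [← hmem]
    intro x hx m hm hmx
    have h2 := fix_iff.1 ((hS g).1 hg x hx) _ hmx
    rw [smul_cls] at h2
    obtain ⟨δ, hδ⟩ := lab_of_cls h2.symm
    refine ⟨δ, ?_⟩
    funext u
    apply hfinj i
    have h3 := congrFun hδ u
    have h4 := congrFun hγ (m u)
    simp only [Function.comp_apply] at h3 h4 ⊢
    rw [← h4, h3]
  have key2 : ∀ γ : Fin L.length → Γ, (∀ i, γ i ∈ Hot.tupStab (tup i)) →
      ∃ g ∈ S, ∀ i, (g.1 : W Y → W Y) ∘ f i = f i ∘ ac (γ i) := by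
    intro γ hγ
    have hL2 : List.Forall₂ (Lab Γ) L
        (List.ofFn fun i : Fin L.length => L.get i ∘ ac (γ i)) := by
      rw [List.forall₂_iff_get]
      refine ⟨by simp, ?_⟩
      intro k h1 h2
      refine ⟨γ ⟨k, h1⟩, ?_⟩
      simp
    have hL' : Cut Γ (List.ofFn fun i : Fin L.length => L.get i ∘ ac (γ i)) :=
      Cut.of_f2 hL2 [] hL
    obtain ⟨h, hh, e⟩ := exists_mk hL hL' (by simp)
    have e2 : ∀ i : Fin L.length, (h : W Y → W Y) ∘ L.get i = L.get i ∘ ac (γ i) := by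
      intro i
      have h1 : (List.ofFn fun i : Fin L.length => L.get i ∘ ac (γ i))[i.1]'(by simp) =
          (L.map (fun f => (h : W Y → W Y) ∘ f))[i.1]'(by simp) := by
        simp only [e]
      simp only [List.getElem_ofFn, List.getElem_map] at h1
      exact h1.symm
    have e3 : ∀ i, ((g0 * ⟨h, hh⟩ * g0⁻¹ : QG Γ Y).1 : W Y → W Y) ∘ f i = f i ∘ ac (γ i) := by
      intro i
      funext u
      have h1 := congrFun (e2 i) u
      simp only [Function.comp_apply] at h1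
      have h4 : ∀ z, (g0.1)⁻¹ (g0.1 z) = z := fun z => g0.1.symm_apply_apply z
      simp only [hf, Function.comp_apply, Subgroup.coe_mul, Subgroup.coe_inv, Equiv.Perm.mul_apply,
        ← h1, h4]
    refine ⟨g0 * ⟨h, hh⟩ * g0⁻¹, ?_, e3⟩
    rw [hS]
    intro x hx
    rw [fix_iff]
    intro b hb
    obtain ⟨a, ha, hab⟩ := hle x hx b hb
    obtain ⟨i, rfl⟩ := hfx0' a ha
    obtain ⟨m, hm, rfl⟩ := cle_iff.1 hab
    obtain ⟨δ, hδ⟩ := (hmem i (γ i)).2 (hγ i) x hx m hm hb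
    rw [smul_cls, ← Function.comp_assoc, e3, Function.comp_assoc, hδ, ← Function.comp_assoc, cls_ac]
  -- the isomorphism
  have uniq : ∀ i {γ δ : Γ}, f i ∘ ac γ = f i ∘ ac δ → γ = δ := by
    intro i γ δ h
    apply ac_injective (Y := Y)
    funext u
    exact hfinj i (congrFun h u)
  choose! γ hγ1 hγ2 using key1
  let θ : S →* ∀ i : Fin L.length, Hot.tupStab (tup i) := MonoidHom.mk'
    (fun g i => ⟨γ g.1 i, hγ2 g.1 g.2 i⟩) (by
      intro a b
      funext i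
      apply Subtype.ext
      apply uniq i
      change f i ∘ ac (γ (a * b).1 i) = f i ∘ ac (γ a.1 i * γ b.1 i)
      rw [← hγ1 _ (a * b).2 i, ac_mul, ← Function.comp_assoc, ← hγ1 _ a.2 i]
      change ((a.1.1 : W Y → W Y) ∘ (b.1.1 : W Y → W Y)) ∘ f i = _
      rw [Function.comp_assoc, hγ1 _ b.2 i]
      rfl)
  have hbij : Function.Bijective θ := by
    constructor
    · rw [injective_iff_map_eq_one]
      intro g hg
      apply Subtype.ext
      apply Subtype.ext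
      apply Equiv.ext
      intro u
      obtain ⟨i, v, rfl⟩ := hfcov u
      have h1 : γ g.1 i = 1 := congrArg Subtype.val (congrFun hg i)
      have h2 := congrFun (hγ1 _ g.2 i) v
      rw [h1, ac_one] at h2
      exact h2
    · intro δ
      obtain ⟨g, hg, e⟩ := key2 (fun i => (δ i).1) (fun i => (δ i).2)
      refine ⟨⟨g, hg⟩, ?_⟩
      funext i
      apply Subtype.ext
      apply uniq i
      change f i ∘ ac (γ g i) = _
      rw [← hγ1 g hg i, e i]
  refine ⟨L.length, ⟨(MulEquiv.ofBijective θ hbij).trans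
    (MulEquiv.piCongrRight fun i => (hst (n i) (tup i) (htup i)).some.symm)⟩⟩

end Crest.Agent.R185.Q
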