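import Crest.Agent.R185.QFin
import Crest.Agent.R185.QOrb
import Crest.Agent.R185.QStab
import Crest.Agent.R185.Fin3

/-!
# Row 185 (Q2): `Q(Γ,Y)` is simple, finitely presented and null in all degrees (helper424)
-/

set_option autoImplicit false

namespace Crest.Agent.R185.Q

open Crest.Agent.R185.Null

variable {Γ Y : Type} [Group Γ] [MulAction Γ Y]

theorem isHT_fp (h : Hot.IsHT Γ Y) (hfp : Group.IsFinitelyPresented Γ) :
    Group.IsFinitelyPresented (QG Γ Y) := by
  have := Fin.isHT_faithful h
  have := Fin.isHT_nonempty h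
  exact fp_QG (finOrb h.inf h.trans) (stabIso h.stab) hfp

theorem isHT_null (h : Hot.IsHT Γ Y) (hn : ∀ n, IsNull (MonoidHom.id Γ) n) :
    ∀ n, IsNull (MonoidHom.id (QG Γ Y)) n := by
  have := Fin.isHT_faithful h
  have := Fin.isHT_nonempty h
  exact null_QG (finOrb h.inf h.trans) (stabIso h.stab) hn

end Crest.Agent.R185.Q
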