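import Crest.Agent.R185.QMain
import Crest.Agent.R185.QTh

/-!
# Row 185 (Q2), frames 1: merges and normal forms in `M` (helper424)
-/

set_option autoImplicit false

namespace Crest.Agent.R185.Q

open Classical

variable {Γ Y : Type} [Group Γ] [MulAction Γ Y]

/-! ### gluing two functions -/

/-- the function with `mf a b u ∘ sh u = a` and `mf a b u ∘ ch u = b` -/
noncomputable def mf (a b : W Y → W Y) (u : Y) : W Y → W Y
  | [] => a []
  | (y, 0) :: t => if y = u then b t else a ((y, 0) :: t)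
  | (y, n + 1) :: t => if y = u then a ((y, n) :: t) else a ((y, n + 1) :: t)

theorem mf_sh (a b : W Y → W Y) (u : Y) : mf a b u ∘ sh u = a := by
  funext w
  rcases w with _ | ⟨⟨y, n⟩, t⟩
  · rfl
  · by_cases h : y = u
    · subst h
      simp [sh_cons, mf]
    · cases n with
      | zero => simp [sh_cons, mf, h]
      | succ n => simp [sh_cons, mf, h]

theorem mf_ch (a b : W Y → W Y) (u : Y) : mf a b u ∘ ch u = b := by
  funext w
  simp [mf]

theorem mf_unique {a b F : W Y → W Y} {u : Y} (h1 : F ∘ sh u = a) (h2 : F ∘ ch u = b) :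
    mf a b u = F := by
  funext w
  rcases cover u w with ⟨v, rfl⟩ | ⟨v, rfl⟩
  · have := congrFun (mf_sh a b u) v
    rw [← h1] at this
    rw [← h1]; exact this
  · have := congrFun (mf_ch a b u) v
    rw [← h2] at this
    rw [← h2]; exact this

theorem mf_adm {a b : W Y → W Y} (ha : Adm Γ a) (hb : Adm Γ b) (u : Y) : Adm Γ (mf a b u) :=
  Adm.split u _ (by rwa [mf_sh]) (by rwa [mf_ch])

theorem mf_range {a b : W Y → W Y} {u : Y} (w : W Y) :
    (∃ v, mf a b u w = a v) ∨ ∃ v, mf a b u w = b v := by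
  rcases cover u w with ⟨v, rfl⟩ | ⟨v, rfl⟩
  · exact Or.inl ⟨v, congrFun (mf_sh a b u) v⟩
  · exact Or.inr ⟨v, congrFun (mf_ch a b u) v⟩

theorem mf_inj {a b : W Y → W Y} (ha : Function.Injective a) (hb : Function.Injective b)
    (hd : Dj a b) (u : Y) : Function.Injective (mf a b u) := by
  intro w w' h
  rcases cover u w with ⟨v, rfl⟩ | ⟨v, rfl⟩ <;> rcases cover u w' with ⟨v', rfl⟩ | ⟨v', rfl⟩
  · have h1 := congrFun (mf_sh a b u) v
    have h2 := congrFun (mf_sh a b u) v'
    simp only [Function.comp_apply] at h1 h2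
    rw [h1, h2] at h
    rw [ha h]
  · have h1 := congrFun (mf_sh a b u) v
    have h2 := congrFun (mf_ch a b u) v'
    simp only [Function.comp_apply] at h1 h2
    rw [h1, h2] at h
    exact absurd h (hd _ _)
  · have h1 := congrFun (mf_ch a b u) v
    have h2 := congrFun (mf_sh a b u) v'
    simp only [Function.comp_apply] at h1 h2
    rw [h1, h2] at h
    exact absurd h.symm (hd _ _)
  · have h1 := congrFun (mf_ch a b u) v
    have h2 := congrFun (mf_ch a b u) v'
    simp only [Function.comp_apply] at h1 h2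
    rw [h1, h2] at h
    rw [hb h]

theorem mf_comm {a b b' : W Y → W Y} {u u' : Y} (h : u ≠ u') :
    mf (mf a b' u') b u = mf (mf a b u) b' u' := by
  apply mf_unique
  · symm
    apply mf_unique
    · rw [Function.comp_assoc, sh_comm, ← Function.comp_assoc, mf_sh, mf_sh]
    · rw [Function.comp_assoc, sh_ch_ne (Ne.symm h), mf_ch]
  · have : (ch u : W Y → W Y) = sh u' ∘ ch u := (sh_ch_ne h).symm
    rw [this, ← Function.comp_assoc, mf_sh, mf_ch]

/-! ### normal forms -/

/-- words in `sh`, `ch`, followed by a label -/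
inductive M0 (Γ : Type) {Y : Type} [Group Γ] [MulAction Γ Y] : (W Y → W Y) → Prop
  | lab (γ : Γ) : M0 Γ (ac γ)
  | cs (y : Y) (m : W Y → W Y) : M0 Γ m → M0 Γ (sh y ∘ m)
  | cc (y : Y) (m : W Y → W Y) : M0 Γ m → M0 Γ (ch y ∘ m)

theorem M0.ac_comp {m : W Y → W Y} (h : M0 Γ m) : ∀ γ : Γ, M0 Γ (ac γ ∘ m) := by
  induction h with
  | lab δ => intro γ; rw [← ac_mul]; exact M0.lab _
  | cs y m _ ih => intro γ; rw [← Function.comp_assoc, ac_sh, Function.comp_assoc]; exact M0.cs _ _ (ih γ)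
  | cc y m _ ih => intro γ; rw [← Function.comp_assoc, ac_ch, Function.comp_assoc]; exact M0.cc _ _ (ih γ)

theorem M.m0 {m : W Y → W Y} (h : M Γ m) : M0 Γ m := by
  induction h with
  | one => rw [← ac_one (Γ := Γ)]; exact M0.lab 1
  | cs y m _ ih => exact M0.cs _ _ ih
  | cc y m _ ih => exact M0.cc _ _ ih
  | ca γ m _ ih => exact ih.ac_comp γ

/-- shift vector -/
noncomputable def shv (v : Y →₀ ℕ) : W Y → W Y
  | [] => []
  | p :: t => (p.1, p.2 + v p.1) :: t

theorem shv_zero : (shv (0 : Y →₀ ℕ) : W Y → W Y) = id := by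
  funext w
  cases w with
  | nil => rfl
  | cons p t => simp [shv]

theorem shv_add (v v' : Y →₀ ℕ) : shv (v + v') = shv v ∘ shv v' := by
  funext w
  cases w with
  | nil => rfl
  | cons p t => simp [shv]; omega

theorem shv_single (y : Y) : shv (Finsupp.single y 1) = sh y := by
  funext w
  cases w with
  | nil => rfl
  | cons p t =>
    simp only [shv, sh_cons]
    by_cases h : p.1 = y
    · simp [h]
    · simp [h]

/-- normal form -/
noncomputable def nf (w : W Y) (v : Y →₀ ℕ) (γ : Γ) : W Y → W Y := fun t => w ++ shv v (ac γ t)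

theorem M0.nf {m : W Y → W Y} (h : M0 Γ m) : ∃ w v, ∃ γ : Γ, m = nf w v γ := by
  induction h with
  | lab γ => exact ⟨[], 0, γ, by funext t; simp [Q.nf, shv_zero]⟩
  | cs y m _ ih =>
    obtain ⟨w, v, γ, rfl⟩ := ih
    cases w with
    | nil =>
      refine ⟨[], Finsupp.single y 1 + v, γ, ?_⟩
      funext t
      simp [Q.nf, shv_add, shv_single]
    | cons p w =>
      refine ⟨sh y [p] ++ w, v, γ, ?_⟩
      funext t
      simp [Q.nf, sh_cons]
  | cc y m _ ih =>
    obtain ⟨w, v, γ, rfl⟩ := ih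
    refine ⟨(y, 0) :: w, v, γ, ?_⟩
    funext t
    simp [Q.nf]

theorem M_shv (v : Y →₀ ℕ) : M Γ (shv v) := by
  induction v using Finsupp.induction_linear with
  | zero => rw [shv_zero]; exact M.one
  | add v v' h h' => rw [shv_add]; exact h.comp h'
  | single y n =>
    induction n with
    | zero => simp only [Finsupp.single_zero]; rw [shv_zero]; exact M.one
    | succ n ih => rw [Finsupp.single_add, shv_add, shv_single]; exact ih.comp (M_sh y)

theorem M_app (w : W Y) : M Γ (fun t => w ++ t) := by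
  induction w with
  | nil => exact M.one
  | cons p w ih =>
    have h1 : M Γ (shv (Finsupp.single p.1 p.2) ∘ (ch p.1 ∘ fun t => w ++ t)) :=
      (M_shv _).comp (M.cc _ _ ih)
    have : (fun t => (p :: w) ++ t) = shv (Finsupp.single p.1 p.2) ∘ (ch p.1 ∘ fun t => w ++ t) := by
      funext t
      simp [shv]
    rw [this]; exact h1

theorem M_nf (w : W Y) (v : Y →₀ ℕ) (γ : Γ) : M Γ (nf w v γ) :=
  ((M_app w).comp (M_shv v)).comp (M_ac γ)

theorem nf_sh (w : W Y) (v : Y →₀ ℕ) (γ : Γ) (u : Y) :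
    nf w v γ ∘ sh u = nf w (v + Finsupp.single (γ • u) 1) γ := by
  funext t
  have := congrFun (ac_sh γ u) t
  simp only [Function.comp_apply] at this
  simp only [nf, Function.comp_apply, this, shv_add, shv_single]

theorem nf_ch (w : W Y) (v : Y →₀ ℕ) (γ : Γ) (u : Y) (l : Γ) :
    nf w v γ ∘ ch u ∘ ac l = nf (w ++ [(γ • u, v (γ • u))]) 0 (γ * l) := by
  funext t
  have h0 : shv (0 : Y →₀ ℕ) (ac (γ * l) t) = ac (γ * l) t := congrFun shv_zero _
  simp only [nf, Function.comp_apply, ch_apply, ac_cons, h0]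
  rw [ac_mul]
  simp [shv]

theorem nf_inj [FaithfulSMul Γ Y] {w w' : W Y} {v v' : Y →₀ ℕ} {γ γ' : Γ}
    (h : nf w v γ = nf w' v' γ') : w = w' ∧ v = v' ∧ γ = γ' := by
  have h0 : w = w' := by
    have := congrFun h []
    simpa [nf, shv] using this
  subst h0
  have h1 : ∀ y n, ((γ • y, n + v (γ • y)) : Y × ℕ) = (γ' • y, n + v' (γ' • y)) := by
    intro y n
    have := congrFun h [(y, n)]
    simpa [nf, shv] using this
  have h2 : γ = γ' := by
    apply FaithfulSMul.eq_of_smul_eq_smul (α := Y)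
    intro y
    have := h1 y 0
    simp only [Prod.mk.injEq] at this
    exact this.1
  subst h2
  refine ⟨rfl, ?_, rfl⟩
  ext y
  have := h1 (γ⁻¹ • y) 0
  simpa using this

/-- two different right factors `sh` -/
theorem M.sh_sh [FaithfulSMul Γ Y] {m m' : W Y → W Y} (hm : M Γ m) (hm' : M Γ m') {u u' : Y}
    (hu : u ≠ u') (h : m ∘ sh u = m' ∘ sh u') :
    ∃ m'', M Γ m'' ∧ m = m'' ∘ sh u' ∧ m' = m'' ∘ sh u := by
  obtain ⟨w, v, γ, rfl⟩ := hm.m0.nf
  obtain ⟨w', v', γ', rfl⟩ := hm'.m0.nf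
  rw [nf_sh, nf_sh] at h
  obtain ⟨rfl, h2, rfl⟩ := nf_inj h
  have hne : γ • u ≠ γ • u' := fun e => hu (smul_left_cancel γ e)
  have e1 : v - Finsupp.single (γ • u') 1 + Finsupp.single (γ • u') 1 = v := by
    ext y
    have := DFunLike.congr_fun h2 y
    simp only [Finsupp.add_apply, Finsupp.single_apply, Finsupp.tsub_apply] at this ⊢
    by_cases h1 : γ • u' = y
    · subst h1
      simp [hne] at this ⊢
      omega
    · simp [h1]
  refine ⟨nf w (v - Finsupp.single (γ • u') 1) γ, M_nf _ _ _, ?_, ?_⟩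
  · rw [nf_sh, e1]
  · rw [nf_sh]
    congr 1
    ext y
    have := DFunLike.congr_fun h2 y
    simp only [Finsupp.add_apply, Finsupp.single_apply, Finsupp.tsub_apply] at this ⊢
    by_cases h1 : γ • u' = y
    · subst h1
      simp [hne] at this ⊢
      omega
    · simp [h1] at this ⊢
      exact this.symm

theorem M.sh_cancel [FaithfulSMul Γ Y] {m m' : W Y → W Y} (hm : M Γ m) (hm' : M Γ m') {u : Y}
    (h : m ∘ sh u = m' ∘ sh u) : m = m' := by
  obtain ⟨w, v, γ, rfl⟩ := hm.m0.nf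
  obtain ⟨w', v', γ', rfl⟩ := hm'.m0.nf
  rw [nf_sh, nf_sh] at h
  obtain ⟨rfl, h2, rfl⟩ := nf_inj h
  rw [add_right_cancel h2]

theorem M.sh_ch [FaithfulSMul Γ Y] {m m' : W Y → W Y} (hm : M Γ m) (hm' : M Γ m') {u u' : Y} {l : Γ}
    (h : m ∘ sh u = m' ∘ ch u' ∘ ac l) : False := by
  obtain ⟨w, v, γ, rfl⟩ := hm.m0.nf
  obtain ⟨w', v', γ', rfl⟩ := hm'.m0.nf
  rw [nf_sh, nf_ch] at h
  obtain ⟨-, h2, -⟩ := nf_inj h
  have := DFunLike.congr_fun h2 (γ • u)
  simp at this

theorem M.ch_ch {m m' : W Y → W Y} (hm : M Γ m) (hm' : M Γ m') {u u' : Y} {l l' : Γ}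
    (h : m ∘ ch u ∘ ac l = m' ∘ ch u' ∘ ac l') : m [] = m' [] := by
  obtain ⟨w, v, γ, rfl⟩ := hm.m0.nf
  obtain ⟨w', v', γ', rfl⟩ := hm'.m0.nf
  have := congrFun h []
  simp only [nf, shv, Function.comp_apply, ac_nil, ch_apply, ac_cons] at this ⊢
  have h2 := List.append_inj' this rfl
  simp [h2.1]

end Crest.Agent.R185.Q
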