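import Crest.Agent.R185.QFr1

/-!
# Row 185 (Q2), frames 2: frames, merges, the diamond property (helper424)
-/

set_option autoImplicit false

namespace Crest.Agent.R185.Q

open Classical

variable {Γ Y : Type} [Group Γ] [MulAction Γ Y]

/-- raw frames: an index set and a family of charts -/
abbrev Fr0 (Y : Type) : Type := Finset ℕ × (ℕ → W Y → W Y)

/-- frames -/
structure IsFr (Γ : Type) {Y : Type} [Group Γ] [MulAction Γ Y] (x : Fr0 Y) : Prop where
  adm : ∀ i ∈ x.1, Adm Γ (x.2 i)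
  inj : ∀ i ∈ x.1, Function.Injective (x.2 i)
  dj : ∀ i ∈ x.1, ∀ j ∈ x.1, i ≠ j → Dj (x.2 i) (x.2 j)
  cov : ∀ u, ∃ i ∈ x.1, ∃ v, x.2 i v = u

/-- `y` is an expansion of `x` -/
def fle (Γ : Type) {Y : Type} [Group Γ] [MulAction Γ Y] (x y : Fr0 Y) : Prop :=
  ∀ j ∈ y.1, ∃ i ∈ x.1, ∃ m, M Γ m ∧ y.2 j = x.2 i ∘ m

theorem fle_refl (x : Fr0 Y) : fle Γ x x := fun j hj => ⟨j, hj, id, M.one, rfl⟩

theorem fle_trans (x y z : Fr0 Y) (h : fle Γ x y) (h' : fle Γ y z) : fle Γ x z := by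
  intro j hj
  obtain ⟨i, hi, m, hm, e⟩ := h' j hj
  obtain ⟨k, hk, m', hm', e'⟩ := h i hi
  exact ⟨k, hk, m' ∘ m, hm'.comp hm, by rw [e, e']; rfl⟩

theorem IsFr.eq_of {x : Fr0 Y} (hx : IsFr Γ x) {i j : ℕ} (hi : i ∈ x.1) (hj : j ∈ x.1) {a b : W Y}
    (h : x.2 i a = x.2 j b) : i = j ∧ a = b := by
  by_cases hij : i = j
  · subst hij
    exact ⟨rfl, hx.inj i hi h⟩
  · exact absurd h (hx.dj i hi j hj hij a b)

/-- merge data -/
structure Mg (Γ Y : Type) where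
  i : ℕ
  j : ℕ
  u : Y
  l : Γ

/-- validity of a merge for an index set -/
def Mg.Valid (e : Mg Γ Y) (I : Finset ℕ) : Prop := e.i ∈ I ∧ e.j ∈ I ∧ e.i ≠ e.j

/-- compatibility of merges -/
def Cmp (e v : Mg Γ Y) : Prop := e.j ≠ v.j ∧ e.i ≠ v.j ∧ v.i ≠ e.j ∧ (e.i = v.i → e.u ≠ v.u)

omit [Group Γ] [MulAction Γ Y] in
theorem Cmp.symm {e v : Mg Γ Y} (h : Cmp e v) : Cmp v e :=
  ⟨h.1.symm, h.2.2.1, h.2.1, fun a b => h.2.2.2 a.symm b.symm⟩

/-- the merged frame -/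
noncomputable def mrg (x : Fr0 Y) (e : Mg Γ Y) : Fr0 Y :=
  (x.1.erase e.j, Function.update x.2 e.i (mf (x.2 e.i) (x.2 e.j ∘ ac e.l) e.u))

theorem mrg_fst (x : Fr0 Y) (e : Mg Γ Y) : (mrg x e).1 = x.1.erase e.j := rfl

theorem mrg_i (x : Fr0 Y) (e : Mg Γ Y) :
    (mrg x e).2 e.i = mf (x.2 e.i) (x.2 e.j ∘ ac e.l) e.u := by
  simp [mrg]

theorem mrg_ne (x : Fr0 Y) (e : Mg Γ Y) {k : ℕ} (h : k ≠ e.i) : (mrg x e).2 k = x.2 k := by
  simp [mrg, h]

theorem card_mrg {x : Fr0 Y} {e : Mg Γ Y} (he : e.Valid x.1) : (mrg x e).1.card + 1 = x.1.card := by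
  rw [mrg_fst]
  exact Finset.card_erase_add_one he.2.1

theorem Valid.mrg {x : Fr0 Y} {e v : Mg Γ Y} (hv : v.Valid x.1) (h : Cmp e v) :
    v.Valid (mrg x e).1 := by
  refine ⟨?_, ?_, hv.2.2⟩
  · rw [mrg_fst, Finset.mem_erase]; exact ⟨h.2.2.1, hv.1⟩
  · rw [mrg_fst, Finset.mem_erase]; exact ⟨h.1.symm, hv.2.1⟩

theorem IsFr.mrg {x : Fr0 Y} (hx : IsFr Γ x) {e : Mg Γ Y} (he : e.Valid x.1) : IsFr Γ (mrg x e) := by
  obtain ⟨hi, hj, hij⟩ := he
  have hdj : Dj (x.2 e.i) (x.2 e.j ∘ ac e.l) := fun a b h => hx.dj _ hi _ hj hij _ _ h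
  refine ⟨?_, ?_, ?_, ?_⟩
  · intro k hk
    rw [mrg_fst, Finset.mem_erase] at hk
    by_cases h : k = e.i
    · subst h
      rw [mrg_i]
      exact mf_adm (hx.adm _ hi) ((hx.adm _ hj).comp_ac _) _
    · rw [mrg_ne _ _ h]; exact hx.adm _ hk.2
  · intro k hk
    rw [mrg_fst, Finset.mem_erase] at hk
    by_cases h : k = e.i
    · subst h
      rw [mrg_i]
      exact mf_inj (hx.inj _ hi) ((hx.inj _ hj).comp (ac_inj _)) hdj _
    · rw [mrg_ne _ _ h]; exact hx.inj _ hk.2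
  · have key : ∀ k ∈ x.1, k ≠ e.i → k ≠ e.j →
        Dj (mf (x.2 e.i) (x.2 e.j ∘ ac e.l) e.u) (x.2 k) := by
      intro k hk h1 h2 a b h
      rcases mf_range (a := x.2 e.i) (b := x.2 e.j ∘ ac e.l) (u := e.u) a with ⟨v, hv⟩ | ⟨v, hv⟩
      · rw [hv] at h; exact hx.dj _ hi _ hk (Ne.symm h1) _ _ h
      · rw [hv] at h; exact hx.dj _ hj _ hk (Ne.symm h2) _ _ h
    intro k hk k' hk' hne
    rw [mrg_fst, Finset.mem_erase] at hk hk'
    by_cases h : k = e.i
    · subst h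
      have h' : k' ≠ e.i := Ne.symm hne
      rw [mrg_i, mrg_ne _ _ h']
      exact key _ hk'.2 h' hk'.1
    · by_cases h' : k' = e.i
      · subst h'
        rw [mrg_i, mrg_ne _ _ h]
        exact (key _ hk.2 h hk.1).symm
      · rw [mrg_ne _ _ h, mrg_ne _ _ h']
        exact hx.dj _ hk.2 _ hk'.2 hne
  · intro w
    obtain ⟨k, hk, v, rfl⟩ := hx.cov w
    have hie : e.i ∈ (Q.mrg x e).1 := by rw [mrg_fst, Finset.mem_erase]; exact ⟨hij, hi⟩
    by_cases h : k = e.i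
    · subst h
      refine ⟨e.i, hie, sh e.u v, ?_⟩
      rw [mrg_i]
      exact congrFun (mf_sh _ _ _) v
    · by_cases h' : k = e.j
      · subst h'
        obtain ⟨v', rfl⟩ := ac_surj e.l v
        refine ⟨e.i, hie, ch e.u v', ?_⟩
        rw [mrg_i]
        exact congrFun (mf_ch _ _ _) v'
      · refine ⟨k, ?_, v, ?_⟩
        · rw [mrg_fst, Finset.mem_erase]; exact ⟨h', hk⟩
        · rw [mrg_ne _ _ h]

theorem mrg_le {x : Fr0 Y} {e : Mg Γ Y} (he : e.Valid x.1) : fle Γ (mrg x e) x := by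
  obtain ⟨hi, hj, hij⟩ := he
  have hie : e.i ∈ (Q.mrg x e).1 := by rw [mrg_fst, Finset.mem_erase]; exact ⟨hij, hi⟩
  intro k hk
  by_cases h : k = e.i
  · subst h
    exact ⟨e.i, hie, sh e.u, M_sh _, by rw [mrg_i, mf_sh]⟩
  · by_cases h' : k = e.j
    · subst h'
      refine ⟨e.i, hie, ch e.u ∘ ac e.l⁻¹, (M_ch _).comp (M_ac _), ?_⟩
      rw [mrg_i, ← Function.comp_assoc, mf_ch, Function.comp_assoc, ac_comp_inv]; rfl
    · exact ⟨k, by rw [mrg_fst, Finset.mem_erase]; exact ⟨h', hk⟩, id, M.one, by rw [mrg_ne _ _ h]; rfl⟩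

theorem mrg_comm {x : Fr0 Y} {e v : Mg Γ Y} (h : Cmp e v) : mrg (mrg x v) e = mrg (mrg x e) v := by
  obtain ⟨h1, h2, h3, h4⟩ := h
  apply Prod.ext
  · rw [mrg_fst, mrg_fst, mrg_fst, mrg_fst, Finset.erase_right_comm]
  · funext k
    by_cases hk : k = e.i
    · subst hk
      rw [mrg_i]
      by_cases hv : e.i = v.i
      · have hj1 : (mrg x v).2 e.j = x.2 e.j := mrg_ne _ _ (Ne.symm h3)
        have hj2 : (mrg x e).2 v.j = x.2 v.j := mrg_ne _ _ (Ne.symm h2)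
        rw [hj1]
        have e1 : (mrg (mrg x e) v).2 e.i = (mrg (mrg x e) v).2 v.i := by rw [hv]
        rw [e1, mrg_i, hj2]
        have e2 : (mrg x v).2 e.i = mf (x.2 v.i) (x.2 v.j ∘ ac v.l) v.u := by rw [hv, mrg_i]
        have e3 : (mrg x e).2 v.i = mf (x.2 e.i) (x.2 e.j ∘ ac e.l) e.u := by rw [← hv, mrg_i]
        rw [e2, e3, ← hv]
        exact mf_comm (h4 hv)
      · rw [mrg_ne x v hv, mrg_ne x v (Ne.symm h3), mrg_ne _ v hv, mrg_i]
    · rw [mrg_ne _ e hk]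
      by_cases hv : k = v.i
      · subst hv
        rw [mrg_i, mrg_i, mrg_ne _ e hk, mrg_ne _ e (Ne.symm h2)]
      · rw [mrg_ne _ v hv, mrg_ne _ v hv, mrg_ne _ e hk]

/-- data of `y ≤ mrg x e` -/
theorem le_mrg_data {x y : Fr0 Y} {e : Mg Γ Y} (he : e.Valid x.1) (h : fle Γ y (mrg x e)) :
    ∃ k ∈ y.1, ∃ m, M Γ m ∧ mf (x.2 e.i) (x.2 e.j ∘ ac e.l) e.u = y.2 k ∘ m ∧
      x.2 e.i = y.2 k ∘ m ∘ sh e.u ∧ x.2 e.j = y.2 k ∘ m ∘ ch e.u ∘ ac e.l⁻¹ := by
  obtain ⟨k, hk, m, hm, E⟩ := h e.i (by rw [mrg_fst, Finset.mem_erase]; exact ⟨he.2.2, he.1⟩)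
  rw [mrg_i] at E
  refine ⟨k, hk, m, hm, E, ?_, ?_⟩
  · rw [← Function.comp_assoc, ← E, mf_sh]
  · have : (y.2 k ∘ m ∘ ch e.u ∘ ac e.l⁻¹ : W Y → W Y) = ((y.2 k ∘ m) ∘ ch e.u) ∘ ac e.l⁻¹ := rfl
    rw [this, ← E, mf_ch, Function.comp_assoc, ac_comp_inv]; rfl

/-- the diamond property -/
theorem diamond [FaithfulSMul Γ Y] {x y : Fr0 Y} (hy : IsFr Γ y) (hx : IsFr Γ x)
    {e v : Mg Γ Y} (he : e.Valid x.1) (hv : v.Valid x.1) (hne : e ≠ v)
    (h1 : fle Γ y (mrg x e)) (h2 : fle Γ y (mrg x v)) :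
    Cmp e v ∧ fle Γ y (mrg (mrg x v) e) := by
  obtain ⟨k, hk, m, hm, E0, E1, E2⟩ := le_mrg_data he h1
  obtain ⟨k', hk', m', hm', E0', E1', E2'⟩ := le_mrg_data hv h2
  -- equality of charts in `y`
  have cancel : ∀ {a b : W Y → W Y}, y.2 k ∘ a = y.2 k' ∘ b → k = k' ∧ a = b := by
    intro a b h
    have hkk : k = k' := (hy.eq_of hk hk' (congrFun h [])).1
    subst hkk
    exact ⟨rfl, funext fun w => hy.inj k hk (congrFun h w)⟩
  have hcmp : Cmp e v := by
    refine ⟨?_, ?_, ?_, ?_⟩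
    · -- e.j ≠ v.j
      intro hjj
      rw [hjj, E2'] at E2
      obtain ⟨hkk, E3⟩ := cancel E2.symm
      subst hkk
      have hroot := M.ch_ch hm hm' E3
      have hii : e.i = v.i := by
        refine (hx.eq_of he.1 hv.1 (a := []) (b := []) ?_).1
        rw [E1, E1']
        simp [hroot]
      have E4 : m ∘ sh e.u = m' ∘ sh v.u := by
        have := E1
        rw [hii, E1'] at this
        exact (cancel this.symm).2
      by_cases huu : e.u = v.u
      · rw [huu] at E4 E3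
        have hmm := hm.sh_cancel hm' E4
        subst hmm
        apply hne
        have hl : e.l = v.l := by
          have h3 : ∀ t, ac e.l⁻¹ t = (ac v.l⁻¹ t : W Y) := fun t => by
            have := hm.inj (congrFun E3 t)
            simpa using this
          have h4 : e.l⁻¹ = v.l⁻¹ := by
            apply FaithfulSMul.eq_of_smul_eq_smul (α := Y)
            intro z
            have := h3 [(z, 0)]
            simpa using this
          exact inv_injective h4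
        obtain ⟨ei, ej, eu, el⟩ := e
        obtain ⟨vi, vj, vu, vl⟩ := v
        simp only at hii hjj huu hl
        subst hii hjj huu hl
        rfl
      · obtain ⟨m'', hm'', F1, F2⟩ := M.sh_sh hm hm' huu E4
        rw [F1, F2] at E3
        have := congrFun E3 []
        simp only [Function.comp_apply, ac_nil, ch_apply] at this
        have h3 := hm''.inj this
        simp only [sh_cons, List.cons.injEq, Prod.mk.injEq] at h3
        exact huu h3.1.1
    · -- e.i ≠ v.j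
      intro hij
      rw [hij, E2'] at E1
      obtain ⟨hkk, E3⟩ := cancel E1.symm
      exact M.sh_ch hm hm' E3
    · -- v.i ≠ e.j
      intro hij
      rw [hij, E2] at E1'
      obtain ⟨hkk, E3⟩ := cancel E1'
      exact M.sh_ch hm' hm E3.symm
    · intro hii huu
      have E4 : m ∘ sh e.u = m' ∘ sh e.u := by
        have := E1
        rw [hii, E1', ← huu] at this
        exact (cancel this.symm).2
      have hmm := hm.sh_cancel hm' E4
      have hkk : k = k' := by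
        have := E1
        rw [hii, E1'] at this
        exact (cancel this.symm).1
      subst hkk hmm
      have hjj : e.j = v.j := by
        refine (hx.eq_of he.2.1 hv.2.1 (a := []) (b := []) ?_).1
        rw [E2, E2']
        simp [huu]
      -- now the labels must agree as well, contradiction with `hne`
      rw [hjj, E2'] at E2
      obtain ⟨-, E3⟩ := cancel E2.symm
      apply hne
      have hl : e.l = v.l := by
        rw [huu] at E3
        have h3 : ∀ t, ac e.l⁻¹ t = (ac v.l⁻¹ t : W Y) := fun t => by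
          have := hm.inj (congrFun E3 t)
          simpa using this
        have h4 : e.l⁻¹ = v.l⁻¹ := by
          apply FaithfulSMul.eq_of_smul_eq_smul (α := Y)
          intro z
          have := h3 [(z, 0)]
          simpa using this
        exact inv_injective h4
      obtain ⟨ei, ej, eu, el⟩ := e
      obtain ⟨vi, vj, vu, vl⟩ := v
      simp only at hii hjj huu hl
      subst hii hjj huu hl
      rfl
  refine ⟨hcmp, ?_⟩
  obtain ⟨c1, c2, c3, c4⟩ := hcmp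
  intro t ht
  rw [mrg_fst, mrg_fst, Finset.mem_erase, Finset.mem_erase] at ht
  obtain ⟨ht1, ht2, ht3⟩ := ht
  by_cases hti : t = e.i
  · subst hti
    rw [mrg_i, mrg_ne x v (Ne.symm c3)]
    by_cases hii : e.i = v.i
    · -- same parent
      have huu := c4 hii
      have E4 : y.2 k ∘ m ∘ sh e.u = y.2 k' ∘ m' ∘ sh v.u := by rw [← E1, hii, E1']
      obtain ⟨hkk, E5⟩ := cancel E4
      subst hkk
      obtain ⟨m'', hm'', F1, F2⟩ := M.sh_sh hm hm' huu E5
      refine ⟨k, hk, m'', hm'', ?_⟩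
      have e2 : (mrg x v).2 e.i = mf (x.2 v.i) (x.2 v.j ∘ ac v.l) v.u := by rw [hii, mrg_i]
      rw [e2, E0']
      apply mf_unique
      · rw [F2]; rfl
      · rw [E2, F1]
        have : ((y.2 k ∘ (m'' ∘ sh v.u) ∘ ch e.u ∘ ac e.l⁻¹) ∘ ac e.l : W Y → W Y) =
            y.2 k ∘ m'' ∘ (sh v.u ∘ ch e.u) ∘ (ac e.l⁻¹ ∘ ac e.l) := rfl
        rw [this, ac_inv_comp, sh_ch_ne huu]; rfl
    · rw [mrg_ne x v hii]
      exact ⟨k, hk, m, hm, E0⟩
  · rw [mrg_ne _ _ hti]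
    by_cases htv : t = v.i
    · subst htv
      rw [mrg_i]
      exact ⟨k', hk', m', hm', E0'⟩
    · rw [mrg_ne _ _ htv]
      obtain ⟨a, ha, n, hn, E⟩ := h1 t (by rw [mrg_fst, Finset.mem_erase]; exact ⟨ht1, ht3⟩)
      rw [mrg_ne _ _ hti] at E
      exact ⟨a, ha, n, hn, E⟩

end Crest.Agent.R185.Q
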