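import Crest.Agent.R185.QFr2

/-!
# Row 185 (Q2), frames 3: sizes, merges above a coarser frame (helper424)
-/

set_option autoImplicit false

namespace Crest.Agent.R185.Q

open Classical

variable {Γ Y : Type} [Group Γ] [MulAction Γ Y]

/-- choice of the data of `x ≤ y` -/
theorem fle_data {x y : Fr0 Y} (h : fle Γ x y) : ∃ (κ : ℕ → ℕ) (μ : ℕ → W Y → W Y),
    ∀ j ∈ y.1, κ j ∈ x.1 ∧ M Γ (μ j) ∧ y.2 j = x.2 (κ j) ∘ μ j := by
  choose! κ hκ μ hμ using h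
  exact ⟨κ, μ, fun j hj => ⟨hκ j hj, hμ j hj⟩⟩

theorem surjOn_of_data {x y : Fr0 Y} (hx : IsFr Γ x) (hy : IsFr Γ y) {κ : ℕ → ℕ}
    {μ : ℕ → W Y → W Y} (h : ∀ j ∈ y.1, κ j ∈ x.1 ∧ M Γ (μ j) ∧ y.2 j = x.2 (κ j) ∘ μ j) :
    Set.SurjOn κ (y.1 : Set ℕ) (x.1 : Set ℕ) := by
  intro i hi
  obtain ⟨j, hj, v, hv⟩ := hy.cov (x.2 i [])
  refine ⟨j, hj, ?_⟩
  rw [(h j hj).2.2] at hv
  exact (hx.eq_of (h j hj).1 hi hv).1

theorem card_le {x y : Fr0 Y} (hx : IsFr Γ x) (hy : IsFr Γ y) (h : fle Γ x y) :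
    x.1.card ≤ y.1.card := by
  obtain ⟨κ, μ, hd⟩ := fle_data h
  exact Finset.card_le_card_of_surjOn κ (surjOn_of_data hx hy hd)

theorem M.of_surj {m : W Y → W Y} (hm : M Γ m) (hs : Function.Surjective m) :
    ∃ γ : Γ, m = ac γ := by
  rcases hm.tri with h | ⟨y, m', -, rfl⟩ | ⟨y, m', -, rfl⟩
  · exact h
  · obtain ⟨t, ht⟩ := hs (ch y [])
    exact absurd ht (sh_ne_ch y _ _)
  · obtain ⟨t, ht⟩ := hs []
    simp at ht

theorem le_of_card {x y : Fr0 Y} (hx : IsFr Γ x) (hy : IsFr Γ y) (h : fle Γ x y)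
    (hc : y.1.card ≤ x.1.card) : fle Γ y x := by
  obtain ⟨κ, μ, hd⟩ := fle_data h
  have hs := surjOn_of_data hx hy hd
  have hinj : Set.InjOn κ (y.1 : Set ℕ) :=
    Finset.injOn_of_surjOn_of_card_le κ (fun j hj => (hd j hj).1) hs hc
  intro i hi
  obtain ⟨j, hj, rfl⟩ := hs hi
  have hsur : Function.Surjective (μ j) := by
    intro t
    obtain ⟨j', hj', t', ht'⟩ := hy.cov (x.2 (κ j) t)
    have h1 := ht'
    rw [(hd j' hj').2.2] at h1
    have h2 := (hx.eq_of (hd j' hj').1 (hd j hj).1 h1).1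
    have h3 : j' = j := hinj hj' hj h2
    subst h3
    exact ⟨t', (hx.eq_of (hd j' hj').1 (hd j' hj').1 h1).2⟩
  obtain ⟨γ, hγ⟩ := (hd j hj).2.1.of_surj hsur
  refine ⟨j, hj, ac γ⁻¹, M_ac _, ?_⟩
  rw [(hd j hj).2.2, hγ, Function.comp_assoc, ac_comp_inv]; rfl

theorem Rl.exists_lab {L L' : List (W Y → W Y)} (h : Rl Γ L L') {a : W Y → W Y} (ha : a ∈ L) :
    ∃ b ∈ L', Lab Γ a b := by
  obtain ⟨K, h1, h2⟩ := h
  have ha' : a ∈ K := h1.mem_iff.1 ha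
  clear h1 ha
  induction h2 with
  | nil => simp at ha'
  | cons h _ ih =>
    rcases List.mem_cons.1 ha' with rfl | ha'
    · exact ⟨_, List.mem_cons_self, h⟩
    · obtain ⟨b, hb, hb'⟩ := ih ha'
      exact ⟨b, List.mem_cons_of_mem _ hb, hb'⟩

/-- a strictly coarser frame lies below an elementary merge -/
theorem exists_merge {x y : Fr0 Y} (hx : IsFr Γ x) (hy : IsFr Γ y) (h : fle Γ y x)
    (hc : y.1.card < x.1.card) : ∃ e : Mg Γ Y, e.Valid x.1 ∧ fle Γ y (mrg x e) := by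
  obtain ⟨κ, μ, hd⟩ := fle_data h
  obtain ⟨j1, hj1, j2, hj2, hne, hκ⟩ : ∃ j1 ∈ x.1, ∃ j2 ∈ x.1, j1 ≠ j2 ∧ κ j1 = κ j2 :=
    Finset.exists_ne_map_eq_of_card_lt_of_maps_to hc (fun j hj => (hd j hj).1)
  set k := κ j1 with hk
  set J := x.1.filter (fun j => κ j = k) with hJ
  have hJ' : ∀ {j}, j ∈ J.toList → j ∈ x.1 ∧ κ j = k := by
    intro j hj
    rw [Finset.mem_toList, hJ, Finset.mem_filter] at hj
    exact hj
  have hky : k ∈ y.1 := (hd j1 hj1).1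
  have hcut : Cut Γ (J.toList.map μ) := by
    refine cut_of_part _ _ rfl ?_ ?_ ?_
    · intro f hf
      obtain ⟨j, hj, rfl⟩ := List.mem_map.1 hf
      exact (hd j (hJ' hj).1).2.1
    · rw [List.pairwise_map]
      have hnd := J.nodup_toList
      refine (List.Pairwise.and_mem.1 hnd).imp ?_
      rintro a b ⟨ha, hb, hab⟩ s t e
      have h1 := congrFun (hd a (hJ' ha).1).2.2 s
      have h2 := congrFun (hd b (hJ' hb).1).2.2 t
      simp only [Function.comp_apply, (hJ' ha).2, (hJ' hb).2] at h1 h2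
      rw [e, ← h2] at h1
      exact hx.dj a (hJ' ha).1 b (hJ' hb).1 hab s t h1
    · intro u
      obtain ⟨j, hj, v, hv⟩ := hx.cov (y.2 k u)
      rw [(hd j hj).2.2] at hv
      have := hy.eq_of (hd j hj).1 hky hv
      refine ⟨μ j, ?_, v, this.2⟩
      rw [List.mem_map]
      exact ⟨j, by rw [Finset.mem_toList, hJ, Finset.mem_filter]; exact ⟨hj, this.1⟩, rfl⟩
  have h2 : 2 ≤ (J.toList.map μ).length := by
    rw [List.length_map, Finset.length_toList]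
    refine Finset.one_lt_card.2 ⟨j1, ?_, j2, ?_, hne⟩
    · rw [hJ, Finset.mem_filter]; exact ⟨hj1, rfl⟩
    · rw [hJ, Finset.mem_filter]; exact ⟨hj2, hκ.symm⟩
  rcases hcut.decomp with ⟨γ, hγ⟩ | ⟨f, B, z, hfB, hRl⟩
  · rw [hγ] at h2
    simp at h2
  · have hf : M Γ f := hfB.mem_M f (by simp)
    obtain ⟨l1, hl1, α, hα⟩ := hRl.exists_lab (a := f ∘ sh z) (by simp)
    obtain ⟨l2, hl2, β, hβ⟩ := hRl.exists_lab (a := f ∘ ch z) (by simp)
    obtain ⟨p, hp, rfl⟩ := List.mem_map.1 hl1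
    obtain ⟨q, hq, rfl⟩ := List.mem_map.1 hl2
    have hpq : p ≠ q := by
      rintro rfl
      rw [hα] at hβ
      have := congrFun hβ []
      simp only [Function.comp_apply, ac_nil] at this
      exact sh_ne_ch z _ _ (hf.inj this)
    have hpx := (hJ' hp).1
    have hqx := (hJ' hq).1
    have E1 : x.2 p = y.2 k ∘ f ∘ sh z ∘ ac α := by
      rw [(hd p hpx).2.2, hα, (hJ' hp).2]; rfl
    have E2 : x.2 q = y.2 k ∘ f ∘ ch z ∘ ac β := by
      rw [(hd q hqx).2.2, hβ, (hJ' hq).2]; rfl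
    refine ⟨⟨p, q, α⁻¹ • z, β⁻¹ * α⟩, ⟨hpx, hqx, hpq⟩, ?_⟩
    intro t ht
    rw [mrg_fst, Finset.mem_erase] at ht
    by_cases htp : t = p
    · subst htp
      refine ⟨k, hky, f ∘ ac α, hf.comp (M_ac _), ?_⟩
      have := mrg_i x (⟨t, q, α⁻¹ • z, β⁻¹ * α⟩ : Mg Γ Y)
      simp only at this
      rw [this]
      apply mf_unique
      · rw [E1]
        have : ((y.2 k ∘ f ∘ ac α) ∘ sh (α⁻¹ • z) : W Y → W Y) =
          y.2 k ∘ f ∘ (ac α ∘ sh (α⁻¹ • z)) := rfl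
        rw [this, ← sh_ac]
      · rw [E2]
        have : ((y.2 k ∘ f ∘ ac α) ∘ ch (α⁻¹ • z) : W Y → W Y) =
          y.2 k ∘ f ∘ (ac α ∘ ch (α⁻¹ • z)) := rfl
        rw [this, ← ch_ac]
        have : ((y.2 k ∘ f ∘ ch z ∘ ac β) ∘ ac (β⁻¹ * α) : W Y → W Y) =
          y.2 k ∘ f ∘ ch z ∘ (ac β ∘ ac (β⁻¹ * α)) := rfl
        rw [this, ← ac_mul]
        simp
    · rw [mrg_ne _ _ htp]
      exact ⟨κ t, (hd t ht.2).1, μ t, (hd t ht.2).2.1, (hd t ht.2).2.2⟩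

end Crest.Agent.R185.Q
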