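import Crest.Agent.R185.QFr3

/-!
# Row 185 (Q2), frames 4: the ground lemma and the descending links (helper424)
-/

set_option autoImplicit false

namespace Crest.Agent.R185.Q

open Classical

variable {Γ Y : Type} [Group Γ] [MulAction Γ Y]

/-- frames below `x` -/
def Cn (Γ : Type) {Y : Type} [Group Γ] [MulAction Γ Y] (x : Fr0 Y) : Set (Fr0 Y) :=
  {y | IsFr Γ y ∧ fle Γ y x}

/-- frames below one of the merges in `A` -/
def DA (x : Fr0 Y) (A : Finset (Mg Γ Y)) : Set (Fr0 Y) :=
  {y | IsFr Γ y ∧ ∃ e ∈ A, fle Γ y (mrg x e)}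

theorem DA_insert (x : Fr0 Y) (A : Finset (Mg Γ Y)) (v : Mg Γ Y) :
    DA x (insert v A) = DA x A ∪ Cn Γ (mrg x v) := by
  ext y
  simp only [DA, Cn, Set.mem_ofPred_eq, Set.mem_union, Finset.mem_insert]
  constructor
  · rintro ⟨h1, e, rfl | he, h2⟩
    · exact Or.inr ⟨h1, h2⟩
    · exact Or.inl ⟨h1, e, he, h2⟩
  · rintro (⟨h1, e, he, h2⟩ | ⟨h1, h2⟩)
    · exact ⟨h1, e, Or.inr he, h2⟩
    · exact ⟨h1, v, Or.inl rfl, h2⟩

theorem DA_singleton (x : Fr0 Y) (v : Mg Γ Y) : DA x {v} = Cn Γ (mrg x v) := by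
  ext y
  simp [DA, Cn]

theorem DA_inter [FaithfulSMul Γ Y] {x : Fr0 Y} (hx : IsFr Γ x) {A : Finset (Mg Γ Y)} {v : Mg Γ Y}
    (hA : ∀ e ∈ A, e.Valid x.1) (hv : v.Valid x.1) (hvA : v ∉ A) :
    DA x A ∩ Cn Γ (mrg x v) = DA (mrg x v) (A.filter (fun e => Cmp e v)) := by
  ext y
  simp only [DA, Cn, Set.mem_ofPred_eq, Set.mem_inter_iff, Finset.mem_filter]
  constructor
  · rintro ⟨⟨h1, e, he, h2⟩, -, h3⟩
    have hne : e ≠ v := fun h => hvA (h ▸ he)
    obtain ⟨h4, h5⟩ := diamond h1 hx (hA e he) hv hne h2 h3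
    exact ⟨h1, e, ⟨he, h4⟩, h5⟩
  · rintro ⟨h1, e, ⟨he, hc⟩, h2⟩
    refine ⟨⟨h1, e, he, ?_⟩, h1, ?_⟩
    · rw [mrg_comm hc] at h2
      exact fle_trans _ _ _ h2 (mrg_le (Valid.mrg hv hc))
    · exact fle_trans _ _ _ h2 (mrg_le (Valid.mrg (hA e he) hc.symm))

theorem mem_Cn_self {x : Fr0 Y} (hx : IsFr Γ x) : x ∈ Cn Γ x := ⟨hx, fle_refl x⟩

section

variable (T : ConTh)

theorem con_Cn {x : Fr0 Y} (hx : IsFr Γ x) (m : ℕ) : T.Con (fle Γ) m (Cn Γ x) :=
  T.cone fle_refl fle_trans _ x (mem_Cn_self hx) (fun _ h => h.2) m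

theorem DA_low {x : Fr0 Y} {A : Finset (Mg Γ Y)} {y z : Fr0 Y} (hy : y ∈ DA x A) (hz : IsFr Γ z)
    (h : fle Γ z y) : z ∈ DA x A := by
  obtain ⟨-, e, he, h2⟩ := hy
  exact ⟨hz, e, he, fle_trans _ _ _ h h2⟩

theorem con_glue {x : Fr0 Y} {A : Finset (Mg Γ Y)} {v : Mg Γ Y} (m : ℕ)
    (h1 : T.Con (fle Γ) (m + 1) (DA x A)) (h2 : T.Con (fle Γ) (m + 1) (Cn Γ (mrg x v)))
    (h3 : T.Con (fle Γ) m (DA x A ∩ Cn Γ (mrg x v))) :
    T.Con (fle Γ) (m + 1) (DA x (insert v A)) := by
  rw [DA_insert]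
  refine T.glue fle_refl fle_trans _ _ ?_ ?_ m h1 h2 h3
  · intro a ha b hb h
    exact DA_low ha hb.1 h
  · intro a ha b hb h
    exact ⟨hb.1, fle_trans _ _ _ h ha.2⟩

theorem DA_nonempty {x : Fr0 Y} (hx : IsFr Γ x) {A : Finset (Mg Γ Y)}
    (hA : ∀ e ∈ A, e.Valid x.1) (hne : A.Nonempty) : (DA x A).Nonempty := by
  obtain ⟨e, he⟩ := hne
  exact ⟨mrg x e, hx.mrg (hA e he), e, he, fle_refl _⟩

/-- cliques -/
def Clq (A : Finset (Mg Γ Y)) : Prop := ∀ e ∈ A, ∀ v ∈ A, e ≠ v → Cmp e v

theorem con_clique [FaithfulSMul Γ Y] : ∀ (n : ℕ) (A : Finset (Mg Γ Y)), A.card = n + 1 →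
    ∀ (x : Fr0 Y), IsFr Γ x → (∀ e ∈ A, e.Valid x.1) → Clq A → ∀ m, T.Con (fle Γ) m (DA x A) := by
  intro n
  induction n with
  | zero =>
    intro A hc x hx hA _ m
    obtain ⟨v, rfl⟩ := Finset.card_eq_one.1 hc
    rw [DA_singleton]
    exact con_Cn T (hx.mrg (hA v (by simp))) m
  | succ n ih =>
    intro A hc x hx hA hq m
    cases m with
    | zero => exact T.zero (DA_nonempty hx hA (Finset.card_pos.1 (by omega)))
    | succ m =>
      obtain ⟨v, hv⟩ := Finset.card_pos.1 (show 0 < A.card by omega)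
      have hc' : (A.erase v).card = n + 1 := by
        rw [Finset.card_erase_of_mem hv]; omega
      have hA' : ∀ e ∈ A.erase v, e.Valid x.1 := fun e he => hA e (Finset.mem_of_mem_erase he)
      have hq' : Clq (A.erase v) := fun e he w hw hne =>
        hq e (Finset.mem_of_mem_erase he) w (Finset.mem_of_mem_erase hw) hne
      have hfil : (A.erase v).filter (fun e => Cmp e v) = A.erase v := by
        apply Finset.filter_true_of_mem
        intro e he
        exact hq e (Finset.mem_of_mem_erase he) v hv (Finset.ne_of_mem_erase he)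
      have hxv := hx.mrg (hA v hv)
      have h1 := ih (A.erase v) hc' x hx hA' hq' (m + 1)
      have h3 : T.Con (fle Γ) m (DA x (A.erase v) ∩ Cn Γ (mrg x v)) := by
        rw [DA_inter hx hA' (hA v hv) (Finset.notMem_erase v A), hfil]
        refine ih (A.erase v) hc' _ hxv ?_ hq' m
        intro e he
        exact Valid.mrg (hA' e he)
          (hq e (Finset.mem_of_mem_erase he) v hv (Finset.ne_of_mem_erase he)).symm
      have := con_glue T m h1 (con_Cn T hxv (m + 1)) h3
      rwa [Finset.insert_erase hv] at this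

/-- `D` is a ground for `e`: all but at most two elements of `D` are compatible with `e` -/
def Grd (D : Finset (Mg Γ Y)) (e : Mg Γ Y) : Prop :=
  (D.filter (fun d => ¬ Cmp d e ∧ d ≠ e)).card ≤ 2

/-- the ground lemma -/
theorem con_ground [FaithfulSMul Γ Y] : ∀ (m n : ℕ) (A D : Finset (Mg Γ Y)),
    (A \ D).card = n → D ⊆ A → Clq D → 2 * m + 1 ≤ D.card → (∀ e ∈ A, Grd D e) →
    ∀ (x : Fr0 Y), IsFr Γ x → (∀ e ∈ A, e.Valid x.1) → T.Con (fle Γ) m (DA x A) := by
  intro m
  induction m with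
  | zero =>
    intro n A D _ hDA _ hD _ x hx hA
    exact T.zero (DA_nonempty hx hA ((Finset.card_pos.1 (by omega)).mono hDA))
  | succ m ihm =>
    intro n
    induction n with
    | zero =>
      intro A D hn hDA hq hD hG x hx hA
      have hAD : A = D := by
        rw [Finset.card_eq_zero, Finset.sdiff_eq_empty_iff_subset] at hn
        exact Finset.Subset.antisymm hn hDA
      subst hAD
      exact con_clique T (A.card - 1) A (by omega) x hx hA hq _
    | succ n ihn =>
      intro A D hn hDA hq hD hG x hx hA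
      obtain ⟨v, hv⟩ := Finset.card_pos.1 (show 0 < (A \ D).card by omega)
      rw [Finset.mem_sdiff] at hv
      have hA' : ∀ e ∈ A.erase v, e.Valid x.1 := fun e he => hA e (Finset.mem_of_mem_erase he)
      have hDA' : D ⊆ A.erase v := fun d hd =>
        Finset.mem_erase.2 ⟨fun h => hv.2 (h ▸ hd), hDA hd⟩
      have hn' : ((A.erase v) \ D).card = n := by
        rw [Finset.erase_sdiff_comm, Finset.card_erase_of_mem (Finset.mem_sdiff.2 hv)]
        omega
      have hxv := hx.mrg (hA v hv.1)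
      have h1 := ihn (A.erase v) D hn' hDA' hq hD (fun e he => hG e (Finset.mem_of_mem_erase he))
        x hx hA'
      have h3 : T.Con (fle Γ) m (DA x (A.erase v) ∩ Cn Γ (mrg x v)) := by
        rw [DA_inter hx hA' (hA v hv.1) (Finset.notMem_erase v A)]
        refine ihm _ _ (D.filter (fun e => Cmp e v)) rfl ?_ ?_ ?_ ?_ _ hxv ?_
        · intro d hd
          rw [Finset.mem_filter] at hd ⊢
          exact ⟨hDA' hd.1, hd.2⟩
        · intro e he w hw hne
          exact hq e (Finset.mem_filter.1 he).1 w (Finset.mem_filter.1 hw).1 hne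
        · have h5 := hG v hv.1
          have h6 : D.filter (fun d => ¬ Cmp d v ∧ d ≠ v) = D.filter (fun d => ¬ Cmp d v) := by
            apply Finset.filter_congr
            intro d hd
            constructor
            · exact fun h => h.1
            · exact fun h => ⟨h, fun e => hv.2 (e ▸ hd)⟩
          unfold Grd at h5
          rw [h6] at h5
          have h7 := Finset.card_filter_add_card_filter_not (s := D) (fun e => Cmp e v)
          omega
        · intro e he
          refine le_trans (Finset.card_le_card ?_) (hG e (Finset.mem_of_mem_erase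
            (Finset.mem_filter.1 he).1))
          intro d hd
          rw [Finset.mem_filter] at hd ⊢
          exact ⟨(Finset.mem_filter.1 hd.1).1, hd.2⟩
        · intro e he
          rw [Finset.mem_filter] at he
          exact Valid.mrg (hA' e he.1) he.2.symm
      have := con_glue T m h1 (con_Cn T hxv (m + 1)) h3
      rwa [Finset.insert_erase hv.1] at this

/-- a ground -/
theorem exists_ground [Nonempty Y] (I : Finset ℕ) (N : ℕ) (hI : 2 * N ≤ I.card) :
    ∃ D : Finset (Mg Γ Y), D.card = N ∧ Clq D ∧ (∀ e ∈ D, e.Valid I) ∧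
      ∀ e : Mg Γ Y, Grd D e := by
  obtain ⟨u0⟩ := ‹Nonempty Y›
  obtain ⟨J, hJI, hJ⟩ := Finset.exists_subset_card_eq hI
  let g := J.orderEmbOfFin hJ
  have hg : ∀ a, g a ∈ I := fun a => hJI (J.orderEmbOfFin_mem hJ a)
  let d : Fin N → Mg Γ Y := fun t => ⟨g ⟨2 * t, by omega⟩, g ⟨2 * t + 1, by omega⟩, u0, 1⟩
  have hd1 : ∀ {s t : Fin N}, (d s).i = (d t).i → s = t := by
    intro s t h
    have := g.injective h
    simp only [Fin.mk.injEq] at this
    ext; omega
  have hd2 : ∀ {s t : Fin N}, (d s).j = (d t).j → s = t := by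
    intro s t h
    have := g.injective h
    simp only [Fin.mk.injEq] at this
    ext; omega
  have hd3 : ∀ {s t : Fin N}, (d s).i ≠ (d t).j := by
    intro s t h
    have := g.injective h
    simp only [Fin.mk.injEq] at this
    omega
  have hdi : Function.Injective d := fun s t h => hd1 (congrArg Mg.i h)
  refine ⟨Finset.univ.image d, ?_, ?_, ?_, ?_⟩
  · rw [Finset.card_image_of_injective _ hdi, Finset.card_univ, Fintype.card_fin]
  · intro e he v hv hne
    rw [Finset.mem_image] at he hv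
    obtain ⟨s, -, rfl⟩ := he
    obtain ⟨t, -, rfl⟩ := hv
    have hst : s ≠ t := fun h => hne (by rw [h])
    exact ⟨fun h => hst (hd2 h), hd3, hd3, fun h => absurd (hd1 h) hst⟩
  · intro e he
    rw [Finset.mem_image] at he
    obtain ⟨s, -, rfl⟩ := he
    exact ⟨hg _, hg _, hd3⟩
  · intro e
    unfold Grd
    -- the bad indices
    have hone : ∀ k : ℕ, (Finset.univ.filter (fun t : Fin N => (d t).i = k ∨ (d t).j = k)).card ≤ 1 := by
      intro k
      rw [Finset.card_le_one]
      intro s hs t ht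
      rw [Finset.mem_filter] at hs ht
      rcases hs.2 with h | h <;> rcases ht.2 with h' | h'
      · exact hd1 (h.trans h'.symm)
      · exact absurd (h.trans h'.symm) hd3
      · exact absurd (h'.trans h.symm) hd3
      · exact hd2 (h.trans h'.symm)
    have hsub : (Finset.univ.image d).filter (fun x => ¬ Cmp x e ∧ x ≠ e) ⊆
        ((Finset.univ.filter (fun t : Fin N => (d t).i = e.i ∨ (d t).j = e.i)) ∪
        (Finset.univ.filter (fun t : Fin N => (d t).i = e.j ∨ (d t).j = e.j))).image d := by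
      intro x hx
      rw [Finset.mem_filter, Finset.mem_image] at hx
      obtain ⟨⟨t, -, rfl⟩, hbad, -⟩ := hx
      rw [Finset.mem_image]
      refine ⟨t, ?_, rfl⟩
      rw [Finset.mem_union, Finset.mem_filter, Finset.mem_filter]
      by_contra hcon
      push Not at hcon
      apply hbad
      obtain ⟨h1, h2⟩ := hcon
      have h1' := h1 (Finset.mem_univ _)
      have h2' := h2 (Finset.mem_univ _)
      exact ⟨h2'.2, h2'.1, fun h => h1'.2 h.symm, fun h => absurd h h1'.1⟩
    refine (Finset.card_le_card hsub).trans (Finset.card_image_le.trans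
      ((Finset.card_union_le _ _).trans ?_))
    have := hone e.i
    have := hone e.j
    omega

/-- the descending link -/
theorem con_lt [FaithfulSMul Γ Y] [Nonempty Y] {x : Fr0 Y} (hx : IsFr Γ x) (m : ℕ)
    (hm : 4 * m + 2 ≤ x.1.card) :
    T.Con (fle Γ) m {y | IsFr Γ y ∧ fle Γ y x ∧ y.1.card < x.1.card} := by
  obtain ⟨D, hD, hq, hval, hG⟩ := exists_ground (Γ := Γ) (Y := Y) x.1 (2 * m + 1) (by omega)
  let ι := {A : Finset (Mg Γ Y) // D ⊆ A ∧ ∀ e ∈ A, e.Valid x.1}
  have : Nonempty ι := ⟨⟨D, Finset.Subset.refl D, hval⟩⟩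
  have hU : {y | IsFr Γ y ∧ fle Γ y x ∧ y.1.card < x.1.card} = ⋃ A : ι, DA x A.1 := by
    ext y
    simp only [Set.mem_ofPred_eq, Set.mem_iUnion, DA]
    constructor
    · rintro ⟨h1, h2, h3⟩
      obtain ⟨e, he, hle⟩ := exists_merge hx h1 h2 h3
      refine ⟨⟨insert e D, Finset.subset_insert _ _, ?_⟩, h1, e, Finset.mem_insert_self _ _, hle⟩
      intro v hv
      rcases Finset.mem_insert.1 hv with rfl | hv
      · exact he
      · exact hval v hv
    · rintro ⟨⟨A, hDA, hA⟩, h1, e, he, hle⟩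
      refine ⟨h1, fle_trans _ _ _ hle (mrg_le (hA e he)), ?_⟩
      have h4 := card_le h1 (hx.mrg (hA e he)) hle
      have h5 := card_mrg (hA e he)
      omega
  rw [hU]
  refine T.union fle_refl fle_trans _ ?_ m ?_
  · rintro ⟨A, hA1, hA2⟩ ⟨B, hB1, hB2⟩
    refine ⟨⟨A ∪ B, hA1.trans Finset.subset_union_left, ?_⟩, ?_, ?_⟩
    · intro e he
      rcases Finset.mem_union.1 he with he | he
      · exact hA2 e he
      · exact hB2 e he
    · rintro y ⟨h1, e, he, h2⟩
      exact ⟨h1, e, Finset.mem_union_left _ he, h2⟩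
    · rintro y ⟨h1, e, he, h2⟩
      exact ⟨h1, e, Finset.mem_union_right _ he, h2⟩
  · rintro ⟨A, hA1, hA2⟩
    exact con_ground T m _ A D rfl hA1 hq (by omega) (fun e _ => hG e) x hx hA2

/-- the frames below `b` of size at most `q` -/
theorem con_Dq [FaithfulSMul Γ Y] [Nonempty Y] {b : Fr0 Y} (hb : IsFr Γ b) (m : ℕ) :
    ∀ (n q : ℕ), b.1.card ≤ q + n → 4 * m + 1 ≤ q →
    T.Con (fle Γ) m {y | IsFr Γ y ∧ fle Γ y b ∧ y.1.card ≤ q} := by
  intro n
  induction n with
  | zero =>
    intro q hq hm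
    have hbm : b ∈ {y | IsFr Γ y ∧ fle Γ y b ∧ y.1.card ≤ q} := ⟨hb, fle_refl b, by omega⟩
    exact T.cone fle_refl fle_trans _ b hbm (fun _ h => h.2.1) m
  | succ n ih =>
    intro q hq hm
    have h1 := ih (q + 1) (by omega) (by omega)
    refine T.morse fle_refl fle_trans _ _ ?_ ?_ m h1 ?_
    · rintro y ⟨h1, h2, h3⟩
      exact ⟨h1, h2, by omega⟩
    · rintro x ⟨h1, h2, h3⟩ hxB y ⟨h4, h5, h6⟩ hxy
      have hxc : x.1.card = q + 1 := by
        by_contra hne
        exact hxB ⟨h1, h2, by omega⟩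
      have h7 := card_le h1 h4 hxy
      refine ⟨fun h => ?_, le_of_card h1 h4 hxy (by omega)⟩
      have := h.2.2
      omega
    · rintro x ⟨h1, h2, h3⟩ hxB
      have hxc : x.1.card = q + 1 := by
        by_contra hne
        exact hxB ⟨h1, h2, by omega⟩
      have h4 := con_lt T h1 m (by omega)
      have h5 : {y | y ∈ {y | IsFr Γ y ∧ fle Γ y b ∧ y.1.card ≤ q} ∧ fle Γ y x} =
          {y | IsFr Γ y ∧ fle Γ y x ∧ y.1.card < x.1.card} := by
        ext y
        simp only [Set.mem_ofPred_eq]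
        constructor
        · rintro ⟨⟨a1, a2, a3⟩, a4⟩
          exact ⟨a1, a4, by omega⟩
        · rintro ⟨a1, a2, a3⟩
          exact ⟨⟨a1, fle_trans _ _ _ a2 h2, by omega⟩, a2⟩
      rw [h5]
      exact h4

end

end Crest.Agent.R185.Q
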