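import Crest.Agent.R185.QCut

/-!
# Row 185: the group `Q(Γ,Y)`: generation by labels and transpositions (helper424)
-/

set_option autoImplicit false

namespace Crest.Agent.R185.Q

open Classical

variable {Γ Y : Type} [Group Γ] [MulAction Γ Y]

/-- apply `g` to all members -/
def mp (g : Equiv.Perm (W Y)) (L : List (W Y → W Y)) : List (W Y → W Y) :=
  L.map (fun f => (g : W Y → W Y) ∘ f)

theorem mp_one (L : List (W Y → W Y)) : mp 1 L = L := by
  unfold mp
  conv_rhs => rw [← List.map_id L]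
  exact List.map_congr_left (fun f _ => rfl)

theorem mp_mul (g h : Equiv.Perm (W Y)) (L : List (W Y → W Y)) : mp (g * h) L = mp g (mp h L) := by
  unfold mp
  rw [List.map_map]
  exact List.map_congr_left (fun f _ => rfl)

theorem mp_inv {g : Equiv.Perm (W Y)} {L L' : List (W Y → W Y)} (h : mp g L = L') :
    mp g⁻¹ L' = L := by
  rw [← h, ← mp_mul, inv_mul_cancel, mp_one]

theorem mp_append (g : Equiv.Perm (W Y)) (L L' : List (W Y → W Y)) :
    mp g (L ++ L') = mp g L ++ mp g L' := by
  simp [mp]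

theorem mp_cons (g : Equiv.Perm (W Y)) (f : W Y → W Y) (L : List (W Y → W Y)) :
    mp g (f :: L) = ((g : W Y → W Y) ∘ f) :: mp g L := rfl

theorem mp_eq_self {g : Equiv.Perm (W Y)} {L : List (W Y → W Y)} (h : mp g L = L) :
    ∀ f ∈ L, (g : W Y → W Y) ∘ f = f := by
  intro f hf
  have : L.map (fun f => (g : W Y → W Y) ∘ f) = L.map id := by rw [List.map_id]; exact h
  exact List.map_inj_left.1 this f hf

theorem mp_length (g : Equiv.Perm (W Y)) (L : List (W Y → W Y)) : (mp g L).length = L.length := by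
  simp [mp]

theorem Cut.mp_ext {L : List (W Y → W Y)} (h : Cut Γ L) {g g' : Equiv.Perm (W Y)}
    (e : mp g L = mp g' L) : g = g' := h.ext_map e

/-- element from a pair of cuts -/
theorem mk {L L' : List (W Y → W Y)} (h : Cut Γ L) (h' : Cut Γ L')
    (hl : L.length = L'.length) : ∃ g ∈ QG Γ Y, mp g L = L' := by
  obtain ⟨g, hg, e⟩ := exists_mk h h' hl
  exact ⟨g, hg, e.symm⟩

section gen

variable (H : Subgroup (Equiv.Perm (W Y)))
  (HL : ∀ (f : W Y → W Y) (L : List (W Y → W Y)) (γ : Γ) (g : Equiv.Perm (W Y)),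
    Cut Γ (f :: L) → g ∈ QG Γ Y → (g : W Y → W Y) ∘ f = f ∘ ac γ →
    (∀ h ∈ L, (g : W Y → W Y) ∘ h = h) → g ∈ H)
  (HT : ∀ (f f' : W Y → W Y) (L : List (W Y → W Y)) (g : Equiv.Perm (W Y)),
    Cut Γ (f :: f' :: L) → g ∈ QG Γ Y → (g : W Y → W Y) ∘ f = f' → (g : W Y → W Y) ∘ f' = f →
    (∀ h ∈ L, (g : W Y → W Y) ∘ h = h) → g ∈ H)

include HL in
theorem gen_lab {L L' : List (W Y → W Y)} (h : List.Forall₂ (Lab Γ) L L') :
    ∀ A, Cut Γ (A ++ L) → ∀ g ∈ QG Γ Y, mp g (A ++ L) = A ++ L' → g ∈ H := by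
  induction h with
  | nil =>
    intro A hA g _ e
    have : g = 1 := hA.mp_ext (by rw [e, mp_one])
    rw [this]; exact H.one_mem
  | @cons a b L L' hab _ ih =>
    intro A hA g hg e
    obtain ⟨γ, rfl⟩ := hab
    have hA1 : Cut Γ (a :: (A ++ L)) := hA.perm List.perm_middle
    have hA2 := Cut.label γ _ _ hA1
    have hA3 : Cut Γ (A ++ (a ∘ ac γ) :: L) := hA2.perm List.perm_middle.symm
    obtain ⟨g1, hg1, e1⟩ := mk hA hA3 (by simp)
    have e1' := e1
    rw [mp_append, mp_cons] at e1'
    obtain ⟨e2, e3⟩ := List.append_inj e1' (mp_length _ _)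
    simp only [List.cons.injEq] at e3
    have hg1H : g1 ∈ H := by
      refine HL a (A ++ L) γ g1 hA1 hg1 e3.1 ?_
      intro f hf
      rcases List.mem_append.1 hf with hf | hf
      · exact mp_eq_self e2 f hf
      · exact mp_eq_self e3.2 f hf
    have hA4 : Cut Γ ((A ++ [a ∘ ac γ]) ++ L) := by simpa using hA3
    have := ih _ hA4 (g * g1⁻¹) ((QG Γ Y).mul_mem hg ((QG Γ Y).inv_mem hg1)) (by
      rw [mp_mul]
      have : (A ++ [a ∘ ac γ]) ++ L = A ++ (a ∘ ac γ) :: L := by simp
      rw [this, mp_inv e1, e]; simp)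
    have := H.mul_mem this hg1H
    simpa using this

include HT in
theorem gen_perm {L L' : List (W Y → W Y)} (h : L.Perm L') :
    ∀ A, Cut Γ (A ++ L) → ∀ g ∈ QG Γ Y, mp g (A ++ L) = A ++ L' → g ∈ H := by
  induction h with
  | nil =>
    intro A hA g _ e
    have : g = 1 := hA.mp_ext (by rw [e, mp_one])
    rw [this]; exact H.one_mem
  | cons a _ ih =>
    rename_i l1 l2
    intro A hA g hg e
    refine ih (A ++ [a]) (by simpa using hA) g hg ?_
    simpa using e
  | swap a b l =>
    intro A hA g hg e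
    rw [mp_append, mp_cons, mp_cons] at e
    obtain ⟨e2, e3⟩ := List.append_inj e (mp_length _ _)
    simp only [List.cons.injEq] at e3
    have hp : (A ++ b :: a :: l).Perm (b :: a :: (A ++ l)) := by
      refine List.perm_middle.trans ?_
      exact List.Perm.cons _ List.perm_middle
    refine HT b a (A ++ l) g (hA.perm hp) hg e3.1 e3.2.1 ?_
    intro f hf
    rcases List.mem_append.1 hf with hf | hf
    · exact mp_eq_self e2 f hf
    · exact mp_eq_self e3.2.2 f hf
  | trans h1 _ ih1 ih2 =>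
    rename_i l0 l1 l2 hp
    intro A hA g hg e
    have hA2 : Cut Γ (A ++ l1) := hA.perm (h1.append_left A)
    obtain ⟨g1, hg1, e1⟩ := mk hA hA2 (by simp [h1.length_eq])
    have hg1H := ih1 A hA g1 hg1 e1
    have := ih2 A hA2 (g * g1⁻¹) ((QG Γ Y).mul_mem hg ((QG Γ Y).inv_mem hg1)) (by
      rw [mp_mul, mp_inv e1, e])
    have := H.mul_mem this hg1H
    simpa using this

include HL HT in
theorem gen_stab {L L' : List (W Y → W Y)} (hL : Cut Γ L) (h : Rl Γ L L')
    (g : Equiv.Perm (W Y)) (hg : g ∈ QG Γ Y) (e : mp g L = L') : g ∈ H := by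
  obtain ⟨K, h1, h2⟩ := h
  have hK : Cut Γ K := hL.perm h1
  obtain ⟨g1, hg1, e1⟩ := mk hL hK h1.length_eq
  have hg1H : g1 ∈ H := gen_perm H HT h1 [] hL g1 hg1 e1
  have := gen_lab H HL h2 [] hK (g * g1⁻¹) ((QG Γ Y).mul_mem hg ((QG Γ Y).inv_mem hg1)) (by
    rw [List.nil_append, mp_mul, mp_inv e1, e]; rfl)
  have := H.mul_mem this hg1H
  simpa using this

include HL HT in
theorem gen_cut [MulAction.IsPretransitive Γ Y] : ∀ (n : ℕ) (L L' : List (W Y → W Y)),
    L.length = n → Cut Γ L → Cut Γ L' → ∀ g ∈ QG Γ Y, mp g L = L' → g ∈ H := by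
  intro n
  induction n with
  | zero =>
    intro L L' hn hL
    have := hL.length_pos
    omega
  | succ n ih =>
    intro L L' hn hL hL' g hg e
    rcases hL.decomp with ⟨γ, rfl⟩ | ⟨f, B, y, h1, h2⟩
    · rcases hL'.decomp with ⟨δ, rfl⟩ | ⟨f', B', y', h1', h2'⟩
      · refine gen_stab H HL HT hL (L' := [ac δ]) ?_ g hg e
        refine ⟨[ac γ], List.Perm.refl _, List.Forall₂.cons ⟨γ⁻¹ * δ, ?_⟩ List.Forall₂.nil⟩
        rw [← ac_mul]; simp
      · exfalso
        have e1 := congrArg List.length e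
        rw [mp_length, ← h2'.length_eq] at e1
        simp at e1
    · rcases hL'.decomp with ⟨δ, rfl⟩ | ⟨f', B', y', h1', h2'⟩
      · exfalso
        have e1 := congrArg List.length e
        rw [mp_length, ← h2.length_eq] at e1
        simp at e1
      · obtain ⟨γ, hγ⟩ := MulAction.exists_smul_eq Γ y y'
        -- the relabelled target
        have h1'' : Cut Γ (f' ∘ ac γ :: B') := Cut.label γ _ _ h1'
        have h3 : Rl Γ ((f' ∘ ac γ) ∘ sh y :: (f' ∘ ac γ) ∘ ch y :: B') L' := by
          refine Rl.trans ?_ h2'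
          refine ⟨_, List.Perm.refl _, List.Forall₂.cons ⟨γ⁻¹, ?_⟩
            (List.Forall₂.cons ⟨γ⁻¹, ?_⟩ (f2_refl _))⟩
          · rw [Function.comp_assoc, Function.comp_assoc, sh_ac]
            rw [← Function.comp_assoc (ac γ), ac_comp_inv]; simp [hγ]
          · rw [Function.comp_assoc, Function.comp_assoc, ch_ac]
            rw [← Function.comp_assoc (ac γ), ac_comp_inv]; simp [hγ]
        have hlen : L.length = L'.length := by rw [← e, mp_length]
        have hB : B.length = B'.length := by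
          have e1 := h2.length_eq
          have e2 := h2'.length_eq
          simp only [List.length_cons] at e1 e2
          omega
        obtain ⟨k, hk, ek⟩ := mk h1 h1'' (by simp [hB])
        have hkH : k ∈ H := ih _ _ (by
          have e1 := h2.length_eq
          simp only [List.length_cons] at e1 ⊢
          omega) h1 h1'' k hk ek
        have hs : Cut Γ (f ∘ sh y :: f ∘ ch y :: B) := Cut.split y _ _ h1
        have hs' : Cut Γ ((f' ∘ ac γ) ∘ sh y :: (f' ∘ ac γ) ∘ ch y :: B') := Cut.split y _ _ h1''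
        have ek' : mp k (f ∘ sh y :: f ∘ ch y :: B)
            = ((f' ∘ ac γ) ∘ sh y :: (f' ∘ ac γ) ∘ ch y :: B') := by
          rw [mp_cons] at ek
          simp only [List.cons.injEq] at ek
          rw [mp_cons, mp_cons, ← Function.comp_assoc, ← Function.comp_assoc, ek.1, ek.2]
        obtain ⟨a, ha, ea⟩ := mk hL hs h2.length_eq.symm
        have haH : a ∈ H := gen_stab H HL HT hL h2.symm a ha ea
        obtain ⟨b, hb, eb⟩ := mk hs' hL' h3.length_eq
        have hbH : b ∈ H := gen_stab H HL HT hs' h3 b hb eb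
        have : g = b * k * a := by
          apply hL.mp_ext
          rw [e, mp_mul, mp_mul, ea, ek', eb]
        rw [this]
        exact H.mul_mem (H.mul_mem hbH hkH) haH

include HL HT in
theorem gen [MulAction.IsPretransitive Γ Y] : QG Γ Y ≤ H := by
  intro g hg
  obtain ⟨L, hL, hL'⟩ := exists_cut_cut hg
  exact gen_cut H HL HT _ L _ rfl hL hL' g hg rfl

end gen

end Crest.Agent.R185.Q
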