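import Crest.Agent.R185.QTh

/-!
# Row 185 (Q2, P1): the homology theory `homTh` (helper958)
-/

set_option autoImplicit false

namespace Crest.Agent.R185.QHom

open Crest.Agent.R185.Null Crest.Agent.R185.Q
open Finsupp (single)

variable {O O' : Type}

/-- `n`-chains of decreasing tuples in `A` -/
noncomputable def C (r : O → O → Prop) (A : Set O) (n : ℕ) : Submodule ℤ (O × List O →₀ ℤ) :=
  Finsupp.supported ℤ ℤ (Tup r A) ⊓ Finsupp.supported ℤ ℤ {t : O × List O | t.2.length = n}

theorem C_eq (r : O → O → Prop) (A : Set O) (n : ℕ) :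
    C r A n = Finsupp.supported ℤ ℤ (Tup r A ∩ {t : O × List O | t.2.length = n}) := by
  rw [C, ← Finsupp.supported_inter]

theorem single_mem_C {r : O → O → Prop} {A : Set O} {n : ℕ} {t : O × List O} (h : t ∈ Tup r A)
    (hn : t.2.length = n) (k : ℤ) : single t k ∈ C r A n := by
  rw [C_eq]
  exact Finsupp.single_mem_supported ℤ k ⟨h, hn⟩

theorem C_mono {r : O → O → Prop} {A B : Set O} (h : A ⊆ B) (n : ℕ) : C r A n ≤ C r B n := by
  rw [C_eq, C_eq]
  apply Finsupp.supported_mono
  rintro t ⟨ht, hn⟩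
  exact ⟨⟨ht.1, fun a ha => h (ht.2 a ha)⟩, hn⟩

theorem mem_C {r : O → O → Prop} {A : Set O} {n : ℕ} {c : O × List O →₀ ℤ} :
    c ∈ C r A n ↔ ∀ t ∈ c.support, t ∈ Tup r A ∧ t.2.length = n := by
  rw [C_eq, Finsupp.mem_supported]
  constructor
  · intro h t ht
    exact h ht
  · intro h t ht
    exact h t ht

theorem lin_mem_C {M : Type*} [AddCommGroup M] {r : O → O → Prop} {A : Set O} {n : ℕ}
    (F : (O × List O →₀ ℤ) →ₗ[ℤ] M) (N : Submodule ℤ M)
    (h : ∀ t, t ∈ Tup r A → t.2.length = n → F (single t 1) ∈ N) {c : O × List O →₀ ℤ}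
    (hc : c ∈ C r A n) : F c ∈ N := by
  rw [C_eq] at hc
  exact lin_mem_of _ N (fun x hx => h x hx.1 hx.2) c hc

theorem lin_ext_C {M : Type*} [AddCommGroup M] {r : O → O → Prop} {A : Set O} {n : ℕ}
    (F G : (O × List O →₀ ℤ) →ₗ[ℤ] M)
    (h : ∀ t, t ∈ Tup r A → t.2.length = n → F (single t 1) = G (single t 1))
    {c : O × List O →₀ ℤ} (hc : c ∈ C r A n) : F c = G c := by
  rw [C_eq] at hc
  exact lin_ext_on _ (fun x hx => h x hx.1 hx.2) c hc

/-- faces are sublists -/
theorem sbd_sub (l : List O) (g : O) :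
    sbd l g ∈ Finsupp.supported ℤ ℤ {s : O × List O | (s.1 :: s.2).Sublist (g :: l) ∧
      s.2.length + 1 = l.length} := by
  induction l generalizing g with
  | nil => simp [sbd]
  | cons h l ih =>
    rw [sbd_eq]
    refine Submodule.sub_mem _ (Submodule.sub_mem _ ?_ ?_) ?_
    · exact Finsupp.single_mem_supported ℤ 1 ⟨List.sublist_cons_self _ _, by simp⟩
    · refine lin_mem_of _ _ (fun s hs => ?_) _ (ih h)
      rw [cn_single]
      refine Finsupp.single_mem_supported ℤ 1 ⟨?_, ?_⟩
      · exact hs.1.cons_cons g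
      · have := hs.2
        simp only [consX, List.length_cons]
        omega
    · unfold sep
      by_cases hl : l = []
      · subst hl
        simp only [List.isEmpty_nil, ↓reduceIte, one_smul]
        refine Finsupp.single_mem_supported ℤ 1 ⟨?_, by simp⟩
        exact (List.nil_sublist _).cons_cons g
      · rw [if_neg (by simpa [List.isEmpty_iff] using hl), zero_smul]
        exact Submodule.zero_mem _

theorem tup_sub {r : O → O → Prop} {A : Set O} {s t : O × List O} (ht : t ∈ Tup r A)
    (h : (s.1 :: s.2).Sublist (t.1 :: t.2)) : s ∈ Tup r A :=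
  ⟨ht.1.sublist h, fun a ha => ht.2 a (h.subset ha)⟩

theorem sD_mem {r : O → O → Prop} {A : Set O} {n : ℕ} {c : O × List O →₀ ℤ}
    (hc : c ∈ C r A (n + 1)) : sD c ∈ C r A n := by
  refine lin_mem_C sD _ (fun t ht hn => ?_) hc
  rw [sD_single, one_smul, C_eq]
  refine Finsupp.supported_mono ?_ (sbd_sub t.2 t.1)
  rintro s ⟨h1, h2⟩
  exact ⟨tup_sub ht h1, by simp only [Set.mem_ofPred_eq]; omega⟩

theorem sD_zero {r : O → O → Prop} {A : Set O} {c : O × List O →₀ ℤ}
    (hc : c ∈ C r A 0) : sD c = 0 := by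
  refine lin_ext_C sD 0 (fun t ht hn => ?_) hc
  rw [sD_single, List.length_eq_zero_iff.1 hn]
  simp [sbd]

theorem sE_zero {r : O → O → Prop} {A : Set O} {n : ℕ} {c : O × List O →₀ ℤ}
    (hc : c ∈ C r A (n + 1)) : sE c = 0 := by
  refine lin_ext_C sE 0 (fun t ht hn => ?_) hc
  rw [sE_single]
  have : t.2 ≠ [] := by intro h; rw [h] at hn; simp at hn
  simp [sep, this]

theorem sD_sD (c : O × List O →₀ ℤ) : sD (sD c) = 0 := by
  have : sD.comp sD = (0 : (O × List O →₀ ℤ) →ₗ[ℤ] _) := lin_ext fun x => by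
    simp only [LinearMap.comp_apply, sD_single, one_smul, sD_sbd]; rfl
  exact LinearMap.congr_fun this c

theorem sE_sD (c : O × List O →₀ ℤ) : sE (sD c) = 0 := by
  have : sE.comp sD = (0 : (O × List O →₀ ℤ) →ₗ[ℤ] _) := lin_ext fun x => by
    simp only [LinearMap.comp_apply, sD_single, one_smul, sE_sbd]; rfl
  exact LinearMap.congr_fun this c

theorem cn_mem {r : O → O → Prop} {A B : Set O} {n : ℕ} {a : O} (ha : a ∈ A) (hB : B ⊆ A)
    (h : ∀ x ∈ B, r x a) {c : O × List O →₀ ℤ} (hc : c ∈ C r B n) : cn a c ∈ C r A (n + 1) := by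
  refine lin_mem_C (cn a) _ (fun t ht hn => ?_) hc
  rw [cn_single]
  refine single_mem_C ⟨?_, ?_⟩ (by simp [consX, hn]) 1
  · change (a :: t.1 :: t.2).Pairwise _
    rw [List.pairwise_cons]
    exact ⟨fun b hb => h b (ht.2 b hb), ht.1⟩
  · intro b hb
    change b ∈ a :: t.1 :: t.2 at hb
    rcases List.mem_cons.1 hb with rfl | hb
    · exact ha
    · exact hB (ht.2 b hb)

/-- reformulation of `HAc` -/
theorem hac_iff {r : O → O → Prop} {A : Set O} {n : ℕ} :
    HAc r A n ↔ ∀ z ∈ C r A n, sD z = 0 → sE z = 0 → ∃ c ∈ C r A (n + 1), sD c = z := by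
  constructor
  · intro h z hz h1 h2
    obtain ⟨c, hc, hc', e⟩ := h z hz.1 hz.2 h1 h2
    exact ⟨c, ⟨hc, hc'⟩, e⟩
  · intro h z hz hz' h1 h2
    obtain ⟨c, hc, e⟩ := h z ⟨hz, hz'⟩ h1 h2
    exact ⟨c, hc.1, hc.2, e⟩

theorem hac_cone {r : O → O → Prop} {A : Set O} {a : O} (ha : a ∈ A) (h : ∀ x ∈ A, r x a)
    (n : ℕ) : HAc r A n := by
  rw [hac_iff]
  intro z hz h1 h2
  refine ⟨cn a z, cn_mem ha subset_rfl h hz, ?_⟩
  rw [sD_cn, h1, h2]
  simp

/-! ### transfer -/

/-- the map induced on tuples -/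
noncomputable def ml (f : O → O') : (O × List O →₀ ℤ) →ₗ[ℤ] (O' × List O' →₀ ℤ) :=
  Finsupp.lmapDomain ℤ ℤ (Prod.map f (List.map f))

theorem ml_single (f : O → O') (t : O × List O) (k : ℤ) :
    ml f (single t k) = single (f t.1, t.2.map f) k := by
  simp [ml, Prod.map]

theorem ml_sD (f : O → O') (c : O × List O →₀ ℤ) : sD (ml f c) = ml f (sD c) := by
  have : sD.comp (ml f) = (ml f).comp sD := lin_ext fun x => by
    simp only [LinearMap.comp_apply, ml_single, sD_single, one_smul]
    exact sbd_map f x.2 x.1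
  exact LinearMap.congr_fun this c

theorem ml_sE (f : O → O') (c : O × List O →₀ ℤ) : sE (ml f c) = sE c := by
  have : sE.comp (ml f) = sE := lin_ext fun x => by
    simp only [LinearMap.comp_apply, ml_single, sE_single, one_mul]
    unfold sep
    simp
  exact LinearMap.congr_fun this c

theorem ml_mem {r : O → O → Prop} {r' : O' → O' → Prop} {A : Set O} {A' : Set O'} {f : O → O'}
    (h1 : ∀ x ∈ A, f x ∈ A') (h2 : ∀ x ∈ A, ∀ y ∈ A, r x y → r' (f x) (f y)) {n : ℕ}
    {c : O × List O →₀ ℤ} (hc : c ∈ C r A n) : ml f c ∈ C r' A' n := by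
  refine lin_mem_C (ml f) _ (fun t ht hn => ?_) hc
  rw [ml_single]
  refine single_mem_C ⟨?_, ?_⟩ (by simpa using hn) 1
  · change ((t.1 :: t.2).map f).Pairwise _
    rw [List.pairwise_map]
    refine List.Pairwise.imp_of_mem ?_ ht.1
    intro a b ha hb hab
    exact h2 b (ht.2 b hb) a (ht.2 a ha) hab
  · intro b hb
    change b ∈ (t.1 :: t.2).map f at hb
    obtain ⟨a, ha, rfl⟩ := List.mem_map.1 hb
    exact h1 a (ht.2 a ha)

/-- the homotopy on basis elements -/
noncomputable def hb (φ : O → O) : List O → O → (O × List O →₀ ℤ)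
  | [], x => cn (φ x) (single (x, []) 1)
  | y :: l, x => cn (φ x) (single (x, y :: l) 1 - hb φ l y)

/-- the homotopy -/
noncomputable def hh (φ : O → O) : (O × List O →₀ ℤ) →ₗ[ℤ] (O × List O →₀ ℤ) :=
  Finsupp.linearCombination ℤ fun t => hb φ t.2 t.1

theorem hh_single (φ : O → O) (t : O × List O) : hh φ (single t 1) = hb φ t.2 t.1 := by
  simp [hh]

theorem hh_cn (φ : O → O) (x : O) (w : O × List O →₀ ℤ) :
    hh φ (cn x w) = cn (φ x) (cn x w - hh φ w) := by
  have : (hh φ).comp (cn x) = (cn (φ x)).comp (cn x - hh φ) := lin_ext fun t => by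
    simp only [LinearMap.comp_apply, LinearMap.sub_apply, cn_single, hh_single]
    rfl
  exact LinearMap.congr_fun this w

theorem sE_hh (φ : O → O) (w : O × List O →₀ ℤ) : sE (hh φ w) = 0 := by
  have : sE.comp (hh φ) = 0 := lin_ext fun t => by
    obtain ⟨x, l⟩ := t
    simp only [LinearMap.comp_apply, hh_single, LinearMap.zero_apply]
    cases l <;> exact sE_cn _ _
  exact LinearMap.congr_fun this w

theorem hh_htpy (φ : O → O) (c : O × List O →₀ ℤ) :
    sD (hh φ c) + hh φ (sD c) = c - ml φ c := by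
  have : sD.comp (hh φ) + (hh φ).comp sD = LinearMap.id - ml φ := lin_ext fun t => by
    obtain ⟨x, l⟩ := t
    simp only [LinearMap.add_apply, LinearMap.comp_apply, LinearMap.sub_apply, LinearMap.id_apply]
    induction l generalizing x with
    | nil =>
      rw [hh_single]
      change sD (cn (φ x) (single (x, []) 1)) + _ = _
      rw [sD_cn, sD_single, sE_single, ml_single]
      simp [sbd, sep]
    | cons y l ih =>
      have ih' := ih y
      have eu : (single (x, y :: l) 1 : O × List O →₀ ℤ) = cn x (single (y, l) 1) := by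
        rw [cn_single]; rfl
      set v : O × List O →₀ ℤ := single (y, l) 1 with hv
      rw [eu, hh_cn, sD_cn (φ x), map_sub sE, sE_cn, sE_hh, sub_self, zero_smul, sub_zero,
        map_sub sD, sD_cn x v]
      simp only [map_sub]
      rw [hh_cn]
      have e1 : hh φ (sE v • single (x, []) 1) = sE v • cn (φ x) (single (x, []) 1) := by
        rw [map_smul, hh_single]; rfl
      have e2 : ml φ (cn x v) = cn (φ x) (ml φ v) := by
        rw [hv, cn_single, ml_single, ml_single, cn_single]; rfl
      rw [e1, e2]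
      have e3 : ml φ v = v - (sD (hh φ v) + hh φ (sD v)) := by
        rw [ih']; abel
      rw [e3]
      simp only [map_sub, map_add, map_smul]
      abel
  exact LinearMap.congr_fun this c

theorem hh_mem {r : O → O → Prop} (hrf : ∀ x, r x x) (htr : ∀ x y z, r x y → r y z → r x z)
    {A : Set O} {φ : O → O}
    (h1 : ∀ x ∈ A, φ x ∈ A) (h2 : ∀ x ∈ A, ∀ y ∈ A, r x y → r (φ x) (φ y))
    (h3 : ∀ x ∈ A, r x (φ x)) {n : ℕ} {c : O × List O →₀ ℤ} (hc : c ∈ C r A n) :
    hh φ c ∈ C r A (n + 1) := by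
  have key : ∀ (l : List O) (x : O), (x, l) ∈ Tup r A →
      hb φ l x ∈ C r {a | a ∈ A ∧ r a (φ x)} (l.length + 1) := by
    intro l
    induction l with
    | nil =>
      intro x ht
      have hx : x ∈ A := ht.2 x (by simp)
      change cn (φ x) (single (x, []) 1) ∈ _
      refine cn_mem (A := {a | a ∈ A ∧ r a (φ x)}) (B := {a | a ∈ A ∧ r a (φ x)})
        ⟨h1 x hx, hrf _⟩ subset_rfl (fun y hy => hy.2) (single_mem_C ⟨?_, ?_⟩ rfl 1)
      · simp
      · intro a ha
        rcases List.mem_cons.1 ha with rfl | ha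
        · exact ⟨hx, h3 _ hx⟩
        · simp at ha
    | cons y l ih =>
      intro x ht
      have hx : x ∈ A := ht.2 x (by simp)
      have hy : y ∈ A := ht.2 y (by simp)
      have hp := ht.1
      simp only [List.pairwise_cons] at hp
      have hyx : r y x := hp.1 y (by simp)
      change cn (φ x) (single (x, y :: l) 1 - hb φ l y) ∈ _
      refine cn_mem (A := {a | a ∈ A ∧ r a (φ x)}) (B := {a | a ∈ A ∧ r a (φ x)})
        ⟨h1 x hx, hrf _⟩ subset_rfl (fun y hy => hy.2) (Submodule.sub_mem _ ?_ ?_)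
      · refine single_mem_C ⟨ht.1, ?_⟩ rfl 1
        intro a ha
        refine ⟨ht.2 a ha, ?_⟩
        rcases List.mem_cons.1 ha with rfl | ha
        · exact h3 _ hx
        · exact htr _ _ _ (hp.1 a ha) (h3 x hx)
      · refine C_mono ?_ _ (ih y ⟨?_, ?_⟩)
        · rintro a ⟨ha, ha'⟩
          exact ⟨ha, htr _ _ _ ha' (h2 y hy x hx hyx)⟩
        · exact List.pairwise_cons.2 hp.2
        · intro a ha
          exact ht.2 a (List.mem_cons_of_mem _ ha)
  refine lin_mem_C (hh φ) _ (fun t ht hn => ?_) hc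
  rw [hh_single]
  have := key t.2 t.1 ht
  rw [hn] at this
  exact C_mono (fun a ha => ha.1) _ this

theorem hac_transfer {r : O → O → Prop} {r' : O' → O' → Prop} (hrf : ∀ x, r x x)
    (htr : ∀ x y z, r x y → r y z → r x z) {A : Set O} {A' : Set O'} {f : O → O'} {g : O' → O}
    (hf : ∀ x ∈ A, f x ∈ A') (hg : ∀ x ∈ A', g x ∈ A)
    (hfm : ∀ x ∈ A, ∀ y ∈ A, r x y → r' (f x) (f y))
    (hgm : ∀ x ∈ A', ∀ y ∈ A', r' x y → r (g x) (g y))
    (hgf : ∀ x ∈ A, r x (g (f x))) {n : ℕ} (h : HAc r' A' n) : HAc r A n := by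
  rw [hac_iff] at h ⊢
  intro z hz h1 h2
  obtain ⟨c', hc', e⟩ := h (ml f z) (ml_mem hf hfm hz) (by rw [ml_sD, h1, map_zero])
    (by rw [ml_sE, h2])
  refine ⟨ml g c' + hh (g ∘ f) z, Submodule.add_mem _ (ml_mem hg hgm hc')
    (hh_mem hrf htr (fun x hx => hg _ (hf x hx))
      (fun x hx y hy hxy => hgm _ (hf x hx) _ (hf y hy) (hfm x hx y hy hxy)) hgf hz), ?_⟩
  have e1 := hh_htpy (g ∘ f) z
  rw [h1, map_zero, add_zero] at e1
  have e2 : ml (g ∘ f) z = ml g (ml f z) := by
    have : ml (g ∘ f) = (ml g).comp (ml f) := lin_ext fun x => by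
      simp [ml_single]
    rw [this]; rfl
  rw [map_add, ml_sD, e, e1, e2]
  abel

/-! ### glue -/

theorem tup_of_head {r : O → O → Prop} {A B : Set O} {t : O × List O} (ht : t ∈ Tup r A)
    (h : ∀ x ∈ B, ∀ y ∈ A, r y x → y ∈ B) (ht1 : t.1 ∈ B) : t ∈ Tup r B := by
  refine ⟨ht.1, fun a ha => ?_⟩
  rcases List.mem_cons.1 ha with rfl | ha'
  · exact ht1
  · have := ht.1
    rw [List.pairwise_cons] at this
    exact h _ ht1 a (ht.2 a ha) (this.1 a ha')

theorem filter_mem_C {r : O → O → Prop} {A B : Set O} {n : ℕ} {c : O × List O →₀ ℤ}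
    (hc : c ∈ C r A n) (p : O × List O → Prop) [DecidablePred p] (h : ∀ t ∈ Tup r A, p t → t ∈ Tup r B) :
    c.filter p ∈ C r B n := by
  rw [mem_C] at hc ⊢
  intro t ht
  rw [Finsupp.support_filter, Finset.mem_filter] at ht
  exact ⟨h t (hc t ht.1).1 ht.2, (hc t ht.1).2⟩

theorem C_inter {r : O → O → Prop} {A B : Set O} {n : ℕ} {c : O × List O →₀ ℤ}
    (h1 : c ∈ C r A n) (h2 : c ∈ C r B n) : c ∈ C r (A ∩ B) n := by
  rw [mem_C] at h1 h2 ⊢
  intro t ht
  exact ⟨⟨(h1 t ht).1.1, fun a ha => ⟨(h1 t ht).1.2 a ha, (h2 t ht).1.2 a ha⟩⟩, (h1 t ht).2⟩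

theorem hac_glue {r : O → O → Prop} {B D : Set O} (hB : ∀ x ∈ B, ∀ y ∈ D, r y x → y ∈ B)
    (hD : ∀ x ∈ D, ∀ y ∈ B, r y x → y ∈ D) {n : ℕ} (h1 : HAc r B n) (h2 : HAc r D n)
    (h3 : n = 0 → (B ∩ D).Nonempty) (h4 : ∀ m, m + 1 = n → HAc r (B ∩ D) m) :
    HAc r (B ∪ D) n := by
  classical
  rw [hac_iff] at h1 h2 ⊢
  intro z hz hz1 hz2
  set zB := z.filter (fun t => t.1 ∈ B) with hzB
  set zD := z.filter (fun t => ¬ t.1 ∈ B) with hzD
  have hsum : zB + zD = z := Finsupp.filter_add_filter_not z _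
  have mB : zB ∈ C r B n := filter_mem_C hz _ (fun t ht hp => tup_of_head ht (by
    intro x hx y hy hyx
    rcases hy with hy | hy
    · exact hy
    · exact hB x hx y hy hyx) hp)
  have mD : zD ∈ C r D n := filter_mem_C hz _ (fun t ht hp => tup_of_head ht (by
    intro x hx y hy hyx
    rcases hy with hy | hy
    · exact hD x hx y hy hyx
    · exact hy) (by
      rcases ht.2 t.1 (by simp) with h | h
      · exact absurd h hp
      · exact h))
  have hDsum : sD zB = - sD zD := by
    rw [eq_neg_iff_add_eq_zero, ← map_add, hsum, hz1]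
  have hEsum : sE zB = - sE zD := by
    rw [eq_neg_iff_add_eq_zero, ← map_add, hsum, hz2]
  -- the correction
  obtain ⟨u, hu, hu1, hu2⟩ : ∃ u ∈ C r (B ∩ D) n, sD u = sD zB ∧ sE u = sE zB := by
    rcases n with _ | n
    · obtain ⟨a, ha⟩ := h3 rfl
      refine ⟨sE zB • single (a, []) 1, Submodule.smul_mem _ _ (single_mem_C ⟨by simp, ?_⟩ rfl 1),
        ?_, ?_⟩
      · intro b hb
        rcases List.mem_cons.1 hb with rfl | hb
        · exact ha
        · simp at hb
      · rw [sD_zero mB, map_smul, sD_single]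
        simp [sbd]
      · rw [map_smul, sE_single]
        simp [sep]
    · have h5 := hac_iff.1 (h4 n rfl)
      have hw : sD zB ∈ C r (B ∩ D) n := C_inter (sD_mem mB) (by
        rw [hDsum]
        exact Submodule.neg_mem _ (sD_mem mD))
      obtain ⟨u, hu, e⟩ := h5 _ hw (sD_sD _) (sE_sD _)
      exact ⟨u, hu, e, by rw [sE_zero hu, sE_zero mB]⟩
  obtain ⟨c1, hc1, e1⟩ := h1 (zB - u) (Submodule.sub_mem _ mB (C_mono Set.inter_subset_left _ hu))
    (by rw [map_sub, hu1, sub_self]) (by rw [map_sub, hu2, sub_self])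
  obtain ⟨c2, hc2, e2⟩ := h2 (zD + u) (Submodule.add_mem _ mD (C_mono Set.inter_subset_right _ hu))
    (by rw [map_add, hu1, hDsum, add_neg_cancel]) (by rw [map_add, hu2, hEsum, add_neg_cancel])
  refine ⟨c1 + c2, Submodule.add_mem _ (C_mono Set.subset_union_left _ hc1)
    (C_mono Set.subset_union_right _ hc2), ?_⟩
  rw [map_add, e1, e2, ← hsum]
  abel

/-! ### morse -/

theorem hac_morse {r : O → O → Prop} (hrf : ∀ x, r x x) (htr : ∀ x y z, r x y → r y z → r x z)
    {A B : Set O} (hBA : B ⊆ A) (hmax : ∀ x ∈ A, x ∉ B → ∀ y ∈ A, r x y → y ∉ B ∧ r y x) {n : ℕ}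
    (hA : HAc r A n) (hL : ∀ x ∈ A, x ∉ B → HAc r {y | y ∈ B ∧ r y x} n) : HAc r B n := by
  classical
  rw [hac_iff] at hA ⊢
  intro z hz hz1 hz2
  obtain ⟨c, hc, e⟩ := hA z (C_mono hBA _ hz) hz1 hz2
  -- tuples whose head is in `B` are in `B`
  have hhead : ∀ t ∈ Tup r A, t.1 ∈ B → t ∈ Tup r B := by
    intro t ht h
    refine tup_of_head ht (fun x hx y hy hyx => ?_) h
    by_contra hyB
    exact (hmax y hy hyB x (hBA hx) hyx).1 hx
  -- induction on the number of bad tuples
  have main : ∀ (k : ℕ) (c : O × List O →₀ ℤ), c ∈ C r A (n + 1) → sD c ∈ C r B n →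
      (c.support.filter (fun t => t.1 ∉ B)).card = k → ∃ c' ∈ C r B (n + 1), sD c' = sD c := by
    intro k
    induction k using Nat.strong_induction_on with
    | _ k IH =>
      intro c hc hcD hk
      by_cases hbad : ∃ t ∈ c.support, t.1 ∉ B
      · obtain ⟨t0, ht0, ht0B⟩ := hbad
        have ht0A : t0.1 ∈ A := ((mem_C.1 hc t0 ht0).1).2 _ (by simp)
        let p : O × List O → Prop := fun t => t.1 ∉ B ∧ r t.1 t0.1 ∧ r t0.1 t.1
        have hsum : c.filter p + c.filter (fun t => ¬ p t) = c :=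
          Finsupp.filter_add_filter_not c _
        have m1 : c.filter p ∈ C r A (n + 1) := filter_mem_C hc _ (fun t ht _ => ht)
        have m2 : c.filter (fun t => ¬ p t) ∈ C r A (n + 1) := filter_mem_C hc _ (fun t ht _ => ht)
        -- faces of a tuple
        have face : ∀ t ∈ Tup r A, ∀ s : O × List O, (s.1 :: s.2).Sublist (t.1 :: t.2) →
            s.1 ∉ B → t.1 ∉ B ∧ r s.1 t.1 ∧ r t.1 s.1 := by
          intro t ht s hs hsB
          have hsA : s.1 ∈ A := ht.2 _ (hs.subset (by simp))
          have htA : t.1 ∈ A := ht.2 _ (by simp)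
          have hst : r s.1 t.1 := by
            rcases List.mem_cons.1 (hs.subset (List.mem_cons_self (a := s.1) (l := s.2))) with h | h
            · rw [h]; exact hrf _
            · have := ht.1
              rw [List.pairwise_cons] at this
              exact this.1 _ h
          have := hmax s.1 hsA hsB t.1 htA hst
          exact ⟨this.1, hst, this.2⟩
        -- the boundary of the `p`-part lies in the link
        have hlink : sD (c.filter p) ∈ C r {y | y ∈ B ∧ r y t0.1} n := by
          rw [mem_C]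
          intro s hs
          have hsA := mem_C.1 (sD_mem m1) s hs
          -- `s` is a face of a `p`-tuple
          obtain ⟨t, htA, htp, hst⟩ : ∃ t, t ∈ Tup r A ∧ p t ∧ (s.1 :: s.2).Sublist (t.1 :: t.2) := by
            have : sD (c.filter p) ∈ Finsupp.supported ℤ ℤ
                {s : O × List O | ∃ t, t ∈ Tup r A ∧ p t ∧ (s.1 :: s.2).Sublist (t.1 :: t.2)} := by
              refine lin_mem_of {t | t ∈ Tup r A ∧ p t} _ (fun t ht => ?_) _ ?_
              · rw [sD_single, one_smul]
                refine Finsupp.supported_mono ?_ (sbd_sub t.2 t.1)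
                rintro s ⟨h1, -⟩
                exact ⟨t, ht.1, ht.2, h1⟩
              · rw [Finsupp.mem_supported]
                intro t ht
                have ht' : t ∈ (c.filter p).support := ht
                rw [Finsupp.support_filter, Finset.mem_filter] at ht'
                exact ⟨(mem_C.1 hc t ht'.1).1, ht'.2⟩
            exact this hs
          -- `s.1 ∈ B`
          have hsB : s.1 ∈ B := by
            by_contra hsB
            obtain ⟨-, h1, h2⟩ := face t htA s hst hsB
            have hps : p s := ⟨hsB, htr _ _ _ h1 htp.2.1, htr _ _ _ htp.2.2 h2⟩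
            -- the coefficient of `s` vanishes
            have hcoef : sD (c.filter p) s = 0 := by
              have e1 : sD (c.filter p) = sD c - sD (c.filter (fun t => ¬ p t)) := by
                rw [eq_sub_iff_add_eq, ← map_add, hsum]
              rw [e1, Finsupp.sub_apply]
              have e2 : sD c s = 0 := by
                by_contra hne
                have := (mem_C.1 hcD s (Finsupp.mem_support_iff.2 hne)).1
                exact hsB (this.2 _ (by simp))
              have e3 : sD (c.filter (fun t => ¬ p t)) s = 0 := by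
                have : sD (c.filter (fun t => ¬ p t)) ∈ Finsupp.supported ℤ ℤ
                    {s : O × List O | ¬ p s} := by
                  refine lin_mem_of {t | t ∈ Tup r A ∧ ¬ p t} _ (fun t ht => ?_) _ ?_
                  · rw [sD_single, one_smul]
                    refine Finsupp.supported_mono ?_ (sbd_sub t.2 t.1)
                    rintro s ⟨h1, -⟩ hps'
                    obtain ⟨k1, k2, k3⟩ := face t ht.1 s h1 hps'.1
                    exact ht.2 ⟨k1, htr _ _ _ k3 hps'.2.1, htr _ _ _ hps'.2.2 k2⟩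
                  · rw [Finsupp.mem_supported]
                    intro t ht
                    have ht' : t ∈ (c.filter (fun t => ¬ p t)).support := ht
                    rw [Finsupp.support_filter, Finset.mem_filter] at ht'
                    exact ⟨(mem_C.1 hc t ht'.1).1, ht'.2⟩
                by_contra hne
                exact this (Finsupp.mem_support_iff.2 hne) hps
              rw [e2, e3, sub_zero]
            exact (Finsupp.mem_support_iff.1 hs) hcoef
          have hsTB := hhead s hsA.1 hsB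
          refine ⟨⟨hsA.1.1, fun a ha => ⟨hsTB.2 a ha, ?_⟩⟩, hsA.2⟩
          -- everything in `s` is below `t0.1`
          have hat : r a t.1 := by
            rcases List.mem_cons.1 (hst.subset ha) with h | h
            · rw [h]; exact hrf _
            · have := htA.1
              rw [List.pairwise_cons] at this
              exact this.1 _ h
          exact htr _ _ _ hat htp.2.1
        obtain ⟨u, hu, hue⟩ := hac_iff.1 (hL t0.1 ht0A ht0B) _ hlink (sD_sD _) (sE_sD _)
        have huB : u ∈ C r B (n + 1) := C_mono (fun y hy => hy.1) _ hu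
        have hnew : sD (c.filter (fun t => ¬ p t) + u) = sD c := by
          rw [map_add, hue, ← map_add, add_comm, hsum]
        have hlt : ((c.filter (fun t => ¬ p t) + u).support.filter (fun t => t.1 ∉ B)).card < k := by
          rw [← hk]
          apply Finset.card_lt_card
          rw [Finset.ssubset_iff_of_subset]
          · refine ⟨t0, Finset.mem_filter.2 ⟨ht0, ht0B⟩, ?_⟩
            intro hmem
            rw [Finset.mem_filter, Finsupp.mem_support_iff, Finsupp.add_apply] at hmem
            apply hmem.1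
            have e1 : (c.filter (fun t => ¬ p t)) t0 = 0 := by
              apply Finsupp.filter_apply_neg
              rw [not_not]
              exact ⟨ht0B, hrf _, hrf _⟩
            have e2 : u t0 = 0 := by
              by_contra hne
              exact ht0B ((mem_C.1 huB t0 (Finsupp.mem_support_iff.2 hne)).1.2 _ (by simp))
            rw [e1, e2, add_zero]
          · intro t ht
            rw [Finset.mem_filter] at ht ⊢
            refine ⟨?_, ht.2⟩
            have h1 := ht.1
            rw [Finsupp.mem_support_iff, Finsupp.add_apply] at h1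
            have e2 : u t = 0 := by
              by_contra hne
              exact ht.2 ((mem_C.1 huB t (Finsupp.mem_support_iff.2 hne)).1.2 _ (by simp))
            rw [e2, add_zero] at h1
            rw [Finsupp.mem_support_iff]
            intro h0
            apply h1
            rw [Finsupp.filter_apply]
            split_ifs <;> simp [h0]
        obtain ⟨c', hc', hce⟩ := IH _ hlt (c.filter (fun t => ¬ p t) + u)
          (Submodule.add_mem _ m2 (C_mono hBA _ huB)) (by rw [hnew]; exact hcD) rfl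
        exact ⟨c', hc', by rw [hce, hnew]⟩
      · push Not at hbad
        refine ⟨c, ?_, rfl⟩
        rw [mem_C] at hc ⊢
        intro t ht
        exact ⟨hhead t (hc t ht).1 (hbad t ht), (hc t ht).2⟩
  obtain ⟨c', hc', e'⟩ := main _ c hc (by rw [e]; exact hz) rfl
  exact ⟨c', hc', by rw [e', e]⟩

/-! ### union -/

theorem hac_union {r : O → O → Prop} {ι : Type} [Nonempty ι] (A : ι → Set O)
    (hd : ∀ i j, ∃ k, A i ⊆ A k ∧ A j ⊆ A k) {n : ℕ} (h : ∀ i, HAc r (A i) n) :
    HAc r (⋃ i, A i) n := by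
  classical
  rw [hac_iff]
  intro z hz h1 h2
  have hfin : ∀ F : Finset O, (∀ a ∈ F, a ∈ ⋃ i, A i) → ∃ k, ∀ a ∈ F, a ∈ A k := by
    intro F
    induction F using Finset.induction_on with
    | empty => intro _; exact ⟨Classical.arbitrary ι, by simp⟩
    | insert a F ha ih =>
      intro hF
      obtain ⟨k, hk⟩ := ih (fun b hb => hF b (Finset.mem_insert_of_mem hb))
      obtain ⟨i, hi⟩ := Set.mem_iUnion.1 (hF a (Finset.mem_insert_self _ _))
      obtain ⟨l, hl1, hl2⟩ := hd k i
      refine ⟨l, fun b hb => ?_⟩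
      rcases Finset.mem_insert.1 hb with rfl | hb
      · exact hl2 hi
      · exact hl1 (hk b hb)
  obtain ⟨k, hk⟩ := hfin (z.support.biUnion fun t => (t.1 :: t.2).toFinset) (by
    intro a ha
    rw [Finset.mem_biUnion] at ha
    obtain ⟨t, ht, ha⟩ := ha
    exact (mem_C.1 hz t ht).1.2 a (List.mem_toFinset.1 ha))
  have hzk : z ∈ C r (A k) n := by
    rw [mem_C] at hz ⊢
    intro t ht
    refine ⟨⟨(hz t ht).1.1, fun a ha => hk a ?_⟩, (hz t ht).2⟩
    rw [Finset.mem_biUnion]
    exact ⟨t, ht, List.mem_toFinset.2 ha⟩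
  obtain ⟨c, hc, e⟩ := hac_iff.1 (h k) z hzk h1 h2
  exact ⟨c, C_mono (Set.subset_iUnion A k) _ hc, e⟩

end Crest.Agent.R185.QHom

namespace Crest.Agent.R185.Q

open Crest.Agent.R185.QHom

/-- **the homology theory** -/
def homTh : ConTh where
  Con := fun r m A => HCon r m A
  zero h := ⟨h, fun n hn => absurd hn (Nat.not_lt_zero n)⟩
  cone _ _ A a ha h m := ⟨⟨a, ha⟩, fun n _ => hac_cone ha h n⟩
  transfer hrf htr _ _ A A' f g hf hg hfm hgm hgf m h := by
    refine ⟨?_, fun n hn => hac_transfer hrf htr hf hg hfm hgm hgf (h.2 n hn)⟩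
    obtain ⟨a', ha'⟩ := h.1
    exact ⟨g a', hg a' ha'⟩
  glue _ _ B D hB hD m h1 h2 h3 := by
    refine ⟨h1.1.mono Set.subset_union_left, fun n hn => ?_⟩
    exact hac_glue hB hD (h1.2 n hn) (h2.2 n hn) (fun _ => h3.1)
      (fun k hk => h3.2 k (by omega))
  morse hrf htr A B hBA hmax m hA hL := by
    refine ⟨?_, fun n hn => hac_morse hrf htr hBA hmax (hA.2 n hn)
      (fun x hx hxB => (hL x hx hxB).2 n hn)⟩
    obtain ⟨a, ha⟩ := hA.1
    by_cases h : a ∈ B
    · exact ⟨a, h⟩
    · obtain ⟨y, hy⟩ := (hL a ha h).1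
      exact ⟨y, hy.1⟩
  union := by
    intro O r hrf htr ι hne A hd m h
    refine ⟨?_, fun n hn => hac_union A hd (fun i => (h i).2 n hn)⟩
    obtain ⟨a, ha⟩ := (h (Classical.arbitrary _)).1
    exact ⟨a, Set.mem_iUnion.2 ⟨_, ha⟩⟩

end Crest.Agent.R185.Q
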