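import Crest.Agent.R185.QFr4
import Crest.Agent.R185.QOP

/-!
# Row 185 (Q2): ordered marked partitions versus frames, directedness (helper424)
-/

set_option autoImplicit false

namespace Crest.Agent.R185.Q

open Classical

variable {Γ Y : Type} [Group Γ] [MulAction Γ Y]

/-! ### piecewise closure of a right-`M`-closed set -/

/-- functions piecewise in `B` -/
inductive AdB {Y : Type} (B : (W Y → W Y) → Prop) : (W Y → W Y) → Prop
  | base (f : W Y → W Y) : B f → AdB B f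
  | split (y : Y) (f : W Y → W Y) : AdB B (f ∘ sh y) → AdB B (f ∘ ch y) → AdB B f

variable {B : (W Y → W Y) → Prop}

theorem AdB.comp_ac (hB : ∀ f m, B f → M Γ m → B (f ∘ m)) {f : W Y → W Y} (hf : AdB B f) (γ : Γ) :
    AdB B (f ∘ ac γ) := by
  induction hf generalizing γ with
  | base m hm => exact AdB.base _ (hB _ _ hm (M_ac γ))
  | split y f _ _ ih1 ih2 =>
    refine AdB.split (γ⁻¹ • y) _ ?_ ?_
    · rw [Function.comp_assoc, ← sh_ac]; exact ih1 γ
    · rw [Function.comp_assoc, ← ch_ac]; exact ih2 γ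

theorem AdB.comp_sh_ch (hB : ∀ f m, B f → M Γ m → B (f ∘ m)) {f : W Y → W Y} (hf : AdB B f) :
    ∀ z, AdB B (f ∘ sh z) ∧ AdB B (f ∘ ch z) := by
  induction hf with
  | base m hm => exact fun z => ⟨AdB.base _ (hB _ _ hm (M_sh z)), AdB.base _ (hB _ _ hm (M_ch z))⟩
  | split y f h1 h2 ih1 ih2 =>
    intro z
    by_cases hz : z = y
    · subst hz; exact ⟨h1, h2⟩
    · constructor
      · refine AdB.split y _ ?_ ?_
        · rw [Function.comp_assoc, sh_comm, ← Function.comp_assoc]; exact (ih1 z).1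
        · rw [Function.comp_assoc, sh_ch_ne (Ne.symm hz)]; exact h2
      · have := (ih1 z).2
        rw [Function.comp_assoc, sh_ch_ne hz] at this
        exact this

theorem AdB.comp_M (hB : ∀ f m, B f → M Γ m → B (f ∘ m)) {f m : W Y → W Y} (hf : AdB B f)
    (hm : M Γ m) : AdB B (f ∘ m) := by
  induction hm generalizing f with
  | one => exact hf
  | cs y m _ ih => exact ih (f := f ∘ Q.sh y) (hf.comp_sh_ch hB y).1
  | cc y m _ ih => exact ih (f := f ∘ Q.ch y) (hf.comp_sh_ch hB y).2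
  | ca γ m _ ih => exact ih (f := f ∘ Q.ac γ) (hf.comp_ac hB γ)

theorem AdB.exists_cut {g : W Y → W Y} (hg : AdB B g) :
    ∃ L, Cut Γ L ∧ ∀ f ∈ L, B (g ∘ f) := by
  induction hg with
  | base m hm => exact ⟨[id], Cut.one, by simpa using hm⟩
  | split y f _ _ ih1 ih2 =>
    obtain ⟨L1, h1, h1'⟩ := ih1
    obtain ⟨L2, h2, h2'⟩ := ih2
    refine ⟨_, h1.node h2 y, ?_⟩
    intro k hk
    simp only [List.mem_append, List.mem_map] at hk
    rcases hk with ⟨m, hm, rfl⟩ | ⟨m, hm, rfl⟩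
    · exact h1' m hm
    · exact h2' m hm

theorem Cut.adB (hB : ∀ f m, B f → M Γ m → B (f ∘ m)) {L : List (W Y → W Y)} (h : Cut Γ L)
    {g : W Y → W Y} (hg : ∀ f ∈ L, AdB B (g ∘ f)) : AdB B g := by
  induction h with
  | one => exact hg id (by simp)
  | split y f L _ ih =>
    apply ih
    intro f' hf'
    simp only [List.mem_cons] at hf'
    rcases hf' with rfl | hf'
    · exact AdB.split y _ (hg (f' ∘ sh y) List.mem_cons_self)
        (hg (f' ∘ ch y) (List.mem_cons_of_mem _ List.mem_cons_self))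
    · exact hg f' (by simp [hf'])
  | perm _ hp ih => exact ih (fun f hf => hg f (hp.mem_iff.1 hf))
  | label γ f L _ ih =>
    apply ih
    intro f' hf'
    simp only [List.mem_cons] at hf'
    rcases hf' with rfl | hf'
    · have := (hg (f' ∘ ac γ) (by simp)).comp_ac hB γ⁻¹
      rw [Function.comp_assoc, Function.comp_assoc, ac_comp_inv] at this
      exact this
    · exact hg f' (by simp [hf'])

/-- common refinement of two cuts -/
theorem refine_cuts {L K : List (W Y → W Y)} (hL : Cut Γ L) (hK : Cut Γ K) :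
    ∃ C, Cut Γ C ∧ ∀ c ∈ C, (∃ l ∈ L, ∃ m, M Γ m ∧ c = l ∘ m) ∧ (∃ k ∈ K, ∃ m, M Γ m ∧ c = k ∘ m) := by
  let B1 : (W Y → W Y) → Prop := fun f => ∃ k ∈ K, ∃ m, M Γ m ∧ f = k ∘ m
  have hB1 : ∀ f m, B1 f → M Γ m → B1 (f ∘ m) := by
    rintro f m ⟨k, hk, n, hn, rfl⟩ hm
    exact ⟨k, hk, n ∘ m, hn.comp hm, rfl⟩
  let B : (W Y → W Y) → Prop := fun f => (∃ l ∈ L, ∃ m, M Γ m ∧ f = l ∘ m) ∧ B1 f
  have hB : ∀ f m, B f → M Γ m → B (f ∘ m) := by
    rintro f m ⟨⟨l, hl, n, hn, e⟩, h⟩ hm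
    exact ⟨⟨l, hl, n ∘ m, hn.comp hm, by rw [e]; rfl⟩, hB1 f m h hm⟩
  have h1 : AdB B1 (id : W Y → W Y) :=
    hK.adB hB1 (fun k hk => AdB.base _ ⟨k, hk, id, M.one, rfl⟩)
  have h2 : AdB B (id : W Y → W Y) := by
    refine hL.adB hB (fun l hl => ?_)
    obtain ⟨D, hD, hD'⟩ := (h1.comp_M hB1 (hL.mem_M l hl)).exists_cut (Γ := Γ)
    refine hD.adB hB (fun d hd => AdB.base _ ⟨⟨l, hl, d, hD.mem_M d hd, rfl⟩, ?_⟩)
    exact hD' d hd
  obtain ⟨C, hC, hC'⟩ := h2.exists_cut (Γ := Γ)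
  exact ⟨C, hC, fun c hc => hC' c hc⟩

/-! ### partitions into admissible charts -/

theorem perm_mem {g : Equiv.Perm (W Y)} (hg : Adm Γ (g : W Y → W Y)) : g ∈ QG Γ Y := by
  refine ⟨hg, ?_⟩
  obtain ⟨K, hK, hM⟩ := Adm.exists_cut hg
  refine (hK.map_of_M g hM).adm ?_
  intro f hf
  obtain ⟨k, hk, rfl⟩ := List.mem_map.1 hf
  have : (g.symm : W Y → W Y) ∘ (g : W Y → W Y) ∘ k = k := by
    funext t; simp
  rw [this]
  exact Adm.base _ (hK.mem_M k hk)

theorem exists_cut_len [Nonempty Y] (n : ℕ) : ∃ L : List (W Y → W Y), Cut Γ L ∧ L.length = n + 1 := by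
  obtain ⟨y⟩ := ‹Nonempty Y›
  induction n with
  | zero => exact ⟨[id], Cut.one, rfl⟩
  | succ n ih =>
    obtain ⟨L, hL, hl⟩ := ih
    rcases L with _ | ⟨f, L⟩
    · simp at hl
    · exact ⟨_, Cut.split y f L hL, by simp at hl ⊢; omega⟩

/-- lists of admissible injections which partition `W` -/
theorem isOP_of_part [Nonempty Y] {L : List (W Y → W Y)} (h1 : ∀ f ∈ L, Adm Γ f)
    (h2 : ∀ f ∈ L, Function.Injective f) (h3 : L.Pairwise Dj) (h4 : ∀ u, ∃ f ∈ L, ∃ v, f v = u) :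
    IsOP (L.map (cls Γ)) := by
  obtain ⟨f0, hf0, -⟩ := h4 []
  have hlen := List.length_pos_of_mem hf0
  obtain ⟨C, hC, hCl⟩ := exists_cut_len (Γ := Γ) (Y := Y) (L.length - 1)
  have hl : C.length = L.length := by omega
  have hbij : Function.Bijective (fun p : Fin L.length × W Y => L.get p.1 p.2) := by
    constructor
    · rintro ⟨i, u⟩ ⟨j, v⟩ e
      have hdj := List.pairwise_iff_get.1 h3
      rcases lt_trichotomy i j with hij | hij | hij
      · exact absurd e (hdj i j hij _ _)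
      · subst hij
        have := (h2 (L.get i) (List.get_mem _ _)) e
        simp only at this
        rw [this]
      · exact absurd e.symm (hdj j i hij _ _)
    · intro u
      obtain ⟨f, hf, v, hv⟩ := h4 u
      obtain ⟨i, rfl⟩ := List.get_of_mem hf
      exact ⟨⟨i, v⟩, hv⟩
  let e := Equiv.ofBijective _ hC.bij
  let e' := Equiv.ofBijective _ hbij
  let c : Fin C.length × W Y ≃ Fin L.length × W Y :=
    Equiv.prodCongr (finCongr hl) (Equiv.refl _)
  let g : Equiv.Perm (W Y) := e.symm.trans (c.trans e')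
  have key : ∀ (i : Fin C.length), (g : W Y → W Y) ∘ C.get i = L.get (finCongr hl i) := by
    intro i
    funext v
    have h1 : e.symm (C.get i v) = (i, v) := by
      rw [Equiv.symm_apply_eq]; rfl
    simp only [g, Function.comp_apply, Equiv.trans_apply, h1]
    rfl
  have hg : Adm Γ (g : W Y → W Y) := by
    apply hC.adm
    intro f hf
    obtain ⟨i, rfl⟩ := List.get_of_mem hf
    rw [key i]
    exact h1 _ (List.get_mem _ _)
  refine ⟨⟨g, perm_mem hg⟩, C, hC, ?_⟩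
  rw [smul_list, List.map_map]
  apply List.ext_get
  · simp [hl]
  · intro n k1 k2
    have := key ⟨n, by simpa using k2⟩
    simp only [List.get_eq_getElem, List.getElem_map, Function.comp_apply, smul_cls] at this ⊢
    rw [this]
    rfl

/-! ### from lists of classes to frames and back -/

/-- the frame of an ordered marked partition -/
noncomputable def toFr (x : List (Cls Γ Y)) : Fr0 Y :=
  (Finset.range x.length, fun i => rep (x.getD i (cls Γ id)))

/-- the ordered marked partition of a frame -/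
noncomputable def ofFr (Γ : Type) {Y : Type} [Group Γ] [MulAction Γ Y] (z : Fr0 Y) :
    List (Cls Γ Y) := z.1.toList.map (fun i => cls Γ (z.2 i))

theorem toFr_card (x : List (Cls Γ Y)) : (toFr x).1.card = x.length := by simp [toFr]

theorem ofFr_length (z : Fr0 Y) : (ofFr Γ z).length = z.1.card := by simp [ofFr]

theorem toFr_snd (x : List (Cls Γ Y)) {i : ℕ} (h : i < x.length) : cls Γ ((toFr x).2 i) = x[i] := by
  simp [toFr, h]

theorem IsFr.congr {I : Finset ℕ} {F F' : ℕ → W Y → W Y} (h : IsFr Γ (I, F))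
    (e : ∀ i ∈ I, Lab Γ (F i) (F' i)) : IsFr Γ (I, F') := by
  refine ⟨?_, ?_, ?_, ?_⟩
  · intro i hi
    obtain ⟨γ, hγ⟩ := e i hi
    change Adm Γ (F' i)
    rw [hγ]; exact (h.adm i hi).comp_ac γ
  · intro i hi
    obtain ⟨γ, hγ⟩ := e i hi
    change Function.Injective (F' i)
    rw [hγ]; exact (h.inj i hi).comp (ac_inj γ)
  · intro i hi j hj hij a b
    obtain ⟨γ, hγ⟩ := e i hi
    obtain ⟨δ, hδ⟩ := e j hj
    change F' i a ≠ F' j b
    rw [hγ, hδ]; exact h.dj i hi j hj hij _ _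
  · intro u
    obtain ⟨i, hi, v, hv⟩ := h.cov u
    obtain ⟨γ, hγ⟩ := e i hi
    obtain ⟨w, rfl⟩ := ac_surj γ v
    refine ⟨i, hi, w, ?_⟩
    change F' i w = u
    rw [hγ]; exact hv

theorem isFr_toFr {x : List (Cls Γ Y)} (h : IsOP x) : IsFr Γ (toFr x) := by
  obtain ⟨g, L, hL, rfl⟩ := h
  have hlen : (g • (L.map (cls Γ))).length = L.length := by rw [length_smul, List.length_map]
  have h0 : IsFr Γ ((Finset.range L.length, fun i => (g.1 : W Y → W Y) ∘ L.getD i id) : Fr0 Y) := by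
    have hget : ∀ i, (hi : i < L.length) → L.getD i id = L.get ⟨i, hi⟩ := by
      intro i hi; simp [hi]
    have hdj := List.pairwise_iff_get.1 hL.dj
    refine ⟨?_, ?_, ?_, ?_⟩
    · intro i hi
      rw [Finset.mem_range] at hi
      change Adm Γ ((g.1 : W Y → W Y) ∘ L.getD i id)
      rw [hget i hi]
      exact g.2.1.comp_M (hL.mem_M _ (List.get_mem _ _))
    · intro i hi
      rw [Finset.mem_range] at hi
      change Function.Injective ((g.1 : W Y → W Y) ∘ L.getD i id)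
      rw [hget i hi]
      exact g.1.injective.comp (hL.mem_M _ (List.get_mem _ _)).inj
    · intro i hi j hj hij a b e
      rw [Finset.mem_range] at hi hj
      have e' := g.1.injective e
      rw [hget i hi, hget j hj] at e'
      rcases lt_or_gt_of_ne hij with h | h
      · exact hdj ⟨i, hi⟩ ⟨j, hj⟩ h _ _ e'
      · exact hdj ⟨j, hj⟩ ⟨i, hi⟩ h _ _ e'.symm
    · intro u
      obtain ⟨f, hf, v, hv⟩ := hL.cover (g.1.symm u)
      obtain ⟨⟨i, hi⟩, rfl⟩ := List.get_of_mem hf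
      refine ⟨i, Finset.mem_range.2 hi, v, ?_⟩
      change g.1 (L.getD i id v) = u
      rw [hget i hi, hv]
      simp
  have h1 := h0.congr (F' := fun i => rep ((g • (L.map (cls Γ))).getD i (cls Γ id))) ?_
  · unfold toFr
    rw [hlen]
    exact h1
  · intro i hi
    rw [Finset.mem_range] at hi
    rw [← cls_eq, cls_rep]
    simp [smul_list, hi, smul_cls]

theorem isOP_ofFr [Nonempty Y] {z : Fr0 Y} (h : IsFr Γ z) : IsOP (ofFr Γ z) := by
  have : ofFr Γ z = (z.1.toList.map z.2).map (cls Γ) := by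
    unfold ofFr
    rw [List.map_map]; rfl
  rw [this]
  apply isOP_of_part
  · intro f hf
    obtain ⟨i, hi, rfl⟩ := List.mem_map.1 hf
    exact h.adm i (Finset.mem_toList.1 hi)
  · intro f hf
    obtain ⟨i, hi, rfl⟩ := List.mem_map.1 hf
    exact h.inj i (Finset.mem_toList.1 hi)
  · rw [List.pairwise_map]
    refine (List.Pairwise.and_mem.1 z.1.nodup_toList).imp ?_
    rintro a b ⟨ha, hb, hab⟩
    exact h.dj a (Finset.mem_toList.1 ha) b (Finset.mem_toList.1 hb) hab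
  · intro u
    obtain ⟨i, hi, v, hv⟩ := h.cov u
    exact ⟨z.2 i, List.mem_map.2 ⟨i, Finset.mem_toList.2 hi, rfl⟩, v, hv⟩

theorem fle_toFr {x y : List (Cls Γ Y)} (h : ole x y) : fle Γ (toFr x) (toFr y) := by
  intro j hj
  have hj' : j < y.length := by simpa [toFr] using hj
  obtain ⟨a, ha, hab⟩ := h (y[j]) (List.getElem_mem hj')
  obtain ⟨i, hi, rfl⟩ := List.getElem_of_mem ha
  rw [← toFr_snd x hi, ← toFr_snd y hj', cle_iff] at hab
  obtain ⟨m, hm, e⟩ := hab
  obtain ⟨γ, hγ⟩ := cls_eq.1 e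
  exact ⟨i, by simpa [toFr] using hi, m ∘ ac γ, hm.comp (M_ac γ), by rw [hγ]; rfl⟩

theorem ole_ofFr {z z' : Fr0 Y} (h : fle Γ z z') : ole (ofFr Γ z) (ofFr Γ z') := by
  intro b hb
  obtain ⟨j, hj, rfl⟩ := List.mem_map.1 hb
  obtain ⟨i, hi, m, hm, e⟩ := h j (Finset.mem_toList.1 hj)
  exact ⟨cls Γ (z.2 i), List.mem_map.2 ⟨i, Finset.mem_toList.2 hi, rfl⟩, z.2 i, m, rfl, hm,
    by rw [e]⟩

theorem ofFr_toFr_le (x : List (Cls Γ Y)) : ole x (ofFr Γ (toFr x)) := by
  intro b hb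
  obtain ⟨j, hj, rfl⟩ := List.mem_map.1 hb
  have hj' : j < x.length := by simpa [toFr] using hj
  rw [toFr_snd x hj']
  exact ⟨x[j], List.getElem_mem hj', cle_refl _⟩

theorem le_ofFr_toFr (x : List (Cls Γ Y)) : ole (ofFr Γ (toFr x)) x := by
  intro b hb
  obtain ⟨j, hj, rfl⟩ := List.getElem_of_mem hb
  refine ⟨x[j], ?_, cle_refl _⟩
  refine List.mem_map.2 ⟨j, ?_, toFr_snd x hj⟩
  simpa [toFr] using hj

/-! ### directedness -/

theorem IsOP.of_cut {C : List (W Y → W Y)} (hC : Cut Γ C) : IsOP (C.map (cls Γ)) :=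
  ⟨1, C, hC, by rw [one_smul]⟩

theorem exists_cut_above {x : List (Cls Γ Y)} (h : IsOP x) :
    ∃ C, Cut Γ C ∧ ole x (C.map (cls Γ)) := by
  obtain ⟨g, L, hL, rfl⟩ := h
  obtain ⟨K, hK, hM⟩ := Adm.exists_cut g.2.1
  obtain ⟨C0, hC0, hC0'⟩ := refine_cuts hL hK
  refine ⟨C0.map (fun f => (g.1 : W Y → W Y) ∘ f), hC0.map_of_M g.1 ?_, ?_⟩
  · intro f hf
    obtain ⟨-, k, hk, m, hm, rfl⟩ := hC0' f hf
    exact (hM k hk).comp hm
  · intro b hb
    rw [List.map_map] at hb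
    obtain ⟨c, hc, rfl⟩ := List.mem_map.1 hb
    obtain ⟨⟨l, hl, m, hm, rfl⟩, -⟩ := hC0' c hc
    refine ⟨g • cls Γ l, List.mem_map.2 ⟨cls Γ l, List.mem_map.2 ⟨l, hl, rfl⟩, rfl⟩, ?_⟩
    exact ⟨(g.1 : W Y → W Y) ∘ l, m, rfl, hm, rfl⟩

theorem exists_above : ∀ (t : List (List (Cls Γ Y))), (∀ x ∈ t, IsOP x) →
    ∃ C, Cut Γ C ∧ ∀ x ∈ t, ole x (C.map (cls Γ)) := by
  intro t
  induction t with
  | nil => intro _; exact ⟨[id], Cut.one, by simp⟩
  | cons x t ih =>
    intro h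
    obtain ⟨C1, hC1, h1⟩ := exists_cut_above (h x List.mem_cons_self)
    obtain ⟨C2, hC2, h2⟩ := ih (fun y hy => h y (List.mem_cons_of_mem _ hy))
    obtain ⟨C, hC, hC'⟩ := refine_cuts hC1 hC2
    have k1 : ole (C1.map (cls Γ)) (C.map (cls Γ)) := by
      intro b hb
      obtain ⟨c, hc, rfl⟩ := List.mem_map.1 hb
      obtain ⟨⟨l, hl, m, hm, rfl⟩, -⟩ := hC' c hc
      exact ⟨cls Γ l, List.mem_map.2 ⟨l, hl, rfl⟩, l, m, rfl, hm, rfl⟩
    have k2 : ole (C2.map (cls Γ)) (C.map (cls Γ)) := by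
      intro b hb
      obtain ⟨c, hc, rfl⟩ := List.mem_map.1 hb
      obtain ⟨-, l, hl, m, hm, rfl⟩ := hC' c hc
      exact ⟨cls Γ l, List.mem_map.2 ⟨l, hl, rfl⟩, l, m, rfl, hm, rfl⟩
    refine ⟨C, hC, ?_⟩
    intro y hy
    rcases List.mem_cons.1 hy with rfl | hy
    · exact ole_trans _ _ _ h1 k1
    · exact ole_trans _ _ _ (h2 y hy) k2

/-! ### connectivity for ordered marked partitions -/

/-- the ordered marked partitions below `b` of size at most `q` -/
theorem con_OP [FaithfulSMul Γ Y] [Nonempty Y] (T : ConTh) {b : List (Cls Γ Y)} (hb : IsOP b)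
    (m q : ℕ) (hq : 4 * m + 1 ≤ q) :
    T.Con ole m {x : List (Cls Γ Y) | IsOP x ∧ ole x b ∧ x.length ≤ q} := by
  have h := con_Dq T (isFr_toFr hb) m ((toFr b).1.card) q (by omega) hq
  refine T.transfer ole_refl ole_trans fle_refl fle_trans _ _ toFr (ofFr Γ) ?_ ?_ ?_ ?_ ?_ m h
  · rintro x ⟨h1, h2, h3⟩
    exact ⟨isFr_toFr h1, fle_toFr h2, by rw [toFr_card]; exact h3⟩
  · rintro z ⟨h1, h2, h3⟩
    exact ⟨isOP_ofFr h1, ole_trans _ _ _ (ole_ofFr h2) (le_ofFr_toFr b), by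
      rw [ofFr_length]; exact h3⟩
  · intro x _ y _ h; exact fle_toFr h
  · intro x _ y _ h; exact ole_ofFr h
  · intro x _; exact ofFr_toFr_le x

end Crest.Agent.R185.Q
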