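import Crest.Agent.R185.QSimple

/-!
# Row 185: the group `Q(Γ,Y)` is perfect (helper424)
-/

set_option autoImplicit false

namespace Crest.Agent.R185.Q

open Classical

variable {Γ Y : Type} [Group Γ] [MulAction Γ Y]

/-- `g` is `a` transported to the first piece -/
def IsEmb (f : W Y → W Y) (L : List (W Y → W Y)) (a g : Equiv.Perm (W Y)) : Prop :=
  (g : W Y → W Y) ∘ f = f ∘ (a : W Y → W Y) ∧ ∀ h ∈ L, (g : W Y → W Y) ∘ h = h

theorem conj_comp {c : Equiv.Perm (W Y)} {k : W Y → W Y} (g : Equiv.Perm (W Y)) :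
    ((c * g * c⁻¹ : Equiv.Perm (W Y)) : W Y → W Y) ∘ ((c : W Y → W Y) ∘ k)
      = (c : W Y → W Y) ∘ ((g : W Y → W Y) ∘ k) := by
  funext u
  simp

theorem conj_lab {f f1 : W Y → W Y} {L L1 : List (W Y → W Y)} {γ : Γ} {g c : Equiv.Perm (W Y)}
    (hg : IsLab f L γ g) (e : mp c (f :: L) = f1 :: L1) : IsLab f1 L1 γ (c * g * c⁻¹) := by
  rw [mp_cons] at e
  simp only [List.cons.injEq] at e
  obtain ⟨rfl, rfl⟩ := e
  refine ⟨?_, ?_⟩
  · rw [conj_comp, hg.1]; rfl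
  · intro k hk
    obtain ⟨l, hl, rfl⟩ := List.mem_map.1 hk
    rw [conj_comp, hg.2 l hl]

theorem conj_tr {f f' f1 f1' : W Y → W Y} {L L1 : List (W Y → W Y)} {g c : Equiv.Perm (W Y)}
    (hg : IsTr f f' L g) (e : mp c (f :: f' :: L) = f1 :: f1' :: L1) :
    IsTr f1 f1' L1 (c * g * c⁻¹) := by
  rw [mp_cons, mp_cons] at e
  simp only [List.cons.injEq] at e
  obtain ⟨rfl, rfl, rfl⟩ := e
  refine ⟨?_, ?_, ?_⟩
  · rw [conj_comp, hg.1]
  · rw [conj_comp, hg.2.1]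
  · intro k hk
    obtain ⟨l, hl, rfl⟩ := List.mem_map.1 hk
    rw [conj_comp, hg.2.2 l hl]

theorem conj_emb {f f1 : W Y → W Y} {L L1 : List (W Y → W Y)} {a g c : Equiv.Perm (W Y)}
    (hg : IsEmb f L a g) (e : mp c (f :: L) = f1 :: L1) : IsEmb f1 L1 a (c * g * c⁻¹) := by
  rw [mp_cons] at e
  simp only [List.cons.injEq] at e
  obtain ⟨rfl, rfl⟩ := e
  refine ⟨?_, ?_⟩
  · rw [conj_comp, hg.1]; rfl
  · intro k hk
    obtain ⟨l, hl, rfl⟩ := List.mem_map.1 hk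
    rw [conj_comp, hg.2 l hl]

theorem IsLab.mono {f : W Y → W Y} {L L2 : List (W Y → W Y)} {γ : Γ} {g : Equiv.Perm (W Y)}
    (hg : IsLab f L γ g) (h : ∀ k ∈ L2, ∃ l ∈ L, ∃ s : W Y → W Y, k = l ∘ s) :
    IsLab f L2 γ g := by
  refine ⟨hg.1, ?_⟩
  intro k hk
  obtain ⟨l, hl, s, rfl⟩ := h k hk
  rw [← Function.comp_assoc, hg.2 l hl]

theorem IsTr.mono {f f' : W Y → W Y} {L L2 : List (W Y → W Y)} {g : Equiv.Perm (W Y)}
    (hg : IsTr f f' L g) (h : ∀ k ∈ L2, ∃ l ∈ L, ∃ s : W Y → W Y, k = l ∘ s) :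
    IsTr f f' L2 g := by
  refine ⟨hg.1, hg.2.1, ?_⟩
  intro k hk
  obtain ⟨l, hl, s, rfl⟩ := h k hk
  rw [← Function.comp_assoc, hg.2.2 l hl]

theorem IsEmb.mono {f : W Y → W Y} {L L2 : List (W Y → W Y)} {a g : Equiv.Perm (W Y)}
    (hg : IsEmb f L a g) (h : ∀ k ∈ L2, ∃ l ∈ L, ∃ s : W Y → W Y, k = l ∘ s) :
    IsEmb f L2 a g := by
  refine ⟨hg.1, ?_⟩
  intro k hk
  obtain ⟨l, hl, s, rfl⟩ := h k hk
  rw [← Function.comp_assoc, hg.2 l hl]

/-- abstract step: `x` is a product of two of its conjugates -/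
theorem mem_comm_of {G : Type} [Group G] {x a b : G} (h : x = (a * x * a⁻¹) * (b * x * b⁻¹)) :
    x ∈ commutator G := by
  have h1 : Abelianization.of x = Abelianization.of x * Abelianization.of x := by
    conv_lhs => rw [h]
    simp only [map_mul, map_inv]
    rw [mul_comm (Abelianization.of a), mul_comm (Abelianization.of b)]
    simp
  have h2 : Abelianization.of x = 1 := by
    have := mul_left_cancel (a := Abelianization.of x) (b := 1)
      (c := Abelianization.of x) (by rw [mul_one]; exact h1)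
    exact this.symm
  rw [← Abelianization.ker_of, MonoidHom.mem_ker]
  exact h2

theorem comm_lab {f : W Y → W Y} {L : List (W Y → W Y)} {γ : Γ} {y : Y} {g : Equiv.Perm (W Y)}
    (h : Cut Γ (f :: L)) (hL : L ≠ []) (hγ : γ • y = y) (hg : g ∈ QG Γ Y) (hlab : IsLab f L γ g) :
    (⟨g, hg⟩ : QG Γ Y) ∈ commutator (QG Γ Y) := by
  obtain ⟨L2, h2, hl, hs⟩ := h.refine hL y 1
  have hlab2 := hlab.mono hs
  have hc : Cut Γ (f ∘ sh y :: f ∘ ch y :: L) := Cut.split y _ _ h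
  have hc' := hc.perm (List.Perm.swap _ _ _)
  obtain ⟨c1, hc1, e1⟩ := mk h2 hc (by simp [hl])
  obtain ⟨c2, hc2, e2⟩ := mk h2 hc' (by simp [hl])
  have := IsLab.expand h hγ hlab (conj_lab hlab2 e1) (conj_lab hlab2 e2)
  refine mem_comm_of (a := ⟨c1, hc1⟩) (b := ⟨c2, hc2⟩) ?_
  ext1
  exact this

theorem comm_tr {f f' : W Y → W Y} {L : List (W Y → W Y)} (y : Y) {g : Equiv.Perm (W Y)}
    (h : Cut Γ (f :: f' :: L)) (hL : L ≠ []) (hg : g ∈ QG Γ Y) (htr : IsTr f f' L g) :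
    (⟨g, hg⟩ : QG Γ Y) ∈ commutator (QG Γ Y) := by
  obtain ⟨L2, h2, hl, hs⟩ := h.refine2 hL y 2
  have htr2 := htr.mono hs
  have hc := h.split4 y
  have hc' : Cut Γ (f ∘ ch y :: f' ∘ ch y :: f ∘ sh y :: f' ∘ sh y :: L) := by
    refine hc.perm ?_
    have h5 : (([f ∘ sh y, f' ∘ sh y] ++ [f ∘ ch y, f' ∘ ch y]) ++ L).Perm
      (([f ∘ ch y, f' ∘ ch y] ++ [f ∘ sh y, f' ∘ sh y]) ++ L) :=
        List.perm_append_comm.append_right L
    exact h5
  obtain ⟨c1, hc1, e1⟩ := mk h2 hc (by simp [hl])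
  obtain ⟨c2, hc2, e2⟩ := mk h2 hc' (by simp [hl])
  have := IsTr.expand h htr (conj_tr htr2 e1) (conj_tr htr2 e2)
  refine mem_comm_of (a := ⟨c1, hc1⟩) (b := ⟨c2, hc2⟩) ?_
  ext1
  exact this

theorem perfect [MulAction.IsPretransitive Γ Y] [Nonempty Y]
    (hst : Subgroup.closure (⋃ y : Y, (MulAction.stabilizer Γ y : Set Γ)) = ⊤) :
    commutator (QG Γ Y) = ⊤ := by
  have key : QG Γ Y ≤ (commutator (QG Γ Y)).map (QG Γ Y).subtype := by
    refine eq_top_of hst _ ?_ ?_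
    · intro f L γ y g h hL hγ hg hlab
      exact ⟨⟨g, hg⟩, comm_lab h hL hγ hg hlab, rfl⟩
    · intro f f' L g h hL hg htr
      exact ⟨⟨g, hg⟩, comm_tr (Classical.arbitrary Y) h hL hg htr, rfl⟩
  rw [eq_top_iff]
  rintro ⟨g, hg⟩ _
  obtain ⟨⟨g', hg'⟩, h1, h2⟩ := key hg
  simp only [Subgroup.subtype_apply] at h2
  subst h2
  exact h1

/-! ### transport to a piece -/

theorem exists_emb {f : W Y → W Y} {L : List (W Y → W Y)} (h : Cut Γ (f :: L)) :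
    ∃ φ : Equiv.Perm (W Y) →* Equiv.Perm (W Y), (∀ a ∈ QG Γ Y, φ a ∈ QG Γ Y) ∧
      ∀ a, IsEmb f L a (φ a) := by
  have hinj : Function.Injective f := (h.mem_M f (by simp)).inj
  let φ := Equiv.Perm.viaEmbeddingHom (⟨f, hinj⟩ : W Y ↪ W Y)
  have h1 : ∀ a, IsEmb f L a (φ a) := by
    intro a
    refine ⟨?_, ?_⟩
    · funext u
      exact Equiv.Perm.viaEmbedding_apply a (⟨f, hinj⟩ : W Y ↪ W Y) u
    · intro k hk
      funext u
      refine Equiv.Perm.viaEmbedding_apply_of_notMem a (⟨f, hinj⟩ : W Y ↪ W Y) _ ?_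
      rintro ⟨v, hv⟩
      have := h.dj
      rw [List.pairwise_cons] at this
      exact this.1 k hk v u hv
  have h2 : ∀ a : Equiv.Perm (W Y), Adm Γ (a : W Y → W Y) → Adm Γ (φ a : W Y → W Y) := by
    intro a ha
    apply h.adm
    intro k hk
    rcases List.mem_cons.1 hk with rfl | hk
    · rw [(h1 a).1]
      exact ha.M_comp (h.mem_M _ (by simp))
    · rw [(h1 a).2 k hk]
      exact Adm.base _ (h.mem_M _ (by simp [hk]))
  refine ⟨φ, ?_, h1⟩
  intro a ha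
  refine ⟨h2 a ha.1, ?_⟩
  have := h2 a⁻¹ ha.2
  rw [map_inv] at this
  exact this

theorem IsEmb.eq {f : W Y → W Y} {L : List (W Y → W Y)} (h : Cut Γ (f :: L))
    {a g g' : Equiv.Perm (W Y)} (hg : IsEmb f L a g) (hg' : IsEmb f L a g') : g = g' := by
  apply h.ext
  intro k hk
  rcases List.mem_cons.1 hk with rfl | hk
  · rw [hg.1, hg'.1]
  · rw [hg.2 k hk, hg'.2 k hk]

/-- the label bijection -/
def acP (γ : Γ) : Equiv.Perm (W Y) where
  toFun := ac γ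
  invFun := ac γ⁻¹
  left_inv v := congrFun (ac_inv_comp γ) v
  right_inv v := congrFun (ac_comp_inv γ) v

theorem acP_mem (γ : Γ) : (acP γ : Equiv.Perm (W Y)) ∈ QG Γ Y :=
  ⟨Adm.base _ (M_ac γ), Adm.base _ (M_ac γ⁻¹)⟩

end Crest.Agent.R185.Q
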