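import Crest.Agent.R185.QGen

/-!
# Row 185: the group `Q(Γ,Y)` is simple (helper424)
-/

set_option autoImplicit false

namespace Crest.Agent.R185.Q

open Classical

variable {Γ Y : Type} [Group Γ] [MulAction Γ Y]

/-! ### reduction to proper pieces -/

/-- refine the tail of a cut -/
theorem Cut.refine {f : W Y → W Y} {L : List (W Y → W Y)} (h : Cut Γ (f :: L)) (hL : L ≠ [])
    (y : Y) : ∀ n, ∃ L2 : List (W Y → W Y), Cut Γ (f :: L2) ∧ L2.length = L.length + n ∧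
      ∀ k ∈ L2, ∃ l ∈ L, ∃ s : W Y → W Y, k = l ∘ s := by
  intro n
  induction n with
  | zero => exact ⟨L, h, rfl, fun k hk => ⟨k, hk, id, rfl⟩⟩
  | succ n ih =>
    obtain ⟨L2, h2, hl, hs⟩ := ih
    have hne : L2 ≠ [] := by
      intro e
      rw [e] at hl
      have := List.length_pos_iff.2 hL
      simp at hl
      omega
    obtain ⟨l, L3, rfl⟩ := List.exists_cons_of_ne_nil hne
    have h3 : Cut Γ (l :: f :: L3) := h2.perm (List.Perm.swap _ _ _)
    have h4 : Cut Γ (f :: l ∘ sh y :: l ∘ ch y :: L3) := by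
      refine (Cut.split y _ _ h3).perm ?_
      exact (List.Perm.cons _ (List.Perm.swap _ _ _)).trans (List.Perm.swap _ _ _)
    refine ⟨_, h4, ?_, ?_⟩
    · simp only [List.length_cons] at hl ⊢; omega
    · intro k hk
      simp only [List.mem_cons] at hk
      obtain ⟨l', hl', s, hs'⟩ := hs l (by simp)
      rcases hk with rfl | rfl | hk
      · exact ⟨l', hl', s ∘ sh y, by rw [hs']; rfl⟩
      · exact ⟨l', hl', s ∘ ch y, by rw [hs']; rfl⟩
      · exact hs k (by simp [hk])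

theorem Cut.refine2 {f f' : W Y → W Y} {L : List (W Y → W Y)} (h : Cut Γ (f :: f' :: L))
    (hL : L ≠ []) (y : Y) : ∀ n, ∃ L2 : List (W Y → W Y), Cut Γ (f :: f' :: L2) ∧
      L2.length = L.length + n ∧ ∀ k ∈ L2, ∃ l ∈ L, ∃ s : W Y → W Y, k = l ∘ s := by
  intro n
  induction n with
  | zero => exact ⟨L, h, rfl, fun k hk => ⟨k, hk, id, rfl⟩⟩
  | succ n ih =>
    obtain ⟨L2, h2, hl, hs⟩ := ih
    have hne : L2 ≠ [] := by
      intro e
      rw [e] at hl
      have := List.length_pos_iff.2 hL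
      simp at hl
      omega
    obtain ⟨l, L3, rfl⟩ := List.exists_cons_of_ne_nil hne
    have h3 : Cut Γ (l :: f :: f' :: L3) := by
      refine h2.perm ?_
      exact (List.Perm.cons _ (List.Perm.swap _ _ _)).trans (List.Perm.swap _ _ _)
    have h4 : Cut Γ (f :: f' :: l ∘ sh y :: l ∘ ch y :: L3) := by
      refine (Cut.split y _ _ h3).perm ?_
      have : (l ∘ sh y :: l ∘ ch y :: f :: f' :: L3).Perm
          ([l ∘ sh y, l ∘ ch y] ++ ([f, f'] ++ L3)) := List.Perm.refl _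
      refine this.trans ?_
      rw [← List.append_assoc]
      have h5 : (([l ∘ sh y, l ∘ ch y] ++ [f, f']) ++ L3).Perm
          (([f, f'] ++ [l ∘ sh y, l ∘ ch y]) ++ L3) := List.perm_append_comm.append_right L3
      exact h5
    refine ⟨_, h4, ?_, ?_⟩
    · simp only [List.length_cons] at hl ⊢; omega
    · intro k hk
      simp only [List.mem_cons] at hk
      obtain ⟨l', hl', s, hs'⟩ := hs l (by simp)
      rcases hk with rfl | rfl | hk
      · exact ⟨l', hl', s ∘ sh y, by rw [hs']; rfl⟩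
      · exact ⟨l', hl', s ∘ ch y, by rw [hs']; rfl⟩
      · exact hs k (by simp [hk])

/-- `g` is the label element for `γ` on the first piece -/
def IsLab (f : W Y → W Y) (L : List (W Y → W Y)) (γ : Γ) (g : Equiv.Perm (W Y)) : Prop :=
  (g : W Y → W Y) ∘ f = f ∘ ac γ ∧ ∀ h ∈ L, (g : W Y → W Y) ∘ h = h

/-- `g` swaps the first two pieces -/
def IsTr (f f' : W Y → W Y) (L : List (W Y → W Y)) (g : Equiv.Perm (W Y)) : Prop :=
  (g : W Y → W Y) ∘ f = f' ∧ (g : W Y → W Y) ∘ f' = f ∧ ∀ h ∈ L, (g : W Y → W Y) ∘ h = h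

theorem pcomp (g1 g2 : Equiv.Perm (W Y)) (k : W Y → W Y) :
    ((g1 * g2 : Equiv.Perm (W Y)) : W Y → W Y) ∘ k = (g1 : W Y → W Y) ∘ ((g2 : W Y → W Y) ∘ k) := rfl

theorem mp_of_fix {g : Equiv.Perm (W Y)} {L : List (W Y → W Y)}
    (h : ∀ f ∈ L, (g : W Y → W Y) ∘ f = f) : mp g L = L := by
  unfold mp
  conv_rhs => rw [← List.map_id L]
  exact List.map_congr_left (fun f hf => h f hf)

theorem exists_lab {f : W Y → W Y} {L : List (W Y → W Y)} (h : Cut Γ (f :: L)) (γ : Γ) :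
    ∃ g ∈ QG Γ Y, IsLab f L γ g := by
  obtain ⟨g, hg, e⟩ := mk h (Cut.label γ _ _ h) rfl
  rw [mp_cons] at e
  simp only [List.cons.injEq] at e
  exact ⟨g, hg, e.1, mp_eq_self e.2⟩

theorem exists_tr {f f' : W Y → W Y} {L : List (W Y → W Y)} (h : Cut Γ (f :: f' :: L)) :
    ∃ g ∈ QG Γ Y, IsTr f f' L g := by
  obtain ⟨g, hg, e⟩ := mk h (h.perm (List.Perm.swap _ _ _)) (by simp)
  rw [mp_cons, mp_cons] at e
  simp only [List.cons.injEq] at e
  exact ⟨g, hg, e.1, e.2.1, mp_eq_self e.2.2⟩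

theorem IsLab.eq {f : W Y → W Y} {L : List (W Y → W Y)} (h : Cut Γ (f :: L)) {γ : Γ}
    {g g' : Equiv.Perm (W Y)} (hg : IsLab f L γ g) (hg' : IsLab f L γ g') : g = g' := by
  apply h.ext
  intro k hk
  rcases List.mem_cons.1 hk with rfl | hk
  · rw [hg.1, hg'.1]
  · rw [hg.2 k hk, hg'.2 k hk]

theorem IsTr.eq {f f' : W Y → W Y} {L : List (W Y → W Y)} (h : Cut Γ (f :: f' :: L))
    {g g' : Equiv.Perm (W Y)} (hg : IsTr f f' L g) (hg' : IsTr f f' L g') : g = g' := by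
  apply h.ext
  intro k hk
  simp only [List.mem_cons] at hk
  rcases hk with rfl | rfl | hk
  · rw [hg.1, hg'.1]
  · rw [hg.2.1, hg'.2.1]
  · rw [hg.2.2 k hk, hg'.2.2 k hk]

/-- expansion of a label element -/
theorem IsLab.expand {f : W Y → W Y} {L : List (W Y → W Y)} (h : Cut Γ (f :: L)) {γ : Γ} {y : Y}
    (hγ : γ • y = y) {g g1 g2 : Equiv.Perm (W Y)} (hg : IsLab f L γ g)
    (hg1 : IsLab (f ∘ sh y) (f ∘ ch y :: L) γ g1) (hg2 : IsLab (f ∘ ch y) (f ∘ sh y :: L) γ g2) :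
    g = g1 * g2 := by
  have hc : Cut Γ (f ∘ sh y :: f ∘ ch y :: L) := Cut.split y _ _ h
  apply hc.ext
  intro k hk
  simp only [List.mem_cons] at hk
  have e1 : (g : W Y → W Y) ∘ f ∘ sh y = (f ∘ sh y) ∘ ac γ := by
    rw [← Function.comp_assoc, hg.1, Function.comp_assoc, ac_sh, hγ]; rfl
  have e2 : (g : W Y → W Y) ∘ f ∘ ch y = (f ∘ ch y) ∘ ac γ := by
    rw [← Function.comp_assoc, hg.1, Function.comp_assoc, ac_ch, hγ]; rfl
  rcases hk with rfl | rfl | hk
  · rw [e1, pcomp, hg2.2 _ (by simp), hg1.1]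
  · rw [e2, pcomp, hg2.1, ← Function.comp_assoc, hg1.2 _ (by simp)]
  · rw [hg.2 k hk, pcomp, hg2.2 _ (by simp [hk]), hg1.2 _ (by simp [hk])]

/-- the fourfold split -/
theorem Cut.split4 {f f' : W Y → W Y} {L : List (W Y → W Y)} (h : Cut Γ (f :: f' :: L)) (y : Y) :
    Cut Γ (f ∘ sh y :: f' ∘ sh y :: f ∘ ch y :: f' ∘ ch y :: L) := by
  have h1 : Cut Γ (f ∘ sh y :: f ∘ ch y :: f' :: L) := Cut.split y _ _ h
  have h2 : Cut Γ (f' :: f ∘ sh y :: f ∘ ch y :: L) := by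
    refine h1.perm ?_
    exact ((List.Perm.swap _ _ _).cons _).trans (List.Perm.swap _ _ _)
  refine (Cut.split y _ _ h2).perm ?_
  -- `[f's, f'c, fs, fc] ~ [fs, f's, fc, f'c]`
  refine ((List.Perm.swap (f ∘ sh y) (f' ∘ ch y) _).cons _).trans ?_
  refine (List.Perm.swap (f ∘ sh y) (f' ∘ sh y) _).trans ?_
  refine List.Perm.cons _ (List.Perm.cons _ ?_)
  exact List.Perm.swap _ _ _

theorem IsTr.expand {f f' : W Y → W Y} {L : List (W Y → W Y)} (h : Cut Γ (f :: f' :: L)) {y : Y}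
    {g g1 g2 : Equiv.Perm (W Y)} (hg : IsTr f f' L g)
    (hg1 : IsTr (f ∘ sh y) (f' ∘ sh y) (f ∘ ch y :: f' ∘ ch y :: L) g1)
    (hg2 : IsTr (f ∘ ch y) (f' ∘ ch y) (f ∘ sh y :: f' ∘ sh y :: L) g2) : g = g1 * g2 := by
  apply (h.split4 y).ext
  intro k hk
  simp only [List.mem_cons] at hk
  rcases hk with rfl | rfl | rfl | rfl | hk
  · rw [← Function.comp_assoc, hg.1, pcomp, hg2.2.2 _ (by simp), hg1.1]
  · rw [← Function.comp_assoc, hg.2.1, pcomp, hg2.2.2 _ (by simp), hg1.2.1]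
  · rw [← Function.comp_assoc, hg.1, pcomp, hg2.1, hg1.2.2 _ (by simp)]
  · rw [← Function.comp_assoc, hg.2.1, pcomp, hg2.2.1, hg1.2.2 _ (by simp)]
  · rw [hg.2.2 k hk, pcomp, hg2.2.2 _ (by simp [hk]), hg1.2.2 _ (by simp [hk])]

/-- Reduction: enough to have the elements with proper support. -/
theorem eq_top_of [MulAction.IsPretransitive Γ Y] [Nonempty Y]
    (hst : Subgroup.closure (⋃ y : Y, (MulAction.stabilizer Γ y : Set Γ)) = ⊤)
    (H : Subgroup (Equiv.Perm (W Y)))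
    (R1 : ∀ (f : W Y → W Y) (L : List (W Y → W Y)) (γ : Γ) (y : Y) (g : Equiv.Perm (W Y)),
      Cut Γ (f :: L) → L ≠ [] → γ • y = y → g ∈ QG Γ Y → IsLab f L γ g → g ∈ H)
    (R2 : ∀ (f f' : W Y → W Y) (L : List (W Y → W Y)) (g : Equiv.Perm (W Y)),
      Cut Γ (f :: f' :: L) → L ≠ [] → g ∈ QG Γ Y → IsTr f f' L g → g ∈ H) :
    QG Γ Y ≤ H := by
  obtain ⟨y0⟩ := ‹Nonempty Y›
  have R1' : ∀ (f : W Y → W Y) (L : List (W Y → W Y)) (γ : Γ) (y : Y) (g : Equiv.Perm (W Y)),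
      Cut Γ (f :: L) → γ • y = y → g ∈ QG Γ Y → IsLab f L γ g → g ∈ H := by
    intro f L γ y g h hγ hg hlab
    by_cases hL : L = []
    · have hc : Cut Γ (f ∘ sh y :: f ∘ ch y :: L) := Cut.split y _ _ h
      have hc' := hc.perm (List.Perm.swap _ _ _)
      obtain ⟨g1, hg1, h1⟩ := exists_lab hc γ
      obtain ⟨g2, hg2, h2⟩ := exists_lab hc' γ
      rw [IsLab.expand h hγ hlab h1 h2]
      exact H.mul_mem (R1 _ _ γ y g1 hc (by simp) hγ hg1 h1)
        (R1 _ _ γ y g2 hc' (by simp) hγ hg2 h2)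
    · exact R1 f L γ y g h hL hγ hg hlab
  have R1'' : ∀ (f : W Y → W Y) (L : List (W Y → W Y)), Cut Γ (f :: L) → ∀ γ : Γ,
      ∀ g ∈ QG Γ Y, IsLab f L γ g → g ∈ H := by
    intro f L h γ
    have hγ : γ ∈ Subgroup.closure (⋃ y : Y, (MulAction.stabilizer Γ y : Set Γ)) := by
      rw [hst]; trivial
    induction hγ using Subgroup.closure_induction with
    | mem x hx =>
      obtain ⟨y, hy⟩ := Set.mem_iUnion.1 hx
      intro g hg hlab
      exact R1' f L x y g h hy hg hlab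
    | one =>
      intro g _ hlab
      have : g = 1 := by
        refine IsLab.eq h hlab ⟨?_, fun k _ => rfl⟩
        simp [ac_one]
      rw [this]; exact H.one_mem
    | mul a b _ _ iha ihb =>
      intro g _ hlab
      obtain ⟨ga, hga, ha⟩ := exists_lab h a
      obtain ⟨gb, hgb, hb⟩ := exists_lab h b
      have : g = ga * gb := by
        refine IsLab.eq h hlab ⟨?_, ?_⟩
        · rw [pcomp, hb.1, ← Function.comp_assoc, ha.1,
            Function.comp_assoc, ac_mul]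
        · intro k hk
          rw [pcomp, hb.2 k hk, ha.2 k hk]
      rw [this]
      exact H.mul_mem (iha ga hga ha) (ihb gb hgb hb)
    | inv a _ iha =>
      intro g _ hlab
      obtain ⟨ga, hga, ha⟩ := exists_lab h a
      have : g = ga⁻¹ := by
        refine IsLab.eq h hlab ⟨?_, ?_⟩
        · funext u
          have e := congrFun ha.1 (ac a⁻¹ u)
          simp only [Function.comp_apply] at e ⊢
          rw [show ac a (ac a⁻¹ u) = u from congrFun (ac_comp_inv a) u] at e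
          rw [← e]; simp
        · intro k hk
          funext u
          have e := congrFun (ha.2 k hk) u
          simp only [Function.comp_apply] at e ⊢
          conv_lhs => rw [← e]
          simp
      rw [this]
      exact H.inv_mem (iha ga hga ha)
  have R2' : ∀ (f f' : W Y → W Y) (L : List (W Y → W Y)) (g : Equiv.Perm (W Y)),
      Cut Γ (f :: f' :: L) → g ∈ QG Γ Y → IsTr f f' L g → g ∈ H := by
    intro f f' L g h hg htr
    by_cases hL : L = []
    · have hc := h.split4 y0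
      have hc' : Cut Γ (f ∘ ch y0 :: f' ∘ ch y0 :: f ∘ sh y0 :: f' ∘ sh y0 :: L) := by
        refine hc.perm ?_
        have h5 : (([f ∘ sh y0, f' ∘ sh y0] ++ [f ∘ ch y0, f' ∘ ch y0]) ++ L).Perm
          (([f ∘ ch y0, f' ∘ ch y0] ++ [f ∘ sh y0, f' ∘ sh y0]) ++ L) :=
            List.perm_append_comm.append_right L
        exact h5
      obtain ⟨g1, hg1, h1⟩ := exists_tr hc
      obtain ⟨g2, hg2, h2⟩ := exists_tr hc'
      rw [IsTr.expand h htr h1 h2]
      exact H.mul_mem (R2 _ _ _ g1 hc (by simp) hg1 h1) (R2 _ _ _ g2 hc' (by simp) hg2 h2)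
    · exact R2 f f' L g h hL hg htr
  exact gen H (fun f L γ g h hg h1 h2 => R1'' f L h γ g hg ⟨h1, h2⟩)
    (fun f f' L g h hg h1 h2 h3 => R2' f f' L g h hg ⟨h1, h2, h3⟩)

end Crest.Agent.R185.Q
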