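import Crest.Agent.R292.RE
import Crest.Agent.R185.Comp5

/-!
# R185, tool "computability without algorithms", part 1

* `Der`: facts derivable from an r.e. system of rules form an r.e. predicate (`re_der`);
* `computable_of_graph`: a total function with an r.e. graph is computable;
* computable list operations with merely computable step functions;
* `exists_alg`: recursion on a rank with tables;
* `exists_alg_re`: the same with a positive and a negative r.e. certificate.
-/

set_option autoImplicit false

namespace Crest.Agent.R185.Re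

open Crest.Agent.R292 Encodable

variable {α β γ δ : Type*} [Primcodable α] [Primcodable β] [Primcodable γ] [Primcodable δ]

/-! ### small r.e. predicates -/

theorem re_of_eq {p q : α → Prop} (hp : REPred p) (h : ∀ a, p a ↔ q a) : REPred q :=
  hp.of_eq h

theorem re_of_computable {p : α → Prop} {f : α → Bool} (hf : Computable f)
    (h : ∀ a, p a ↔ f a = true) : REPred p :=
  re_of_stage (q := fun x => f x.1) (hf.comp Computable.fst) fun a => by simp [h a]

theorem re_eq {f g : α → β} (hf : Computable f) (hg : Computable g) :
    REPred fun a => f a = g a := by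
  classical
  have h : Computable fun a => decide (f a = g a) :=
    (Primrec.eq (α := β)).decide.to_comp.comp hf hg
  exact re_of_computable h fun a => by simp

theorem re_ne {f g : α → β} (hf : Computable f) (hg : Computable g) :
    REPred fun a => f a ≠ g a := by
  classical
  have h : Computable fun a => decide (f a = g a) :=
    (Primrec.eq (α := β)).decide.to_comp.comp hf hg
  exact re_of_computable (f := fun a => !decide (f a = g a)) (Primrec.not.to_comp.comp h)
    fun a => by simp

theorem re_mem_list {f : α → β} {L : α → List β} (hf : Computable f) (hL : Computable L) :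
    REPred fun a => f a ∈ L a := by
  classical
  have h1 : PrimrecRel fun (l : List β) (b : β) => ∃ b' ∈ l, b' = b :=
    PrimrecRel.exists_mem_list (R := fun (b' b : β) => b' = b) Primrec.eq
  obtain ⟨_, h2⟩ := h1
  have h := h2.to_comp.comp (hL.pair hf)
  exact re_of_computable h fun a => by simp

theorem re_ex₂ {p : α → β → Prop} (hp : REPred fun x : α × β => p x.1 x.2) :
    REPred (fun a => ∃ b, p a b) := re_ex (p := fun x : α × β => p x.1 x.2) hp

theorem re_ex_mem {p : α → β → Prop} (hp : REPred fun x : α × β => p x.1 x.2) {L : α → List β}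
    (hL : Computable L) : REPred (fun a => ∃ b ∈ L a, p a b) := by
  refine re_ex (p := fun x : α × β => x.2 ∈ L x.1 ∧ p x.1 x.2) (re_and ?_ hp)
  exact re_mem_list Computable.snd (hL.comp Computable.fst)

theorem re_all_mem₂ {p : α → β → Prop} (hp : REPred fun x : α × β => p x.1 x.2) {L : α → List β}
    (hL : Computable L) : REPred (fun a => ∀ b ∈ L a, p a b) :=
  re_all_mem (p := fun x : α × β => p x.1 x.2) hp hL

/-! ### graphs -/

/-- a partial function with an r.e. graph is partial recursive; uniformisation version -/
theorem exists_unif {p : α → β → Prop} (hp : REPred fun x : α × β => p x.1 x.2) :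
    ∃ f : α →. β, Partrec f ∧ (∀ a, ∀ b ∈ f a, p a b) ∧ ∀ a, (∃ b, p a b) → (f a).Dom := by
  obtain ⟨q, hq, -, hqe⟩ := re_stage hp
  let g : α → ℕ → Option β := fun a n =>
    (decode (α := β) n.unpair.1).bind fun b => bif q ((a, b), n.unpair.2) then some b else none
  have hg : Computable₂ g := by
    refine Primrec₂.to_comp ?_
    refine Primrec.option_bind
      (Primrec.decode.comp (Primrec.fst.comp (Primrec.unpair.comp Primrec.snd))) ?_
    exact (Primrec.cond (hq.comp (((Primrec.fst.comp Primrec.fst).pair Primrec.snd).pair
      (Primrec.snd.comp (Primrec.unpair.comp (Primrec.snd.comp Primrec.fst)))))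
      (Primrec.option_some.comp Primrec.snd) (Primrec.const none)).to₂
  have hval : ∀ a n b, b ∈ g a n → p a b := by
    intro a n b hb
    simp only [g, Option.mem_def, Option.bind_eq_some_iff] at hb
    obtain ⟨b', -, hb'⟩ := hb
    cases hc : q ((a, b'), n.unpair.2) with
    | false => rw [hc] at hb'; simp at hb'
    | true =>
      rw [hc] at hb'
      simp only [cond_true, Option.some.injEq] at hb'
      subst hb'
      exact (hqe (a, b')).2 ⟨_, hc⟩
  refine ⟨fun a => Nat.rfindOpt (g a), Partrec.rfindOpt hg, ?_, ?_⟩
  · intro a b hb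
    obtain ⟨n, hn⟩ := Nat.rfindOpt_spec hb
    exact hval a n b hn
  · rintro a ⟨b, hb⟩
    obtain ⟨k, hk⟩ := (hqe (a, b)).1 hb
    rw [Nat.rfindOpt_dom]
    refine ⟨Nat.pair (encode b) k, b, ?_⟩
    simp [g, hk]

theorem computable_of_graph {f : α → β} (hf : REPred fun x : α × β => f x.1 = x.2) :
    Computable f := by
  obtain ⟨g, hg, h1, h2⟩ := exists_unif (p := fun a b => f a = b) hf
  refine Partrec.of_eq (f := g) hg fun a => ?_
  have h3 := h2 a ⟨f a, rfl⟩
  have h4 := h1 a _ (Part.get_mem h3)
  change g a = Part.some (f a)
  rw [Part.eq_some_iff, h4]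
  exact Part.get_mem h3

/-- a partial function with an r.e. graph is partial recursive -/
theorem partrec_of_graph {f : α →. β} (hf : REPred fun x : α × β => x.2 ∈ f x.1) :
    Partrec f := by
  obtain ⟨g, hg, h1, h2⟩ := exists_unif (p := fun a b => b ∈ f a) hf
  refine Partrec.of_eq (f := g) hg fun a => ?_
  ext b
  constructor
  · intro hb
    exact h1 a b hb
  · intro hb
    have h3 := h2 a ⟨b, hb⟩
    have h4 := h1 a _ (Part.get_mem h3)
    have h5 := Part.mem_unique h4 hb
    rw [← h5]
    exact Part.get_mem h3

theorem re_mem_partrec {f : α →. β} (hf : Partrec f) : REPred fun x : α × β => x.2 ∈ f x.1 := by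
  classical
  have h1 : Partrec fun x : α × β => (f x.1).bind fun b => bif decide (b = x.2) then
      Part.some () else Part.none := by
    refine (hf.comp Computable.fst).bind ?_
    have h2 : Computable fun y : (α × β) × β => decide (y.2 = y.1.2) :=
      (Primrec.eq (α := β)).decide.to_comp.comp Computable.snd
        (Computable.snd.comp Computable.fst)
    exact (Partrec.cond h2 (Computable.const ()).partrec Partrec.none).to₂
  refine h1.dom_re.of_eq fun x => ?_
  rw [Part.dom_iff_mem]
  constructor
  · rintro ⟨u, hu⟩
    rw [Part.mem_bind_iff] at hu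
    obtain ⟨b, hb, hb2⟩ := hu
    by_cases h : b = x.2
    · rwa [h] at hb
    · simp [h] at hb2
  · intro hx
    refine ⟨(), ?_⟩
    rw [Part.mem_bind_iff]
    exact ⟨x.2, hx, by simp⟩

/-! ### derivations -/

/-- facts derivable by the rules `R l a` ("from all of `l` infer `a`") -/
inductive Der {α : Type*} (R : List α → α → Prop) : α → Prop
  | mk (l : List α) (a : α) (h : R l a) (hl : ∀ b ∈ l, Der R b) : Der R a

/-- valid derivations -/
def Valid {α : Type*} (R : List α → α → Prop) : List (List α × α) → Prop
  | [] => True
  | x :: D => (R x.1 x.2 ∧ ∀ b ∈ x.1, b ∈ D.map Prod.snd) ∧ Valid R D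

section der
variable {α : Type*} {R : List α → α → Prop}

theorem Valid.der : ∀ {D : List (List α × α)}, Valid R D → ∀ a ∈ D.map Prod.snd, Der R a
  | [], _, a, ha => by simp at ha
  | x :: D, h, a, ha => by
    obtain ⟨⟨h1, h2⟩, h3⟩ := h
    rw [List.map_cons, List.mem_cons] at ha
    rcases ha with rfl | ha
    · exact Der.mk _ _ h1 fun b hb => Valid.der h3 b (h2 b hb)
    · exact Valid.der h3 a ha

theorem Valid.append : ∀ {D E : List (List α × α)}, Valid R D → Valid R E → Valid R (D ++ E)
  | [], E, _, hE => hE
  | x :: D, E, h, hE => by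
    obtain ⟨⟨h1, h2⟩, h3⟩ := h
    refine ⟨⟨h1, fun b hb => ?_⟩, Valid.append h3 hE⟩
    change b ∈ List.map Prod.snd (D ++ E)
    rw [List.map_append, List.mem_append]
    exact Or.inl (h2 b hb)

theorem Der.exists_valid {a : α} (h : Der R a) :
    ∃ D : List (List α × α), Valid R D ∧ a ∈ D.map Prod.snd := by
  induction h with
  | mk l a h hl ih =>
    have h1 : ∀ l' : List α, (∀ b ∈ l', ∃ D : List (List α × α), Valid R D ∧
        b ∈ D.map Prod.snd) → ∃ D : List (List α × α), Valid R D ∧
        ∀ b ∈ l', b ∈ D.map Prod.snd := by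
      intro l'
      induction l' with
      | nil => intro _; exact ⟨[], trivial, by simp⟩
      | cons c l' ih' =>
        intro h'
        obtain ⟨D1, hD1, hc⟩ := h' c List.mem_cons_self
        obtain ⟨D2, hD2, h2⟩ := ih' fun b hb => h' b (List.mem_cons_of_mem _ hb)
        refine ⟨D1 ++ D2, hD1.append hD2, fun b hb => ?_⟩
        rw [List.map_append, List.mem_append]
        rcases List.mem_cons.1 hb with rfl | hb
        · exact Or.inl hc
        · exact Or.inr (h2 b hb)
    obtain ⟨D, hD, h2⟩ := h1 l ih
    exact ⟨(l, a) :: D, ⟨⟨h, h2⟩, hD⟩, by simp⟩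

theorem der_iff {a : α} : Der R a ↔ ∃ D : List (List α × α), Valid R D ∧ a ∈ D.map Prod.snd :=
  ⟨Der.exists_valid, fun ⟨_, hD, ha⟩ => hD.der a ha⟩

theorem valid_iff : ∀ {D : List (List α × α)}, Valid R D ↔ ∀ i ∈ List.range D.length,
    ∃ x : (List α × α) × List (List α × α), D.drop i = x.1 :: x.2 ∧ R x.1.1 x.1.2 ∧
      ∀ b ∈ x.1.1, b ∈ x.2.map Prod.snd
  | [] => by simp [Valid]
  | x :: D => by
    rw [Valid, valid_iff (D := D)]
    constructor
    · rintro ⟨⟨h1, h2⟩, h3⟩ i hi
      rcases i with _ | i
      · exact ⟨(x, D), rfl, h1, h2⟩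
      · rw [List.mem_range, List.length_cons, Nat.succ_lt_succ_iff] at hi
        exact h3 i (List.mem_range.2 hi)
    · intro h
      refine ⟨?_, fun i hi => ?_⟩
      · obtain ⟨y, hy, h1, h2⟩ := h 0 (by simp)
        rw [List.drop_zero, List.cons.injEq] at hy
        obtain ⟨h3, h4⟩ := hy
        rw [h3, h4]
        exact ⟨h1, h2⟩
      · rw [List.mem_range] at hi
        exact h (i + 1) (by simpa using hi)

end der

theorem primrec_drop : Primrec₂ fun (n : ℕ) (l : List α) => l.drop n := by
  have h : Primrec₂ fun (l : List α) (n : ℕ) => (List.tail)^[n] l := by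
    have := Primrec.nat_rec (f := fun l : List α => l) (g := fun (_ : List α) (p : ℕ × List α) =>
      p.2.tail) Primrec.id (Primrec.list_tail.comp (Primrec.snd.comp Primrec.snd)).to₂
    refine this.of_eq fun l n => ?_
    induction n with
    | zero => rfl
    | succ n ih => rw [Function.iterate_succ_apply', ← ih]
  refine (h.comp Primrec.snd Primrec.fst).of_eq fun x => ?_
  obtain ⟨n, l⟩ := x
  simp only
  induction n generalizing l with
  | zero => rfl
  | succ n ih =>
    rw [Function.iterate_succ_apply, ih]
    cases l <;> simp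

/-- **Derivable facts are r.e.** (uniformly in a parameter). -/
theorem re_der {R : γ → List α → α → Prop}
    (hR : REPred fun x : γ × List α × α => R x.1 x.2.1 x.2.2) :
    REPred fun x : γ × α => Der (R x.1) x.2 := by
  -- one step
  have h1 : REPred fun x : (γ × List (List α × α)) × (List α × α) × List (List α × α) =>
      R x.1.1 x.2.1.1 x.2.1.2 := by
    refine re_comp (p := fun x : γ × List α × α => R x.1 x.2.1 x.2.2) (f := fun
      x : (γ × List (List α × α)) × (List α × α) × List (List α × α) =>
        (x.1.1, x.2.1.1, x.2.1.2)) hR ?_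
    exact (Computable.fst.comp Computable.fst).pair (Computable.fst.comp Computable.snd)
  have h2 : REPred fun x : (List α × α) × List (List α × α) =>
      ∀ b ∈ x.1.1, b ∈ x.2.map Prod.snd := by
    refine re_all_mem₂ (p := fun (x : (List α × α) × List (List α × α)) (b : α) =>
      b ∈ x.2.map Prod.snd) ?_ (Computable.fst.comp Computable.fst)
    refine re_mem_list Computable.snd ?_
    exact (Primrec.list_map (Primrec.snd.comp Primrec.fst)
      (Primrec.snd.comp Primrec.snd).to₂).to_comp
  have h3 : REPred fun y : (γ × List (List α × α)) × ℕ =>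
      ∃ x : (List α × α) × List (List α × α), y.1.2.drop y.2 = x.1 :: x.2 ∧
        R y.1.1 x.1.1 x.1.2 ∧ ∀ b ∈ x.1.1, b ∈ x.2.map Prod.snd := by
    refine re_ex₂ (p := fun (y : (γ × List (List α × α)) × ℕ)
      (x : (List α × α) × List (List α × α)) => y.1.2.drop y.2 = x.1 :: x.2 ∧
        R y.1.1 x.1.1 x.1.2 ∧ ∀ b ∈ x.1.1, b ∈ x.2.map Prod.snd) ?_
    refine re_and ?_ (re_and ?_ ?_)
    · refine re_eq ?_ ?_
      · exact primrec_drop.to_comp.comp (Computable.snd.comp Computable.fst)
          (Computable.snd.comp (Computable.fst.comp Computable.fst))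
      · exact Computable.list_cons.comp (Computable.fst.comp Computable.snd)
          (Computable.snd.comp Computable.snd)
    · exact re_comp (f := fun x : ((γ × List (List α × α)) × ℕ) × (List α × α) ×
        List (List α × α) => (x.1.1, x.2)) h1
        ((Computable.fst.comp Computable.fst).pair Computable.snd)
    · exact re_comp (f := fun x : ((γ × List (List α × α)) × ℕ) × (List α × α) ×
        List (List α × α) => x.2) h2 Computable.snd
  have h4 : REPred fun y : γ × List (List α × α) => Valid (R y.1) y.2 := by
    have := re_all_mem₂ (p := fun (y : γ × List (List α × α)) (i : ℕ) =>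
      ∃ x : (List α × α) × List (List α × α), y.2.drop i = x.1 :: x.2 ∧
        R y.1 x.1.1 x.1.2 ∧ ∀ b ∈ x.1.1, b ∈ x.2.map Prod.snd)
      (L := fun y => List.range y.2.length) h3
      (Primrec.list_range.to_comp.comp (Computable.list_length.comp Computable.snd))
    exact this.of_eq fun y => valid_iff.symm
  have h5 : REPred fun z : (γ × α) × List (List α × α) => Valid (R z.1.1) z.2 ∧
      z.1.2 ∈ z.2.map Prod.snd := by
    refine re_and ?_ ?_
    · exact re_comp (f := fun z : (γ × α) × List (List α × α) => (z.1.1, z.2)) h4
        ((Computable.fst.comp Computable.fst).pair Computable.snd)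
    · refine re_mem_list (Computable.snd.comp Computable.fst) ?_
      exact (Primrec.list_map Primrec.snd (Primrec.snd.comp Primrec.snd).to₂).to_comp
  exact (re_ex h5).of_eq fun x => (der_iff (R := R x.1) (a := x.2)).symm

end Crest.Agent.R185.Re
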