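import Crest.Agent.R185.Ev2
import Crest.Agent.R185.Hk1
import Crest.Agent.R185.Md191E

/-!
# R185, block H3, the sheet layer (1): the payload `P(X)` and `χ`
-/

set_option autoImplicit false

namespace Crest.Agent.R185.She

open Equiv Crest.Agent.R292 Crest.Agent.R185.Re Crest.Agent.R185.Ev Crest.Agent.R185.Md191A
  Crest.Agent.R185.Md191B Crest.Agent.R185.Md191C

/-! ### words -/

section words

theorem exists_one (B : Type) [Primcodable B] :
    ∃ f : List (B × Bool) → Bool, Computable f ∧ ∀ w, f w = true ↔ FreeGroup.mk w = 1 := by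
  classical
  refine ⟨fun w => decide (FreeGroup.reduce w = []), ?_, fun w => ?_⟩
  · have h := (Primrec.eq (α := List (B × Bool))).decide.to_comp.comp
      (Hk.reduce_primrec (A := B)).to_comp (Computable.const [])
    exact h
  · rw [decide_eq_true_iff, FreeGroup.one_eq_mk]
    constructor
    · intro h
      have h1 : FreeGroup.reduce w = FreeGroup.reduce [] := h
      exact FreeGroup.reduce.exact h1
    · intro h
      exact FreeGroup.reduce.sound h

theorem computable_inv (B : Type) [Primcodable B] :
    Computable (FreeGroup.invRev : List (B × Bool) → List (B × Bool)) :=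
  (Hk.invRev_primrec (A := B)).to_comp

theorem mk_eq_mk {B : Type} {w w' : List (B × Bool)} :
    FreeGroup.mk w = FreeGroup.mk w' ↔ FreeGroup.mk (FreeGroup.invRev w ++ w') = 1 := by
  rw [← FreeGroup.mul_mk, ← FreeGroup.inv_mk, inv_mul_eq_one]

theorem exists_mk {B : Type} (g : FreeGroup B) : ∃ w : List (B × Bool), FreeGroup.mk w = g :=
  Quot.exists_rep g

theorem lift_mk_single {B G : Type} [Group G] (f : B → G) (a : B) (b : Bool) :
    FreeGroup.lift f (FreeGroup.mk [(a, b)]) = cond b (f a) (f a)⁻¹ := by
  rw [FreeGroup.lift_mk]; simp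

end words

variable {σ W A ι RX : Type} [Primcodable W] [Primcodable A] [Primcodable ι] [Primcodable RX]
  {orc : σ → W → Prop}

/-! ### the payload -/

/-- raw points of `P(X)` -/
abbrev RP (A RX : Type) : Type := List (A × Bool) × (ℕ × ℕ) × RX

section payload

variable {X : σ → Type} (decX : ∀ s, RX → X s)

/-- the point -/
def decP (s : σ) (r : RP A RX) : P A (X s) :=
  (FreeGroup.mk r.1, (r.2.1.1 : ℤ) - (r.2.1.2 : ℤ), decX s r.2.2)

omit [Primcodable A] [Primcodable RX] in
theorem decP_eq {s : σ} {r r' : RP A RX} : decP decX s r = decP decX s r' ↔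
    (FreeGroup.mk (FreeGroup.invRev r.1 ++ r'.1) = 1 ∧ r.2.1.1 + r'.2.1.2 = r'.2.1.1 + r.2.1.2) ∧
      decX s r.2.2 = decX s r'.2.2 := by
  unfold decP
  rw [Prod.mk.injEq, Prod.mk.injEq, mk_eq_mk]
  constructor
  · rintro ⟨h1, h2, h3⟩
    exact ⟨⟨h1, by omega⟩, h3⟩
  · rintro ⟨⟨h1, h2⟩, h3⟩
    exact ⟨h1, by omega, h3⟩

theorem ore_eqP (hX : ORE orc fun s (x : RX × RX) => decX s x.1 = decX s x.2) :
    ORE orc fun s (x : RP A RX × RP A RX) => decP decX s x.1 = decP decX s x.2 := by
  obtain ⟨one, h1, h2⟩ := exists_one A
  have c1 : Computable fun x : RP A RX × RP A RX => x.1.1 := Computable.fst.comp Computable.fst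
  have c2 : Computable fun x : RP A RX × RP A RX => x.2.1 := Computable.fst.comp Computable.snd
  have cn (f : RP A RX × RP A RX → ℕ × ℕ) (g : RP A RX × RP A RX → ℕ × ℕ) (hf : Computable f)
      (hg : Computable g) : Computable fun x => (f x).1 + (g x).2 :=
    Primrec.nat_add.to_comp.comp (Computable.fst.comp hf) (Computable.snd.comp hg)
  have m1 : Computable fun x : RP A RX × RP A RX => x.1.2.1 :=
    Computable.fst.comp (Computable.snd.comp Computable.fst)
  have m2 : Computable fun x : RP A RX × RP A RX => x.2.2.1 :=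
    Computable.fst.comp (Computable.snd.comp Computable.snd)
  have ho : Computable fun x : RP A RX × RP A RX => one (FreeGroup.invRev x.1.1 ++ x.2.1) :=
    h1.comp (Computable.list_append.comp ((computable_inv A).comp c1) c2)
  have h3 : ORE orc fun s (x : RP A RX × RP A RX) =>
      (one (FreeGroup.invRev x.1.1 ++ x.2.1) = true ∧
        x.1.2.1.1 + x.2.2.1.2 = x.2.2.1.1 + x.1.2.1.2) ∧ decX s x.1.2.2 = decX s x.2.2.2 := by
    refine ((ORE.eq ho (Computable.const true)).and (ORE.eq (cn _ _ m1 m2) (cn _ _ m2 m1))).and
      (hX.comp (f := fun x : RP A RX × RP A RX => (x.1.2.2, x.2.2.2)) ?_)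
    exact (Computable.snd.comp (Computable.snd.comp Computable.fst)).pair
      (Computable.snd.comp (Computable.snd.comp Computable.snd))
  refine h3.congr fun s x => ?_
  rw [decP_eq, h2]

theorem ore_neP (hX : ORE orc fun s (x : RX × RX) => decX s x.1 ≠ decX s x.2) :
    ORE orc fun s (x : RP A RX × RP A RX) => decP decX s x.1 ≠ decP decX s x.2 := by
  obtain ⟨one, h1, h2⟩ := exists_one A
  have c1 : Computable fun x : RP A RX × RP A RX => x.1.1 := Computable.fst.comp Computable.fst
  have c2 : Computable fun x : RP A RX × RP A RX => x.2.1 := Computable.fst.comp Computable.snd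
  have cn (f : RP A RX × RP A RX → ℕ × ℕ) (g : RP A RX × RP A RX → ℕ × ℕ) (hf : Computable f)
      (hg : Computable g) : Computable fun x => (f x).1 + (g x).2 :=
    Primrec.nat_add.to_comp.comp (Computable.fst.comp hf) (Computable.snd.comp hg)
  have m1 : Computable fun x : RP A RX × RP A RX => x.1.2.1 :=
    Computable.fst.comp (Computable.snd.comp Computable.fst)
  have m2 : Computable fun x : RP A RX × RP A RX => x.2.2.1 :=
    Computable.fst.comp (Computable.snd.comp Computable.snd)
  have ho : Computable fun x : RP A RX × RP A RX => one (FreeGroup.invRev x.1.1 ++ x.2.1) :=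
    h1.comp (Computable.list_append.comp ((computable_inv A).comp c1) c2)
  have h3 : ORE orc fun s (x : RP A RX × RP A RX) =>
      (one (FreeGroup.invRev x.1.1 ++ x.2.1) ≠ true ∨
        x.1.2.1.1 + x.2.2.1.2 ≠ x.2.2.1.1 + x.1.2.1.2) ∨ decX s x.1.2.2 ≠ decX s x.2.2.2 := by
    refine ((ORE.ne ho (Computable.const true)).or (ORE.ne (cn _ _ m1 m2) (cn _ _ m2 m1))).or
      (hX.comp (f := fun x : RP A RX × RP A RX => (x.1.2.2, x.2.2.2)) ?_)
    exact (Computable.snd.comp (Computable.snd.comp Computable.fst)).pair
      (Computable.snd.comp (Computable.snd.comp Computable.snd))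
  refine h3.congr fun s x => ?_
  rw [Ne, decP_eq, ← h2]
  tauto

/-! ### silent letters on raw points -/

/-- raw `dd` -/
def ddR (one : List (A × Bool) → Bool) (b : Bool) (r : RP A RX) : RP A RX :=
  bif one r.1 then (r.1, (bif b then (r.2.1.1 + 1, r.2.1.2) else (r.2.1.1, r.2.1.2 + 1)), r.2.2)
  else r

/-- raw `bp` -/
def bpR (a : A × Bool) (r : RP A RX) : RP A RX := (a :: r.1, r.2)

/-- raw `chi'`, letters -/
def chR (one : List (A × Bool) → Bool) (a : Option A × Bool) (r : RP A RX) : RP A RX :=
  Option.casesOn a.1 (ddR one a.2 r) (fun x => bpR (x, a.2) r)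

/-- raw `chi'`, words -/
def chW (one : List (A × Bool) → Bool) (w : List (Option A × Bool)) (r : RP A RX) : RP A RX :=
  w.foldr (fun a r => chR one a r) r

theorem computable_ddR {α : Type} [Primcodable α] {one : List (A × Bool) → Bool}
    (h : Computable one) {f : α → Bool} {g : α → RP A RX} (hf : Computable f)
    (hg : Computable g) : Computable fun x => ddR one (f x) (g x) := by
  unfold ddR
  have c1 : Computable fun x => (g x).1 := Computable.fst.comp hg
  have c2 : Computable fun x => (g x).2.1.1 :=
    Computable.fst.comp (Computable.fst.comp (Computable.snd.comp hg))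
  have c3 : Computable fun x => (g x).2.1.2 :=
    Computable.snd.comp (Computable.fst.comp (Computable.snd.comp hg))
  have c4 : Computable fun x => (g x).2.2 :=
    Computable.snd.comp (Computable.snd.comp hg)
  exact Computable.cond (h.comp c1) (c1.pair ((Computable.cond hf
    ((Computable.succ.comp c2).pair c3) (c2.pair (Computable.succ.comp c3))).pair c4)) hg

theorem computable_bpR {α : Type} [Primcodable α] {f : α → A × Bool} {g : α → RP A RX}
    (hf : Computable f) (hg : Computable g) : Computable fun x => bpR (f x) (g x) := by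
  unfold bpR
  exact (Computable.list_cons.comp hf (Computable.fst.comp hg)).pair (Computable.snd.comp hg)

theorem computable_chR {α : Type} [Primcodable α] {one : List (A × Bool) → Bool}
    (h : Computable one) {f : α → Option A × Bool} {g : α → RP A RX} (hf : Computable f)
    (hg : Computable g) : Computable fun x => chR one (f x) (g x) := by
  unfold chR
  refine Computable.option_casesOn (o := fun x => (f x).1)
    (f := fun x => ddR one (f x).2 (g x)) (g := fun x a => bpR (a, (f x).2) (g x)) ?_ ?_ ?_
  · exact Computable.fst.comp hf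
  · exact computable_ddR h (Computable.snd.comp hf) hg
  · exact computable_bpR (f := fun y : α × A => (y.2, (f y.1).2)) (g := fun y => g y.1)
      (Computable.snd.pair (Computable.snd.comp (hf.comp Computable.fst)))
      (hg.comp Computable.fst)

theorem computable_chW {α : Type} [Primcodable α] {one : List (A × Bool) → Bool}
    (h : Computable one) {f : α → List (Option A × Bool)} {g : α → RP A RX} (hf : Computable f)
    (hg : Computable g) : Computable fun x => chW one (f x) (g x) := by
  unfold chW
  refine computable_foldr (f := f) (g := g) (h := fun _ y => chR one y.1 y.2) hf hg ?_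
  exact computable_chR (α := α × ((Option A × Bool) × RP A RX)) (f := fun y => y.2.1)
    (g := fun y => y.2.2) h (Computable.fst.comp Computable.snd)
    (Computable.snd.comp Computable.snd)

omit [Primcodable A] [Primcodable RX] in
theorem decP_ddR {one : List (A × Bool) → Bool} (h : ∀ w, one w = true ↔ FreeGroup.mk w = 1)
    (s : σ) (b : Bool) (r : RP A RX) :
    decP decX s (ddR one b r) = (cond b (dd A (X s)) (dd A (X s))⁻¹) (decP decX s r) := by
  obtain ⟨w, ⟨p, q⟩, x⟩ := r
  unfold ddR decP
  by_cases hw : FreeGroup.mk w = 1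
  · have h1 := (h w).2 hw
    simp only [h1, cond_true, hw]
    cases b
    · simp only [cond_false, dd_inv_one]
      push_cast
      congr 2
      ring
    · simp only [cond_true, dd_one]
      push_cast
      congr 2
      ring
  · have h1 : one w = false := by
      rw [Bool.eq_false_iff]; intro h2; exact hw ((h w).1 h2)
    simp only [h1, cond_false]
    cases b
    · simp only [cond_false]; rw [dd_inv_ne A (X s) hw]
    · simp only [cond_true]; rw [dd_ne A (X s) hw]

omit [Primcodable A] [Primcodable RX] in
theorem decP_bpR (s : σ) (a : A × Bool) (r : RP A RX) :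
    decP decX s (bpR a r) = bp A (X s) (FreeGroup.mk [a]) (decP decX s r) := by
  obtain ⟨w, ⟨p, q⟩, x⟩ := r
  unfold bpR decP
  simp only [bp_apply]
  rw [mk_cons]

omit [Primcodable A] [Primcodable RX] in
theorem decP_chR {one : List (A × Bool) → Bool} (h : ∀ w, one w = true ↔ FreeGroup.mk w = 1)
    (s : σ) (a : Option A × Bool) (r : RP A RX) :
    decP decX s (chR one a r) = chi' A (X s) (FreeGroup.mk [a]) (decP decX s r) := by
  obtain ⟨o, b⟩ := a
  unfold chR chi'
  rw [lift_mk_single]
  rcases o with _ | a
  · exact decP_ddR decX h s b r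
  · change decP decX s (bpR (a, b) r) = _
    rw [decP_bpR]
    cases b
    · rw [mk_single_false, map_inv]; rfl
    · rw [mk_single_true]; rfl

omit [Primcodable A] [Primcodable RX] in
theorem decP_chW {one : List (A × Bool) → Bool} (h : ∀ w, one w = true ↔ FreeGroup.mk w = 1)
    (s : σ) (w : List (Option A × Bool)) (r : RP A RX) :
    decP decX s (chW one w r) = chi' A (X s) (FreeGroup.mk w) (decP decX s r) := by
  induction w with
  | nil =>
    have : (FreeGroup.mk [] : FreeGroup (Option A)) = 1 := rfl
    rw [this, map_one]; rfl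
  | cons a w ih =>
    rw [mk_cons, map_mul, Perm.mul_apply, ← ih, ← decP_chR decX h]
    rfl

end payload

/-! ### the witness -/

/-- the witness for one text -/
structure Wt (A ι : Type) where
  /-- the group -/
  H : Type
  /-- instance -/
  grp : Group H
  /-- the subgroup `L` -/
  L : Subgroup H
  /-- the embedding -/
  ε : FreeGroup (Option A) →* H
  /-- the accepted words -/
  Acc : Set (FreeGroup A)
  /-- what is needed -/
  ok : WitOK L ε Acc
  /-- the gauge function -/
  κ : FreeGroup A → FreeGroup A
  /-- the gauge is trivial at accepted words -/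
  hκ : ∀ w ∈ Acc, κ w = 1
  /-- values of words -/
  gen : FreeGroup ι →* H

attribute [instance] Wt.grp

namespace Wt

variable {A ι : Type} (T : Wt A ι)

/-- value of an `H`-word -/
def hval (h : List (ι × Bool)) : T.H := T.gen (FreeGroup.mk h)

/-- the letters of `D` -/
def dl (o : Option ι) : DG T.L := o.elim (kD T.L) (fun i => hD T.L (T.gen (FreeGroup.of i)))

/-- value of a `D`-word -/
def dval (u : List (Option ι × Bool)) : DG T.L := FreeGroup.lift T.dl (FreeGroup.mk u)

/-- `S` -/
abbrev SS : Subgroup (DG T.L) := SG T.L T.ε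

theorem hval_append (h h' : List (ι × Bool)) : T.hval (h ++ h') = T.hval h * T.hval h' := by
  unfold hval; rw [← FreeGroup.mul_mk, map_mul]

theorem hval_nil : T.hval [] = 1 := by
  unfold hval
  have : (FreeGroup.mk [] : FreeGroup ι) = 1 := rfl
  rw [this, map_one]

theorem hval_inv (h : List (ι × Bool)) : T.hval (FreeGroup.invRev h) = (T.hval h)⁻¹ := by
  unfold hval; rw [← FreeGroup.inv_mk, map_inv]

theorem hval_cons (a : ι × Bool) (h : List (ι × Bool)) :
    T.hval (a :: h) = T.hval [a] * T.hval h := T.hval_append [a] h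

theorem dval_append (h h' : List (Option ι × Bool)) : T.dval (h ++ h') = T.dval h * T.dval h' := by
  unfold dval; rw [← FreeGroup.mul_mk, map_mul]

theorem dval_nil : T.dval [] = 1 := by
  unfold dval
  have : (FreeGroup.mk [] : FreeGroup (Option ι)) = 1 := rfl
  rw [this, map_one]

theorem dval_inv (h : List (Option ι × Bool)) : T.dval (FreeGroup.invRev h) = (T.dval h)⁻¹ := by
  unfold dval; rw [← FreeGroup.inv_mk, map_inv]

theorem dval_cons (a : Option ι × Bool) (h : List (Option ι × Bool)) :
    T.dval (a :: h) = T.dval [a] * T.dval h := T.dval_append [a] h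

end Wt

/-- the computability input -/
structure WtC {A ι : Type} [Primcodable A] [Primcodable ι] (T : ℕ → Wt A ι) : Prop where
  epsW : ∀ e y, ∃ h : List (ι × Bool), (T e).hval h = (T e).ε y
  heps : REPred fun x : ℕ × List (ι × Bool) × List (Option A × Bool) =>
    (T x.1).hval x.2.1 = (T x.1).ε (FreeGroup.mk x.2.2)
  inL : REPred fun x : ℕ × List (ι × Bool) => (T x.1).hval x.2 ∈ (T x.1).L
  ninLE : REPred fun x : ℕ × List (ι × Bool) =>
    ¬ ∃ l ∈ (T x.1).L, ∃ y, (T x.1).hval x.2 = l * (T x.1).ε y
  one : REPred fun x : ℕ × List (Option ι × Bool) => (T x.1).dval x.2 = 1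
  ne : REPred fun x : ℕ × List (Option ι × Bool) => (T x.1).dval x.2 ≠ 1
  inS : REPred fun x : ℕ × List (Option ι × Bool) => (T x.1).dval x.2 ∈ (T x.1).SS
  ninS : REPred fun x : ℕ × List (Option ι × Bool) => (T x.1).dval x.2 ∉ (T x.1).SS
  kap : REPred fun x : ℕ × List (A × Bool) × List (A × Bool) =>
    FreeGroup.mk x.2.2 = (T x.1).κ (FreeGroup.mk x.2.1)

/-! ### the labelled letters -/

section lab

variable {X : σ → Type} [∀ s, MulAction (FreeGroup A) (X s)] {decX : ∀ s, RX → X s}
  {aX : List (A × Bool) × RX → RX}

/-- label `v` if `n < 0` -/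
def lbR (aX : List (A × Bool) × RX → RX) (v : List (A × Bool)) (r : RP A RX) : RP A RX :=
  bif decide (r.2.1.1 < r.2.1.2) then (r.1, r.2.1, aX (v, r.2.2)) else r

theorem computable_lbR {α : Type} [Primcodable α] (ha : Computable aX)
    {f : α → List (A × Bool)} {g : α → RP A RX} (hf : Computable f)
    (hg : Computable g) : Computable fun x => lbR aX (f x) (g x) := by
  unfold lbR
  have c2 : Computable fun x => (g x).2.1.1 :=
    Computable.fst.comp (Computable.fst.comp (Computable.snd.comp hg))
  have c3 : Computable fun x => (g x).2.1.2 :=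
    Computable.snd.comp (Computable.fst.comp (Computable.snd.comp hg))
  have c0 : Computable fun x => decide ((g x).2.1.1 < (g x).2.1.2) :=
    Primrec.nat_lt.decide.to_comp.comp c2 c3
  refine Computable.cond c0 ?_ hg
  exact (Computable.fst.comp hg).pair ((Computable.fst.comp (Computable.snd.comp hg)).pair
    (ha.comp (hf.pair (Computable.snd.comp (Computable.snd.comp hg)))))

omit [Primcodable A] [Primcodable RX] in
theorem decP_lbR (haX : ∀ s w r, decX s (aX (w, r)) = FreeGroup.mk w • decX s r) (s : σ)
    (v : List (A × Bool)) (r : RP A RX) :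
    decP decX s (lbR aX v r) = ((decP decX s r).1, (decP decX s r).2.1,
      (if (decP decX s r).2.1 < 0 then FreeGroup.mk v else 1) • (decP decX s r).2.2) := by
  obtain ⟨w, ⟨p, q⟩, x⟩ := r
  unfold lbR decP
  by_cases h : p < q
  · have h1 : (p : ℤ) - (q : ℤ) < 0 := by omega
    simp only [h, decide_true, cond_true, h1, if_true, haX]
  · have h1 : ¬ (p : ℤ) - (q : ℤ) < 0 := by omega
    simp only [h, decide_false, cond_false, h1, if_false, one_smul]

theorem rr_ga (ha : Computable aX)
    (haX : ∀ s w r, decX s (aX (w, r)) = FreeGroup.mk w • decX s r) :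
    RR orc (fun _ _ => True) (fun s (x : (A × Bool) × RP A RX) r' =>
      decP decX s r' = ga A (X s) (FreeGroup.mk [x.1]) (decP decX s x.2)) := by
  refine RR.fn (F := fun x : (A × Bool) × RP A RX => lbR aX [x.1] x.2) ?_ ?_
  · exact computable_lbR ha (Computable.list_cons.comp Computable.fst (Computable.const []))
      Computable.snd
  · intro s x _
    rw [decP_lbR haX]
    rfl

variable {T : ℕ → Wt A ι}

theorem rr_gau (hT : WtC T) (ha : Computable aX)
    (haX : ∀ s w r, decX s (aX (w, r)) = FreeGroup.mk w • decX s r) :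
    RR orc (fun _ _ => True) (fun s (x : ℕ × Bool × RP A RX) r' =>
      decP decX s r' = (cond x.2.1 (gauK A (X s) (T x.1).κ) (gauK A (X s) (T x.1).κ)⁻¹)
        (decP decX s x.2.2)) := by
  refine RR.choose (γ := List (A × Bool)) (c := fun _ y =>
    FreeGroup.mk y.2 = (T y.1.1).κ (FreeGroup.mk y.1.2.2.1)) ?_ ?_ ?_
  · refine ORE.re (re_comp hT.kap (f := fun y : (ℕ × Bool × RP A RX) × List (A × Bool) =>
      (y.1.1, y.1.2.2.1, y.2)) ?_)
    exact (Computable.fst.comp Computable.fst).pair ((Computable.fst.comp (Computable.snd.comp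
      (Computable.snd.comp Computable.fst))).pair Computable.snd)
  · intro s x _
    exact exists_mk ((T x.1).κ (FreeGroup.mk x.2.2.1))
  · refine RR.fn (F := fun y : (ℕ × Bool × RP A RX) × List (A × Bool) =>
      lbR aX (bif y.1.2.1 then y.2 else FreeGroup.invRev y.2) y.1.2.2) ?_ ?_
    · refine computable_lbR ha (Computable.cond ?_ Computable.snd
        ((computable_inv A).comp Computable.snd)) ?_
      · exact Computable.fst.comp (Computable.snd.comp Computable.fst)
      · exact Computable.snd.comp (Computable.snd.comp Computable.fst)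
    · rintro s ⟨⟨e, b, r⟩, v⟩ ⟨_, h⟩
      simp only at h ⊢
      rw [decP_lbR haX]
      cases b
      · simp only [cond_false]
        rw [gauK_inv_apply, ← FreeGroup.inv_mk, h]
        congr 2
        split_ifs <;> simp [decP]
      · simp only [cond_true]
        rw [gauK_apply, h]
        rfl

end lab

end Crest.Agent.R185.She
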