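import Crest.Agent.R185.She1

/-!
# R185, block H3, the sheet layer (2): `χ̂ : S → Sym P(X)` on raw points
-/

set_option autoImplicit false

namespace Crest.Agent.R185.She

open Equiv Crest.Agent.R292 Crest.Agent.R185.Re Crest.Agent.R185.Ev Crest.Agent.R185.Md191A
  Crest.Agent.R185.Md191B Crest.Agent.R185.Md191C

variable {σ W A ι RX : Type} [Primcodable W] [Primcodable A] [Primcodable ι] [Primcodable RX]
  {orc : σ → W → Prop} {X : σ → Type} [∀ s, MulAction (FreeGroup A) (X s)] {decX : ∀ s, RX → X s}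
  {aX : List (A × Bool) × RX → RX} {T : ℕ → Wt A ι}

/-! ### `chiK`, `chi2` -/

theorem rr_chiK (hT : WtC T) (ha : Computable aX)
    (haX : ∀ s w r, decX s (aX (w, r)) = FreeGroup.mk w • decX s r) :
    RR orc (fun _ _ => True) (fun s (x : ℕ × List (Option A × Bool) × RP A RX) r' =>
      decP decX s r' = chiK A (X s) (T x.1).κ (FreeGroup.mk x.2.1) (decP decX s x.2.2)) := by
  obtain ⟨one, h1, h2⟩ := exists_one A
  have hg := rr_gau (orc := orc) (decX := decX) hT ha haX
  have c1 : Computable fun x : ℕ × List (Option A × Bool) × RP A RX => (x.1, false, x.2.2) :=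
    Computable.fst.pair ((Computable.const false).pair (Computable.snd.comp Computable.snd))
  have c2 : Computable fun x : (ℕ × List (Option A × Bool) × RP A RX) × RP A RX =>
      (x.1.1, true, chW one x.1.2.1 x.2) := by
    refine (Computable.fst.comp Computable.fst).pair ((Computable.const true).pair ?_)
    exact computable_chW h1 (Computable.fst.comp (Computable.snd.comp Computable.fst))
      Computable.snd
  refine (hg.comp c1).bind (hg.comp c2) (fun _ _ _ _ _ => trivial) ?_
  intro s x r1 r2 _ h3 h4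
  simp only [cond_false, cond_true] at h3 h4
  rw [h4, decP_chW decX h2, h3, chiK_apply]
  rfl

theorem rr_chi2 (hT : WtC T) (ha : Computable aX)
    (haX : ∀ s w r, decX s (aX (w, r)) = FreeGroup.mk w • decX s r) :
    RR orc (fun _ _ => True)
      (fun s (x : ℕ × List (Option A × Bool) × RP A RX × Bool) (r' : RP A RX × Bool) =>
      (decP decX s r'.1, r'.2) =
        chi2 (X s) (T x.1).κ (FreeGroup.mk x.2.1) (decP decX s x.2.2.1, x.2.2.2)) := by
  obtain ⟨one, h1, h2⟩ := exists_one A
  have hg := rr_chiK (orc := orc) (decX := decX) hT ha haX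
  have cb : Computable fun x : ℕ × List (Option A × Bool) × RP A RX × Bool => x.2.2.2 :=
    Computable.snd.comp (Computable.snd.comp Computable.snd)
  have cp : Computable fun x : ℕ × List (Option A × Bool) × RP A RX × Bool => x.2.2.1 :=
    Computable.fst.comp (Computable.snd.comp Computable.snd)
  have cw : Computable fun x : ℕ × List (Option A × Bool) × RP A RX × Bool => x.2.1 :=
    Computable.fst.comp Computable.snd
  refine RR.cond cb ?_ ?_
  · have h3 := hg.comp (f := fun x : ℕ × List (Option A × Bool) × RP A RX × Bool =>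
      (x.1, x.2.1, x.2.2.1)) (Computable.fst.pair (cw.pair cp))
    refine RR.map (F := fun y => (y.2, true)) (h3.mono (fun _ _ _ => trivial)
      (fun _ _ _ _ h => h)) (Computable.snd.pair (Computable.const true)) ?_
    rintro s ⟨e, w, r, b⟩ r' ⟨_, rfl⟩ h4
    simp only at h4 ⊢
    rw [chi2_true, h4]
  · refine RR.fn (F := fun x : ℕ × List (Option A × Bool) × RP A RX × Bool =>
      (chW one x.2.1 x.2.2.1, false)) ((computable_chW h1 cw cp).pair (Computable.const false)) ?_
    rintro s ⟨e, w, r, b⟩ ⟨_, rfl⟩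
    simp only
    rw [chi2_false, decP_chW decX h2]

/-! ### the two-copy set -/

/-- raw points of `XX` -/
abbrev RXX (A ι RX : Type) : Type := List (ι × Bool) × RP A RX × Bool

/-- the point -/
noncomputable def decXX (decX : ∀ s, RX → X s) (T : Wt A ι) (s : σ) (z : RXX A ι RX) :
    XX (X s) T.κ T.ok.inj :=
  mk2 T.κ T.ok.inj (T.hval z.1) (decP decX s z.2.1) z.2.2

omit [Primcodable A] [Primcodable ι] [Primcodable RX] in
theorem mk2_move (T : Wt A ι) (s : σ) {h h' : T.H} {y : FreeGroup (Option A)}
    (hy : h'⁻¹ * h = T.ε y) (p : P A (X s)) (b : Bool) :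
    mk2 T.κ T.ok.inj h p b =
      mk2 T.κ T.ok.inj h' (chi2 (X s) T.κ y (p, b)).1 (chi2 (X s) T.κ y (p, b)).2 := by
  have h1 : h = h' * T.ε y := by rw [← hy]; group
  rw [h1, mk2_mul]
  cases b
  · rw [chi2_false]; rfl
  · rw [chi2_true]; rfl

omit [Primcodable A] [Primcodable ι] in
theorem kX_inv (T : Wt A ι) (s : σ) : (kX (X s) T.ok T.hκ)⁻¹ = kX (X s) T.ok T.hκ := rfl

omit [Primcodable A] [Primcodable ι] [Primcodable RX] in
theorem dval_some (T : Wt A ι) (i : ι) (b : Bool) :
    T.dval [(some i, b)] = hD T.L (T.hval [(i, b)]) := by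
  unfold Wt.dval Wt.hval
  rw [lift_mk_single]
  cases b
  · rw [mk_single_false, map_inv, map_inv]; rfl
  · rfl

omit [Primcodable A] [Primcodable ι] [Primcodable RX] in
theorem actX_none (T : Wt A ι) (s : σ) (b : Bool) :
    actX (X s) T.ok T.hκ (T.dval [(none, b)]) = kX (X s) T.ok T.hκ := by
  unfold Wt.dval
  rw [lift_mk_single]
  have h1 : T.dl none = kD T.L := rfl
  rw [h1]
  cases b
  · simp only [cond_false, map_inv, actX_k]; rfl
  · simp only [cond_true, actX_k]

/-- condition: the first coordinate is in `L E` -/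
theorem ore_inLE (hT : WtC T) {α : Type} [Primcodable α] {f : α → ℕ} {g : α → List (ι × Bool)}
    (hf : Computable f) (hg : Computable g) : ORE orc fun (_ : σ)
      (y : α × (List (ι × Bool) × List (Option A × Bool))) =>
      (T (f y.1)).hval (FreeGroup.invRev y.2.1 ++ g y.1) = (T (f y.1)).ε (FreeGroup.mk y.2.2) ∧
        (T (f y.1)).hval y.2.1 ∈ (T (f y.1)).L := by
  have cf : Computable fun y : α × (List (ι × Bool) × List (Option A × Bool)) => f y.1 :=
    hf.comp Computable.fst
  have cg : Computable fun y : α × (List (ι × Bool) × List (Option A × Bool)) => g y.1 :=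
    hg.comp Computable.fst
  have ch : Computable fun y : α × (List (ι × Bool) × List (Option A × Bool)) => y.2.1 :=
    Computable.fst.comp Computable.snd
  have cy : Computable fun y : α × (List (ι × Bool) × List (Option A × Bool)) => y.2.2 :=
    Computable.snd.comp Computable.snd
  refine ORE.and (ORE.re ?_) (ORE.re ?_)
  · exact re_comp hT.heps (f := fun y : α × (List (ι × Bool) × List (Option A × Bool)) =>
      (f y.1, FreeGroup.invRev y.2.1 ++ g y.1, y.2.2))
      (cf.pair ((Computable.list_append.comp ((computable_inv ι).comp ch) cg).pair cy))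
  · exact re_comp hT.inL (f := fun y : α × (List (ι × Bool) × List (Option A × Bool)) =>
      (f y.1, y.2.1)) (cf.pair ch)

omit [Primcodable RX] [Primcodable A] [Primcodable ι] in
theorem decXX_ne (T : Wt A ι) (s : σ) (z : RXX A ι RX)
    (h : ¬ ∃ l ∈ T.L, ∃ y, T.hval z.1 = l * T.ε y) :
    kX (X s) T.ok T.hκ (decXX decX T s z) = decXX decX T s z := by
  apply kX_else
  rintro ⟨l, p, b, hl, h1⟩
  unfold decXX at h1
  obtain ⟨y, h2, -, -⟩ := mk2_eq.1 h1
  exact h ⟨l, hl, y, by rw [h2]; group⟩

theorem rr_kX (hT : WtC T) (ha : Computable aX)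
    (haX : ∀ s w r, decX s (aX (w, r)) = FreeGroup.mk w • decX s r) :
    RR orc (fun _ _ => True) (fun s (x : ℕ × RXX A ι RX) z' =>
      decXX decX (T x.1) s z' = kX (X s) (T x.1).ok (T x.1).hκ (decXX decX (T x.1) s x.2)) := by
  have hin := ore_inLE (orc := orc) (σ := σ) hT (α := ℕ × RXX A ι RX) (f := fun x => x.1)
    (g := fun x => x.2.1) Computable.fst (Computable.fst.comp Computable.snd)
  refine RR.cases (c1 := fun _ x => ∃ y : List (ι × Bool) × List (Option A × Bool),
      (T x.1).hval (FreeGroup.invRev y.1 ++ x.2.1) = (T x.1).ε (FreeGroup.mk y.2) ∧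
        (T x.1).hval y.1 ∈ (T x.1).L)
    (c2 := fun _ x => ¬ ∃ l ∈ (T x.1).L, ∃ y, (T x.1).hval x.2.1 = l * (T x.1).ε y) ?_ ?_ ?_ ?_ ?_
  · exact hin.ex
  · exact ORE.re (re_comp hT.ninLE (f := fun x : ℕ × RXX A ι RX => (x.1, x.2.1))
      (Computable.fst.pair (Computable.fst.comp Computable.snd)))
  · intro s x _
    by_cases h : ∃ l ∈ (T x.1).L, ∃ y, (T x.1).hval x.2.1 = l * (T x.1).ε y
    · left
      obtain ⟨l, hl, y, hy⟩ := h
      obtain ⟨v, hv⟩ := hT.epsW x.1 y
      obtain ⟨w, rfl⟩ := exists_mk y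
      have h1 : (T x.1).hval (x.2.1 ++ FreeGroup.invRev v) = l := by
        rw [Wt.hval_append, Wt.hval_inv, hv, hy]; group
      refine ⟨(x.2.1 ++ FreeGroup.invRev v, w), ?_, ?_⟩
      · rw [Wt.hval_append, Wt.hval_inv, h1, hy]; group
      · rw [h1]; exact hl
    · exact Or.inr h
  · refine RR.choose hin (fun _ _ h => h.2) ?_
    have h1 := rr_chi2 (orc := orc) (decX := decX) hT ha haX
    have h2 := h1.comp (f := fun y : (ℕ × RXX A ι RX) ×
      (List (ι × Bool) × List (Option A × Bool)) => (y.1.1, y.2.2, y.1.2.2)) ?_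
    · refine RR.map (F := fun (z : ((ℕ × RXX A ι RX) × (List (ι × Bool) ×
        List (Option A × Bool))) × (RP A RX × Bool)) => (z.1.2.1, z.2.1, !z.2.2))
        (h2.mono (fun _ _ _ => trivial) (fun _ _ _ _ h => h)) ?_ ?_
      · exact (Computable.fst.comp (Computable.snd.comp Computable.fst)).pair
          ((Computable.fst.comp Computable.snd).pair
            (Primrec.not.to_comp.comp (Computable.snd.comp Computable.snd)))
      · rintro s ⟨⟨e, h, p, b⟩, h', y⟩ ⟨p', b'⟩ ⟨_, h3, h4⟩ h5
        simp only at h3 h4 h5 ⊢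
        rw [Wt.hval_append, Wt.hval_inv] at h3
        unfold decXX
        simp only
        rw [mk2_move (T e) s h3, kX_mem _ _ h4, ← h5]
    · exact (Computable.fst.comp Computable.fst).pair
        ((Computable.snd.comp Computable.snd).pair
          (Computable.snd.comp (Computable.snd.comp Computable.fst)))
  · refine RR.fn (F := fun x => x.2) Computable.snd ?_
    rintro s x ⟨_, h⟩
    exact (decXX_ne (T x.1) s x.2 h).symm

theorem rr_actX1 (hT : WtC T) (ha : Computable aX)
    (haX : ∀ s w r, decX s (aX (w, r)) = FreeGroup.mk w • decX s r) :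
    RR orc (fun _ _ => True) (fun s (x : ℕ × (Option ι × Bool) × RXX A ι RX) z' =>
      decXX decX (T x.1) s z' = actX (X s) (T x.1).ok (T x.1).hκ ((T x.1).dval [x.2.1])
        (decXX decX (T x.1) s x.2.2)) := by
  have co : Computable fun x : ℕ × (Option ι × Bool) × RXX A ι RX => x.2.1.1 :=
    Computable.fst.comp (Computable.fst.comp Computable.snd)
  have cs : Computable fun x : ℕ × (Option ι × Bool) × RXX A ι RX => x.2.1.1.isSome :=
    Primrec.option_isSome.to_comp.comp co
  refine RR.cond cs ?_ ?_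
  · refine RR.fn (F := fun x : ℕ × (Option ι × Bool) × RXX A ι RX =>
      Option.casesOn x.2.1.1 x.2.2 (fun i => ((i, x.2.1.2) :: x.2.2.1, x.2.2.2))) ?_ ?_
    · refine Computable.option_casesOn (o := fun x : ℕ × (Option ι × Bool) × RXX A ι RX =>
        x.2.1.1) (f := fun x => x.2.2) (g := fun x i => ((i, x.2.1.2) :: x.2.2.1, x.2.2.2)) co
        (Computable.snd.comp Computable.snd) ?_
      have c1 : Computable fun y : (ℕ × (Option ι × Bool) × RXX A ι RX) × ι => y.1.2.1.2 :=
        Computable.snd.comp (Computable.fst.comp (Computable.snd.comp Computable.fst))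
      have c2 : Computable fun y : (ℕ × (Option ι × Bool) × RXX A ι RX) × ι => y.1.2.2.1 :=
        Computable.fst.comp (Computable.snd.comp (Computable.snd.comp Computable.fst))
      have c3 : Computable fun y : (ℕ × (Option ι × Bool) × RXX A ι RX) × ι => y.1.2.2.2 :=
        Computable.snd.comp (Computable.snd.comp (Computable.snd.comp Computable.fst))
      exact (Computable.list_cons.comp (Computable.snd.pair c1) c2).pair c3
    · rintro s ⟨e, ⟨o, b⟩, h, p, c⟩ ⟨_, ho⟩
      rcases o with _ | i
      · simp at ho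
      · simp only
        rw [dval_some]
        unfold decXX
        simp only
        rw [actX_h, Wt.hval_cons]
  · have h1 := (rr_kX (orc := orc) (decX := decX) hT ha haX).comp
      (f := fun x : ℕ × (Option ι × Bool) × RXX A ι RX => (x.1, x.2.2))
      (Computable.fst.pair (Computable.snd.comp Computable.snd))
    refine h1.mono (fun _ _ _ => trivial) ?_
    rintro s ⟨e, ⟨o, b⟩, h, p, c⟩ z' ⟨_, ho⟩ h2
    rcases o with _ | i
    · simp only at h2 ⊢
      rw [h2, actX_none]
    · simp at ho

theorem rr_actX (hT : WtC T) (ha : Computable aX)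
    (haX : ∀ s w r, decX s (aX (w, r)) = FreeGroup.mk w • decX s r) :
    RR orc (fun _ _ => True) (fun s (x : ℕ × List (Option ι × Bool) × RXX A ι RX) z' =>
      decXX decX (T x.1) s z' = actX (X s) (T x.1).ok (T x.1).hκ ((T x.1).dval x.2.1)
        (decXX decX (T x.1) s x.2.2)) := by
  refine (rr_actX1 (orc := orc) (decX := decX) hT ha haX).pth.mono (fun _ _ _ => trivial) ?_
  intro s x z' _ h
  exact pth_free (f := (actX (X s) (T x.1).ok (T x.1).hκ).comp (FreeGroup.lift (T x.1).dl))
    (decXX decX (T x.1) s) h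

theorem rr_chiS (hT : WtC T) (ha : Computable aX)
    (haX : ∀ s w r, decX s (aX (w, r)) = FreeGroup.mk w • decX s r) :
    RR orc (fun _ x => (T x.1).dval x.2.1 ∈ (T x.1).SS)
      (fun s (x : ℕ × List (Option ι × Bool) × RP A RX) r' =>
      ∀ h : (T x.1).dval x.2.1 ∈ (T x.1).SS, decP decX s r' =
        chiS (X s) (T x.1).ok (T x.1).hκ ⟨_, h⟩ (decP decX s x.2.2)) := by
  have h1 := (rr_actX (orc := orc) (decX := decX) hT ha haX).comp
    (f := fun x : ℕ × List (Option ι × Bool) × RP A RX =>
      (x.1, x.2.1, (([] : List (ι × Bool)), x.2.2, true)))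
    (Computable.fst.pair ((Computable.fst.comp Computable.snd).pair ((Computable.const _).pair
      ((Computable.snd.comp Computable.snd).pair (Computable.const _)))))
  have h2 := rr_chiK (orc := orc) (decX := decX) hT ha haX
  -- the domain of the second step
  let c : (ℕ × List (Option ι × Bool) × RP A RX) × RXX A ι RX → List (Option A × Bool) → Prop :=
    fun x y => (T x.1.1).hval x.2.1 = (T x.1.1).ε (FreeGroup.mk y)
  have hc : ORE orc fun (_ : σ) (y : ((ℕ × List (Option ι × Bool) × RP A RX) × RXX A ι RX) ×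
      List (Option A × Bool)) => c y.1 y.2 :=
    ORE.re (re_comp hT.heps (f := fun y : ((ℕ × List (Option ι × Bool) × RP A RX) × RXX A ι RX) ×
      List (Option A × Bool) => (y.1.1.1, y.1.2.1, y.2))
      ((Computable.fst.comp (Computable.fst.comp Computable.fst)).pair
        ((Computable.fst.comp (Computable.snd.comp Computable.fst)).pair Computable.snd)))
  have h3 : RR orc (fun _ x => ∃ y, c x y) (fun s (x : (ℕ × List (Option ι × Bool) × RP A RX) ×
      RXX A ι RX) r' => ∃ y, c x y ∧ decP decX s r' =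
        chiK A (X s) (T x.1.1).κ (FreeGroup.mk y) (decP decX s x.2.2.1)) := by
    refine RR.choose hc (fun _ _ h => h) ?_
    have h4 := h2.comp (f := fun y : ((ℕ × List (Option ι × Bool) × RP A RX) × RXX A ι RX) ×
      List (Option A × Bool) => (y.1.1.1, y.2, y.1.2.2.1))
      ((Computable.fst.comp (Computable.fst.comp Computable.fst)).pair
        (Computable.snd.pair (Computable.fst.comp (Computable.snd.comp (Computable.snd.comp
          Computable.fst)))))
    refine h4.mono (fun _ _ _ => trivial) ?_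
    rintro s ⟨x, y⟩ r' ⟨_, h5⟩ h6
    exact ⟨y, h5, h6⟩
  -- what we know of the end point
  have key : ∀ s (x : ℕ × List (Option ι × Bool) × RP A RX) (z : RXX A ι RX),
      decXX decX (T x.1) s z = actX (X s) (T x.1).ok (T x.1).hκ ((T x.1).dval x.2.1)
        (decXX decX (T x.1) s ([], x.2.2, true)) → ∀ h : (T x.1).dval x.2.1 ∈ (T x.1).SS,
      ∃ y, (T x.1).hval z.1 = (T x.1).ε y ∧ z.2.2 = true ∧
        chiS (X s) (T x.1).ok (T x.1).hκ ⟨_, h⟩ (decP decX s x.2.2) =
          chiK A (X s) (T x.1).κ y (decP decX s z.2.1) := by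
    intro s x z h4 h
    have h5 := chiS_spec (T x.1).ok (T x.1).hκ ⟨_, h⟩ (decP decX s x.2.2)
    have h6 : decXX decX (T x.1) s ([], x.2.2, true) =
        mk2 (T x.1).κ (T x.1).ok.inj 1 (decP decX s x.2.2) true := by
      unfold decXX; rw [Wt.hval_nil]
    rw [h6] at h4
    have h7 := h4.trans h5
    unfold decXX at h7
    obtain ⟨y, h8, h9, h10⟩ := mk2_eq.1 h7
    refine ⟨y, ?_, h9.symm, ?_⟩
    · rw [eq_comm, mul_inv_eq_one] at h8
      exact h8
    · rw [h10, ← h9]; rfl
  refine (h1.mono (Dm' := fun _ x => (T x.1).dval x.2.1 ∈ (T x.1).SS) (fun _ _ _ => trivial)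
    (fun _ _ _ _ h => h)).bind h3 ?_ ?_
  · intro s x z hx h4
    obtain ⟨y, h5, -, -⟩ := key s x z h4 hx
    obtain ⟨y, rfl⟩ := exists_mk y
    exact ⟨y, h5⟩
  · intro s x z r' hx h4 h5 h
    obtain ⟨y, h6, h7⟩ := h5
    obtain ⟨y', h8, -, h9⟩ := key s x z h4 h
    have h10 : FreeGroup.mk y = y' := (T x.1).ok.inj (h6.symm.trans h8)
    rw [h9, h7, h10]

end Crest.Agent.R185.She
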