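import Crest.Agent.R185.She2
import Crest.Agent.R185.Ev6

/-!
# R185, block H3, the sheet layer (3): the points of `YY` and the letters
-/

set_option autoImplicit false
set_option linter.unusedSectionVars false

namespace Crest.Agent.R185.She

open Equiv Crest.Agent.R292 Crest.Agent.R185.Re Crest.Agent.R185.Ev Crest.Agent.R185.Md191A
  Crest.Agent.R185.Md191B Crest.Agent.R185.Md191C Crest.Agent.R185.Md191D Crest.Agent.R185.Md191E

variable {σ W A ι RX : Type} [Primcodable W] [Primcodable A] [Primcodable ι] [Primcodable RX]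
  {orc : σ → W → Prop} {X : σ → Type} [∀ s, MulAction (FreeGroup A) (X s)] {decX : ∀ s, RX → X s}
  {aX : List (A × Bool) × RX → RX} {T : ℕ → Wt A ι}

/-- raw words in the letters of `D` -/
abbrev RD (ι : Type) : Type := List (Option ι × Bool)

/-- raw points of `Q` -/
abbrev RQ (A ι RX : Type) : Type := RD ι × RP A RX

/-- raw points of `Ind` -/
abbrev RI (A ι RX : Type) : Type := RD ι × RQ A ι RX

/-- raw points of `YY` -/
abbrev RY (A ι RX : Type) : Type := (ℕ × RI A ι RX) ⊕ (ℕ × RQ A ι RX)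

variable (T) in
/-- decoding of `D` -/
def decD (e : ℕ) (_ : σ) (u : RD ι) : DG (T e).L := (T e).dval u

variable (T decX) in
/-- decoding of `P(X)` as a family -/
def decPe (_ : ℕ) (s : σ) (r : RP A RX) : P A (X s) := decP decX s r

variable (T decX) in
/-- decoding of `Q` -/
abbrev decQ (e : ℕ) (s : σ) : RQ A ι RX → DG (T e).L × P A (X s) :=
  dprod (decD T) (decPe decX) e s

variable (T decX) in
/-- decoding of `Ind` -/
noncomputable def decI (e : ℕ) (s : σ) (z : RI A ι RX) :
    Ind (SG (T e).L (T e).ε) (sQ (T e).ok (T e).hκ (X s)) :=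
  mkI _ _ ((T e).dval z.1) (decQ decX T e s z.2)

variable (T decX) in
/-- decoding of `YY` -/
noncomputable abbrev decY (e : ℕ) (s : σ) : RY A ι RX → YY (T e).ok (T e).hκ (X s) :=
  dsum (dprod (fun _ _ (n : ℕ) => n) (decI decX T)) (dprod (fun _ _ (n : ℕ) => n) (decQ decX T)) e s

/-! ### the codings -/

theorem lay_D (hT : WtC T) : Lay orc (Y := fun e (_ : σ) => DG (T e).L) (decD T) where
  eq := by
    refine (ORE.re (re_comp hT.one (f := fun x : ℕ × RD ι × RD ι =>
      (x.1, FreeGroup.invRev x.2.1 ++ x.2.2)) ?_)).congr fun s x => ?_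
    · exact Computable.fst.pair (Computable.list_append.comp ((computable_inv _).comp
        (Computable.fst.comp Computable.snd)) (Computable.snd.comp Computable.snd))
    · simp only [decD]
      rw [Wt.dval_append, Wt.dval_inv, inv_mul_eq_one]
  ne := by
    refine (ORE.re (re_comp hT.ne (f := fun x : ℕ × RD ι × RD ι =>
      (x.1, FreeGroup.invRev x.2.1 ++ x.2.2)) ?_)).congr fun s x => ?_
    · exact Computable.fst.pair (Computable.list_append.comp ((computable_inv _).comp
        (Computable.fst.comp Computable.snd)) (Computable.snd.comp Computable.snd))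
    · simp only [decD]
      rw [Wt.dval_append, Wt.dval_inv, ne_eq, ne_eq, inv_mul_eq_one]

theorem lay_P (h1 : ORE orc fun s (x : RX × RX) => decX s x.1 = decX s x.2)
    (h2 : ORE orc fun s (x : RX × RX) => decX s x.1 ≠ decX s x.2) :
    Lay orc (ε := ℕ) (Y := fun _ s => P A (X s)) (decPe decX) where
  eq := (ore_eqP (A := A) decX h1).comp (f := fun x : ℕ × RP A RX × RP A RX => x.2)
    Computable.snd
  ne := (ore_neP (A := A) decX h2).comp (f := fun x : ℕ × RP A RX × RP A RX => x.2)
    Computable.snd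

theorem lay_Q (hT : WtC T) (h1 : ORE orc fun s (x : RX × RX) => decX s x.1 = decX s x.2)
    (h2 : ORE orc fun s (x : RX × RX) => decX s x.1 ≠ decX s x.2) :
    Lay orc (Y := fun e s => DG (T e).L × P A (X s)) (decQ decX T) :=
  (lay_D hT).prod (lay_P h1 h2)

/-- the action of `S` on `Q` on raw points -/
theorem rr_star (hT : WtC T) (ha : Computable aX)
    (haX : ∀ s w r, decX s (aX (w, r)) = FreeGroup.mk w • decX s r) :
    RR orc (fun _ x => (T x.1).dval x.2.1 ∈ (T x.1).SS)
      (fun s (x : ℕ × RD ι × RQ A ι RX) r' =>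
      ∀ h : (T x.1).dval x.2.1 ∈ (T x.1).SS, decQ decX T x.1 s r' =
        sQ (T x.1).ok (T x.1).hκ (X s) ⟨_, h⟩ (decQ decX T x.1 s x.2.2)) := by
  have h1 := (rr_chiS (orc := orc) (decX := decX) hT ha haX).comp
    (f := fun x : ℕ × RD ι × RQ A ι RX => (x.1, x.2.1, x.2.2.2)) (by cpt)
  refine RR.map (F := fun y : (ℕ × RD ι × RQ A ι RX) × RP A RX =>
    (y.1.2.1 ++ y.1.2.2.1, y.2)) h1 (by cpt) ?_
  rintro s ⟨e, u, z, p⟩ p' hd h2 h
  have h3 := h2 h
  simp only at h3 h ⊢
  simp only [Prod.map_apply, decD, decPe, starQ_apply] at h3 ⊢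
  rw [Wt.dval_append, h3]

theorem lay_I (hT : WtC T) (ha : Computable aX)
    (haX : ∀ s w r, decX s (aX (w, r)) = FreeGroup.mk w • decX s r)
    (h1 : ORE orc fun s (x : RX × RX) => decX s x.1 = decX s x.2)
    (h2 : ORE orc fun s (x : RX × RX) => decX s x.1 ≠ decX s x.2) :
    Lay orc (Y := fun e s => Ind (SG (T e).L (T e).ε) (sQ (T e).ok (T e).hκ (X s)))
      (decI decX T) := by
  -- the element of `S`
  let g : ℕ × RI A ι RX × RI A ι RX → RD ι := fun x => FreeGroup.invRev x.2.2.1 ++ x.2.1.1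
  have cg : Computable g := Computable.list_append.comp ((computable_inv _).comp (by cpt))
    (by cpt)
  have hin : ORE orc fun (_ : σ) (x : ℕ × RI A ι RX × RI A ι RX) =>
      (T x.1).dval (g x) ∈ (T x.1).SS :=
    ORE.re (re_comp hT.inS (f := fun x : ℕ × RI A ι RX × RI A ι RX => (x.1, g x))
      (Computable.fst.pair cg))
  have hout : ORE orc fun (_ : σ) (x : ℕ × RI A ι RX × RI A ι RX) =>
      (T x.1).dval (g x) ∉ (T x.1).SS :=
    ORE.re (re_comp hT.ninS (f := fun x : ℕ × RI A ι RX × RI A ι RX => (x.1, g x))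
      (Computable.fst.pair cg))
  have hs := (rr_star (orc := orc) (decX := decX) hT ha haX).comp
    (f := fun x : ℕ × RI A ι RX × RI A ι RX => (x.1, g x, x.2.1.2))
    (Computable.fst.pair (cg.pair (by cpt)))
  have key : ∀ s (x : ℕ × RI A ι RX × RI A ι RX) (q : RQ A ι RX)
      (h : (T x.1).dval (g x) ∈ (T x.1).SS), decQ decX T x.1 s q =
        sQ (T x.1).ok (T x.1).hκ (X s) ⟨_, h⟩ (decQ decX T x.1 s x.2.1.2) →
      (decQ decX T x.1 s x.2.2.2 = decQ decX T x.1 s q ↔
        decI decX T x.1 s x.2.1 = decI decX T x.1 s x.2.2) := by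
    intro s x q h hq
    unfold decI
    rw [mkI_eq, hq]
    have hg : (T x.1).dval (g x) = ((T x.1).dval x.2.2.1)⁻¹ * (T x.1).dval x.2.1.1 := by
      simp only [g]; rw [Wt.dval_append, Wt.dval_inv]
    constructor
    · intro h3
      refine ⟨⟨_, h⟩, ?_, h3⟩
      simp only [hg]; group
    · rintro ⟨⟨d, hd⟩, h3, h4⟩
      have h5 : d = (T x.1).dval (g x) := by
        rw [hg, h3]; simp
      subst h5
      exact h4
  have key2 : ∀ s (x : ℕ × RI A ι RX × RI A ι RX),
      decI decX T x.1 s x.2.1 = decI decX T x.1 s x.2.2 → (T x.1).dval (g x) ∈ (T x.1).SS := by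
    intro s x h
    unfold decI at h
    rw [mkI_eq] at h
    obtain ⟨⟨d, hd⟩, h3, h4⟩ := h
    have hg : (T x.1).dval (g x) = d := by
      simp only [g]; rw [Wt.dval_append, Wt.dval_inv, h3]; simp
    rw [hg]; exact hd
  have hQ := lay_Q (orc := orc) (T := T) hT h1 h2
  constructor
  · have h3 := hs.test (Z := fun s (x : ℕ × RI A ι RX × RI A ι RX) =>
      decI decX T x.1 s x.2.1 = decI decX T x.1 s x.2.2)
      (q := fun s y => decQ decX T y.1.1 s y.1.2.2.2 = decQ decX T y.1.1 s y.2) hin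
      (hQ.eq.comp (f := fun y : (ℕ × RI A ι RX × RI A ι RX) × RQ A ι RX =>
        (y.1.1, y.1.2.2.2, y.2)) (by cpt))
      (fun s x q hd h4 => key s x q hd (h4 hd))
    exact h3.congr fun s x => ⟨fun h => ⟨key2 s x h, h⟩, fun h => h.2⟩
  · have h3 := hs.test (Z := fun s (x : ℕ × RI A ι RX × RI A ι RX) =>
      decI decX T x.1 s x.2.1 ≠ decI decX T x.1 s x.2.2)
      (q := fun s y => decQ decX T y.1.1 s y.1.2.2.2 ≠ decQ decX T y.1.1 s y.2) hin
      (hQ.ne.comp (f := fun y : (ℕ × RI A ι RX × RI A ι RX) × RQ A ι RX =>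
        (y.1.1, y.1.2.2.2, y.2)) (by cpt))
      (fun s x q hd h4 => not_congr (key s x q hd (h4 hd)))
    refine (hout.or h3).congr fun s x => ?_
    constructor
    · intro h
      by_cases hd : (T x.1).dval (g x) ∈ (T x.1).SS
      · exact Or.inr ⟨hd, h⟩
      · exact Or.inl hd
    · rintro (h | h)
      · exact fun h4 => h (key2 s x h4)
      · exact h.2

theorem lay_Y (hT : WtC T) (ha : Computable aX)
    (haX : ∀ s w r, decX s (aX (w, r)) = FreeGroup.mk w • decX s r)
    (h1 : ORE orc fun s (x : RX × RX) => decX s x.1 = decX s x.2)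
    (h2 : ORE orc fun s (x : RX × RX) => decX s x.1 ≠ decX s x.2) :
    Lay orc (Y := fun e s => YY (T e).ok (T e).hκ (X s)) (decY decX T) :=
  (Lay.const.prod (lay_I hT ha haX h1 h2)).sum (Lay.const.prod (lay_Q hT h1 h2))

end Crest.Agent.R185.She
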