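import Crest.Agent.R185.She3

/-!
# R185, block H3, the sheet layer (4): the letters on `YY`
-/

set_option autoImplicit false
set_option linter.unusedSectionVars false

namespace Crest.Agent.R185.She

open Equiv Crest.Agent.R292 Crest.Agent.R185.Re Crest.Agent.R185.Ev Crest.Agent.R185.Md191A
  Crest.Agent.R185.Md191B Crest.Agent.R185.Md191C Crest.Agent.R185.Md191D Crest.Agent.R185.Md191E

variable {σ W A ι RX : Type} [Primcodable W] [Primcodable A] [Primcodable ι] [Primcodable RX]
  {orc : σ → W → Prop} {X : σ → Type} [∀ s, MulAction (FreeGroup A) (X s)] {decX : ∀ s, RX → X s}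
  {aX : List (A × Bool) × RX → RX} {T : ℕ → Wt A ι}

/-! ### the letters of `D` -/

theorem rlz_d (u : RD ι) : Rlz orc (decY decX T) (decY decX T)
    (fun e s => dYY (T e).ok (T e).hκ (X s) ((T e).dval u)) := by
  unfold Rlz
  apply RR.sum
  · refine RR.fn (F := fun x : ℕ × (ℕ × RI A ι RX) =>
      (Sum.inl (x.2.1, (u ++ x.2.2.1, x.2.2.2)) : RY A ι RX)) (by cpt) ?_
    rintro s ⟨e, n, x, q⟩ _
    change Sum.inl (n, mkI _ _ ((T e).dval (u ++ x)) (decQ decX T e s q)) = _
    rw [Wt.dval_append]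
    rfl
  · refine RR.fn (F := fun x : ℕ × (ℕ × RQ A ι RX) =>
      (Sum.inr (x.2.1, (u ++ x.2.2.1, x.2.2.2)) : RY A ι RX)) (by cpt) ?_
    rintro s ⟨e, n, z, p⟩ _
    change Sum.inr (n, ((T e).dval (u ++ z), decPe decX e s p)) = _
    rw [Wt.dval_append]
    rfl

/-! ### the payload letters -/

theorem rlz_j {j : ∀ s, Perm (P A (X s))}
    (h : RR orc (fun _ _ => True) (fun s (r : RP A RX) r' =>
      decP decX s r' = j s (decP decX s r))) : Rlz orc (decY decX T) (decY decX T)
    (fun e s => jYY (T e).ok (T e).hκ (X s) (j s)) := by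
  unfold Rlz
  apply RR.sum
  · refine RR.fn (F := fun x : ℕ × (ℕ × RI A ι RX) => (Sum.inl x.2 : RY A ι RX)) (by cpt) ?_
    rintro s ⟨e, n, x, q⟩ _
    rfl
  · apply RR.nat
    · have h1 := h.comp (f := fun x : ℕ × RQ A ι RX => x.2.2) (by cpt)
      refine RR.map (F := fun y : (ℕ × RQ A ι RX) × RP A RX =>
        (Sum.inr (0, (y.1.2.1, y.2)) : RY A ι RX)) h1 (by cpt) ?_
      rintro s ⟨e, z, p⟩ p' _ h2
      change Sum.inr (0, ((T e).dval z, decP decX s p')) = _
      simp only at h2
      rw [h2]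
      rfl
    · refine RR.fn (F := fun x : ℕ × ℕ × RQ A ι RX =>
        (Sum.inr (x.2.1 + 1, x.2.2) : RY A ι RX)) (by cpt) ?_
      rintro s ⟨e, n, q⟩ _
      rfl

/-! ### the shift -/

theorem ore_inS (hT : WtC T) {α : Type} [Primcodable α] {f : α → ℕ} {g : α → RD ι}
    (hf : Computable f) (hg : Computable g) :
    ORE orc fun (_ : σ) (x : α) => (T (f x)).dval (g x) ∈ (T (f x)).SS :=
  ORE.re (re_comp hT.inS (f := fun x : α => (f x, g x)) (hf.pair hg))

theorem ore_ninS (hT : WtC T) {α : Type} [Primcodable α] {f : α → ℕ} {g : α → RD ι}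
    (hf : Computable f) (hg : Computable g) :
    ORE orc fun (_ : σ) (x : α) => (T (f x)).dval (g x) ∉ (T (f x)).SS :=
  ORE.re (re_comp hT.ninS (f := fun x : α => (f x, g x)) (hf.pair hg))

theorem rlz_s (hT : WtC T) (ha : Computable aX)
    (haX : ∀ s w r, decX s (aX (w, r)) = FreeGroup.mk w • decX s r) :
    Rlz orc (decY decX T) (decY decX T) (fun e s => sYY (T e).ok (T e).hκ (X s)) := by
  unfold Rlz
  apply RR.sum
  · apply RR.nat
    · refine RR.cases (c1 := fun _ x => (T x.1).dval x.2.1 ∈ (T x.1).SS)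
        (c2 := fun _ x => (T x.1).dval x.2.1 ∉ (T x.1).SS) (ore_inS hT (by cpt) (by cpt))
        (ore_ninS hT (by cpt) (by cpt)) (fun _ _ _ => em _) ?_ ?_
      · have h1 := (rr_star (orc := orc) (decX := decX) hT ha haX).comp
          (f := fun x : ℕ × RI A ι RX => (x.1, x.2.1, x.2.2)) (by cpt)
        refine RR.map (F := fun y : (ℕ × RI A ι RX) × RQ A ι RX =>
          (Sum.inr (0, y.2) : RY A ι RX)) (h1.mono (fun _ _ h => h.2) (fun _ _ _ _ h => h))
          (by cpt) ?_
        rintro s ⟨e, x, q⟩ q' ⟨-, hx⟩ h2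
        change Sum.inr (0, decQ decX T e s q') =
          sh _ _ (Sum.inl (0, mkI _ _ ((T e).dval x) (decQ decX T e s q)))
        simp only at hx h2
        rw [sh_zero _ _ hx, h2 hx]
      · refine RR.fn (F := fun x : ℕ × RI A ι RX => (Sum.inl (0, x.2) : RY A ι RX)) (by cpt) ?_
        rintro s ⟨e, x, q⟩ ⟨-, hx⟩
        exact (sh_else _ _ hx 0 _).symm
    · refine RR.cases (c1 := fun _ x => (T x.1).dval x.2.2.1 ∈ (T x.1).SS)
        (c2 := fun _ x => (T x.1).dval x.2.2.1 ∉ (T x.1).SS) (ore_inS hT (by cpt) (by cpt))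
        (ore_ninS hT (by cpt) (by cpt)) (fun _ _ _ => em _) ?_ ?_
      · refine RR.fn (F := fun x : ℕ × ℕ × RI A ι RX => (Sum.inl (x.2.1, x.2.2) : RY A ι RX))
          (by cpt) ?_
        rintro s ⟨e, n, x, q⟩ ⟨-, hx⟩
        exact (sh_succ _ _ hx n _).symm
      · refine RR.fn (F := fun x : ℕ × ℕ × RI A ι RX => (Sum.inl (x.2.1 + 1, x.2.2) : RY A ι RX))
          (by cpt) ?_
        rintro s ⟨e, n, x, q⟩ ⟨-, hx⟩
        exact (sh_else _ _ hx (n + 1) _).symm
  · refine RR.fn (F := fun x : ℕ × (ℕ × RQ A ι RX) => (Sum.inr (x.2.1 + 1, x.2.2) : RY A ι RX))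
      (by cpt) ?_
    rintro s ⟨e, n, q⟩ _
    rfl

theorem rlz_s_inv (hT : WtC T) :
    Rlz orc (decY decX T) (decY decX T) (fun e s =>
      ((sYY (T e).ok (T e).hκ (X s))⁻¹ : Perm (YY (T e).ok (T e).hκ (X s)))) := by
  unfold Rlz
  apply RR.sum
  · refine RR.cases (c1 := fun _ x => (T x.1).dval x.2.2.1 ∈ (T x.1).SS)
        (c2 := fun _ x => (T x.1).dval x.2.2.1 ∉ (T x.1).SS) (ore_inS hT (by cpt) (by cpt))
        (ore_ninS hT (by cpt) (by cpt)) (fun _ _ _ => em _) ?_ ?_
    · refine RR.fn (F := fun x : ℕ × (ℕ × RI A ι RX) =>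
        (Sum.inl (x.2.1 + 1, x.2.2) : RY A ι RX)) (by cpt) ?_
      rintro s ⟨e, n, x, q⟩ ⟨-, hx⟩
      exact (sh_inv_inl _ _ hx n _).symm
    · refine RR.fn (F := fun x : ℕ × (ℕ × RI A ι RX) => (Sum.inl (x.2.1, x.2.2) : RY A ι RX))
        (by cpt) ?_
      rintro s ⟨e, n, x, q⟩ ⟨-, hx⟩
      exact (sh_inv_else _ _ hx n _).symm
  · apply RR.nat
    · refine RR.fn (F := fun x : ℕ × RQ A ι RX =>
        (Sum.inl (0, (([] : RD ι), x.2)) : RY A ι RX)) (by cpt) ?_
      rintro s ⟨e, q⟩ _
      change Sum.inl (0, mkI _ _ ((T e).dval []) (decQ decX T e s q)) = _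
      rw [Wt.dval_nil]
      rfl
    · refine RR.fn (F := fun x : ℕ × ℕ × RQ A ι RX => (Sum.inr (x.2.1, x.2.2) : RY A ι RX))
        (by cpt) ?_
      rintro s ⟨e, n, q⟩ _
      rfl

/-! ### all letters -/

theorem dval_single (T : Wt A ι) (a : Option ι) (b : Bool) :
    T.dval [(a, b)] = cond b (T.dl a) (T.dl a)⁻¹ := by
  unfold Wt.dval
  rw [lift_mk_single]

theorem rpm_Y (hT : WtC T) (ha : Computable aX)
    (haX : ∀ s w r, decX s (aX (w, r)) = FreeGroup.mk w • decX s r) (a : UL ι A) :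
    RPm orc (decY decX T) (fun e s => lY (T e).ok (T e).hκ (T e).gen (X s) a) := by
  obtain ⟨one, h1, h2⟩ := exists_one A
  rcases a with i | _ | _ | a | a | _
  · constructor
    · refine (rlz_d (orc := orc) (decX := decX) (T := T) [(some i, true)]).congr fun e s r => ?_
      rw [dval_single]; rfl
    · refine (rlz_d (orc := orc) (decX := decX) (T := T) [(some i, false)]).congr fun e s r => ?_
      change (dYY (T e).ok (T e).hκ (X s) (hD (T e).L ((T e).gen (FreeGroup.of i))))⁻¹ _ = _
      rw [← map_inv (dYY (T e).ok (T e).hκ (X s)), dval_single]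
      rfl
  · constructor
    · refine (rlz_d (orc := orc) (decX := decX) (T := T) [(none, true)]).congr fun e s r => ?_
      rw [dval_single]; rfl
    · refine (rlz_d (orc := orc) (decX := decX) (T := T) [(none, false)]).congr fun e s r => ?_
      change (dYY (T e).ok (T e).hκ (X s) (kD (T e).L))⁻¹ _ = _
      rw [← map_inv, dval_single]
      rfl
  · exact ⟨rlz_s hT ha haX, rlz_s_inv hT⟩
  · constructor
    · refine rlz_j (j := fun s => bp A (X s) (FreeGroup.of a)) ?_
      refine RR.fn (F := fun r : RP A RX => bpR (a, true) r)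
        (computable_bpR (Computable.const _) Computable.id) fun s r _ => ?_
      rw [decP_bpR]; rfl
    · refine (rlz_j (T := T) (j := fun s => (bp A (X s) (FreeGroup.of a))⁻¹) ?_).congr
        fun e s r => ?_
      · refine RR.fn (F := fun r : RP A RX => bpR (a, false) r)
          (computable_bpR (Computable.const _) Computable.id) fun s r _ => ?_
        rw [decP_bpR, ← map_inv]; rfl
      · change (jYY (T e).ok (T e).hκ (X s) (bp A (X s) (FreeGroup.of a)))⁻¹ _ = _
        rw [← map_inv]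
  · have hg := rr_ga (orc := orc) (A := A) (decX := decX) ha haX
    constructor
    · refine rlz_j (j := fun s => ga A (X s) (FreeGroup.of a)) ?_
      exact (hg.comp (f := fun r : RP A RX => ((a, true), r)) (by cpt)).mono
        (fun _ _ _ => trivial) (fun s r r' _ h => h)
    · refine (rlz_j (T := T) (j := fun s => (ga A (X s) (FreeGroup.of a))⁻¹) ?_).congr
        fun e s r => ?_
      · refine (hg.comp (f := fun r : RP A RX => ((a, false), r)) (by cpt)).mono
          (fun _ _ _ => trivial) (fun s r r' _ h => ?_)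
        rw [h, ← map_inv]; rfl
      · change (jYY (T e).ok (T e).hκ (X s) (ga A (X s) (FreeGroup.of a)))⁻¹ _ = _
        rw [← map_inv]
  · constructor
    · refine rlz_j (j := fun s => dd A (X s)) ?_
      refine RR.fn (F := fun r : RP A RX => ddR one true r)
        (computable_ddR h1 (Computable.const _) Computable.id) fun s r _ => ?_
      rw [decP_ddR decX h2]; rfl
    · refine (rlz_j (T := T) (j := fun s => (dd A (X s))⁻¹) ?_).congr fun e s r => ?_
      · refine RR.fn (F := fun r : RP A RX => ddR one false r)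
          (computable_ddR h1 (Computable.const _) Computable.id) fun s r _ => ?_
        rw [decP_ddR decX h2]; rfl
      · change (jYY (T e).ok (T e).hκ (X s) (dd A (X s)))⁻¹ _ = _
        rw [← map_inv]

/-! ### the base point -/

/-- raw base point -/
def rY0 (x : RX) : RY A ι RX := Sum.inr (0, (([] : RD ι), (([] : List (A × Bool)), (0, 0), x)))

theorem decY_rY0 (e : ℕ) (s : σ) (x : RX) :
    decY decX T e s (rY0 x) = Md191E.th (T e).ok (T e).hκ (X s) (decX s x) := by
  change Sum.inr (0, ((T e).dval [], decP decX s ([], (0, 0), x))) = _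
  rw [Wt.dval_nil]
  rfl

end Crest.Agent.R185.She
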