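import Crest.Agent.R185.She4
import Crest.Agent.R185.Asm3

/-!
# R185, block H3, the sheet layer (5): `X = FreeGroup A ⧸ S`
-/

set_option autoImplicit false
set_option linter.unusedSectionVars false
set_option linter.style.haveILetI false

namespace Crest.Agent.R185.She

open Equiv Crest.Agent.R292 Crest.Agent.R185.Re Crest.Agent.R185.Ev Crest.Agent.R185.Md191A
  Crest.Agent.R185.Md191B Crest.Agent.R185.Md191C Crest.Agent.R185.Md191D Crest.Agent.R185.Md191E
  Crest.Agent.R185.Asm

variable {A ι : Type} [Primcodable A] [Primcodable ι]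

/-- the oracle -/
abbrev orcS (A : Type) : Subgroup (FreeGroup A) → List (A × Bool) → Prop :=
  fun s w => FreeGroup.mk w ∈ s

/-- `strip` of one letter -/
def str1 (x : Option (A × Bool) × Bool) : List (A × Bool) :=
  Option.casesOn x.1 [] (fun p => [(p.1, !(xor p.2 x.2))])

/-- `strip` on raw words -/
def strR (w : List (Option (A × Bool) × Bool)) : List (A × Bool) := w.flatMap str1

theorem computable_str1 : Computable (str1 (A := A)) := by
  unfold str1
  refine Computable.option_casesOn (o := fun x : Option (A × Bool) × Bool => x.1)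
    (f := fun _ => []) (g := fun x p => [(p.1, !(xor p.2 x.2))]) Computable.fst
    (Computable.const []) ?_
  have h1 : Computable fun y : (Option (A × Bool) × Bool) × (A × Bool) => y.2.1 := by cpt
  have h2 : Computable fun y : (Option (A × Bool) × Bool) × (A × Bool) => y.2.2 := by cpt
  have h3 : Computable fun y : (Option (A × Bool) × Bool) × (A × Bool) => y.1.2 := by cpt
  have hx : Computable fun b : Bool × Bool => !(xor b.1 b.2) :=
    (Primrec.dom_finite (fun b : Bool × Bool => !(xor b.1 b.2))).to_comp
  exact Computable.list_cons.comp (h1.pair (Computable.comp (f := fun b : Bool × Bool =>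
    !(xor b.1 b.2)) (g := fun y : (Option (A × Bool) × Bool) × (A × Bool) => (y.2.2, y.1.2))
    hx (h2.pair h3))) (Computable.const [])

theorem computable_strR : Computable (strR (A := A)) :=
  computable_flatMap (f := fun w : List (Option (A × Bool) × Bool) => w)
    (g := fun _ x => str1 x) Computable.id (computable_str1.comp Computable.snd)

omit [Primcodable A] in
theorem strip_str1 (x : Option (A × Bool) × Bool) :
    strip A (FreeGroup.mk [x]) = FreeGroup.mk (str1 x) := by
  obtain ⟨o, b⟩ := x
  unfold strip
  rw [lift_mk_single]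
  rcases o with _ | ⟨a, c⟩
  · cases b <;> simp [str1, ← FreeGroup.one_eq_mk]
  · cases b <;> cases c <;> simp [str1, FreeGroup.inv_mk, FreeGroup.invRev]

omit [Primcodable A] in
theorem strip_strR (w : List (Option (A × Bool) × Bool)) :
    strip A (FreeGroup.mk w) = FreeGroup.mk (strR w) := by
  induction w with
  | nil => exact map_one _
  | cons x w ih =>
    rw [mk_cons, map_mul, ih, strip_str1, FreeGroup.mul_mk]
    rfl

/-- decoding of `XS` -/
def decXS (S : Subgroup (FreeGroup A)) (w : List (A × Bool)) : XS S :=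
  ((FreeGroup.mk w : FreeGroup A) : FreeGroup A ⧸ S)

/-- raw action -/
def aXS (x : List (Option (A × Bool) × Bool) × List (A × Bool)) : List (A × Bool) :=
  strR x.1 ++ x.2

theorem computable_aXS : Computable (aXS (A := A)) := by
  unfold aXS
  exact Computable.list_append.comp (computable_strR.comp Computable.fst) Computable.snd

omit [Primcodable A] in
theorem decXS_aXS (S : Subgroup (FreeGroup A)) (w : List (Option (A × Bool) × Bool))
    (r : List (A × Bool)) :
    letI := actS A (XS S)
    decXS S (aXS (w, r)) = FreeGroup.mk w • decXS S r := by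
  letI := actS A (XS S)
  change ((FreeGroup.mk (strR w ++ r) : FreeGroup A) : FreeGroup A ⧸ S) =
    ((strip A (FreeGroup.mk w) * FreeGroup.mk r : FreeGroup A) : FreeGroup A ⧸ S)
  rw [strip_strR, FreeGroup.mul_mk]

omit [Primcodable A] in
theorem decXS_eq (S : Subgroup (FreeGroup A)) (r r' : List (A × Bool)) :
    decXS S r = decXS S r' ↔ orcS A S (FreeGroup.invRev r ++ r') := by
  change ((FreeGroup.mk r : FreeGroup A) : FreeGroup A ⧸ S) = _ ↔ _
  rw [decXS, QuotientGroup.eq, FreeGroup.inv_mk, FreeGroup.mul_mk]

theorem ore_eqXS : ORE (orcS A) fun s (x : List (A × Bool) × List (A × Bool)) =>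
    decXS s x.1 = decXS s x.2 :=
  (ORE.query (orc := orcS A) (f := fun x : List (A × Bool) × List (A × Bool) =>
    FreeGroup.invRev x.1 ++ x.2) (Computable.list_append.comp
      ((computable_inv A).comp Computable.fst) Computable.snd)).congr
    fun s x => decXS_eq s x.1 x.2

theorem ore_neXS : ORE (orcS A) fun s (x : List (A × Bool) × List (A × Bool)) =>
    decXS s x.1 ≠ decXS s x.2 :=
  (ORE.nquery (orc := orcS A) (f := fun x : List (A × Bool) × List (A × Bool) =>
    FreeGroup.invRev x.1 ++ x.2) (Computable.list_append.comp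
      ((computable_inv A).comp Computable.fst) Computable.snd)).congr
    fun s x => not_congr (decXS_eq s x.1 x.2)

variable (T : ℕ → Wt (Option (A × Bool)) ι)

/-- raw points of `YS` -/
abbrev RYS (A ι : Type) : Type := RY (Option (A × Bool)) ι (List (A × Bool))

/-- decoding of `YS` -/
noncomputable def decYS (e : ℕ) (S : Subgroup (FreeGroup A)) :
    RYS A ι → YS (T e).ok (T e).hκ S :=
  @decY (Subgroup (FreeGroup A)) (Option (A × Bool)) ι (List (A × Bool)) (fun S => XS S)
    (fun S => actS A (XS S)) (fun S => decXS S) T e S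

variable {T}

/-- **the coding of `YS`** -/
theorem lay_YS (hT : WtC T) : Lay (orcS A) (Y := fun e S => YS (T e).ok (T e).hκ S) (decYS T) :=
  @lay_Y (Subgroup (FreeGroup A)) (List (A × Bool)) (Option (A × Bool)) ι (List (A × Bool)) _ _ _
    _ (orcS A) (fun S => XS S) (fun S => actS A (XS S)) (fun S => decXS S) aXS T hT computable_aXS
    (fun S w r => decXS_aXS S w r) ore_eqXS ore_neXS

/-- **the letters** -/
theorem rpm_YS (hT : WtC T) (a : UL ι (Option (A × Bool))) :
    RPm (orcS A) (decYS T) (fun e S => @lY (Option (A × Bool)) (T e).H ι (T e).grp (T e).L (T e).ε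
      (T e).Acc (T e).κ (T e).ok (T e).hκ (T e).gen (XS S) (actS A (XS S)) a) :=
  @rpm_Y (Subgroup (FreeGroup A)) (List (A × Bool)) (Option (A × Bool)) ι (List (A × Bool)) _ _ _
    _ (orcS A) (fun S => XS S) (fun S => actS A (XS S)) (fun S => decXS S) aXS T hT computable_aXS
    (fun S w r => decXS_aXS S w r) a

/-- **the letters**, `lYS` form -/
theorem rpm_lYS (hT : WtC T) (V : ∀ e, WitFP (T e).L (T e).ε (T e).Acc ι)
    (hV : ∀ e, (V e).gen = (T e).gen) (a : UL ι (Option (A × Bool))) :
    RPm (orcS A) (decYS T) (fun e S => lYS (V e) (T e).ok (T e).hκ S a) := by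
  have h : (fun e S => lYS (V e) (T e).ok (T e).hκ S a) = (fun e (S : Subgroup (FreeGroup A)) =>
      @lY (Option (A × Bool)) (T e).H ι (T e).grp (T e).L (T e).ε
      (T e).Acc (T e).κ (T e).ok (T e).hκ (T e).gen (XS S) (actS A (XS S)) a) := by
    funext e S
    rw [← hV e]
    rfl
  rw [h]
  exact rpm_YS hT a

/-- **the base point** -/
theorem decYS_r0 (e : ℕ) (S : Subgroup (FreeGroup A)) :
    decYS T e S (rY0 ([] : List (A × Bool))) = yS (T e).ok (T e).hκ S :=
  @decY_rY0 (Subgroup (FreeGroup A)) (Option (A × Bool)) ι (List (A × Bool)) _ _ _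
    (fun S => XS S) (fun S => actS A (XS S)) (fun S => decXS S) T e S []

end Crest.Agent.R185.She
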