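import Mathlib

/-!
# R185 / SMP (1): graded partial injections

`R : ℕ → Y → Y' → Prop` is a *graded partial injection* (`GPI`) if `R m` preserves equality and
`R (m+1) ≤ R m`.  A pair of maps is a *step* if it sends `R (m+1)` into `R m`.  Two tuples have the
same `n`-type iff they are related by a graded partial injection of depth `n` all letters of which
are steps.
-/

set_option autoImplicit false

namespace Crest.Agent.R185.Smp

/-- the relation preserves and reflects equality -/
def PI {Y Y' : Type} (r : Y → Y' → Prop) : Prop :=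
  ∀ y y' z z', r y y' → r z z' → (y = z ↔ y' = z')

/-- graded partial injection -/
structure GPI {Y Y' : Type} (R : ℕ → Y → Y' → Prop) : Prop where
  inj : ∀ m, PI (R m)
  mono : ∀ {m y y'}, R (m + 1) y y' → R m y y'

/-- a step of a graded relation -/
def Stp {Y Y' : Type} (R : ℕ → Y → Y' → Prop) (f : Y → Y) (f' : Y' → Y') : Prop :=
  ∀ m y y', R (m + 1) y y' → R m (f y) (f' y')

/-- a pair of constants of a graded relation -/
def Cst {Y Y' : Type} (R : ℕ → Y → Y' → Prop) (c : Y) (c' : Y') : Prop :=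
  ∀ m y y', R m y y' → R m c c'

section basics

variable {Y Y' : Type} {R : ℕ → Y → Y' → Prop}

theorem PI.flip {r : Y → Y' → Prop} (h : PI r) : PI (fun y' y => r y y') :=
  fun y y' z z' h1 h2 => (h y' y z' z h1 h2).symm

theorem GPI.flip (h : GPI R) : GPI (fun m y' y => R m y y') :=
  ⟨fun m => (h.inj m).flip, fun h1 => h.mono h1⟩

theorem GPI.mono_le (h : GPI R) {m n : ℕ} (hmn : m ≤ n) {y : Y} {y' : Y'} (h1 : R n y y') :
    R m y y' := by
  induction hmn with
  | refl => exact h1
  | step _ ih => exact ih (h.mono h1)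

theorem Stp.comp {f g : Y → Y} {f' g' : Y' → Y'} (_hf : Stp R f f') (_hg : Stp R g g') :
    ∀ m y y', R (m + 2) y y' → R m (f (g y)) (f' (g' y')) :=
  fun m y y' h1 => _hf m _ _ (_hg (m + 1) _ _ h1)

open Classical in
theorem Stp.swap (h : GPI R) {a b : Y} {a' b' : Y'} (ha : Cst R a a') (hb : Cst R b b') :
    Stp R (Equiv.swap a b) (Equiv.swap a' b') := by
  intro m y y' h1
  have ha1 := ha _ _ _ h1
  have hb1 := hb _ _ _ h1
  by_cases h2 : y = a
  · have h3 : y' = a' := (h.inj _ _ _ _ _ h1 ha1).1 h2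
    rw [h2, h3, Equiv.swap_apply_left, Equiv.swap_apply_left]
    exact h.mono hb1
  · have h3 : y' ≠ a' := fun h3 => h2 ((h.inj _ _ _ _ _ h1 ha1).2 h3)
    by_cases h4 : y = b
    · have h5 : y' = b' := (h.inj _ _ _ _ _ h1 hb1).1 h4
      rw [h4, h5, Equiv.swap_apply_right, Equiv.swap_apply_right]
      exact h.mono ha1
    · have h5 : y' ≠ b' := fun h5 => h4 ((h.inj _ _ _ _ _ h1 hb1).2 h5)
      rw [Equiv.swap_apply_of_ne_of_ne h2 h4, Equiv.swap_apply_of_ne_of_ne h3 h5]
      exact h.mono h1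

theorem Stp.id (h : GPI R) : Stp R (fun y => y) (fun y' => y') := fun _ _ _ h1 => h.mono h1

end basics

/-! ### words -/

section words

variable {A Y Y' : Type}

/-- evaluation of a word of letters -/
def ev (act : A → Y → Y) (w : List A) (y : Y) : Y := w.foldr act y

@[simp] theorem ev_nil (act : A → Y → Y) (y : Y) : ev act [] y = y := rfl

@[simp] theorem ev_cons (act : A → Y → Y) (a : A) (w : List A) (y : Y) :
    ev act (a :: w) y = act a (ev act w y) := rfl

theorem ev_append (act : A → Y → Y) (u w : List A) (y : Y) :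
    ev act (u ++ w) y = ev act u (ev act w y) := by
  unfold ev
  rw [List.foldr_append]

theorem ev_stp {act : A → Y → Y} {act' : A → Y' → Y'} {R : ℕ → Y → Y' → Prop}
    (hs : ∀ a, Stp R (act a) (act' a)) (w : List A) :
    ∀ m y y', R (w.length + m) y y' → R m (ev act w y) (ev act' w y') := by
  induction w with
  | nil => intro m y y' h; simpa using h
  | cons a w ih =>
    intro m y y' h
    rw [ev_cons, ev_cons]
    apply hs a
    apply ih
    convert h using 1
    simp [add_comm, add_left_comm]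

/-- the letters have inverses -/
structure Inv (act : A → Y → Y) (ia : A → A) : Prop where
  left : ∀ a y, act (ia a) (act a y) = y
  right : ∀ a y, act a (act (ia a) y) = y

/-- the inverse word -/
def iw (ia : A → A) (w : List A) : List A := (w.map ia).reverse

@[simp] theorem iw_length (ia : A → A) (w : List A) : (iw ia w).length = w.length := by
  simp [iw]

theorem ev_iw_left {act : A → Y → Y} {ia : A → A} (h : Inv act ia) (w : List A) (y : Y) :
    ev act (iw ia w) (ev act w y) = y := by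
  induction w generalizing y with
  | nil => rfl
  | cons a w ih =>
    have : iw ia (a :: w) = iw ia w ++ [ia a] := by simp [iw]
    rw [this, ev_append, ev_cons, ev_cons, ev_nil, h.left, ih]

theorem ev_iw_right {act : A → Y → Y} {ia : A → A} (h : Inv act ia) (w : List A) (y : Y) :
    ev act w (ev act (iw ia w) y) = y := by
  induction w generalizing y with
  | nil => rfl
  | cons a w ih =>
    have : iw ia (a :: w) = iw ia w ++ [ia a] := by simp [iw]
    rw [this, ev_append, ev_cons, ev_cons, ev_nil, ih, h.right]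

/-- two tuples (possibly over different sets) have the same `n`-type -/
def TyEq {ι : Type} (act : A → Y → Y) (act' : A → Y' → Y') (n : ℕ) (y : ι → Y) (y' : ι → Y') :
    Prop :=
  ∀ i j (w : List A), w.length ≤ n → (ev act w (y i) = y j ↔ ev act' w (y' i) = y' j)

theorem TyEq.mono {ι : Type} {act : A → Y → Y} {act' : A → Y' → Y'} {n m : ℕ} (hnm : m ≤ n)
    {y : ι → Y} {y' : ι → Y'} (h : TyEq act act' n y y') : TyEq act act' m y y' :=
  fun i j w hw => h i j w (hw.trans hnm)

theorem TyEq.comp {ι κ : Type} {act : A → Y → Y} {act' : A → Y' → Y'} {n : ℕ}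
    {y : ι → Y} {y' : ι → Y'} (h : TyEq act act' n y y') (f : κ → ι) :
    TyEq act act' n (y ∘ f) (y' ∘ f) :=
  fun i j w hw => h (f i) (f j) w hw

theorem TyEq.symm {ι : Type} {act : A → Y → Y} {act' : A → Y' → Y'} {n : ℕ}
    {y : ι → Y} {y' : ι → Y'} (h : TyEq act act' n y y') : TyEq act' act n y' y :=
  fun i j w hw => (h i j w hw).symm

theorem TyEq.trans {ι Y'' : Type} {act : A → Y → Y} {act' : A → Y' → Y'} {act'' : A → Y'' → Y''}
    {n : ℕ} {y : ι → Y} {y' : ι → Y'} {y'' : ι → Y''} (h : TyEq act act' n y y')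
    (h' : TyEq act' act'' n y' y'') : TyEq act act'' n y y'' :=
  fun i j w hw => (h i j w hw).trans (h' i j w hw)

theorem TyEq.two {ι : Type} {act : A → Y → Y} {act' : A → Y' → Y'} {ia : A → A}
    (hI : Inv act ia) (hI' : Inv act' ia) {n : ℕ} {y : ι → Y} {y' : ι → Y'}
    (h : TyEq act act' n y y') {i j : ι} {u v : List A} (huv : u.length + v.length ≤ n) :
    ev act u (y i) = ev act v (y j) ↔ ev act' u (y' i) = ev act' v (y' j) := by
  have h1 := h i j (iw ia v ++ u) (by simp; omega)
  rw [ev_append, ev_append] at h1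
  constructor
  · intro h2
    have h3 := h1.1 (by rw [h2, ev_iw_left hI])
    rw [← h3, ev_iw_right hI']
  · intro h2
    have h3 := h1.2 (by rw [h2, ev_iw_left hI'])
    rw [← h3, ev_iw_right hI]

/-- the canonical graded relation of a pair of tuples -/
def canR {ι : Type} (act : A → Y → Y) (act' : A → Y' → Y') (N : ℕ) (y : ι → Y) (y' : ι → Y')
    (m : ℕ) (a : Y) (a' : Y') : Prop :=
  ∃ i, ∃ w : List A, w.length + m ≤ N ∧ ev act w (y i) = a ∧ ev act' w (y' i) = a'

variable {ι : Type} {act : A → Y → Y} {act' : A → Y' → Y'} {N : ℕ} {y : ι → Y} {y' : ι → Y'}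

theorem canR_gpi {ia : A → A} (hI : Inv act ia) (hI' : Inv act' ia)
    (h : TyEq act act' (2 * N) y y') : GPI (canR act act' N y y') := by
  refine ⟨?_, ?_⟩
  · rintro m _ _ _ _ ⟨i, u, hu, rfl, rfl⟩ ⟨j, v, hv, rfl, rfl⟩
    exact h.two hI hI' (by omega)
  · rintro m _ _ ⟨i, u, hu, rfl, rfl⟩
    exact ⟨i, u, by omega, rfl, rfl⟩

theorem canR_stp (a : A) : Stp (canR act act' N y y') (act a) (act' a) := by
  rintro m _ _ ⟨i, u, hu, rfl, rfl⟩
  exact ⟨i, a :: u, by simp; omega, rfl, rfl⟩

theorem canR_self (i : ι) {m : ℕ} (hm : m ≤ N) : canR act act' N y y' m (y i) (y' i) :=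
  ⟨i, [], by simpa using hm, rfl, rfl⟩

theorem canR_cst (i : ι) : Cst (canR act act' N y y') (y i) (y' i) := by
  rintro m _ _ ⟨j, u, hu, -, -⟩
  exact canR_self i (by omega)

/-- a graded partial injection of depth `N` gives the same `2N`-types -/
theorem TyEq.of_gpi {R : ℕ → Y → Y' → Prop} (hR : GPI R) (hs : ∀ a, Stp R (act a) (act' a))
    {ia : A → A} (hI : Inv act ia) (hI' : Inv act' ia) (h : ∀ i, R N (y i) (y' i)) :
    TyEq act act' (2 * N) y y' := by
  intro i j w hw
  obtain ⟨u, v, rfl, hu, hv⟩ : ∃ u v : List A, w = u ++ v ∧ u.length ≤ N ∧ v.length ≤ N := by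
    refine ⟨w.take (w.length - N), w.drop (w.length - N), (List.take_append_drop _ _).symm, ?_, ?_⟩
    · rw [List.length_take]; omega
    · rw [List.length_drop]; omega
  have h1 : R 0 (ev act v (y i)) (ev act' v (y' i)) :=
    ev_stp hs v 0 _ _ (hR.mono_le (by simpa using hv) (h i))
  have h2 : R 0 (ev act (iw ia u) (y j)) (ev act' (iw ia u) (y' j)) :=
    ev_stp hs _ 0 _ _ (hR.mono_le (by simpa using hu) (h j))
  have h3 := hR.inj 0 _ _ _ _ h1 h2
  rw [ev_append, ev_append]
  constructor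
  · intro h4
    have h5 := h3.1 (by rw [← h4, ev_iw_left hI])
    rw [h5, ev_iw_right hI']
  · intro h4
    have h5 := h3.2 (by rw [← h4, ev_iw_left hI'])
    rw [h5, ev_iw_right hI]

end words

/-! ### products -/

section prod

variable {Y Y' Z Z' : Type} {R : ℕ → Y → Y' → Prop} {S : ℕ → Z → Z' → Prop}

/-- product of graded relations -/
def prodR (R : ℕ → Y → Y' → Prop) (S : ℕ → Z → Z' → Prop) (m : ℕ) (p : Y × Z) (p' : Y' × Z') :
    Prop := R m p.1 p'.1 ∧ S m p.2 p'.2

theorem prodR_gpi (hR : GPI R) (hS : GPI S) : GPI (prodR R S) := by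
  refine ⟨?_, fun h => ⟨hR.mono h.1, hS.mono h.2⟩⟩
  rintro m ⟨a, b⟩ ⟨a', b'⟩ ⟨c, d⟩ ⟨c', d'⟩ h1 h2
  rw [Prod.mk.injEq, Prod.mk.injEq, hR.inj m _ _ _ _ h1.1 h2.1, hS.inj m _ _ _ _ h1.2 h2.2]

/-- sum of graded relations -/
inductive sumR (R : ℕ → Y → Y' → Prop) (S : ℕ → Z → Z' → Prop) (m : ℕ) : Y ⊕ Z → Y' ⊕ Z' → Prop
  | inl {y : Y} {y' : Y'} (h : R m y y') : sumR R S m (Sum.inl y) (Sum.inl y')
  | inr {z : Z} {z' : Z'} (h : S m z z') : sumR R S m (Sum.inr z) (Sum.inr z')

theorem sumR_gpi (hR : GPI R) (hS : GPI S) : GPI (sumR R S) := by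
  refine ⟨?_, ?_⟩
  · rintro m _ _ _ _ (h1 | h1) (h2 | h2)
    · simpa using hR.inj m _ _ _ _ h1 h2
    · simp
    · simp
    · simpa using hS.inj m _ _ _ _ h1 h2
  · rintro m _ _ (h1 | h1)
    · exact .inl (hR.mono h1)
    · exact .inr (hS.mono h1)

theorem sumR_stp {f : Y → Y} {f' : Y' → Y'} {g : Z → Z} {g' : Z' → Z'}
    (hf : Stp R f f') (hg : Stp S g g') : Stp (sumR R S) (Sum.map f g) (Sum.map f' g') := by
  rintro m _ _ (h1 | h1)
  · exact .inl (hf _ _ _ h1)
  · exact .inr (hg _ _ _ h1)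

end prod

end Crest.Agent.R185.Smp
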