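import Crest.Agent.R185.Smp11

/-!
# R185 / SMP (12): the bounds are primitive recursive
-/

set_option autoImplicit false

namespace Crest.Agent.R185.Smp

theorem regF_one (N : ℕ) : regF 1 N = N + 1 := by simp [regF]

theorem zbd_eq (b N : ℕ) : zbd b N = 4 * b + 4 * N + 5 := by
  unfold zbd
  rw [regF_one]
  ring

theorem gzbd_eq (M J b n : ℕ) : gzbd M J b n =
    (4 * b + 4 * (n / M) + 5) * (4 * (M * (J + 1)) + 6) + 3 * n + (3 * M + M * J + 4) := by
  unfold gzbd
  rw [zbd_eq]
  ring

theorem gzbd_primrec (M J : ℕ) : Primrec₂ fun n b => gzbd M J b n := by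
  have h : Primrec₂ fun n b : ℕ =>
      (4 * b + 4 * (n / M) + 5) * (4 * (M * (J + 1)) + 6) + 3 * n + (3 * M + M * J + 4) := by
    refine Primrec.nat_add.comp (Primrec.nat_add.comp (Primrec.nat_mul.comp
      (Primrec.nat_add.comp (Primrec.nat_add.comp (Primrec.nat_mul.comp (Primrec.const 4)
        Primrec.snd) (Primrec.nat_mul.comp (Primrec.const 4)
        (Primrec.nat_div.comp Primrec.fst (Primrec.const M)))) (Primrec.const 5))
      (Primrec.const _)) (Primrec.nat_mul.comp (Primrec.const 3) Primrec.fst)) (Primrec.const _)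
  exact h.of_eq fun n b => (gzbd_eq M J b n).symm

theorem gzbd_computable (M J : ℕ) : Computable₂ fun n b => gzbd M J b n :=
  (gzbd_primrec M J).to_comp

theorem regF_primrec (k : ℕ) : Primrec (regF k) := by
  induction k with
  | zero => exact (Primrec.const 0).of_eq fun _ => rfl
  | succ k ih =>
    refine (Primrec.nat_add.comp (Primrec.nat_add.comp (ih.comp
      (Primrec.nat_mul.comp (Primrec.const 2) Primrec.id)) Primrec.id) (Primrec.const 1)).of_eq
      fun N => ?_
    simp [regF]

/-- monotonicity of the bound -/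
theorem gzbd_mono {M J b b' n n' : ℕ} (hb : b ≤ b') (hn : n ≤ n') :
    gzbd M J b n ≤ gzbd M J b' n' := by
  rw [gzbd_eq, gzbd_eq]
  have h1 : n / M ≤ n' / M := Nat.div_le_div_right hn
  gcongr

theorem le_gzbd {M J b n : ℕ} : n ≤ gzbd M J b n ∧ b ≤ gzbd M J b n := by
  rw [gzbd_eq]
  constructor
  · omega
  · have : b * 1 ≤ (4 * b + 4 * (n / M) + 5) * (4 * (M * (J + 1)) + 6) :=
      Nat.mul_le_mul (by omega) (by omega)
    omega

end Crest.Agent.R185.Smp
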