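import Mathlib

/-!
# R185 / TYP (1): signed words, partial isomorphisms, the extension (cluster) lemma

`Wd A` = signed words over the letters `A`; `ev f w` = the permutation given by the word `w` when the
letters act through `f : A → Equiv.Perm Y` (the first letter acts last).
`Iso f n P` : the relation `P` on `Y` is an `n`-partial isomorphism: for `|w| ≤ n` and pairs
`(y,y')`, `(z,z')` of `P`, `w y = z ↔ w y' = z'`.
-/

set_option autoImplicit false

namespace Crest.Agent.R185.Typ

/-- signed words -/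
abbrev Wd (A : Type) : Type := List (A × Bool)

variable {A Y : Type}

/-- a signed letter -/
def lt (f : A → Equiv.Perm Y) (l : A × Bool) : Equiv.Perm Y := cond l.2 (f l.1) (f l.1)⁻¹

/-- a word acts (the first letter acts last) -/
def ev (f : A → Equiv.Perm Y) (w : Wd A) : Equiv.Perm Y := (w.map (lt f)).prod

@[simp] theorem ev_nil (f : A → Equiv.Perm Y) : ev f [] = 1 := rfl

theorem ev_cons (f : A → Equiv.Perm Y) (l : A × Bool) (w : Wd A) :
    ev f (l :: w) = lt f l * ev f w := by simp [ev]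

theorem ev_append (f : A → Equiv.Perm Y) (v w : Wd A) : ev f (v ++ w) = ev f v * ev f w := by
  simp [ev]

theorem ev_cons_apply (f : A → Equiv.Perm Y) (l : A × Bool) (w : Wd A) (y : Y) :
    ev f (l :: w) y = lt f l (ev f w y) := by rw [ev_cons]; rfl

theorem ev_append_apply (f : A → Equiv.Perm Y) (v w : Wd A) (y : Y) :
    ev f (v ++ w) y = ev f v (ev f w y) := by rw [ev_append]; rfl

theorem ev_eq_lift (f : A → Equiv.Perm Y) (w : Wd A) : ev f w = FreeGroup.lift f (FreeGroup.mk w) := by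
  rw [FreeGroup.lift_mk]; rfl

/-- the inverse word -/
def winv (w : Wd A) : Wd A := (w.map fun l => (l.1, !l.2)).reverse

@[simp] theorem winv_length (w : Wd A) : (winv w).length = w.length := by simp [winv]

theorem winv_nil : winv ([] : Wd A) = [] := rfl

theorem winv_append (v w : Wd A) : winv (v ++ w) = winv w ++ winv v := by simp [winv]

theorem winv_winv (w : Wd A) : winv (winv w) = w := by
  simp only [winv, List.map_reverse, List.reverse_reverse, List.map_map]
  conv_rhs => rw [← List.map_id w]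
  congr 1
  funext l
  simp

theorem lt_not (f : A → Equiv.Perm Y) (l : A × Bool) : lt f (l.1, !l.2) = (lt f l)⁻¹ := by
  rcases l with ⟨a, b⟩; cases b <;> simp [lt]

theorem ev_winv (f : A → Equiv.Perm Y) (w : Wd A) : ev f (winv w) = (ev f w)⁻¹ := by
  induction w with
  | nil => simp [winv]
  | cons l w ih =>
    have h1 : winv (l :: w) = winv w ++ [(l.1, !l.2)] := by simp [winv]
    rw [h1, ev_append, ih, ev_cons, ev_cons, ev_nil, mul_one, mul_inv_rev, lt_not]

theorem ev_winv_apply (f : A → Equiv.Perm Y) (w : Wd A) (y z : Y) :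
    ev f (winv w) y = z ↔ y = ev f w z := by
  rw [ev_winv, Equiv.Perm.inv_eq_iff_eq]

/-- `P` is an `n`-partial isomorphism -/
def Iso (f : A → Equiv.Perm Y) (n : ℕ) (P : Y → Y → Prop) : Prop :=
  ∀ w : Wd A, w.length ≤ n → ∀ y y' z z', P y y' → P z z' → (ev f w y = z ↔ ev f w y' = z')

theorem Iso.mono {f : A → Equiv.Perm Y} {n m : ℕ} {P Q : Y → Y → Prop} (h : Iso f n P)
    (hm : m ≤ n) (hQ : ∀ y y', Q y y' → P y y') : Iso f m Q :=
  fun w hw y y' z z' h1 h2 => h w (hw.trans hm) y y' z z' (hQ _ _ h1) (hQ _ _ h2)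

theorem Iso.eq_iff {f : A → Equiv.Perm Y} {n : ℕ} {P : Y → Y → Prop} (h : Iso f n P)
    {y y' z z' : Y} (h1 : P y y') (h2 : P z z') : y = z ↔ y' = z' :=
  h [] (Nat.zero_le _) y y' z z' h1 h2

/-- the translates of the pairs of `P` by words of length `≤ r` -/
def shift (f : A → Equiv.Perm Y) (r : ℕ) (P : Y → Y → Prop) (x x' : Y) : Prop :=
  ∃ w : Wd A, w.length ≤ r ∧ ∃ y y', P y y' ∧ x = ev f w y ∧ x' = ev f w y'

theorem shift_zero {f : A → Equiv.Perm Y} {P : Y → Y → Prop} {y y' : Y} (r : ℕ) (h : P y y') :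
    shift f r P y y' := ⟨[], Nat.zero_le _, y, y', h, rfl, rfl⟩

theorem shift_mono {f : A → Equiv.Perm Y} {P : Y → Y → Prop} {y y' : Y} {r s : ℕ} (hr : r ≤ s)
    (h : shift f r P y y') : shift f s P y y' := by
  obtain ⟨w, hw, z, z', h1, h2, h3⟩ := h
  exact ⟨w, hw.trans hr, z, z', h1, h2, h3⟩

theorem shift_lt {f : A → Equiv.Perm Y} {P : Y → Y → Prop} {y y' : Y} {r : ℕ} (l : A × Bool)
    (h : shift f r P y y') : shift f (r + 1) P (lt f l y) (lt f l y') := by
  obtain ⟨w, hw, z, z', h1, rfl, rfl⟩ := h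
  exact ⟨l :: w, by simpa using hw, z, z', h1, (ev_cons_apply f l w z).symm,
    (ev_cons_apply f l w z').symm⟩

theorem Iso.shift {f : A → Equiv.Perm Y} {n r : ℕ} {P : Y → Y → Prop} (h : Iso f (n + 2 * r) P) :
    Iso f n (shift f r P) := by
  rintro w hw _ _ _ _ ⟨u, hu, y, y', h1, rfl, rfl⟩ ⟨v, hv, z, z', h2, rfl, rfl⟩
  have key := h (winv v ++ (w ++ u)) (by simp; omega) y y' z z' h1 h2
  rw [ev_append_apply, ev_append_apply, ev_winv_apply, ev_append_apply, ev_append_apply,
    ev_winv_apply] at key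
  exact key

/-- `y` and `y'` have the same `n`-type -/
def Same (f : A → Equiv.Perm Y) (n : ℕ) (y y' : Y) : Prop :=
  ∀ w : Wd A, w.length ≤ n → (ev f w y = y ↔ ev f w y' = y')

theorem Same.mono {f : A → Equiv.Perm Y} {n m : ℕ} {y y' : Y} (h : Same f n y y') (hm : m ≤ n) :
    Same f m y y' := fun w hw => h w (hw.trans hm)

theorem Same.iso {f : A → Equiv.Perm Y} {n : ℕ} {y y' : Y} (h : Same f n y y') :
    Iso f n (fun a b => a = y ∧ b = y') := by
  rintro w hw _ _ _ _ ⟨rfl, rfl⟩ ⟨rfl, rfl⟩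
  exact h w hw

/-- `y` and `z` are not related by words of length `≤ n` -/
def Far (f : A → Equiv.Perm Y) (n : ℕ) (y z : Y) : Prop := ∀ w : Wd A, w.length ≤ n → ev f w y ≠ z

theorem Far.mono {f : A → Equiv.Perm Y} {n m : ℕ} {y z : Y} (h : Far f n y z) (hm : m ≤ n) :
    Far f m y z := fun w hw => h w (hw.trans hm)

theorem Far.symm {f : A → Equiv.Perm Y} {n : ℕ} {y z : Y} (h : Far f n y z) : Far f n z y := by
  intro w hw e
  apply h (winv w) (by simpa using hw)
  rw [ev_winv_apply]
  exact e.symm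

theorem Far.translate {f : A → Equiv.Perm Y} {n r : ℕ} {y z : Y} (h : Far f (n + r) y z) (w : Wd A)
    (hw : w.length ≤ r) : Far f n y (ev f w z) := by
  intro u hu e
  apply h (winv w ++ u) (by simp; omega)
  rw [ev_append_apply, ev_winv_apply]
  exact e

/-- adding one pair to a partial isomorphism -/
def add (P : Y → Y → Prop) (y y' : Y) (a b : Y) : Prop := P a b ∨ (a = y ∧ b = y')

/-- **Extension, case 1**: the new point is a short translate of an old one. -/
theorem Iso.add_translate {f : A → Equiv.Perm Y} {n m : ℕ} {P : Y → Y → Prop}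
    (h : Iso f (n + 2 * m) P) {z z' : Y} (hz : P z z') (w : Wd A) (hw : w.length ≤ m) :
    Iso f n (add P (ev f w z) (ev f w z')) := by
  apply (Iso.shift (r := m) h).mono le_rfl
  rintro a b (h1 | ⟨rfl, rfl⟩)
  · exact shift_zero _ h1
  · exact ⟨w, hw, z, z', hz, rfl, rfl⟩

/-- **Extension, case 2**: the new point is far from the old ones, on both sides. -/
theorem Iso.add_far {f : A → Equiv.Perm Y} {n : ℕ} {P : Y → Y → Prop} (h : Iso f n P) {y y' : Y}
    (hs : Same f n y y') (h1 : ∀ z z', P z z' → Far f n z y) (h2 : ∀ z z', P z z' → Far f n z' y') :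
    Iso f n (add P y y') := by
  rintro w hw a a' b b' (h3 | ⟨rfl, rfl⟩) (h4 | ⟨rfl, rfl⟩)
  · exact h w hw _ _ _ _ h3 h4
  · exact iff_of_false (h1 _ _ h3 w hw) (h2 _ _ h3 w hw)
  · exact iff_of_false ((h1 _ _ h4).symm w hw) ((h2 _ _ h4).symm w hw)
  · exact hs w hw

/-- `Sm k` (`k : ℕ`, the copies) realise all `n`-types of points of `S`, and different copies are
unrelated: the height `ht` changes by at most one under a letter, and copy `k` has height `k * B`. -/
structure Stock (f : A → Equiv.Perm Y) (S : Set Y) (n : ℕ) where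
  /-- height -/
  ht : Y → ℤ
  ht_lt : ∀ (l : A × Bool) (y : Y), |ht (lt f l y) - ht y| ≤ 1
  /-- the small points of height `t` -/
  Sm : ℤ → Set Y
  mem : ∀ t, Sm t ⊆ S
  real : ∀ y ∈ S, ∀ t, ∃ y' ∈ Sm t, ht y' = t ∧ Same f n y y'

theorem ht_ev {f : A → Equiv.Perm Y} (ht : Y → ℤ) (h : ∀ (l : A × Bool) (y : Y), |ht (lt f l y) - ht y| ≤ 1)
    (w : Wd A) (y : Y) : |ht (ev f w y) - ht y| ≤ w.length := by
  induction w with
  | nil => simp
  | cons l w ih =>
    rw [ev_cons_apply]
    have h1 := h l (ev f w y)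
    have h2 : ht (lt f l (ev f w y)) - ht y =
        (ht (lt f l (ev f w y)) - ht (ev f w y)) + (ht (ev f w y) - ht y) := by ring
    rw [h2]
    refine (abs_add_le _ _).trans ?_
    push_cast [List.length_cons]
    linarith

theorem far_of_ht {f : A → Equiv.Perm Y} (ht : Y → ℤ)
    (h : ∀ (l : A × Bool) (y : Y), |ht (lt f l y) - ht y| ≤ 1) {n : ℕ} {y z : Y}
    (hyz : (n : ℤ) < |ht z - ht y|) : Far f n y z := by
  intro w hw e
  have := ht_ev ht h w y
  rw [e] at this
  have h2 : (w.length : ℤ) ≤ n := by exact_mod_cast hw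
  linarith

end Crest.Agent.R185.Typ
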