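import Crest.Agent.R185.Smp12
import Crest.Agent.R185.Typ1

/-!
# R185 / SMP (13): the cluster step: from single points with prescribed height to `T5`
-/

set_option autoImplicit false

namespace Crest.Agent.R185.Smp

variable {A Y : Type} {pa : A → Equiv.Perm Y} {y₀ : Y}

theorem typ_lt (l : A × Bool) (y : Y) : Typ.lt pa l y = sg pa l y := by
  rcases l with ⟨a, _ | _⟩
  · rw [sg_false]; rfl
  · rw [sg_true]; rfl

theorem typ_ev (w : List (A × Bool)) (y : Y) : Typ.ev pa w y = ev (sg pa) w y := by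
  induction w with
  | nil => rfl
  | cons l w ih => rw [Typ.ev_cons_apply, ev_cons, ih, typ_lt]

/-- the bound after `k` steps -/
def clb (n h₀ : ℕ) (β : ℕ → ℕ) : ℕ → ℕ
  | 0 => 0
  | k + 1 => clb n h₀ β k + 27 * n + β (h₀ + clb n h₀ β k + 27 * n + 1)

theorem clb_le_succ (n h₀ : ℕ) (β : ℕ → ℕ) (k : ℕ) : clb n h₀ β k ≤ clb n h₀ β (k + 1) := by
  rw [clb]; omega

/-- heights along words -/
theorem ht_ent {ht : Y → ℤ} (hts : ∀ (a : A × Bool) (y : Y), |ht (sg pa a y) - ht y| ≤ 1)
    {h₀ b : ℕ} (h0 : (ht y₀).natAbs ≤ h₀) {y : Y} (hy : Ent pa y₀ b y) :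
    (ht y).natAbs ≤ h₀ + b := by
  obtain ⟨u, hu, rfl⟩ := hy
  have h1 := Typ.ht_ev (f := pa) ht (fun l y => by rw [typ_lt]; exact hts l y) u y₀
  rw [typ_ev] at h1
  rw [abs_le] at h1
  omega

/-- **the cluster step** -/
theorem T5_of_single {ht : Y → ℤ} (hts : ∀ (a : A × Bool) (y : Y), |ht (sg pa a y) - ht y| ≤ 1)
    {h₀ : ℕ} (h0 : (ht y₀).natAbs ≤ h₀) {n ρ : ℕ} {β : ℕ → ℕ}
    (SP : ∀ y, Ent pa y₀ ρ y → ∀ t : ℕ, ∃ y', Ent pa y₀ (β t) y' ∧ ht y' = t ∧
      TyEq (sg pa) (sg pa) (27 * n) (fun _ : Fin 1 => y) (fun _ => y')) :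
    T5 pa y₀ n ρ (clb n h₀ β 4) := by
  classical
  intro w hw
  have key : ∀ k, k ≤ 4 → ∃ w' : ℕ → Y, (∀ l, l < k → Ent pa y₀ (clb n h₀ β k) (w' l)) ∧
      Typ.Iso pa (3 ^ (4 - k) * n) (fun a b => (a = y₀ ∧ b = y₀) ∨
        ∃ l : Fin 4, l.1 < k ∧ a = w l ∧ b = w' l.1) := by
    intro k
    induction k with
    | zero =>
      intro _
      refine ⟨fun _ => y₀, fun l hl => absurd hl (by omega), ?_⟩
      rintro u _ _ _ _ _ (⟨rfl, rfl⟩ | ⟨l, hl, -⟩) (⟨rfl, rfl⟩ | ⟨l', hl', -⟩)
      · exact Iff.rfl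
      · exact absurd hl' (by omega)
      · exact absurd hl (by omega)
      · exact absurd hl (by omega)
    | succ k ih =>
      intro hk
      obtain ⟨w', hw', hI⟩ := ih (by omega)
      set P : Y → Y → Prop := fun a b => (a = y₀ ∧ b = y₀) ∨
        ∃ l : Fin 4, l.1 < k ∧ a = w l ∧ b = w' l.1 with hP
      set r : ℕ := 3 ^ (4 - (k + 1)) * n with hr
      have h3 : 3 ^ (4 - k) * n = r + 2 * r := by
        have : 4 - k = (4 - (k + 1)) + 1 := by omega
        rw [this, pow_succ, hr]
        ring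
      have hr27 : r ≤ 27 * n := by
        have : (3 : ℕ) ^ (4 - (k + 1)) ≤ 3 ^ 3 := Nat.pow_le_pow_right (by norm_num) (by omega)
        exact Nat.mul_le_mul_right n this
      rw [h3] at hI
      -- every member of `P` on the right is small
      have hPr : ∀ z z', P z z' → Ent pa y₀ (clb n h₀ β k) z' := by
        rintro z z' (⟨-, rfl⟩ | ⟨l, hl, -, rfl⟩)
        · exact Ent.base _ _
        · exact hw' _ hl
      -- it is enough to find the new point
      have fin : ∀ y', Ent pa y₀ (clb n h₀ β (k + 1)) y' →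
          Typ.Iso pa r (Typ.add P (w ⟨k, by omega⟩) y') →
          ∃ w'' : ℕ → Y, (∀ l, l < k + 1 → Ent pa y₀ (clb n h₀ β (k + 1)) (w'' l)) ∧
            Typ.Iso pa r (fun a b => (a = y₀ ∧ b = y₀) ∨
              ∃ l : Fin 4, l.1 < k + 1 ∧ a = w l ∧ b = w'' l.1) := by
        intro y' hy' hI'
        refine ⟨Function.update w' k y', ?_, ?_⟩
        · intro l hl
          by_cases hlk : l = k
          · subst hlk
            rw [Function.update_self]; exact hy'
          · rw [Function.update_of_ne hlk]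
            exact (hw' l (by omega)).mono (clb_le_succ _ _ _ _)
        · apply hI'.mono le_rfl
          rintro a b (⟨rfl, rfl⟩ | ⟨l, hl, rfl, rfl⟩)
          · exact Or.inl (Or.inl ⟨rfl, rfl⟩)
          · by_cases hlk : l.1 = k
            · refine Or.inr ⟨?_, ?_⟩
              · congr 1
                exact Fin.ext hlk
              · rw [hlk, Function.update_self]
            · refine Or.inl (Or.inr ⟨l, by omega, rfl, ?_⟩)
              rw [Function.update_of_ne hlk]
      by_cases hc : ∃ z z', P z z' ∧ ∃ u : List (A × Bool), u.length ≤ r ∧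
          Typ.ev pa u z = w ⟨k, by omega⟩
      · obtain ⟨z, z', hz, u, hu, huz⟩ := hc
        have h4 := Typ.Iso.add_translate hI hz u hu
        rw [huz] at h4
        refine fin _ ?_ h4
        obtain ⟨v, hv, hv'⟩ := hPr z z' hz
        refine ⟨u ++ v, ?_, ?_⟩
        · rw [List.length_append, clb]; omega
        · rw [ev_append, hv', typ_ev]
      · push Not at hc
        obtain ⟨y', hy', hty, hT⟩ := SP (w ⟨k, by omega⟩) (hw _) (h₀ + clb n h₀ β k + 27 * n + 1)
        refine fin y' (hy'.mono (by rw [clb]; omega)) ?_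
        refine Typ.Iso.add_far (hI.mono (by omega) fun _ _ h => h) ?_ ?_ ?_
        · intro u hu
          rw [typ_ev, typ_ev]
          exact hT 0 0 u (hu.trans hr27)
        · intro z z' hz u hu
          exact hc z z' hz u hu
        · intro z z' hz
          apply Typ.far_of_ht ht (fun l y => by rw [typ_lt]; exact hts l y)
          have h5 := ht_ent hts h0 (hPr z z' hz)
          rw [hty]
          have h6 : ((h₀ + clb n h₀ β k + 27 * n + 1 : ℕ) : ℤ) - ht z' ≤
              |((h₀ + clb n h₀ β k + 27 * n + 1 : ℕ) : ℤ) - ht z'| := le_abs_self _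
          push_cast at h6 ⊢
          omega
  obtain ⟨w', hw', hI⟩ := key 4 le_rfl
  refine ⟨fun l => w' l.1, fun l => hw' l.1 l.2, ?_⟩
  intro i j u hu
  have hP : ∀ i : Fin 5, ((Fin.cons y₀ w : Fin 5 → Y) i = y₀ ∧
      (Fin.cons y₀ (fun l : Fin 4 => w' l.1) : Fin 5 → Y) i = y₀) ∨
      ∃ l : Fin 4, l.1 < 4 ∧ (Fin.cons y₀ w : Fin 5 → Y) i = w l ∧
        (Fin.cons y₀ (fun l : Fin 4 => w' l.1) : Fin 5 → Y) i = w' l.1 := by
    intro i
    refine Fin.cases ?_ (fun l => ?_) i
    · exact Or.inl ⟨rfl, rfl⟩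
    · exact Or.inr ⟨l, l.2, rfl, rfl⟩
  have := hI u (by simpa using hu) _ _ _ _ (hP i) (hP j)
  rwa [typ_ev, typ_ev] at this

/-- the bound is primitive recursive as soon as `β` is -/
theorem clb_primrec {α : Type} [Primcodable α] {n h₀ : α → ℕ} {β : α → ℕ → ℕ} (hn : Primrec n)
    (hh : Primrec h₀) (hβ : Primrec₂ β) (k : ℕ) : Primrec fun a => clb (n a) (h₀ a) (β a) k := by
  induction k with
  | zero => exact Primrec.const 0
  | succ k ih =>
    have h27 : Primrec fun a => 27 * n a := Primrec.nat_mul.comp (Primrec.const 27) hn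
    have h1 : Primrec fun a => clb (n a) (h₀ a) (β a) k + 27 * n a := Primrec.nat_add.comp ih h27
    have h2 : Primrec fun a => h₀ a + clb (n a) (h₀ a) (β a) k + 27 * n a + 1 :=
      Primrec.nat_add.comp (Primrec.nat_add.comp (Primrec.nat_add.comp hh ih) h27)
        (Primrec.const 1)
    exact (Primrec.nat_add.comp h1 (hβ.comp Primrec.id h2)).of_eq fun a => rfl

theorem clb_computable {α : Type} [Primcodable α] {n h₀ : α → ℕ} {β : α → ℕ → ℕ}
    (hn : Computable n) (hh : Computable h₀) (hβ : Computable₂ β) (k : ℕ) :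
    Computable fun a => clb (n a) (h₀ a) (β a) k := by
  induction k with
  | zero => exact Computable.const 0
  | succ k ih =>
    have h27 : Computable fun a => 27 * n a :=
      Primrec.nat_mul.to_comp.comp (Computable.const 27) hn
    have h1 : Computable fun a => clb (n a) (h₀ a) (β a) k + 27 * n a :=
      Primrec.nat_add.to_comp.comp ih h27
    have h2 : Computable fun a => h₀ a + clb (n a) (h₀ a) (β a) k + 27 * n a + 1 :=
      Primrec.nat_add.to_comp.comp (Primrec.nat_add.to_comp.comp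
        (Primrec.nat_add.to_comp.comp hh ih) h27) (Computable.const 1)
    exact (Primrec.nat_add.to_comp.comp h1 (hβ.comp Computable.id h2)).of_eq fun a => rfl

end Crest.Agent.R185.Smp
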