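import Crest.Agent.R185.Smp1

/-!
# R185 / SMP (2): index tuples (`ℕ`, `ℤ`) and regular orbits
-/

set_option autoImplicit false

namespace Crest.Agent.R185.Smp

/-! ### compression of tuples of natural numbers -/

/-- `n` and `n'` have the same gaps up to `L`, and the same small values -/
structure Gap {ι : Type} (L : ℕ) (n n' : ι → ℕ) : Prop where
  gap : ∀ i j (d : ℕ), d ≤ L → (n i + d = n j ↔ n' i + d = n' j)
  val : ∀ i d, d ≤ L → (n i = d ↔ n' i = d)

theorem Gap.refl {ι : Type} (L : ℕ) (n : ι → ℕ) : Gap L n n :=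
  ⟨fun _ _ _ _ => Iff.rfl, fun _ _ _ => Iff.rfl⟩

theorem Gap.trans {ι : Type} {L : ℕ} {n n' n'' : ι → ℕ} (h : Gap L n n') (h' : Gap L n' n'') :
    Gap L n n'' :=
  ⟨fun i j d hd => (h.gap i j d hd).trans (h'.gap i j d hd),
    fun i d hd => (h.val i d hd).trans (h'.val i d hd)⟩

theorem Gap.mono {ι : Type} {L L' : ℕ} (hL : L' ≤ L) {n n' : ι → ℕ} (h : Gap L n n') :
    Gap L' n n' :=
  ⟨fun i j d hd => h.gap i j d (hd.trans hL), fun i d hd => h.val i d (hd.trans hL)⟩

/-- one compression step: if nothing lies in `(θ, θ + L + 1]`, everything above `θ` goes down by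
one -/
theorem gap_step {ι : Type} (L : ℕ) (n : ι → ℕ) (θ : ℕ)
    (h : ∀ i, n i ≤ θ ∨ θ + L + 1 < n i) :
    Gap L n (fun i => if n i ≤ θ then n i else n i - 1) := by
  refine ⟨fun i j d hd => ?_, fun i d hd => ?_⟩
  · have hi := h i
    have hj := h j
    split_ifs with h1 h2 h2 <;> omega
  · have hi := h i
    split_ifs with h1 <;> omega

theorem gap_bound {k : ℕ} (L : ℕ) (n : Fin k → ℕ)
    (h : ∀ θ, (θ = 0 ∨ ∃ i, n i = θ) → (∃ i, θ < n i) → ∃ i, θ < n i ∧ n i ≤ θ + L + 1) (i : Fin k) :
    n i ≤ k * (L + 1) := by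
  classical
  have key : ∀ x, (∃ i, n i = x) →
      x ≤ (L + 1) * ((Finset.univ.filter fun j => n j ≤ x).card) := by
    intro x
    induction x using Nat.strong_induction_on with
    | _ x ih =>
      rintro ⟨i, hi⟩
      -- the largest value `θ < x` in `{0} ∪ range n`
      by_cases h0 : ∃ j, n j < x
      · obtain ⟨θ, ⟨j, hj⟩, hθ, hmax⟩ : ∃ θ, (∃ j, n j = θ) ∧ θ < x ∧ ∀ j, n j < x → n j ≤ θ := by
          obtain ⟨j0, hj0⟩ := h0
          have hne : (Finset.univ.filter fun j => n j < x).Nonempty :=
            ⟨j0, Finset.mem_filter.2 ⟨Finset.mem_univ _, hj0⟩⟩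
          obtain ⟨j, hj, hj2⟩ := Finset.exists_max_image _ n hne
          refine ⟨n j, ⟨j, rfl⟩, (Finset.mem_filter.1 hj).2, fun l hl => ?_⟩
          exact hj2 l (Finset.mem_filter.2 ⟨Finset.mem_univ _, hl⟩)
        obtain ⟨l, hl1, hl2⟩ := h θ (Or.inr ⟨j, hj⟩) ⟨i, by rw [hi]; exact hθ⟩
        have hx : x ≤ θ + L + 1 := by
          by_contra hc
          have := hmax l (by omega)
          omega
        have h1 := ih θ hθ ⟨j, hj⟩
        have hc : (Finset.univ.filter fun j => n j ≤ θ).card + 1 ≤
            (Finset.univ.filter fun j => n j ≤ x).card := by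
          have : (Finset.univ.filter fun j => n j ≤ θ) ⊂ (Finset.univ.filter fun j => n j ≤ x) := by
            refine Finset.ssubset_iff_subset_ne.2 ⟨?_, ?_⟩
            · intro l hl
              simp only [Finset.mem_filter, Finset.mem_univ, true_and] at hl ⊢
              omega
            · intro he
              have : i ∈ (Finset.univ.filter fun j => n j ≤ x) := by simp [hi]
              rw [← he] at this
              simp only [Finset.mem_filter, Finset.mem_univ, true_and] at this
              omega
          exact Finset.card_lt_card this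
        calc x ≤ θ + (L + 1) := by omega
          _ ≤ (L + 1) * ((Finset.univ.filter fun j => n j ≤ θ).card) + (L + 1) := by omega
          _ = (L + 1) * ((Finset.univ.filter fun j => n j ≤ θ).card + 1) := by ring
          _ ≤ _ := Nat.mul_le_mul_left _ hc
      · push Not at h0
        by_cases hx : x = 0
        · omega
        obtain ⟨l, hl1, hl2⟩ := h 0 (Or.inl rfl) ⟨i, by omega⟩
        have := h0 l
        have h3 : 1 ≤ (Finset.univ.filter fun j => n j ≤ x).card :=
          Finset.card_pos.2 ⟨i, by simp [hi]⟩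
        calc x ≤ (L + 1) * 1 := by omega
          _ ≤ _ := Nat.mul_le_mul_left _ h3
  have h1 := key (n i) ⟨i, rfl⟩
  have h2 : (Finset.univ.filter fun j => n j ≤ n i).card ≤ k := by
    simpa using Finset.card_le_univ (Finset.univ.filter fun j => n j ≤ n i)
  calc n i ≤ _ := h1
    _ ≤ (L + 1) * k := Nat.mul_le_mul_left _ h2
    _ = k * (L + 1) := by ring

/-- **compression** -/
theorem exists_gap {k : ℕ} (L : ℕ) (n : Fin k → ℕ) :
    ∃ n' : Fin k → ℕ, Gap L n n' ∧ ∀ i, n' i ≤ k * (L + 1) := by
  classical
  obtain ⟨n', hn', hmin⟩ : ∃ n' : Fin k → ℕ, Gap L n n' ∧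
      ∀ n'' : Fin k → ℕ, Gap L n n'' → ∑ i, n' i ≤ ∑ i, n'' i := by
    have hne : ∃ s : ℕ, ∃ n' : Fin k → ℕ, Gap L n n' ∧ ∑ i, n' i = s := ⟨_, n, Gap.refl _ _, rfl⟩
    obtain ⟨n', h1, h2⟩ := Nat.find_spec hne
    refine ⟨n', h1, fun n'' h3 => ?_⟩
    rw [h2]
    exact Nat.find_min' hne ⟨n'', h3, rfl⟩
  refine ⟨n', hn', gap_bound L n' ?_⟩
  intro θ _ hθ
  by_contra hc
  push Not at hc
  have h1 : ∀ i, n' i ≤ θ ∨ θ + L + 1 < n' i := by
    intro i
    by_cases h : n' i ≤ θ
    · exact Or.inl h
    · exact Or.inr (hc i (by omega))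
  have h2 := hmin _ (hn'.trans (gap_step L n' θ h1))
  obtain ⟨i, hi⟩ := hθ
  have h3 : ∑ j, (if n' j ≤ θ then n' j else n' j - 1) < ∑ j, n' j := by
    apply Finset.sum_lt_sum
    · intro j _
      split_ifs <;> omega
    · refine ⟨i, Finset.mem_univ _, ?_⟩
      rw [if_neg (by omega)]
      omega
  omega

/-! ### the canonical index relation -/

/-- the graded relation on `ℕ` of two tuples: same signed displacement from the same member -/
def natR {ι : Type} (N : ℕ) (n n' : ι → ℕ) (m : ℕ) (a a' : ℕ) : Prop :=
  (m ≤ N ∧ a = a' ∧ a + m ≤ N) ∨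
    ∃ i, (∃ d, d + m ≤ N ∧ a = n i + d ∧ a' = n' i + d) ∨
      (∃ d, d + m ≤ N ∧ a + d = n i ∧ a' + d = n' i)

section nat

variable {ι : Type} {N : ℕ} {n n' : ι → ℕ}

theorem natR_gpi (h : Gap (2 * N) n n') : GPI (natR N n n') := by
  refine ⟨?_, ?_⟩
  · have hg := h.gap
    have hv := h.val
    rintro m a a' b b' (⟨h1, h2, h3⟩ | ⟨i, ⟨d, hd, h1, h2⟩ | ⟨d, hd, h1, h2⟩⟩)
      (⟨k1, k2, k3⟩ | ⟨j, ⟨e, he, k1, k2⟩ | ⟨e, he, k1, k2⟩⟩)
    · omega
    · by_cases hc : e ≤ a
      · have := hv j (a - e) (by omega); omega
      · omega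
    · have := hv j (a + e) (by omega); omega
    · by_cases hc : d ≤ b
      · have := hv i (b - d) (by omega); omega
      · omega
    · by_cases hc : d ≤ e
      · have := hg j i (e - d) (by omega); omega
      · have := hg i j (d - e) (by omega); omega
    · have := hg i j (d + e) (by omega); omega
    · have := hv i (b + d) (by omega); omega
    · have := hg j i (e + d) (by omega); omega
    · by_cases hc : d ≤ e
      · have := hg i j (e - d) (by omega); omega
      · have := hg j i (d - e) (by omega); omega
  · rintro m a a' (⟨h1, h2, h3⟩ | ⟨i, ⟨d, hd, h1, h2⟩ | ⟨d, hd, h1, h2⟩⟩)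
    · exact Or.inl ⟨by omega, h2, by omega⟩
    · exact Or.inr ⟨i, Or.inl ⟨d, by omega, h1, h2⟩⟩
    · exact Or.inr ⟨i, Or.inr ⟨d, by omega, h1, h2⟩⟩

theorem natR_self (i : ι) {m : ℕ} (hm : m ≤ N) : natR N n n' m (n i) (n' i) :=
  Or.inr ⟨i, Or.inl ⟨0, by omega, rfl, rfl⟩⟩

theorem natR_le {m a a' : ℕ} (h : natR N n n' m a a') : m ≤ N := by
  rcases h with ⟨h1, -⟩ | ⟨i, ⟨d, hd, -⟩ | ⟨d, hd, -⟩⟩ <;> omega

theorem natR_zero {m : ℕ} (hm : m ≤ N) : natR N n n' m 0 0 := Or.inl ⟨hm, rfl, by omega⟩

theorem natR_zero_iff (h : Gap (2 * N) n n') {m a a' : ℕ} (h1 : natR N n n' m a a') :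
    a = 0 ↔ a' = 0 :=
  (natR_gpi h).inj m _ _ _ _ h1 (natR_zero (natR_le h1))

theorem natR_succ : Stp (natR N n n') (fun a => a + 1) (fun a => a + 1) := by
  rintro m a a' (⟨h1, h2, h3⟩ | ⟨i, ⟨d, hd, h1, h2⟩ | ⟨d, hd, h1, h2⟩⟩) <;> beta_reduce
  · exact Or.inl ⟨by omega, by omega, by omega⟩
  · exact Or.inr ⟨i, Or.inl ⟨d + 1, by omega, by omega, by omega⟩⟩
  · rcases d with _ | d
    · exact Or.inr ⟨i, Or.inl ⟨1, by omega, by omega, by omega⟩⟩
    · exact Or.inr ⟨i, Or.inr ⟨d, by omega, by omega, by omega⟩⟩

theorem natR_pred : ∀ m a a', natR N n n' (m + 1) (a + 1) (a' + 1) →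
    natR N n n' m a a' := by
  rintro m a a' (⟨h1, h2, h3⟩ | ⟨i, ⟨d, hd, h1, h2⟩ | ⟨d, hd, h1, h2⟩⟩)
  · exact Or.inl ⟨by omega, by omega, by omega⟩
  · rcases d with _ | d
    · exact Or.inr ⟨i, Or.inr ⟨1, by omega, by omega, by omega⟩⟩
    · exact Or.inr ⟨i, Or.inl ⟨d, by omega, by omega, by omega⟩⟩
  · exact Or.inr ⟨i, Or.inr ⟨d + 1, by omega, by omega, by omega⟩⟩

end nat

/-! ### integers -/

/-- same gaps and same small values, with signs -/
structure GapZ {ι : Type} (L : ℕ) (n n' : ι → ℤ) : Prop where
  gap : ∀ i j (d : ℤ), d.natAbs ≤ L → (n i + d = n j ↔ n' i + d = n' j)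
  val : ∀ i (d : ℤ), d.natAbs ≤ L → (n i = d ↔ n' i = d)
  sgn : ∀ i, n i < 0 ↔ n' i < 0

theorem GapZ.mono {ι : Type} {L L' : ℕ} (hL : L' ≤ L) {n n' : ι → ℤ} (h : GapZ L n n') :
    GapZ L' n n' :=
  ⟨fun i j d hd => h.gap i j d (hd.trans hL), fun i d hd => h.val i d (hd.trans hL), h.sgn⟩

theorem exists_gapZ {k : ℕ} (L : ℕ) (n : Fin k → ℤ) :
    ∃ n' : Fin k → ℤ, GapZ L n n' ∧ ∀ i, (n' i).natAbs ≤ k * (L + 1) := by
  obtain ⟨c, hc, hb⟩ := exists_gap L (fun i => (n i).natAbs)
  refine ⟨fun i => if n i < 0 then -(c i : ℤ) else c i, ⟨?_, ?_, ?_⟩, ?_⟩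
  · intro i j d hd
    have g1 := hc.gap i j d.natAbs hd
    have g2 := hc.gap j i d.natAbs hd
    have v1 := hc.val i
    have v2 := hc.val j
    beta_reduce at g1 g2 v1 v2 ⊢
    have hzi := v1 0 (by omega)
    have hzj := v2 0 (by omega)
    -- small values are copied
    have si : (n i).natAbs ≤ L → c i = (n i).natAbs := fun h => ((v1 _ h).1 rfl)
    have sj : (n j).natAbs ≤ L → c j = (n j).natAbs := fun h => ((v2 _ h).1 rfl)
    have si' : c i ≤ L → (n i).natAbs = c i := fun h => ((v1 _ h).2 rfl)
    have sj' : c j ≤ L → (n j).natAbs = c j := fun h => ((v2 _ h).2 rfl)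
    split_ifs with h1 h2 h2
    · omega
    · by_cases hi : (n i).natAbs ≤ L
      · have := si hi
        by_cases hj : (n j).natAbs ≤ L
        · have := sj hj; omega
        · by_cases hj' : c j ≤ L
          · have := sj' hj'; omega
          · omega
      · by_cases hi' : c i ≤ L
        · have := si' hi'; omega
        · omega
    · by_cases hi : (n i).natAbs ≤ L
      · have := si hi
        by_cases hj : (n j).natAbs ≤ L
        · have := sj hj; omega
        · by_cases hj' : c j ≤ L
          · have := sj' hj'; omega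
          · omega
      · by_cases hi' : c i ≤ L
        · have := si' hi'; omega
        · omega
    · omega
  · intro i d hd
    have v1 := hc.val i d.natAbs (by omega)
    have hz := hc.val i 0 (by omega)
    beta_reduce at v1 hz ⊢
    split_ifs with h1 <;> omega
  · intro i
    have hz := hc.val i 0 (by omega)
    beta_reduce at hz ⊢
    split_ifs with h1 <;> omega
  · intro i
    have h1 := hb i
    beta_reduce
    split_ifs with h3
    · simpa using h1
    · simpa using h1

/-- the graded relation on `ℤ` -/
def intR {ι : Type} (N : ℕ) (n n' : ι → ℤ) (m : ℕ) (a a' : ℤ) : Prop :=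
  (a = a' ∧ a.natAbs + m ≤ N) ∨ ∃ i, ∃ d : ℤ, d.natAbs + m ≤ N ∧ a = n i + d ∧ a' = n' i + d

section int

variable {ι : Type} {N : ℕ} {n n' : ι → ℤ}

theorem intR_gpi (h : GapZ (2 * N) n n') : GPI (intR N n n') := by
  refine ⟨?_, ?_⟩
  · rintro m a a' b b' (⟨h2, h3⟩ | ⟨i, d, hd, h1, h2⟩) (⟨k2, k3⟩ | ⟨j, e, he, k1, k2⟩)
    · omega
    · have := h.val j (a - e) (by omega); omega
    · have := h.val i (b - d) (by omega); omega
    · have := h.gap i j (d - e) (by omega); omega
  · rintro m a a' (⟨h2, h3⟩ | ⟨i, d, hd, h1, h2⟩)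
    · exact Or.inl ⟨h2, by omega⟩
    · exact Or.inr ⟨i, d, by omega, h1, h2⟩

theorem intR_self (i : ι) {m : ℕ} (hm : m ≤ N) : intR N n n' m (n i) (n' i) :=
  Or.inr ⟨i, 0, by simp; omega, by simp, by simp⟩

theorem intR_le {m : ℕ} {a a' : ℤ} (h : intR N n n' m a a') : m ≤ N := by
  rcases h with ⟨h1, h2⟩ | ⟨i, d, hd, -⟩ <;> omega

theorem intR_zero {m : ℕ} (hm : m ≤ N) : intR N n n' m 0 0 := Or.inl ⟨rfl, by simp; omega⟩

theorem intR_add (c : ℤ) (hc : c.natAbs ≤ 1) :
    Stp (intR N n n') (fun a => a + c) (fun a => a + c) := by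
  rintro m a a' (⟨h2, h3⟩ | ⟨i, d, hd, h1, h2⟩) <;> beta_reduce
  · exact Or.inl ⟨by omega, by omega⟩
  · exact Or.inr ⟨i, d + c, by omega, by omega, by omega⟩

/-- signs are preserved -/
theorem intR_sgn (h : GapZ (2 * N) n n') {m : ℕ} {a a' : ℤ} (h1 : intR N n n' m a a') :
    a < 0 ↔ a' < 0 := by
  rcases h1 with ⟨h2, h3⟩ | ⟨i, d, hd, h1, h2⟩
  · rw [h2]
  · have hs := h.sgn i
    by_cases hb : (n i).natAbs ≤ 2 * N
    · have := (h.val i (n i) hb).1 rfl
      omega
    · by_cases hb' : (n' i).natAbs ≤ 2 * N
      · have := (h.val i (n' i) hb').2 rfl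
        omega
      · omega

end int

/-! ### regular orbits -/

section reg

variable {A Γ : Type} [Group Γ]

/-- value of a word -/
def wv (e : A → Γ) (w : List A) : Γ := (w.map e).prod

@[simp] theorem wv_nil (e : A → Γ) : wv e [] = 1 := rfl

@[simp] theorem wv_cons (e : A → Γ) (a : A) (w : List A) : wv e (a :: w) = e a * wv e w := by
  simp [wv]

theorem wv_append (e : A → Γ) (u w : List A) : wv e (u ++ w) = wv e u * wv e w := by
  simp [wv]

theorem ev_eq_wv (e : A → Γ) (w : List A) (g : Γ) :
    ev (fun a x => e a * x) w g = wv e w * g := by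
  induction w with
  | nil => simp
  | cons a w ih => rw [ev_cons, ih, wv_cons, mul_assoc]

theorem wv_iw {e : A → Γ} {ia : A → A} (h : ∀ a, e (ia a) = (e a)⁻¹) (w : List A) :
    wv e (iw ia w) = (wv e w)⁻¹ := by
  induction w with
  | nil => simp [iw]
  | cons a w ih =>
    have : iw ia (a :: w) = iw ia w ++ [ia a] := by simp [iw]
    rw [this, wv_append, ih, wv_cons, wv_cons, wv_nil, h]
    simp

/-- length bound of the regular lemma -/
def regF : ℕ → ℕ → ℕ
  | 0, _ => 0
  | k + 1, N => regF k (2 * N) + N + 1

theorem regF_mono (k : ℕ) {N M : ℕ} (h : N ≤ M) : regF k N ≤ regF k M := by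
  induction k generalizing N M with
  | zero => exact le_rfl
  | succ k ih =>
    have := ih (N := 2 * N) (M := 2 * M) (by omega)
    simp only [regF]
    omega

theorem regF_succ_le (k N : ℕ) : regF k N ≤ regF (k + 1) N := by
  have : regF k N ≤ regF k (2 * N) := regF_mono k (by omega)
  simp only [regF]
  omega

/-- **the regular lemma**: every `k`-tuple of a group with elements of arbitrary large height has
the type of a short tuple (the entry `0` is the base point `1`) -/
theorem exists_reg (e : A → Γ) (ia : A → A) (hi : ∀ a, e (ia a) = (e a)⁻¹)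
    (ht : Γ → ℤ) (hts : ∀ a g, |ht (e a * g) - ht g| ≤ 1)
    (t : A) (htt : ∀ g, ht (e t * g) = ht g + 1) (h1 : ht 1 = 0) :
    ∀ (k N : ℕ) (g : ℕ → Γ), g 0 = 1 → ∃ w : ℕ → List A, w 0 = [] ∧
      (∀ i ≤ k, (w i).length ≤ regF k N) ∧
      ∀ i ≤ k, ∀ j ≤ k, ∀ u : List A, u.length ≤ N →
        (wv e u * g i = g j ↔ wv e u * wv e (w i) = wv e (w j)) := by
  have hlen : ∀ (u : List A) (g : Γ), |ht (wv e u * g) - ht g| ≤ u.length := by
    intro u
    induction u with
    | nil => intro g; simp
    | cons a u ih =>
      intro g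
      rw [wv_cons, mul_assoc]
      have h2 := hts a (wv e u * g)
      have h3 := ih g
      rw [abs_le] at h2 h3 ⊢
      simp only [List.length_cons, Nat.cast_add, Nat.cast_one]
      constructor <;> omega
  have htn : ∀ n : ℕ, ht (wv e (List.replicate n t)) = n := by
    intro n
    induction n with
    | zero => simpa using h1
    | succ n ih => rw [List.replicate_succ, wv_cons, htt, ih]; push_cast; ring
  intro k
  induction k with
  | zero =>
    intro N g hg
    refine ⟨fun _ => [], rfl, by simp, ?_⟩
    intro i hi' j hj' u _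
    obtain rfl : i = 0 := by omega
    obtain rfl : j = 0 := by omega
    rw [hg]
    simp
  | succ k ih =>
    intro N g hg
    obtain ⟨w, hw0, hwl, hw⟩ := ih (2 * N) g hg
    classical
    by_cases hc : ∃ j ≤ k, ∃ u : List A, u.length ≤ N ∧ wv e u * g j = g (k + 1)
    · obtain ⟨j, hj, u, hu, huj⟩ := hc
      refine ⟨Function.update w (k + 1) (u ++ w j), ?_, ?_, ?_⟩
      · rw [Function.update_of_ne (by omega)]; exact hw0
      · intro i hi'
        by_cases hik : i = k + 1
        · subst hik
          rw [Function.update_self, List.length_append]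
          have := hwl j hj
          simp only [regF]
          omega
        · rw [Function.update_of_ne hik]
          have := hwl i (by omega)
          simp only [regF]
          omega
      · intro i hi' l hl v hv
        have hval : ∀ i ≤ k + 1, ∃ j' ≤ k, ∃ u' : List A, u'.length ≤ N ∧ g i = wv e u' * g j' ∧
            wv e (Function.update w (k + 1) (u ++ w j) i) = wv e u' * wv e (w j') := by
          intro i hi'
          by_cases hik : i = k + 1
          · subst hik
            exact ⟨j, hj, u, hu, huj.symm, by rw [Function.update_self, wv_append]⟩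
          · exact ⟨i, by omega, [], by simp, by simp, by rw [Function.update_of_ne hik]; simp⟩
        -- both sides expressed through old members; but lengths add up, so use the special form
        by_cases hik : i = k + 1
        · by_cases hlk : l = k + 1
          · subst hik hlk
            rw [Function.update_self, mul_eq_right, mul_eq_right]
          · subst hik
            rw [Function.update_self, Function.update_of_ne hlk, wv_append, ← huj]
            have := hw j hj l (by omega) (v ++ u) (by simp; omega)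
            rw [wv_append, mul_assoc, mul_assoc] at this
            exact this
        · by_cases hlk : l = k + 1
          · subst hlk
            rw [Function.update_self, Function.update_of_ne hik, wv_append, ← huj]
            have := hw i (by omega) j hj (iw ia u ++ v) (by simp; omega)
            rw [wv_append, wv_iw hi, mul_assoc, mul_assoc, inv_mul_eq_iff_eq_mul,
              inv_mul_eq_iff_eq_mul] at this
            exact this
          · rw [Function.update_of_ne hik, Function.update_of_ne hlk]
            exact hw i (by omega) l (by omega) v (by omega)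
    · push Not at hc
      set M := regF k (2 * N) + N + 1 with hM
      refine ⟨Function.update w (k + 1) (List.replicate M t), ?_, ?_, ?_⟩
      · rw [Function.update_of_ne (by omega)]; exact hw0
      · intro i hi'
        by_cases hik : i = k + 1
        · subst hik
          rw [Function.update_self, List.length_replicate]
          exact le_rfl
        · rw [Function.update_of_ne hik]
          have := hwl i (by omega)
          simp only [regF]
          omega
      · -- heights of the old words are small
        have hsmall : ∀ i ≤ k, |ht (wv e (w i))| ≤ regF k (2 * N) := by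
          intro i hi'
          have h2 := hlen (w i) 1
          rw [mul_one, h1, sub_zero] at h2
          have h3 := hwl i hi'
          have : ((w i).length : ℤ) ≤ regF k (2 * N) := by exact_mod_cast h3
          omega
        intro i hi' l hl v hv
        by_cases hik : i = k + 1
        · by_cases hlk : l = k + 1
          · subst hik hlk
            rw [Function.update_self, mul_eq_right, mul_eq_right]
          · subst hik
            rw [Function.update_self, Function.update_of_ne hlk]
            constructor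
            · intro h2
              exfalso
              apply hc l (by omega) (iw ia v) (by simpa using hv)
              rw [← h2, wv_iw hi, inv_mul_cancel_left]
            · intro h2
              exfalso
              have h3 := hlen v (wv e (List.replicate M t))
              rw [h2, htn] at h3
              have h4 := hsmall l (by omega)
              rw [abs_le] at h3 h4
              omega
        · by_cases hlk : l = k + 1
          · subst hlk
            rw [Function.update_self, Function.update_of_ne hik]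
            constructor
            · intro h2
              exact absurd h2 (hc i (by omega) v hv)
            · intro h2
              exfalso
              have h3 := hlen v (wv e (w i))
              rw [h2, htn] at h3
              have h4 := hsmall i (by omega)
              rw [abs_le] at h3 h4
              omega
          · rw [Function.update_of_ne hik, Function.update_of_ne hlk]
            exact hw i (by omega) l (by omega) v (by omega)

end reg

end Crest.Agent.R185.Smp
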