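import Crest.Agent.R185.Smp2
import Crest.Agent.R185.Hot4

/-!
# R185 / SMP (3): the rook matrices and `ZZ G Y` preserve graded partial injections
-/

set_option autoImplicit false

namespace Crest.Agent.R185.Smp

open Crest.Agent.R185.Wu Crest.Agent.R185.Hot

/-! ### options -/

section opt

variable {Y Y' : Type}

theorem optRel_fun {r : Y → Y' → Prop} (h : PI r) {a : Option Y} {b b' : Option Y'}
    (h1 : Option.Rel r a b) (h2 : Option.Rel r a b') : b = b' := by
  cases h1 with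
  | none => cases h2; rfl
  | some h1 =>
    cases h2 with
    | some h2 => rw [(h _ _ _ _ h1 h2).1 rfl]

theorem optRel_inj {r : Y → Y' → Prop} (h : PI r) {a a' : Option Y} {b : Option Y'}
    (h1 : Option.Rel r a b) (h2 : Option.Rel r a' b) : a = a' := by
  cases h1 with
  | none => cases h2; rfl
  | some h1 =>
    cases h2 with
    | some h2 => rw [(h _ _ _ _ h1 h2).2 rfl]

theorem optRel_mono {r r' : Y → Y' → Prop} (h : ∀ y y', r y y' → r' y y') {a : Option Y}
    {b : Option Y'} (h1 : Option.Rel r a b) : Option.Rel r' a b := by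
  cases h1 with
  | none => exact .none
  | some h1 => exact .some (h _ _ h1)

theorem optRel_flip {r : Y → Y' → Prop} {a : Option Y} {b : Option Y'} (h : Option.Rel r a b) :
    Option.Rel (fun y' y => r y y') b a := by
  cases h with
  | none => exact .none
  | some h => exact .some h

theorem optRel_some {r : Y → Y' → Prop} {y : Y} {b : Option Y'} (h : Option.Rel r (some y) b) :
    ∃ y', b = some y' ∧ r y y' := by
  cases h with
  | some h => exact ⟨_, rfl, h⟩

end opt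

/-! ### matrices -/

section mat

variable {Y Y' I J : Type}

/-- entrywise relation of matrices -/
def MR (r : Y → Y' → Prop) (M : I → J → Option Y) (M' : I → J → Option Y') : Prop :=
  ∀ i j, Option.Rel r (M i j) (M' i j)

variable {r : Y → Y' → Prop}

theorem MR.eq_iff (h : PI r) {M N : I → J → Option Y} {M' N' : I → J → Option Y'}
    (h1 : MR r M M') (h2 : MR r N N') : M = N ↔ M' = N' := by
  constructor
  · rintro rfl
    funext i j
    exact optRel_fun h (h1 i j) (h2 i j)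
  · rintro rfl
    funext i j
    exact optRel_inj h (h1 i j) (h2 i j)

theorem MR.mono {r' : Y → Y' → Prop} (h : ∀ y y', r y y' → r' y y') {M : I → J → Option Y}
    {M' : I → J → Option Y'} (h1 : MR r M M') : MR r' M M' :=
  fun i j => optRel_mono h (h1 i j)

theorem MR.flip {M : I → J → Option Y} {M' : I → J → Option Y'} (h : MR r M M') :
    MR (fun y' y => r y y') M' M := fun i j => optRel_flip (h i j)

theorem MR.tr {M : I → J → Option Y} {M' : I → J → Option Y'} (h : MR r M M') :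
    MR r (Wu.tr M) (Wu.tr M') := fun i j => h j i

theorem NU_rel (h : PI r) {w : J → Y} {w' : J → Y'} (hw : ∀ l, r (w l) (w' l)) {c j : J}
    (_hcj : c ≠ j) (h1 : ∀ l, l ≠ j → w l = w c) : NU w' (w' c) :=
  ⟨j, fun l hl => (h _ _ _ _ (hw l) (hw c)).1 (h1 l hl)⟩

theorem cen_rel (hJ : Three J) (h : PI r) {w : J → Y} {w' : J → Y'} (hw : ∀ l, r (w l) (w' l)) :
    Option.Rel r (cen w) (cen w') := by
  by_cases h1 : ∃ y, NU w y
  · obtain ⟨y, j, hj⟩ := h1
    obtain ⟨c, hc, -⟩ := hJ j j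
    have h2 : NU w (w c) := ⟨j, fun l hl => by rw [hj l hl, hj c hc]⟩
    have h3 : NU w' (w' c) := NU_rel h hw hc (fun l hl => by rw [hj l hl, hj c hc])
    rw [cen_eq hJ h2, cen_eq hJ h3]
    exact .some (hw c)
  · have h2 : ¬ ∃ y, NU w' y := by
      rintro ⟨y, j, hj⟩
      obtain ⟨c, hc, -⟩ := hJ j j
      exact h1 ⟨_, NU_rel h.flip hw hc (fun l hl => by rw [hj l hl, hj c hc])⟩
    unfold cen
    rw [dif_neg h1, dif_neg h2]
    exact .none

theorem rowM_rel (hJ : Three J) (h : PI r) (i : I) {w : J → Y} {w' : J → Y'}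
    (hw : ∀ l, r (w l) (w' l)) : MR r (rowM i w) (rowM i w') := by
  intro k l
  by_cases hk : k = i
  · subst hk
    rw [rowM_self, rowM_self]
    exact .some (hw l)
  · rw [rowM_ne hk, rowM_ne hk]
    exact cen_rel hJ h hw

theorem colM_rel (hI : Three I) (h : PI r) (j : J) {z : I → Y} {z' : I → Y'}
    (hz : ∀ l, r (z l) (z' l)) : MR r (colM j z) (colM j z') :=
  (rowM_rel hI h j hz).tr

/-- a matrix related to a row matrix is a row matrix -/
theorem row_of_rel (hJ : Three J) (h : PI r) {i : I} {w : J → Y} {M' : I → J → Option Y'}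
    (h1 : MR r (rowM i w) M') : ∃ w', (∀ l, r (w l) (w' l)) ∧ M' = rowM i w' := by
  have h2 : ∀ l, ∃ y', M' i l = some y' ∧ r (w l) y' := by
    intro l
    have := h1 i l
    rw [rowM_self] at this
    exact optRel_some this
  choose w' hw1 hw2 using h2
  refine ⟨w', hw2, ?_⟩
  exact (h1.eq_iff h (rowM_rel hJ h i hw2)).1 rfl

theorem col_of_rel (hI : Three I) (h : PI r) {j : J} {z : I → Y} {M' : I → J → Option Y'}
    (h1 : MR r (colM j z) M') : ∃ z', (∀ l, r (z l) (z' l)) ∧ M' = colM j z' := by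
  obtain ⟨z', hz1, hz2⟩ := row_of_rel (i := j) hI h h1.tr
  exact ⟨z', hz1, congrArg tr hz2⟩

/-- the rook letters are steps -/
theorem act_rel (hI : Three I) (hJ : Three J) {r1 r0 : Y → Y' → Prop} (h1 : PI r1) (h0 : PI r0)
    (hle : ∀ y y', r1 y y' → r0 y y') (i : I) (j : J) {x : Y → Y} {x' : Y' → Y'}
    (hx : ∀ y y', r1 y y' → r0 (x y) (x' y')) {M : I → J → Option Y} {M' : I → J → Option Y'}
    (hM : MR r1 M M') : MR r0 (act i j x M) (act i j x' M') := by
  classical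
  rcases cases3 i j M with ⟨w, rfl⟩ | ⟨z, rfl⟩ | ⟨h2, h3⟩
  · obtain ⟨w', hw', rfl⟩ := row_of_rel hJ h1 hM
    rw [act_row, act_row]
    apply rowM_rel hJ h0
    intro l
    by_cases hl : l = j
    · subst hl
      rw [Function.update_self, Function.update_self]
      exact hx _ _ (hw' _)
    · rw [Function.update_of_ne hl, Function.update_of_ne hl]
      exact hle _ _ (hw' _)
  · obtain ⟨z', hz', rfl⟩ := col_of_rel hI h1 hM
    rw [act_col hI hJ, act_col hI hJ]
    apply colM_rel hI h0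
    intro l
    by_cases hl : l = i
    · subst hl
      rw [Function.update_self, Function.update_self]
      exact hx _ _ (hz' _)
    · rw [Function.update_of_ne hl, Function.update_of_ne hl]
      exact hle _ _ (hz' _)
  · rw [act_else x h2 h3, act_else x' (i := i) (j := j) (M := M')]
    · exact hM.mono hle
    · rintro w' rfl
      obtain ⟨w, -, hw⟩ := row_of_rel (i := i) hJ h1.flip hM.flip
      exact h2 w hw.symm
    · rintro z' rfl
      obtain ⟨z, -, hz⟩ := col_of_rel (j := j) hI h1.flip hM.flip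
      exact h3 z hz.symm

theorem con_rel {y : Y} {y' : Y'} (h : r y y') : MR r (con I J y) (con I J y') :=
  fun _ _ => .some h

end mat

/-! ### the rook part -/

section rook

variable {Y Y' : Type} {R : ℕ → Y → Y' → Prop} {Q : ℕ → ℕ → ℕ → Prop}

/-- lifted relation on the rook part -/
inductive RR (Q : ℕ → ℕ → ℕ → Prop) (R : ℕ → Y → Y' → Prop) (m : ℕ) : RX Y → RX Y' → Prop
  | mat {n n' : ℕ} {M : Mat Y} {M' : Mat Y'} (hn : Q m n n') (hM : MR (R m) M M') :
      RR Q R m (Sum.inl (n, M)) (Sum.inl (n', M'))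
  | pt {n n' : ℕ} {y : Y} {y' : Y'} (hn : Q m n n') (hy : R m y y') :
      RR Q R m (Sum.inr (n, y)) (Sum.inr (n', y'))

/-- the properties of the index relation -/
structure Idx (Q : ℕ → ℕ → ℕ → Prop) : Prop where
  gpi : GPI Q
  zero : ∀ {m n n'}, Q m n n' → Q m 0 0
  succ : ∀ {m n n'}, Q (m + 1) n n' → Q m (n + 1) (n' + 1)
  pred : ∀ {m n n'}, Q (m + 1) (n + 1) (n' + 1) → Q m n n'

theorem Idx.zero_iff (h : Idx Q) {m n n' : ℕ} (h1 : Q m n n') : n = 0 ↔ n' = 0 :=
  h.gpi.inj m _ _ _ _ h1 (h.zero h1)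

theorem RR_gpi (hQ : Idx Q) (hR : GPI R) : GPI (RR Q R) := by
  refine ⟨?_, ?_⟩
  · rintro m _ _ _ _ (⟨h1, h2⟩ | ⟨h1, h2⟩) (⟨k1, k2⟩ | ⟨k1, k2⟩)
    · rw [Sum.inl.injEq, Sum.inl.injEq, Prod.mk.injEq, Prod.mk.injEq,
        hQ.gpi.inj m _ _ _ _ h1 k1, h2.eq_iff (hR.inj m) k2]
    · simp
    · simp
    · rw [Sum.inr.injEq, Sum.inr.injEq, Prod.mk.injEq, Prod.mk.injEq,
        hQ.gpi.inj m _ _ _ _ h1 k1, hR.inj m _ _ _ _ h2 k2]
  · rintro m _ _ (⟨h1, h2⟩ | ⟨h1, h2⟩)
    · exact .mat (hQ.gpi.mono h1) (h2.mono fun _ _ h => hR.mono h)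
    · exact .pt (hQ.gpi.mono h1) (hR.mono h2)

theorem cY_rel_iff (hR : GPI R) {m : ℕ} {M : Mat Y} {M' : Mat Y'} (h : MR (R m) M M') :
    (∃ y, cY y = M) ↔ ∃ y', cY y' = M' := by
  constructor
  · rintro ⟨y, rfl⟩
    obtain ⟨y', hy', hr⟩ := optRel_some (h 0 0)
    exact ⟨y', ((con_rel hr).eq_iff (hR.inj m) h).1 rfl⟩
  · rintro ⟨y', rfl⟩
    obtain ⟨y, hy, hr⟩ := optRel_some (h.flip 0 0)
    exact ⟨y, ((con_rel hr).eq_iff (hR.inj m) h).2 rfl⟩

theorem cY_rel {m : ℕ} {y : Y} {y' : Y'} (h : MR (R m) (cY y) (cY y')) : R m y y' := by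
  have := h 0 0
  cases this with
  | some h => exact h

theorem shP_stp (hQ : Idx Q) (hR : GPI R) : Stp (RR Q R) (shP : Equiv.Perm (RX Y)) shP := by
  rintro m _ _ (@⟨n, n', M, M', h1, h2⟩ | @⟨n, n', y, y', h1, h2⟩)
  · rw [shP_apply, shP_apply]
    by_cases hc : ∃ y, cY y = M
    · obtain ⟨y', hy'⟩ := (cY_rel_iff hR h2).1 hc
      obtain ⟨y, rfl⟩ := hc
      subst hy'
      have h3 := cY_rel h2
      have h4 := hQ.zero_iff h1
      rcases n with _ | n
      · obtain rfl : n' = 0 := h4.1 rfl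
        rw [shf_zero, shf_zero]
        exact .pt (hQ.gpi.mono h1) (hR.mono h3)
      · rcases n' with _ | n'
        · exact absurd (h4.2 rfl) (by simp)
        rw [shf_succ, shf_succ]
        exact .mat (hQ.pred h1) (h2.mono fun _ _ h => hR.mono h)
    · have hc' : ¬ ∃ y', cY y' = M' := fun h => hc ((cY_rel_iff hR h2).2 h)
      rw [shf_else n M (fun y hy => hc ⟨y, hy⟩), shf_else n' M' (fun y hy => hc' ⟨y, hy⟩)]
      exact .mat (hQ.gpi.mono h1) (h2.mono fun _ _ h => hR.mono h)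
  · rw [shP_apply, shP_apply, shf_inr, shf_inr]
    exact .pt (hQ.succ h1) (hR.mono h2)

theorem shP_symm_stp (hQ : Idx Q) (hR : GPI R) :
    Stp (RR Q R) (shP⁻¹ : Equiv.Perm (RX Y)) (shP⁻¹ : Equiv.Perm (RX Y')) := by
  have e1 : ∀ {Y : Type} (x : RX Y), (shP⁻¹ : Equiv.Perm (RX Y)) x = shg x := fun _ => rfl
  rintro m _ _ (@⟨n, n', M, M', h1, h2⟩ | @⟨n, n', y, y', h1, h2⟩)
  · rw [e1, e1]
    by_cases hc : ∃ y, cY y = M
    · obtain ⟨y', hy'⟩ := (cY_rel_iff hR h2).1 hc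
      obtain ⟨y, rfl⟩ := hc
      subst hy'
      rw [shg_con, shg_con]
      exact .mat (hQ.succ h1) (h2.mono fun _ _ h => hR.mono h)
    · have hc' : ¬ ∃ y', cY y' = M' := fun h => hc ((cY_rel_iff hR h2).2 h)
      rw [shg_else n M (fun y hy => hc ⟨y, hy⟩), shg_else n' M' (fun y hy => hc' ⟨y, hy⟩)]
      exact .mat (hQ.gpi.mono h1) (h2.mono fun _ _ h => hR.mono h)
  · rw [e1, e1]
    have h4 := hQ.zero_iff h1
    rcases n with _ | n
    · obtain rfl : n' = 0 := h4.1 rfl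
      rw [shg_zero, shg_zero]
      exact .mat (hQ.gpi.mono h1) (con_rel (hR.mono h2))
    · rcases n' with _ | n'
      · exact absurd (h4.2 rfl) (by simp)
      rw [shg_succ, shg_succ]
      exact .pt (hQ.pred h1) (hR.mono h2)

/-- the block copy of a step is a step -/
theorem bf_stp (hQ : Idx Q) (hR : GPI R) {f : Y → Y} {f' : Y' → Y'} (hf : Stp R f f') :
    Stp (RR Q R) (fun x => match x with
      | Sum.inl x => Sum.inl x
      | Sum.inr (0, y) => Sum.inr (0, f y)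
      | Sum.inr (n + 1, y) => Sum.inr (n + 1, y)) (fun x => match x with
      | Sum.inl x => Sum.inl x
      | Sum.inr (0, y) => Sum.inr (0, f' y)
      | Sum.inr (n + 1, y) => Sum.inr (n + 1, y)) := by
  rintro m _ _ (@⟨n, n', M, M', h1, h2⟩ | @⟨n, n', y, y', h1, h2⟩)
  · exact .mat (hQ.gpi.mono h1) (h2.mono fun _ _ h => hR.mono h)
  · have h4 := hQ.zero_iff h1
    rcases n with _ | n
    · obtain rfl : n' = 0 := h4.1 rfl
      exact .pt (hQ.gpi.mono h1) (hf _ _ _ h2)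
    · rcases n' with _ | n'
      · exact absurd (h4.2 rfl) (by simp)
      exact .pt (hQ.gpi.mono h1) (hR.mono h2)

end rook

/-! ### the whole set -/

section zz

variable {G G' Y Y' : Type} {R : ℕ → Y → Y' → Prop} {Q Qs : ℕ → ℕ → ℕ → Prop}
  {QG : ℕ → G → G' → Prop}

/-- lifted relation on `ZZ G Y` -/
def ZR (Q Qs : ℕ → ℕ → ℕ → Prop) (QG : ℕ → G → G' → Prop) (R : ℕ → Y → Y' → Prop) :
    ℕ → ZZ G Y → ZZ G' Y' → Prop := sumR (RR Q R) (sumR Qs QG)

theorem ZR_gpi (hQ : Idx Q) (hR : GPI R) (hs : GPI Qs) (hG : GPI QG) : GPI (ZR Q Qs QG R) :=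
  sumR_gpi (RR_gpi hQ hR) (sumR_gpi hs hG)

section letters

variable {H H' : Type} [Group H] [MulAction H Y] [Group H'] [MulAction H' Y']

theorem zb_stp (hQ : Idx Q) (hR : GPI R) (hs : GPI Qs) (hG : GPI QG) {h : H} {h' : H'}
    (hh : Stp R (fun y => h • y) (fun y => h' • y)) :
    Stp (ZR Q Qs QG R) (zb G h) (zb G' h') := by
  have key := bf_stp hQ hR hh
  rintro m _ _ (@⟨x, x', h1⟩ | h1)
  · refine .inl ?_
    have h2 := key m x x' h1
    rcases h1 with ⟨h3, h4⟩ | @⟨n, n', y, y', h3, h4⟩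
    · exact h2
    · rcases n with _ | n <;> rcases n' with _ | n' <;> exact h2
  · exact .inr ((sumR_gpi hs hG).mono h1)

theorem zv_stp (hQ : Idx Q) (hR : GPI R) (hs : GPI Qs) (hG : GPI QG) (i : Fin 3) (j : Fin 4)
    {h : H} {h' : H'} (hh : Stp R (fun y => h • y) (fun y => h' • y)) :
    Stp (ZR Q Qs QG R) (zv G i j h) (zv G' i j h') := by
  rintro m _ _ ((@⟨n, n', M, M', h1, h2⟩ | @⟨n, n', y, y', h1, h2⟩) | h1)
  · refine .inl (.mat (hQ.gpi.mono h1) ?_)
    exact act_rel three3 three4 (hR.inj _) (hR.inj _) (fun _ _ h => hR.mono h) i j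
      (fun y y' h => hh m y y' h) h2
  · exact .inl (.pt (hQ.gpi.mono h1) (hR.mono h2))
  · exact .inr ((sumR_gpi hs hG).mono h1)

theorem zs_stp (hQ : Idx Q) (hR : GPI R) (hs : GPI Qs) (hG : GPI QG) :
    Stp (ZR Q Qs QG R) (zs G Y) (zs G' Y') := by
  rintro m _ _ (h1 | h1)
  · exact .inl (shP_stp hQ hR _ _ _ h1)
  · exact .inr ((sumR_gpi hs hG).mono h1)

theorem zs_symm_stp (hQ : Idx Q) (hR : GPI R) (hs : GPI Qs) (hG : GPI QG) :
    Stp (ZR Q Qs QG R) ((zs G Y)⁻¹ : Equiv.Perm _) ((zs G' Y')⁻¹ : Equiv.Perm _) := by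
  have e1 : ∀ {G Y : Type} (x : RX Y), ((zs G Y)⁻¹ : Equiv.Perm _) (Sum.inl x) =
      Sum.inl ((shP⁻¹ : Equiv.Perm (RX Y)) x) := fun _ => rfl
  have e2 : ∀ {G Y : Type} (x : ℕ ⊕ G), ((zs G Y)⁻¹ : Equiv.Perm _) (Sum.inr x) =
      Sum.inr x := fun _ => rfl
  rintro m _ _ (h1 | h1)
  · rw [e1, e1]
    exact .inl (shP_symm_stp hQ hR _ _ _ h1)
  · rw [e2, e2]
    exact .inr ((sumR_gpi hs hG).mono h1)

/-- permutations of the spare points and of `G` -/
theorem spare_stp (hQ : Idx Q) (hR : GPI R) {f g : ℕ → ℕ} {a : G → G} {b : G' → G'}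
    (hf : Stp Qs f g) (hab : Stp QG a b) :
    Stp (ZR Q Qs QG R) (Sum.map id (Sum.map f a)) (Sum.map id (Sum.map g b)) := by
  rintro m _ _ (h1 | h1)
  · exact .inl ((RR_gpi hQ hR).mono h1)
  · exact .inr (sumR_stp hf hab _ _ _ h1)

theorem zg_stp [Group G] [Group G'] (hQ : Idx Q) (hR : GPI R) (hs : GPI Qs) {g : G} {g' : G'}
    (hg : Stp QG (fun x => g * x) (fun x => g' * x)) :
    Stp (ZR Q Qs QG R) (zg Y g) (zg Y' g') := by
  have h2 := spare_stp (Qs := Qs) hQ hR (f := fun x => x) (g := fun x => x) (Stp.id hs) hg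
  rintro m x x' h1
  have h3 := h2 m x x' h1
  rcases x with x | x | x <;> rcases x' with x' | x' | x' <;> exact h3

end letters

theorem ptb_rel (hQ : Idx Q) {m n n' : ℕ} (hn : Q m n n') {y : Y} {y' : Y'} (h : R m y y') :
    ZR Q Qs QG R m (ptb G y) (ptb G' y') :=
  .inl (.pt (hQ.zero hn) h)

theorem pts_rel {m n n' : ℕ} (h : Qs m n n') : ZR Q Qs QG R m (pts G Y n) (pts G' Y' n') :=
  .inr (.inl h)

theorem ptg_rel {m : ℕ} {g : G} {g' : G'} (h : QG m g g') :
    ZR Q Qs QG R m (ptg Y g) (ptg Y' g') :=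
  .inr (.inr h)

end zz

end Crest.Agent.R185.Smp
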