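import Crest.Agent.R185.Smp4

/-!
# R185 / SMP (5): the canonical base relations; the shape of the `K`-orbit of `pts 0`;
types of points of `ZZ G Y`
-/

set_option autoImplicit false

namespace Crest.Agent.R185.Smp

open Crest.Agent.R185.Wu Crest.Agent.R185.Hot

/-! ### canonical relations -/

section can

/-- left multiplication letters -/
def pmul {G B : Type} [Group G] (e : B → G) (c : B) : Equiv.Perm G := Equiv.mulLeft (e c)

theorem idx_natR {ι : Type} {N : ℕ} {n n' : ι → ℕ} (h : Gap (2 * N) n n') : Idx (natR N n n') where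
  gpi := natR_gpi h
  zero h1 := natR_zero (natR_le h1)
  succ h1 := natR_succ _ _ _ h1
  pred h1 := natR_pred _ _ _ h1

/-- the relation on the spare points -/
def spR {ι : Type} (N : ℕ) (s s' : ι → ℤ) (m a a' : ℕ) : Prop :=
  intR N s s' m (Equiv.intEquivNat.symm a) (Equiv.intEquivNat.symm a')

section sp

variable {ι : Type} {N : ℕ} {s s' : ι → ℤ}

theorem spR_gpi (h : GapZ (2 * N) s s') : GPI (spR N s s') := by
  refine ⟨fun m y y' z z' h1 h2 => ?_, fun h1 => (intR_gpi h).mono h1⟩
  rw [← (Equiv.intEquivNat.symm).injective.eq_iff (a := y), (intR_gpi h).inj m _ _ _ _ h1 h2,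
    (Equiv.intEquivNat.symm).injective.eq_iff]

theorem intEquivNat_symm_zero : Equiv.intEquivNat.symm 0 = 0 := by decide

theorem spR_stp : Stp (spR N s s') spP spP := by
  intro m a a' h
  have := intR_add (N := N) (n := s) (n' := s') 1 (by simp) m _ _ h
  unfold spR
  rw [spP_apply, spP_apply, Equiv.symm_apply_apply, Equiv.symm_apply_apply]
  exact this

theorem spR_stp' : Stp (spR N s s') (spP⁻¹ : Equiv.Perm ℕ) (spP⁻¹ : Equiv.Perm ℕ) := by
  intro m a a' h
  have := intR_add (N := N) (n := s) (n' := s') (-1) (by simp) m _ _ h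
  unfold spR
  rw [spP_symm_apply, spP_symm_apply, Equiv.symm_apply_apply, Equiv.symm_apply_apply]
  exact this

end sp

variable {G Y Y' A B : Type} [Group G] {e : B → G} {pa : A → Equiv.Perm Y}
  {pa' : A → Equiv.Perm Y'} {N : ℕ}

/-- **the canonical base relations** -/
theorem base_can {ι ι₁ ι₂ ι₃ : Type} {n n' : ι₁ → ℕ} {s s' : ι₂ → ℤ} {g g' : ι₃ → G}
    {y : ι → Y} {y' : ι → Y'} (hn : Gap (2 * N) n n') (hs : GapZ (2 * N) s s')
    (hg : TyEq (sg (pmul e)) (sg (pmul e)) (2 * N) g g') (i₃ : ι₃) (h3 : g i₃ = 1) (h3' : g' i₃ = 1)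
    (hy : TyEq (sg pa) (sg pa') (2 * N) y y') (i₀ : ι) :
    Base N (natR N n n') (spR N s s') (canR (sg (pmul e)) (sg (pmul e)) N g g')
      (canR (sg pa) (sg pa') N y y') e (y i₀) (y' i₀) pa pa' where
  hQ := idx_natR hn
  hR := canR_gpi (sg_inv pa) (sg_inv pa') hy
  hs := spR_gpi hs
  hG := canR_gpi (sg_inv _) (sg_inv _) hg
  bQ := natR_le
  bR h := by obtain ⟨i, u, hu, -⟩ := h; omega
  bs := intR_le
  bG h := by obtain ⟨i, u, hu, -⟩ := h; omega
  cQ := natR_zero
  cR := canR_self i₀
  cs := fun {m} hm => by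
    unfold spR
    rw [intEquivNat_symm_zero]
    exact intR_zero hm
  cG := fun {m} hm => by
    have := canR_self (act := sg (pmul e)) (act' := sg (pmul e)) (y := g) (y' := g') i₃ hm
    rwa [h3, h3'] at this
  sR a := by
    have := canR_stp (act := sg pa) (act' := sg pa') (N := N) (y := y) (y' := y') (a, true)
    rwa [show sg pa (a, true) = (pa a : Y → Y) from funext fun z => sg_true _ _ _,
      show sg pa' (a, true) = (pa' a : Y' → Y') from funext fun z => sg_true _ _ _] at this
  sR' a := by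
    have := canR_stp (act := sg pa) (act' := sg pa') (N := N) (y := y) (y' := y') (a, false)
    rwa [show sg pa (a, false) = ((pa a)⁻¹ : Equiv.Perm Y) from funext fun z => sg_false _ _ _,
      show sg pa' (a, false) = ((pa' a)⁻¹ : Equiv.Perm Y') from
        funext fun z => sg_false _ _ _] at this
  ss := spR_stp
  ss' := spR_stp'
  sG c := by
    have := canR_stp (act := sg (pmul e)) (act' := sg (pmul e)) (N := N) (y := g) (y' := g')
      (c, true)
    rwa [show sg (pmul e) (c, true) = (fun x => e c * x) from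
      funext fun z => sg_true _ _ _] at this
  sG' c := by
    have := canR_stp (act := sg (pmul e)) (act' := sg (pmul e)) (N := N) (y := g) (y' := g')
      (c, false)
    rwa [show sg (pmul e) (c, false) = (fun x => (e c)⁻¹ * x) from
      funext fun z => sg_false _ _ _] at this

end can

/-! ### shape of the orbit -/

section shape

variable {G Y A B : Type} [Group G] (e : B → G) (pa : A → Equiv.Perm Y) (y₀ : Y)

/-- `y` is reached from the base point by a word of length at most `ρ` -/
def Ent (ρ : ℕ) (y : Y) : Prop := ∃ u : List (A × Bool), u.length ≤ ρ ∧ ev (sg pa) u y₀ = y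

theorem Ent.base {ρ : ℕ} : Ent pa y₀ ρ y₀ := ⟨[], by simp, rfl⟩

variable {pa y₀}

theorem Ent.mono {ρ ρ' : ℕ} (h : ρ ≤ ρ') {y : Y} (hy : Ent pa y₀ ρ y) : Ent pa y₀ ρ' y := by
  obtain ⟨u, hu, rfl⟩ := hy
  exact ⟨u, hu.trans h, rfl⟩

theorem Ent.step {ρ : ℕ} (a : A × Bool) {y : Y} (hy : Ent pa y₀ ρ y) :
    Ent pa y₀ (ρ + 1) (sg pa a y) := by
  obtain ⟨u, hu, rfl⟩ := hy
  exact ⟨a :: u, by simpa using hu, rfl⟩

/-- row or column matrices -/
def RC (M : Mat Y) : Prop :=
  (∃ (i : Fin 3) (w : Fin 4 → Y), rowM i w = M) ∨ ∃ (j : Fin 4) (z : Fin 3 → Y), colM j z = M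

theorem cen_mem {J : Type} (hJ : Three J) {w : J → Y} {y : Y} (h : cen w = some y) :
    ∃ l, w l = y := by
  by_cases h1 : ∃ y, NU w y
  · obtain ⟨y', hy'⟩ := h1
    rw [cen_eq hJ hy'] at h
    obtain ⟨j, hj⟩ := hy'
    obtain ⟨c, hc, -⟩ := hJ j j
    exact ⟨c, by rw [hj c hc]; exact Option.some.inj h⟩
  · unfold cen at h
    rw [dif_neg h1] at h
    exact absurd h (by simp)

theorem rowM_entry {i : Fin 3} {w : Fin 4 → Y} {k l} {y : Y} (h : rowM i w k l = some y) :
    ∃ l, w l = y := by
  by_cases hk : k = i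
  · subst hk
    rw [rowM_self] at h
    exact ⟨l, Option.some.inj h⟩
  · rw [rowM_ne hk] at h
    exact cen_mem three4 h

theorem colM_entry {j : Fin 4} {z : Fin 3 → Y} {k l} {y : Y} (h : colM j z k l = some y) :
    ∃ l, z l = y := by
  by_cases hl : l = j
  · subst hl
    rw [colM_self] at h
    exact ⟨k, Option.some.inj h⟩
  · rw [colM_ne hl] at h
    exact cen_mem three3 h

variable (G pa y₀)

/-- the shape of the points of the orbit of `pts 0` -/
inductive Shape (ρ : ℕ) : ZZ G Y → Prop
  | mat {n : ℕ} {M : Mat Y} (h : RC M) (hM : ∀ i j y, M i j = some y → Ent pa y₀ ρ y) :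
      Shape ρ (Sum.inl (Sum.inl (n, M)))
  | pt {n : ℕ} {y : Y} (hy : Ent pa y₀ ρ y) : Shape ρ (Sum.inl (Sum.inr (n, y)))
  | sp {n : ℕ} : Shape ρ (Sum.inr (Sum.inl n))
  | g {g : G} : Shape ρ (Sum.inr (Sum.inr g))

variable {G pa y₀}

theorem RC.con (y : Y) : RC (cY y) := Or.inl ⟨0, fun _ => y, rowM_const three4 0 0 y⟩

theorem Shape.act {ρ : ℕ} {M : Mat Y} (h : RC M) (hM : ∀ i j y, M i j = some y → Ent pa y₀ ρ y)
    (i : Fin 3) (j : Fin 4) {x : Y → Y} (hx : ∀ y, Ent pa y₀ ρ y → Ent pa y₀ (ρ + 1) (x y)) :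
    RC (act i j x M) ∧ ∀ k l y, act i j x M k l = some y → Ent pa y₀ (ρ + 1) y := by
  rcases cases3 i j M with ⟨w, rfl⟩ | ⟨z, rfl⟩ | ⟨h2, h3⟩
  · have hw : ∀ l, Ent pa y₀ ρ (w l) := fun l => hM i l _ (rowM_self i w l)
    rw [act_row]
    refine ⟨Or.inl ⟨_, _, rfl⟩, fun k l y hy => ?_⟩
    obtain ⟨m, rfl⟩ := rowM_entry hy
    by_cases hm : m = j
    · subst hm
      rw [Function.update_self]
      exact hx _ (hw _)
    · rw [Function.update_of_ne hm]
      exact (hw m).mono (Nat.le_succ _)
  · have hz : ∀ l, Ent pa y₀ ρ (z l) := fun l => hM l j _ (colM_self j z l)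
    rw [act_col three3 three4]
    refine ⟨Or.inr ⟨_, _, rfl⟩, fun k l y hy => ?_⟩
    obtain ⟨m, rfl⟩ := colM_entry hy
    by_cases hm : m = i
    · subst hm
      rw [Function.update_self]
      exact hx _ (hz _)
    · rw [Function.update_of_ne hm]
      exact (hz m).mono (Nat.le_succ _)
  · rw [act_else x h2 h3]
    exact ⟨h, fun k l y hy => (hM k l y hy).mono (Nat.le_succ _)⟩

theorem Shape.mono {ρ ρ' : ℕ} (h : ρ ≤ ρ') {z : ZZ G Y} (hz : Shape G pa y₀ ρ z) :
    Shape G pa y₀ ρ' z := by
  cases hz with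
  | mat h1 hM => exact .mat h1 (fun i j y hy => (hM i j y hy).mono h)
  | pt hy => exact .pt (hy.mono h)
  | sp => exact .sp
  | g => exact .g

theorem shape_swap {ρ : ℕ} {z a b : ZZ G Y} (hz : Shape G pa y₀ ρ z) (ha : Shape G pa y₀ ρ a)
    (hb : Shape G pa y₀ ρ b) [DecidableEq (ZZ G Y)] :
    Shape G pa y₀ ρ (Equiv.swap a b z) := by
  by_cases h1 : z = a
  · rw [h1, Equiv.swap_apply_left]; exact hb
  by_cases h2 : z = b
  · rw [h2, Equiv.swap_apply_right]; exact ha
  · rw [Equiv.swap_apply_of_ne_of_ne h1 h2]; exact hz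

theorem Shape.step {ρ : ℕ} (a : KLet A B × Bool) {z : ZZ G Y} (hz : Shape G pa y₀ ρ z) :
    Shape G pa y₀ (ρ + 1) (sg (kact e y₀ pa) a z) := by
  classical
  have hz' : Shape G pa y₀ (ρ + 1) z := hz.mono (Nat.le_succ _)
  have p0 : Shape G pa y₀ (ρ + 1) (pts G Y 0) := .sp
  have b0 : Shape G pa y₀ (ρ + 1) (ptb G y₀) := .pt (Ent.base _ _)
  have g0 : Shape G pa y₀ (ρ + 1) (ptg Y (1 : G)) := .g
  have key : ∀ (a' : A × Bool) (f : Equiv.Perm Y), (∀ y, f y = sg pa a' y) →
      ∀ y, Ent pa y₀ ρ y → Ent pa y₀ (ρ + 1) (f y) := by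
    intro a' f hf y hy
    rw [hf]
    exact hy.step a'
  have hb : ∀ (a' : A × Bool) (f : Equiv.Perm Y), (∀ y, f y = sg pa a' y) →
      Shape G pa y₀ (ρ + 1) (zb G f z) := by
    intro a' f hf
    cases hz with
    | mat h1 hM => exact .mat h1 (fun i j y hy => (hM i j y hy).mono (Nat.le_succ _))
    | @pt n y hy =>
      rcases n with _ | n
      · exact .pt (key a' f hf y hy)
      · exact .pt (hy.mono (Nat.le_succ _))
    | sp => exact .sp
    | g => exact .g
  have hv : ∀ (i : Fin 3) (j : Fin 4) (a' : A × Bool) (f : Equiv.Perm Y), (∀ y, f y = sg pa a' y) →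
      Shape G pa y₀ (ρ + 1) (zv G i j f z) := by
    intro i j a' f hf
    cases hz with
    | mat h1 hM =>
      obtain ⟨h2, h3⟩ := Shape.act h1 hM i j (key a' f hf)
      exact .mat h2 h3
    | pt hy => exact .pt (hy.mono (Nat.le_succ _))
    | sp => exact .sp
    | g => exact .g
  rcases a with ⟨a, ε⟩
  rcases ε with _ | _
  · rw [sg_false]
    cases a with
    | b a =>
      change Shape G pa y₀ (ρ + 1) ((zb G (pa a))⁻¹ z)
      rw [← map_inv]
      exact hb (a, false) _ (fun y => (sg_false _ _ _).symm)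
    | v i j a =>
      change Shape G pa y₀ (ρ + 1) ((zv G i j (pa a))⁻¹ z)
      rw [← map_inv]
      exact hv i j (a, false) _ (fun y => (sg_false _ _ _).symm)
    | s =>
      cases hz with
      | @mat n M h1 hM =>
        change Shape G pa y₀ (ρ + 1) (Sum.inl (shg (Sum.inl (n, M))))
        by_cases hc : ∃ y, cY y = M
        · obtain ⟨y, rfl⟩ := hc
          rw [shg_con]
          exact .mat h1 (fun i j y hy => (hM i j y hy).mono (Nat.le_succ _))
        · rw [shg_else n M (fun y hy => hc ⟨y, hy⟩)]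
          exact .mat h1 (fun i j y hy => (hM i j y hy).mono (Nat.le_succ _))
      | @pt n y hy =>
        rcases n with _ | n
        · refine .mat (RC.con y) (fun i j y' hy' => ?_)
          have : y = y' := Option.some.inj hy'
          subst this
          exact hy.mono (Nat.le_succ _)
        · exact .pt (hy.mono (Nat.le_succ _))
      | sp => exact .sp
      | g => exact .g
    | g c =>
      cases hz with
      | mat h1 hM => exact .mat h1 (fun i j y hy => (hM i j y hy).mono (Nat.le_succ _))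
      | pt hy => exact .pt (hy.mono (Nat.le_succ _))
      | sp => exact .sp
      | g => exact .g
    | sp =>
      cases hz with
      | mat h1 hM => exact .mat h1 (fun i j y hy => (hM i j y hy).mono (Nat.le_succ _))
      | pt hy => exact .pt (hy.mono (Nat.le_succ _))
      | sp => exact .sp
      | g => exact .g
    | sw =>
      change Shape G pa y₀ (ρ + 1) ((Equiv.swap _ _)⁻¹ z)
      rw [Equiv.swap_inv]
      convert shape_swap hz' p0 b0
    | sw' =>
      change Shape G pa y₀ (ρ + 1) ((Equiv.swap _ _)⁻¹ z)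
      rw [Equiv.swap_inv]
      convert shape_swap hz' g0 p0
  · rw [sg_true]
    cases a with
    | b a => exact hb (a, true) _ (fun y => (sg_true _ _ _).symm)
    | v i j a => exact hv i j (a, true) _ (fun y => (sg_true _ _ _).symm)
    | s =>
      cases hz with
      | @mat n M h1 hM =>
        change Shape G pa y₀ (ρ + 1) (Sum.inl (shf (Sum.inl (n, M))))
        by_cases hc : ∃ y, cY y = M
        · obtain ⟨y, rfl⟩ := hc
          rcases n with _ | n
          · rw [shf_zero]
            exact .pt ((hM 0 0 y rfl).mono (Nat.le_succ _))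
          · rw [shf_succ]
            exact .mat h1 (fun i j y hy => (hM i j y hy).mono (Nat.le_succ _))
        · rw [shf_else n M (fun y hy => hc ⟨y, hy⟩)]
          exact .mat h1 (fun i j y hy => (hM i j y hy).mono (Nat.le_succ _))
      | @pt n y hy => exact .pt (hy.mono (Nat.le_succ _))
      | sp => exact .sp
      | g => exact .g
    | g c =>
      cases hz with
      | mat h1 hM => exact .mat h1 (fun i j y hy => (hM i j y hy).mono (Nat.le_succ _))
      | pt hy => exact .pt (hy.mono (Nat.le_succ _))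
      | sp => exact .sp
      | g => exact .g
    | sp =>
      cases hz with
      | mat h1 hM => exact .mat h1 (fun i j y hy => (hM i j y hy).mono (Nat.le_succ _))
      | pt hy => exact .pt (hy.mono (Nat.le_succ _))
      | sp => exact .sp
      | g => exact .g
    | sw =>
      change Shape G pa y₀ (ρ + 1) (Equiv.swap _ _ z)
      convert shape_swap hz' p0 b0
    | sw' =>
      change Shape G pa y₀ (ρ + 1) (Equiv.swap _ _ z)
      convert shape_swap hz' g0 p0

/-- **the shape of the orbit** -/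
theorem shape_ev (w : List (KLet A B × Bool)) :
    Shape G pa y₀ w.length (ev (sg (kact e y₀ pa)) w (pts G Y 0)) := by
  induction w with
  | nil => exact .sp
  | cons a w ih => exact ih.step e a

end shape

end Crest.Agent.R185.Smp
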