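import Crest.Agent.R185.Smp6

/-!
# R185 / SMP (7): the guard

`GX Z = ℤ × ℤ × ℤ × Z` with three letters `x, y, t`:
* `x : (i, j, n, z) ↦ (i + 1, j, n, z)`;
* `y` moves `j ↦ j + 1` at the doors `i = M k`, `k ≠ 0`, with label `σ k` on `z` if `j = 0`, `n < 0`;
* `t : (0, 0, n, z) ↦ (0, 0, n + 1, z)`.
-/

set_option autoImplicit false

namespace Crest.Agent.R185.Smp

/-- the three letters of the guard -/
inductive GdL : Type
  | x
  | y
  | t
  deriving DecidableEq

/-- positions -/
abbrev GP : Type := ℤ × ℤ × ℤ

/-- points of the guard -/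
abbrev GX (Z : Type) : Type := GP × Z

/-- `i` is a door -/
def Door (M : ℕ) (i : ℤ) : Prop := (M : ℤ) ∣ i ∧ i ≠ 0

instance (M : ℕ) (i : ℤ) : Decidable (Door M i) := inferInstanceAs (Decidable (_ ∧ _))

section guard

variable {Z : Type} (M : ℕ) (σ : ℤ → Equiv.Perm Z)

/-- the move of positions -/
def gpos : GdL × Bool → GP → GP
  | (.x, true), (i, j, n) => (i + 1, j, n)
  | (.x, false), (i, j, n) => (i - 1, j, n)
  | (.y, true), (i, j, n) => if Door M i then (i, j + 1, n) else (i, j, n)
  | (.y, false), (i, j, n) => if Door M i then (i, j - 1, n) else (i, j, n)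
  | (.t, true), (i, j, n) => if i = 0 ∧ j = 0 then (i, j, n + 1) else (i, j, n)
  | (.t, false), (i, j, n) => if i = 0 ∧ j = 0 then (i, j, n - 1) else (i, j, n)

/-- the label of a move -/
def glab : GdL × Bool → GP → Equiv.Perm Z
  | (.y, true), (i, j, n) => if Door M i ∧ j = 0 ∧ n < 0 then σ (i / M) else 1
  | (.y, false), (i, j, n) => if Door M i ∧ j = 1 ∧ n < 0 then (σ (i / M))⁻¹ else 1
  | (.x, _), _ => 1
  | (.t, _), _ => 1

/-- the letters on points -/
def gstep (a : GdL × Bool) (p : GX Z) : GX Z := (gpos M a p.1, glab M σ a p.1 p.2)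

/-- inverse letter -/
def ginv (a : GdL × Bool) : GdL × Bool := (a.1, !a.2)

theorem gpos_ginv (a : GdL × Bool) (p : GP) : gpos M (ginv a) (gpos M a p) = p := by
  obtain ⟨i, j, n⟩ := p
  rcases a with ⟨_ | _ | _, _ | _⟩
  · simp [gpos, ginv]
  · simp [gpos, ginv]
  · by_cases h : Door M i <;> simp [gpos, ginv, h]
  · by_cases h : Door M i <;> simp [gpos, ginv, h]
  · by_cases h : i = 0 ∧ j = 0 <;> simp [gpos, ginv, h]
  · by_cases h : i = 0 ∧ j = 0 <;> simp [gpos, ginv, h]

theorem glab_ginv (a : GdL × Bool) (p : GP) :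
    glab M σ (ginv a) (gpos M a p) = (glab M σ a p)⁻¹ := by
  obtain ⟨i, j, n⟩ := p
  rcases a with ⟨_ | _ | _, _ | _⟩
  · simp [glab, ginv]
  · simp [glab, ginv]
  · by_cases h : Door M i
    · by_cases h2 : j = 1 ∧ n < 0
      · simp [gpos, glab, ginv, h, h2]
      · have h3 : ¬ (j - 1 = 0 ∧ n < 0) := fun h3 => h2 ⟨by omega, h3.2⟩
        simp [gpos, glab, ginv, h, h2]
        intro h4 h5
        exact absurd ⟨h4, h5⟩ h3
    · simp [gpos, glab, ginv, h]
  · by_cases h : Door M i
    · by_cases h2 : j = 0 ∧ n < 0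
      · simp [gpos, glab, ginv, h, h2]
      · simp [gpos, glab, ginv, h, h2]
    · simp [gpos, glab, ginv, h]
  · simp [glab, ginv]
  · simp [glab, ginv]

theorem ginv_ginv (a : GdL × Bool) : ginv (ginv a) = a := by
  rcases a with ⟨a, ε⟩
  simp [ginv]

theorem gstep_ginv (a : GdL × Bool) (p : GX Z) : gstep M σ (ginv a) (gstep M σ a p) = p := by
  obtain ⟨p, z⟩ := p
  simp [gstep, gpos_ginv, glab_ginv]

/-- the letters as permutations -/
def gperm (a : GdL) : Equiv.Perm (GX Z) where
  toFun := gstep M σ (a, true)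
  invFun := gstep M σ (a, false)
  left_inv p := gstep_ginv M σ (a, true) p
  right_inv p := gstep_ginv M σ (a, false) p

theorem sg_gperm (a : GdL × Bool) : sg (gperm M σ) a = gstep M σ a := by
  funext p
  rcases a with ⟨a, _ | _⟩
  · rw [sg_false]; rfl
  · rw [sg_true]; rfl

/-! ### labels of words -/

/-- the label of a word -/
def glabs : List (GdL × Bool) → GP → Equiv.Perm Z
  | [], _ => 1
  | a :: w, p => glab M σ a (ev (gpos M) w p) * glabs w p

theorem ev_gstep (w : List (GdL × Bool)) (p : GP) (z : Z) :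
    ev (gstep M σ) w (p, z) = (ev (gpos M) w p, glabs M σ w p z) := by
  induction w with
  | nil => rfl
  | cons a w ih => rw [ev_cons, ih]; rfl

/-! ### the list of doors -/

/-- toggle -/
def tog (d : ℤ) : List ℤ → List ℤ
  | [] => [d]
  | d' :: L => if d = d' then L else d :: d' :: L

/-- update of the list of doors -/
def gdl : GdL × Bool → GP → List ℤ → List ℤ
  | (.y, true), (i, j, n), L => if Door M i ∧ j = 0 ∧ n < 0 then tog i L else L
  | (.y, false), (i, j, n), L => if Door M i ∧ j = 1 ∧ n < 0 then tog i L else L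
  | (.x, _), _, L => L
  | (.t, _), _, L => L

/-- the doors of a word, most recent first, backtracks cancelled -/
def gds : List (GdL × Bool) → GP → List ℤ
  | [], _ => []
  | a :: w, p => gdl M a (ev (gpos M) w p) (gds w p)

/-- the side -/
def rs (p : GP) : Bool := decide (1 ≤ p.2.1 ∧ p.2.2 < 0)

/-- the label word of a list of doors as a permutation -/
def kv : List ℤ → Bool → Equiv.Perm Z
  | [], _ => 1
  | d :: L, s => (if s then σ (d / M) else (σ (d / M))⁻¹) * kv L (!s)

theorem kv_tog (d : ℤ) (L : List ℤ) (s : Bool) :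
    kv M σ (tog d L) s = (if s then σ (d / M) else (σ (d / M))⁻¹) * kv M σ L (!s) := by
  cases L with
  | nil => rfl
  | cons d' L =>
    by_cases h : d = d'
    · subst h
      rcases s with _ | _ <;> simp [tog, kv]
    · simp only [tog, if_neg h, kv]

theorem rs_eq {i j n i' j' n' : ℤ} (h : (1 ≤ j ∧ n < 0) ↔ (1 ≤ j' ∧ n' < 0)) :
    rs (i, j, n) = rs (i', j', n') := by
  unfold rs
  simp only [decide_eq_decide]
  exact h

theorem rs_true {i j n : ℤ} (h : 1 ≤ j ∧ n < 0) : rs (i, j, n) = true := decide_eq_true h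

theorem rs_false {i j n : ℤ} (h : ¬ (1 ≤ j ∧ n < 0)) : rs (i, j, n) = false :=
  decide_eq_false h

theorem glab_kv (a : GdL × Bool) (p : GP) (L : List ℤ) :
    glab M σ a p * kv M σ L (rs p) = kv M σ (gdl M a p L) (rs (gpos M a p)) := by
  obtain ⟨i, j, n⟩ := p
  rcases a with ⟨_ | _ | _, _ | _⟩
  · exact one_mul _
  · exact one_mul _
  · by_cases h : Door M i
    · by_cases h2 : j = 1 ∧ n < 0
      · obtain ⟨rfl, h2⟩ := h2
        have e1 : gpos M (.y, false) (i, 1, n) = (i, 0, n) := by simp [gpos, h]
        have e2 : glab M σ (.y, false) (i, 1, n) = (σ (i / M))⁻¹ := by simp [glab, h, h2]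
        have e3 : gdl M (.y, false) (i, 1, n) L = tog i L := by simp [gdl, h, h2]
        rw [e1, e2, e3, kv_tog, rs_true ⟨le_rfl, h2⟩, rs_false (by omega)]
        rfl
      · have h3 : rs (i, j - 1, n) = rs (i, j, n) := rs_eq (by omega)
        simp [glab, gdl, gpos, h, h2, h3]
    · simp [glab, gdl, gpos, h]
  · by_cases h : Door M i
    · by_cases h2 : j = 0 ∧ n < 0
      · obtain ⟨rfl, h2⟩ := h2
        have e1 : gpos M (.y, true) (i, 0, n) = (i, 1, n) := by simp [gpos, h]
        have e2 : glab M σ (.y, true) (i, 0, n) = σ (i / M) := by simp [glab, h, h2]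
        have e3 : gdl M (.y, true) (i, 0, n) L = tog i L := by simp [gdl, h, h2]
        rw [e1, e2, e3, kv_tog, rs_true (i := i) ⟨le_rfl, h2⟩, rs_false (by omega)]
        rfl
      · have h3 : rs (i, j + 1, n) = rs (i, j, n) := rs_eq (by omega)
        simp [glab, gdl, gpos, h, h2, h3]
    · simp [glab, gdl, gpos, h]
  · by_cases h : i = 0 ∧ j = 0
    · obtain ⟨rfl, rfl⟩ := h
      have h3 : rs (0, 0, n - 1) = rs (0, 0, n) := rs_eq (by omega)
      simp [glab, gdl, gpos, h3]
    · simp [glab, gdl, gpos, h]
  · by_cases h : i = 0 ∧ j = 0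
    · obtain ⟨rfl, rfl⟩ := h
      have h3 : rs (0, 0, n + 1) = rs (0, 0, n) := rs_eq (by omega)
      simp [glab, gdl, gpos, h3]
    · simp [glab, gdl, gpos, h]

theorem glabs_kv (w : List (GdL × Bool)) (p : GP) :
    glabs M σ w p = kv M σ (gds M w p) (rs (ev (gpos M) w p)) := by
  induction w with
  | nil => rfl
  | cons a w ih =>
    rw [glabs, ih, glab_kv, ev_cons]
    rfl

theorem tog_parity (d : ℤ) (L : List ℤ) :
    ((tog d L).length % 2 = 1) ↔ ¬ (L.length % 2 = 1) := by
  cases L with
  | nil => simp [tog]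
  | cons d' L =>
    by_cases h : d = d'
    · subst h; simp [tog]; omega
    · simp [tog, h]; omega

/-- the parity of the list -/
theorem gdl_parity (a : GdL × Bool) (q : GP) (L : List ℤ) (s : Bool)
    (hq : rs q = xor s (decide (L.length % 2 = 1))) :
    rs (gpos M a q) = xor s (decide ((gdl M a q L).length % 2 = 1)) := by
  obtain ⟨i, j, n⟩ := q
  have htog : ∀ (q' : GP), rs q' = !rs ((i, j, n) : GP) →
      rs q' = xor s (decide ((tog i L).length % 2 = 1)) := by
    intro q' hq'
    rw [hq', hq]
    by_cases h : L.length % 2 = 1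
    · have h2 : ¬ ((tog i L).length % 2 = 1) := fun h2 => (tog_parity i L).1 h2 h
      rw [decide_eq_true h, decide_eq_false h2]
      cases s <;> rfl
    · have h2 : (tog i L).length % 2 = 1 := (tog_parity i L).2 h
      rw [decide_eq_false h, decide_eq_true h2]
      cases s <;> rfl
  rcases a with ⟨_ | _ | _, _ | _⟩
  · exact hq
  · exact hq
  · by_cases h : Door M i
    · by_cases h2 : j = 1 ∧ n < 0
      · obtain ⟨rfl, h2⟩ := h2
        have e1 : gpos M (.y, false) (i, 1, n) = (i, 0, n) := by simp [gpos, h]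
        have e3 : gdl M (.y, false) (i, 1, n) L = tog i L := by simp [gdl, h, h2]
        rw [e1, e3]
        apply htog
        rw [rs_true ⟨le_rfl, h2⟩, rs_false (by omega)]
        rfl
      · have h3 : rs (i, j - 1, n) = rs (i, j, n) := rs_eq (by omega)
        have e1 : gpos M (.y, false) (i, j, n) = (i, j - 1, n) := by simp [gpos, h]
        have e3 : gdl M (.y, false) (i, j, n) L = L := by simp [gdl, h2]
        rw [e1, e3, h3]
        exact hq
    · have e1 : gpos M (.y, false) (i, j, n) = (i, j, n) := by simp [gpos, h]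
      have e3 : gdl M (.y, false) (i, j, n) L = L := by simp [gdl, h]
      rw [e1, e3]
      exact hq
  · by_cases h : Door M i
    · by_cases h2 : j = 0 ∧ n < 0
      · obtain ⟨rfl, h2⟩ := h2
        have e1 : gpos M (.y, true) (i, 0, n) = (i, 1, n) := by simp [gpos, h]
        have e3 : gdl M (.y, true) (i, 0, n) L = tog i L := by simp [gdl, h, h2]
        rw [e1, e3]
        apply htog
        rw [rs_true ⟨le_rfl, h2⟩, rs_false (by omega)]
        rfl
      · have h3 : rs (i, j + 1, n) = rs (i, j, n) := rs_eq (by omega)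
        have e1 : gpos M (.y, true) (i, j, n) = (i, j + 1, n) := by simp [gpos, h]
        have e3 : gdl M (.y, true) (i, j, n) L = L := by simp [gdl, h2]
        rw [e1, e3, h3]
        exact hq
    · have e1 : gpos M (.y, true) (i, j, n) = (i, j, n) := by simp [gpos, h]
      have e3 : gdl M (.y, true) (i, j, n) L = L := by simp [gdl, h]
      rw [e1, e3]
      exact hq
  · by_cases h : i = 0 ∧ j = 0
    · obtain ⟨rfl, rfl⟩ := h
      have e1 : gpos M (.t, false) (0, 0, n) = (0, 0, n - 1) := by simp [gpos]
      rw [e1, show rs (0, 0, n - 1) = rs (0, 0, n) from rs_eq (by omega)]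
      exact hq
    · have e1 : gpos M (.t, false) (i, j, n) = (i, j, n) := by simp [gpos, h]
      rw [e1]
      exact hq
  · by_cases h : i = 0 ∧ j = 0
    · obtain ⟨rfl, rfl⟩ := h
      have e1 : gpos M (.t, true) (0, 0, n) = (0, 0, n + 1) := by simp [gpos]
      rw [e1, show rs (0, 0, n + 1) = rs (0, 0, n) from rs_eq (by omega)]
      exact hq
    · have e1 : gpos M (.t, true) (i, j, n) = (i, j, n) := by simp [gpos, h]
      rw [e1]
      exact hq

theorem gds_parity (w : List (GdL × Bool)) (p : GP) :
    rs (ev (gpos M) w p) = xor (rs p) (decide ((gds M w p).length % 2 = 1)) := by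
  induction w with
  | nil => simp [gds]
  | cons a w ih => exact gdl_parity M a _ _ _ ih

/-! ### the potential -/

/-- the potential: total distance walked between the doors of the list -/
def pot (i₀ : ℤ) : List ℤ → ℤ → ℕ
  | [], i => (i - i₀).natAbs
  | d :: L, i => (i - d).natAbs + pot i₀ L d

theorem pot_move (i₀ : ℤ) (L : List ℤ) (i i' : ℤ) (h : (i' - i).natAbs ≤ 1) :
    pot i₀ L i' ≤ pot i₀ L i + 1 := by
  cases L with
  | nil => simp only [pot]; omega
  | cons d L => simp only [pot]; omega

theorem pot_tog (i₀ : ℤ) (L : List ℤ) (i : ℤ) : pot i₀ (tog i L) i = pot i₀ L i := by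
  cases L with
  | nil => simp [tog, pot]
  | cons d L =>
    by_cases h : i = d
    · subst h; simp [tog, pot]
    · simp [tog, h, pot]

theorem pot_gds (w : List (GdL × Bool)) (p : GP) :
    pot p.1 (gds M w p) (ev (gpos M) w p).1 ≤ w.length := by
  induction w with
  | nil => simp [gds, pot]
  | cons a w ih =>
    rw [ev_cons, gds]
    generalize hq : ev (gpos M) w p = q at *
    generalize gds M w p = L at *
    obtain ⟨i, j, n⟩ := q
    have h0 : pot p.1 L i ≤ w.length := ih
    rw [List.length_cons]
    rcases a with ⟨_ | _ | _, _ | _⟩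
    · refine (pot_move _ L i _ ?_).trans (by omega)
      simp only [gpos]; omega
    · refine (pot_move _ L i _ ?_).trans (by omega)
      simp only [gpos]; omega
    · by_cases h : Door M i
      · by_cases h2 : j = 1 ∧ n < 0
        · simp only [gdl, gpos, h, h2, if_true, and_self, pot_tog]; omega
        · simp only [gdl, gpos, h, h2, if_true, true_and, if_false]; omega
      · simp only [gdl, gpos, h, false_and, if_false]; omega
    · by_cases h : Door M i
      · by_cases h2 : j = 0 ∧ n < 0
        · simp only [gdl, gpos, h, h2, if_true, and_self, pot_tog]; omega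
        · simp only [gdl, gpos, h, h2, if_true, true_and, if_false]; omega
      · simp only [gdl, gpos, h, false_and, if_false]; omega
    · by_cases h : i = 0 ∧ j = 0
      · simp only [gdl, gpos, h, and_self, if_true]
        obtain ⟨rfl, -⟩ := h
        omega
      · simp only [gdl, gpos, h, if_false]; omega
    · by_cases h : i = 0 ∧ j = 0
      · simp only [gdl, gpos, h, and_self, if_true]
        obtain ⟨rfl, -⟩ := h
        omega
      · simp only [gdl, gpos, h, if_false]; omega

/-- a good list of doors: adjacent doors differ -/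
def GoodL (L : List ℤ) : Prop := (∀ d ∈ L, Door M d) ∧ L.IsChain (· ≠ ·)

theorem goodL_tog {L : List ℤ} (h : GoodL M L) {d : ℤ} (hd : Door M d) : GoodL M (tog d L) := by
  cases L with
  | nil => exact ⟨by simpa [tog] using hd, by simp [tog]⟩
  | cons d' L =>
    by_cases h2 : d = d'
    · simp only [tog, if_pos h2]
      exact ⟨fun x hx => h.1 x (List.mem_cons_of_mem _ hx), h.2.tail⟩
    · simp only [tog, if_neg h2]
      refine ⟨?_, ?_⟩
      · intro x hx
        rcases List.mem_cons.1 hx with rfl | hx
        · exact hd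
        · exact h.1 x hx
      · exact List.isChain_cons_cons.2 ⟨h2, h.2⟩

theorem goodL_gds (w : List (GdL × Bool)) (p : GP) : GoodL M (gds M w p) := by
  induction w with
  | nil => exact ⟨by simp [gds], by simp [gds]⟩
  | cons a w ih =>
    rw [gds]
    generalize ev (gpos M) w p = q at *
    obtain ⟨i, j, n⟩ := q
    rcases a with ⟨_ | _ | _, _ | _⟩
    · exact ih
    · exact ih
    · simp only [gdl]
      split_ifs with h
      · exact goodL_tog M ih h.1
      · exact ih
    · simp only [gdl]
      split_ifs with h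
      · exact goodL_tog M ih h.1
      · exact ih
    · exact ih
    · exact ih

theorem door_dist {d d' : ℤ} (h : Door M d) (h' : Door M d') (hne : d ≠ d') :
    M ≤ (d - d').natAbs := by
  obtain ⟨k, rfl⟩ := h.1
  obtain ⟨l, rfl⟩ := h'.1
  have : k - l ≠ 0 := fun h => hne (by rw [sub_eq_zero.1 h])
  rw [← mul_sub, Int.natAbs_mul, Int.natAbs_natCast]
  exact Nat.le_mul_of_pos_right _ (Int.natAbs_pos.2 this)

theorem door_zero {d : ℤ} (h : Door M d) : M ≤ d.natAbs := by
  obtain ⟨k, rfl⟩ := h.1
  have : k ≠ 0 := fun hk => h.2 (by rw [hk, mul_zero])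
  rw [Int.natAbs_mul, Int.natAbs_natCast]
  exact Nat.le_mul_of_pos_right _ (Int.natAbs_pos.2 this)

/-- lower bound of the potential -/
theorem pot_lower (i₀ : ℤ) (L : List ℤ) (h : GoodL M L) (i : ℤ) :
    M * L.length ≤ pot i₀ L i + M := by
  have key : ∀ (L : List ℤ) (d : ℤ), GoodL M (d :: L) → M * L.length ≤ pot i₀ L d := by
    intro L
    induction L with
    | nil => intro d _; simp
    | cons d' L ih =>
      intro d h
      have h1 := ih d' ⟨fun x hx => h.1 x (List.mem_cons_of_mem _ hx), h.2.tail⟩
      have h2 := door_dist M (h.1 d (by simp)) (h.1 d' (by simp)) (List.isChain_cons_cons.1 h.2).1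
      simp only [pot, List.length_cons, Nat.mul_add, Nat.mul_one]
      omega
  cases L with
  | nil => simp
  | cons d L =>
    have := key L d h
    simp only [pot, List.length_cons, Nat.mul_add, Nat.mul_one]
    omega

theorem pot_lower_zero (L : List ℤ) (h : GoodL M L) (i : ℤ) :
    M * L.length ≤ pot 0 L i := by
  have key : ∀ (L : List ℤ) (d : ℤ), GoodL M (d :: L) → M * (L.length + 1) ≤ pot 0 L d := by
    intro L
    induction L with
    | nil =>
      intro d h
      have := door_zero M (h.1 d (by simp))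
      simp only [pot, List.length_nil, Nat.zero_add, Nat.mul_one, sub_zero]
      omega
    | cons d' L ih =>
      intro d h
      have h1 := ih d' ⟨fun x hx => h.1 x (List.mem_cons_of_mem _ hx), h.2.tail⟩
      have h2 := door_dist M (h.1 d (by simp)) (h.1 d' (by simp)) (List.isChain_cons_cons.1 h.2).1
      simp only [pot, List.length_cons, Nat.mul_add, Nat.mul_one] at h1 ⊢
      omega
  cases L with
  | nil => simp
  | cons d L =>
    have := key L d h
    simp only [pot, List.length_cons]
    omega

variable {M}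

/-- **sections from the base position** -/
theorem gds_base (w : List (GdL × Bool)) (n : ℤ) (j : ℤ) :
    M * (gds M w (0, j, n)).length ≤ w.length :=
  (pot_lower_zero M _ (goodL_gds M w _) _).trans (pot_gds M w (0, j, n))

/-- **sections of closed words** -/
theorem gds_closed (hM : 0 < M) (w : List (GdL × Bool)) (p : GP) (h : ev (gpos M) w p = p) :
    (gds M w p).length ≤ 2 * (w.length / M) := by
  have h1 := pot_gds M w p
  have h2 := pot_lower M p.1 _ (goodL_gds M w p) (ev (gpos M) w p).1
  have h3 := gds_parity M w p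
  rw [h] at h3
  have h4 : (gds M w p).length % 2 = 0 := by
    by_contra hc
    have : (gds M w p).length % 2 = 1 := by omega
    rw [this] at h3
    rcases rs p with _ | _ <;> simp at h3
  set l := (gds M w p).length with hl
  have h5 : M * l ≤ w.length + M := by omega
  have h6 : l ≤ w.length / M + 1 := by
    have : (M * l) / M ≤ (w.length + M) / M := Nat.div_le_div_right h5
    rw [Nat.mul_div_cancel_left _ hM, Nat.add_div_right _ hM] at this
    exact this
  rcases Nat.eq_zero_or_pos (w.length / M) with h7 | h7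
  · omega
  · omega

end guard

end Crest.Agent.R185.Smp
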