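import Crest.Agent.R185.Smp7

/-!
# R185 / SMP (8): the guard: independence of far positions, types, the words of the letters
-/

set_option autoImplicit false

namespace Crest.Agent.R185.Smp

/-! ### labels from letters -/

section lab

variable {C Z Z' : Type} (M : ℕ) (lt : ℤ → Option C) (p : C → Equiv.Perm Z)

/-- the labels of the doors -/
def sig (k : ℤ) : Equiv.Perm Z := (lt k).elim 1 p

/-- the word of a list of doors -/
def kwd : List ℤ → Bool → List (C × Bool)
  | [], _ => []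
  | d :: L, s => match lt (d / M) with
    | some c => (c, s) :: kwd L (!s)
    | none => kwd L (!s)

theorem kwd_length (L : List ℤ) (s : Bool) : (kwd M lt L s).length ≤ L.length := by
  induction L generalizing s with
  | nil => simp [kwd]
  | cons d L ih =>
    have := ih (!s)
    unfold kwd
    cases lt (d / M) with
    | none => simp only [List.length_cons]; omega
    | some c => simp only [List.length_cons]; omega

theorem kv_kwd (L : List ℤ) (s : Bool) (z : Z) :
    kv M (sig lt p) L s z = ev (sg p) (kwd M lt L s) z := by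
  induction L generalizing s with
  | nil => rfl
  | cons d L ih =>
    unfold kv kwd
    rw [Equiv.Perm.mul_apply, ih]
    cases h : lt (d / M) with
    | none =>
      have : sig lt p (d / M) = 1 := by simp [sig, h]
      rw [this]
      rcases s with _ | _ <;> simp
    | some c =>
      have : sig lt p (d / M) = p c := by simp [sig, h]
      rw [this, ev_cons]
      rcases s with _ | _
      · rw [sg_false]; simp
      · rw [sg_true]; simp

/-- the label of a word of guard letters as a word -/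
theorem glabs_word (w : List (GdL × Bool)) (q : GP) (z : Z) :
    glabs M (sig lt p) w q z = ev (sg p) (kwd M lt (gds M w q) (rs (ev (gpos M) w q))) z := by
  rw [glabs_kv, kv_kwd]

end lab

/-! ### translation of far positions -/

/-- `p'` is a translate of `p`, and the two are indistinguishable for `m` steps -/
structure SR (M J : ℕ) (α β γ : ℤ) (m : ℕ) (p p' : GP) : Prop where
  hi : p'.1 = p.1 + α
  hj : p'.2.1 = p.2.1 + β
  hn : p'.2.2 = p.2.2 + γ
  ci : α = 0 ∨ ((M : ℤ) ∣ α ∧ ((M * J + m < p.1 ∧ M * J + m < p'.1) ∨ (p.1 < -m ∧ p'.1 < -m)))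
  cj : β = 0 ∨ ((m + 1 < p.2.1 ∧ m + 1 < p'.2.1) ∨ (p.2.1 < -m ∧ p'.2.1 < -m))
  cn : γ = 0 ∨ ((m < p.2.2 ∧ m < p'.2.2) ∨ (p.2.2 < -m ∧ p'.2.2 < -m))

section sr

variable {M J : ℕ} {α β γ : ℤ}

theorem SR.door {m : ℕ} {p p' : GP} (h : SR M J α β γ (m + 1) p p') :
    Door M p.1 ↔ Door M p'.1 := by
  unfold Door
  rcases h.ci with h1 | ⟨h1, h2⟩
  · rw [h.hi, h1, add_zero]
  · rw [h.hi, (Int.dvd_add_left h1 : (M : ℤ) ∣ p.1 + α ↔ (M : ℤ) ∣ p.1)]
    have h3 := h.hi
    have h4 : (0 : ℤ) ≤ M * J := by positivity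
    constructor
    · rintro ⟨h5, h6⟩
      exact ⟨h5, by omega⟩
    · rintro ⟨h5, h6⟩
      exact ⟨h5, by omega⟩

theorem SR.zero {m : ℕ} {p p' : GP} (h : SR M J α β γ (m + 1) p p') :
    (p.1 = 0 ∧ p.2.1 = 0) ↔ (p'.1 = 0 ∧ p'.2.1 = 0) := by
  have h1 := h.hi
  have h2 := h.hj
  have h4 : (0 : ℤ) ≤ M * J := by positivity
  rcases h.ci with h3 | ⟨-, h3⟩ <;> rcases h.cj with h5 | h5 <;> omega

theorem SR.step {m : ℕ} {p p' : GP} (h : SR M J α β γ (m + 1) p p') (a : GdL × Bool) :
    SR M J α β γ m (gpos M a p) (gpos M a p') := by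
  have hd := h.door
  have hz := h.zero
  obtain ⟨i, j, n⟩ := p
  obtain ⟨i', j', n'⟩ := p'
  have hi := h.hi
  have hj := h.hj
  have hn := h.hn
  have ci := h.ci
  have cj := h.cj
  have cn := h.cn
  push_cast at ci cj cn hi hj hn
  simp only at hd hz hi hj hn ci cj cn
  have ci' : ∀ c : ℤ, -1 ≤ c → c ≤ 1 → (α = 0 ∨ ((M : ℤ) ∣ α ∧
      ((M * J + m < i + c ∧ M * J + m < i' + c) ∨ (i + c < -m ∧ i' + c < -m)))) := by
    intro c h1 h2
    rcases ci with h3 | ⟨h3, h4⟩
    · exact Or.inl h3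
    · exact Or.inr ⟨h3, by omega⟩
  rcases a with ⟨_ | _ | _, _ | _⟩
  · exact ⟨by simp only [gpos]; omega, hj, hn, by simpa [gpos, sub_eq_add_neg] using ci' (-1) le_rfl (by omega),
      by simp only [gpos]; omega, by simp only [gpos]; omega⟩
  · exact ⟨by simp only [gpos]; omega, hj, hn, by simpa [gpos] using ci' 1 (by omega) le_rfl,
      by simp only [gpos]; omega, by simp only [gpos]; omega⟩
  · by_cases h1 : Door M i
    · have h2 := hd.1 h1
      simp only [gpos, h1, h2, if_true]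
      exact ⟨hi, by simp only; omega, hn, by simpa using ci' 0 (by omega) (by omega),
        by simp only; omega, by simp only; omega⟩
    · have h2 : ¬ Door M i' := fun h2 => h1 (hd.2 h2)
      simp only [gpos, h1, h2, if_false]
      exact ⟨hi, hj, hn, by simpa using ci' 0 (by omega) (by omega),
        by simp only; omega, by simp only; omega⟩
  · by_cases h1 : Door M i
    · have h2 := hd.1 h1
      simp only [gpos, h1, h2, if_true]
      exact ⟨hi, by simp only; omega, hn, by simpa using ci' 0 (by omega) (by omega),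
        by simp only; omega, by simp only; omega⟩
    · have h2 : ¬ Door M i' := fun h2 => h1 (hd.2 h2)
      simp only [gpos, h1, h2, if_false]
      exact ⟨hi, hj, hn, by simpa using ci' 0 (by omega) (by omega),
        by simp only; omega, by simp only; omega⟩
  · by_cases h1 : i = 0 ∧ j = 0
    · have h2 := hz.1 h1
      simp only [gpos, h1, h2, and_self, if_true]
      exact ⟨by simp only; omega, by simp only; omega, by simp only; omega,
        by simp only; left; omega, by simp only; left; omega, by simp only; omega⟩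
    · have h2 : ¬ (i' = 0 ∧ j' = 0) := fun h2 => h1 (hz.2 h2)
      simp only [gpos, h1, h2, if_false]
      exact ⟨hi, hj, hn, by simpa using ci' 0 (by omega) (by omega),
        by simp only; omega, by simp only; omega⟩
  · by_cases h1 : i = 0 ∧ j = 0
    · have h2 := hz.1 h1
      simp only [gpos, h1, h2, and_self, if_true]
      exact ⟨by simp only; omega, by simp only; omega, by simp only; omega,
        by simp only; left; omega, by simp only; left; omega, by simp only; omega⟩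
    · have h2 : ¬ (i' = 0 ∧ j' = 0) := fun h2 => h1 (hz.2 h2)
      simp only [gpos, h1, h2, if_false]
      exact ⟨hi, hj, hn, by simpa using ci' 0 (by omega) (by omega),
        by simp only; omega, by simp only; omega⟩

theorem SR.le {m m' : ℕ} (hm : m' ≤ m) {p p' : GP} (h : SR M J α β γ m p p') :
    SR M J α β γ m' p p' := by
  have ci := h.ci
  have cj := h.cj
  have cn := h.cn
  refine ⟨h.hi, h.hj, h.hn, ?_, by omega, by omega⟩
  rcases ci with h3 | ⟨h3, h4⟩
  · exact Or.inl h3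
  · exact Or.inr ⟨h3, by omega⟩

variable {C Z : Type} {lt : ℤ → Option C} (q : C → Equiv.Perm Z)

/-- same labels -/
theorem SR.lab (hlt : ∀ k c, lt k = some c → 1 ≤ k ∧ k ≤ J) (hM : 0 < M) {m : ℕ} {p p' : GP}
    (h : SR M J α β γ (m + 1) p p') (a : GdL × Bool) :
    glab M (sig lt q) a p = glab M (sig lt q) a p' := by
  have hd := h.door
  have hs : Door M p.1 → sig lt q (p.1 / M) = sig lt q (p'.1 / M) := by
    intro hdp
    rcases h.ci with h3 | ⟨h3, h4⟩
    · rw [h.hi, h3, add_zero]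
    · have hout : ∀ i : ℤ, (M : ℤ) ∣ i → ((M * J + (m + 1 : ℕ) < i) ∨ i < -((m + 1 : ℕ) : ℤ)) →
          sig lt q (i / M) = 1 := by
        rintro i ⟨k, rfl⟩ hi
        rw [Int.mul_ediv_cancel_left _ (by omega)]
        have hk : lt k = none := by
          rcases hk : lt k with _ | c
          · rfl
          · exfalso
            obtain ⟨h5, h6⟩ := hlt k c hk
            rcases hi with hi | hi
            · have : (M : ℤ) * k ≤ M * J := mul_le_mul_of_nonneg_left h6 (by omega)
              omega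
            · have : 0 ≤ (M : ℤ) * k := mul_nonneg (by omega) (by omega)
              omega
        simp [sig, hk]
      have hd' := hd.1 hdp
      rw [hout _ hdp.1 (by omega), hout _ hd'.1 (by omega)]
  obtain ⟨i, j, n⟩ := p
  obtain ⟨i', j', n'⟩ := p'
  have hj := h.hj
  have hn := h.hn
  have cj := h.cj
  have cn := h.cn
  simp only at hd hs hj hn cj cn
  rcases a with ⟨_ | _ | _, _ | _⟩
  · rfl
  · rfl
  · have h1 : (Door M i ∧ j = 1 ∧ n < 0) ↔ (Door M i' ∧ j' = 1 ∧ n' < 0) := by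
      rw [hd]
      constructor
      · rintro ⟨h1, h2, h3⟩; exact ⟨h1, by omega, by omega⟩
      · rintro ⟨h1, h2, h3⟩; exact ⟨h1, by omega, by omega⟩
    simp only [glab]
    by_cases h2 : Door M i ∧ j = 1 ∧ n < 0
    · rw [if_pos h2, if_pos (h1.1 h2), hs h2.1]
    · rw [if_neg h2, if_neg (fun h3 => h2 (h1.2 h3))]
  · have h1 : (Door M i ∧ j = 0 ∧ n < 0) ↔ (Door M i' ∧ j' = 0 ∧ n' < 0) := by
      rw [hd]
      constructor
      · rintro ⟨h1, h2, h3⟩; exact ⟨h1, by omega, by omega⟩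
      · rintro ⟨h1, h2, h3⟩; exact ⟨h1, by omega, by omega⟩
    simp only [glab]
    by_cases h2 : Door M i ∧ j = 0 ∧ n < 0
    · rw [if_pos h2, if_pos (h1.1 h2), hs h2.1]
    · rw [if_neg h2, if_neg (fun h3 => h2 (h1.2 h3))]
  · rfl
  · rfl

theorem SR.ev {N : ℕ} (hlt : ∀ k c, lt k = some c → 1 ≤ k ∧ k ≤ J) (hM : 0 < M) {p p' : GP}
    (h : SR M J α β γ N p p') (w : List (GdL × Bool)) :
    ∀ m, w.length + m ≤ N → SR M J α β γ m (Smp.ev (gpos M) w p) (Smp.ev (gpos M) w p') ∧
      glabs M (sig lt q) w p = glabs M (sig lt q) w p' := by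
  induction w with
  | nil => intro m hm; exact ⟨h.le (by simpa using hm), rfl⟩
  | cons a w ih =>
    intro m hm
    obtain ⟨h1, h2⟩ := ih (m + 1) (by simp at hm; omega)
    refine ⟨h1.step a, ?_⟩
    rw [glabs, glabs, h2, h1.lab q hlt hM a]

theorem SR.fix {N : ℕ} {p p' : GP} (h : SR M J α β γ N p p') (w : List (GdL × Bool))
    (hw : SR M J α β γ 0 (Smp.ev (gpos M) w p) (Smp.ev (gpos M) w p')) :
    Smp.ev (gpos M) w p = p ↔ Smp.ev (gpos M) w p' = p' := by
  have h1 := h.hi
  have h2 := h.hj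
  have h3 := h.hn
  have k1 := hw.hi
  have k2 := hw.hj
  have k3 := hw.hn
  obtain ⟨i, j, n⟩ := p
  obtain ⟨i', j', n'⟩ := p'
  generalize Smp.ev (gpos M) w (i, j, n) = r at *
  generalize Smp.ev (gpos M) w (i', j', n') = r' at *
  obtain ⟨a, b, c⟩ := r
  obtain ⟨a', b', c'⟩ := r'
  simp only at h1 h2 h3 k1 k2 k3
  rw [Prod.mk.injEq, Prod.mk.injEq, Prod.mk.injEq, Prod.mk.injEq]
  constructor
  · rintro ⟨h4, h5, h6⟩; exact ⟨by omega, by omega, by omega⟩
  · rintro ⟨h4, h5, h6⟩; exact ⟨by omega, by omega, by omega⟩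

/-- small positions -/
theorem exists_smallpos (hM : 0 < M) (J N : ℕ) (p : GP) : ∃ (p' : GP) (α β γ : ℤ),
    SR M J α β γ N p p' ∧ p'.1.natAbs ≤ M * J + N + 1 + M ∧ p'.2.1.natAbs ≤ N + 2 ∧
      p'.2.2.natAbs ≤ N + 1 := by
  obtain ⟨i, j, n⟩ := p
  obtain ⟨i', α, hi, ci, bi⟩ : ∃ i' α : ℤ, i' = i + α ∧ (α = 0 ∨ ((M : ℤ) ∣ α ∧
      ((M * J + N < i ∧ M * J + N < i') ∨ (i < -N ∧ i' < -N)))) ∧
      i'.natAbs ≤ M * J + N + 1 + M := by
    have hJ : (0 : ℤ) ≤ M * J := by positivity
    have hJ' : ((M * J : ℕ) : ℤ) = (M : ℤ) * J := by push_cast; rfl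
    have hM' : (0 : ℤ) < M := by exact_mod_cast hM
    by_cases h1 : (M * J + N : ℤ) < i
    · set B : ℤ := M * J + N + 1 with hB
      have h2 := Int.emod_nonneg (i - B) hM'.ne'
      have h3 := Int.emod_lt_of_pos (i - B) hM'
      have h4 := Int.mul_ediv_add_emod (i - B) M
      refine ⟨B + (i - B) % M, -(M * ((i - B) / M)), by omega, Or.inr ⟨?_, Or.inl ⟨h1, by omega⟩⟩,
        by omega⟩
      exact (dvd_mul_right _ _).neg_right
    · by_cases h1' : i < -(N : ℤ)
      · set B : ℤ := -(N : ℤ) - 1 with hB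
        have h2 := Int.emod_nonneg (B - i) hM'.ne'
        have h3 := Int.emod_lt_of_pos (B - i) hM'
        have h4 := Int.mul_ediv_add_emod (B - i) M
        refine ⟨B - (B - i) % M, M * ((B - i) / M), by omega,
          Or.inr ⟨dvd_mul_right _ _, Or.inr ⟨h1', by omega⟩⟩, by omega⟩
      · exact ⟨i, 0, by omega, Or.inl rfl, by omega⟩
  obtain ⟨j', β, hj, cj, bj⟩ : ∃ j' β : ℤ, j' = j + β ∧ (β = 0 ∨ ((N + 1 < j ∧ N + 1 < j') ∨
      (j < -N ∧ j' < -N))) ∧ j'.natAbs ≤ N + 2 := by
    by_cases h1 : (N + 1 : ℤ) < j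
    · exact ⟨N + 2, N + 2 - j, by omega, Or.inr (Or.inl ⟨h1, by omega⟩), by omega⟩
    · by_cases h2 : j < -(N : ℤ)
      · exact ⟨-N - 1, -N - 1 - j, by omega, Or.inr (Or.inr ⟨h2, by omega⟩), by omega⟩
      · exact ⟨j, 0, by omega, Or.inl rfl, by omega⟩
  obtain ⟨n', γ, hn, cn, bn⟩ : ∃ n' γ : ℤ, n' = n + γ ∧ (γ = 0 ∨ ((N < n ∧ N < n') ∨
      (n < -N ∧ n' < -N))) ∧ n'.natAbs ≤ N + 1 := by
    by_cases h1 : (N : ℤ) < n
    · exact ⟨N + 1, N + 1 - n, by omega, Or.inr (Or.inl ⟨h1, by omega⟩), by omega⟩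
    · by_cases h2 : n < -(N : ℤ)
      · exact ⟨-N - 1, -N - 1 - n, by omega, Or.inr (Or.inr ⟨h2, by omega⟩), by omega⟩
      · exact ⟨n, 0, by omega, Or.inl rfl, by omega⟩
  exact ⟨(i', j', n'), α, β, γ, ⟨hi, hj, hn, ci, cj, cn⟩, bi, bj, bn⟩

end sr

/-! ### types of guard points -/

section types

variable {M J : ℕ} {C Z Z' : Type} {lt : ℤ → Option C} {q : C → Equiv.Perm Z}
  {q' : C → Equiv.Perm Z'}

theorem pair_iff {P Z : Type} (a c : P) (b d : Z) : ((a, b) : P × Z) = (c, d) ↔ a = c ∧ b = d := by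
  simp

/-- types at the base point -/
theorem guard_type_base {n N : ℕ} (hN : N < M * (n + 1)) {z : Z} {z' : Z'} {j m : ℤ}
    (hz : TyEq (sg q) (sg q') n (fun _ : Fin 1 => z) (fun _ => z')) :
    TyEq (gstep M (sig lt q)) (gstep M (sig lt q')) N (fun _ : Fin 1 => ((0, j, m), z))
      (fun _ => ((0, j, m), z')) := by
  intro a b w hw
  rw [ev_gstep, ev_gstep, glabs_word, glabs_word]
  have h1 := gds_base (M := M) w m j
  have h2 := kwd_length M lt (gds M w (0, j, m)) (rs (ev (gpos M) w (0, j, m)))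
  have h3 : (gds M w (0, j, m)).length ≤ n := by
    by_contra hc
    have : M * (n + 1) ≤ M * (gds M w (0, j, m)).length := Nat.mul_le_mul_left _ (by omega)
    omega
  refine (pair_iff _ _ _ _).trans (Iff.trans ?_ (pair_iff _ _ _ _).symm)
  exact and_congr_right fun _ => hz 0 0 _ (h2.trans h3)

/-- types at a general point -/
theorem guard_type {α β γ : ℤ} {N : ℕ} (hlt : ∀ k c, lt k = some c → 1 ≤ k ∧ k ≤ J) (hM : 0 < M)
    {p p' : GP} (hp : SR M J α β γ N p p') {z z' : Z}
    (hz : TyEq (sg q) (sg q) (2 * (N / M)) (fun _ : Fin 1 => z) (fun _ => z')) :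
    TyEq (gstep M (sig lt q)) (gstep M (sig lt q)) N (fun _ : Fin 1 => (p, z))
      (fun _ => (p', z')) := by
  intro a b w hw
  obtain ⟨h1, h2⟩ := hp.ev q hlt hM w 0 (by simpa using hw)
  have h3 := hp.fix w h1
  rw [ev_gstep, ev_gstep, ← h2]
  refine (pair_iff _ _ _ _).trans (Iff.trans ?_ (pair_iff _ _ _ _).symm)
  rw [← h3]
  refine and_congr_right fun h4 => ?_
  rw [glabs_word, glabs_word]
  have h5 := gds_closed (M := M) hM w p h4
  have h6 : w.length / M ≤ N / M := Nat.div_le_div_right hw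
  have h7 := kwd_length M lt (gds M w p) (rs (ev (gpos M) w p))
  exact hz 0 0 _ ((h7.trans h5).trans (Nat.mul_le_mul_left 2 h6))

end types

end Crest.Agent.R185.Smp
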