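import Crest.Agent.R185.Smp8

/-!
# R185 / SMP (9): the guard words of the letters, reaching guard points
-/

set_option autoImplicit false

namespace Crest.Agent.R185.Smp

section words

variable {Z : Type} (M : ℕ) (σ : ℤ → Equiv.Perm Z)

theorem gstep_inv : Inv (gstep M σ) ginv := by
  refine ⟨fun a y => gstep_ginv M σ a y, fun a y => ?_⟩
  have := gstep_ginv M σ (ginv a) y
  rwa [ginv_ginv] at this

/-- `x ^ k` -/
def xw (k : ℤ) : List (GdL × Bool) := List.replicate k.natAbs (.x, decide (0 ≤ k))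

/-- `t ^ k` -/
def tw (k : ℤ) : List (GdL × Bool) := List.replicate k.natAbs (.t, decide (0 ≤ k))

/-- `y ^ k` -/
def yw (k : ℤ) : List (GdL × Bool) := List.replicate k.natAbs (.y, decide (0 ≤ k))

@[simp] theorem xw_length (k : ℤ) : (xw k).length = k.natAbs := by simp [xw]
@[simp] theorem tw_length (k : ℤ) : (tw k).length = k.natAbs := by simp [tw]
@[simp] theorem yw_length (k : ℤ) : (yw k).length = k.natAbs := by simp [yw]

theorem ev_replicate {A Y : Type} (act : A → Y → Y) (a : A) (f : ℤ → Y) (c : ℤ)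
    (h : ∀ i, act a (f i) = f (i + c)) (n : ℕ) (i : ℤ) :
    ev act (List.replicate n a) (f i) = f (i + n * c) := by
  induction n with
  | zero => simp
  | succ n ih =>
    rw [List.replicate_succ, ev_cons, ih, h]
    congr 1
    push_cast
    ring

theorem ev_pow {Y : Type} (act : GdL × Bool → Y → Y) (a : GdL) (f : ℤ → Y)
    (h : ∀ i, act (a, true) (f i) = f (i + 1)) (h' : ∀ i, act (a, false) (f i) = f (i - 1))
    (k i : ℤ) : ev act (List.replicate k.natAbs (a, decide (0 ≤ k))) (f i) = f (i + k) := by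
  by_cases hk : 0 ≤ k
  · rw [decide_eq_true hk, ev_replicate act (a, true) f 1 h]
    congr 1
    rw [mul_one, Int.natAbs_of_nonneg hk]
  · rw [decide_eq_false hk, ev_replicate act (a, false) f (-1) (fun i => by rw [h']; rfl)]
    congr 1
    have : (k.natAbs : ℤ) = -k := by omega
    rw [this]
    ring

theorem ev_xw (k i j n : ℤ) (z : Z) :
    ev (gstep M σ) (xw k) ((i, j, n), z) = ((i + k, j, n), z) :=
  ev_pow (gstep M σ) .x (fun i => ((i, j, n), z)) (fun _ => rfl) (fun _ => rfl) k i

theorem ev_tw (k n : ℤ) (z : Z) :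
    ev (gstep M σ) (tw k) ((0, 0, n), z) = ((0, 0, n + k), z) := by
  refine ev_pow (gstep M σ) .t (fun n => ((0, 0, n), z)) (fun m => ?_) (fun m => ?_) k n
  · simp [gstep, gpos, glab]
  · simp [gstep, gpos, glab]

theorem ev_yw {i : ℤ} (hi : Door M i) (hs : σ (i / M) = 1) (k j n : ℤ) (z : Z) :
    ev (gstep M σ) (yw k) ((i, j, n), z) = ((i, j + k, n), z) := by
  refine ev_pow (gstep M σ) .y (fun j => ((i, j, n), z)) (fun m => ?_) (fun m => ?_) k j
  · have : glab M σ (.y, true) (i, m, n) = 1 := by simp [glab, hs]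
    simp [gstep, gpos, this, hi]
  · have : glab M σ (.y, false) (i, m, n) = 1 := by simp [glab, hs]
    simp [gstep, gpos, this, hi]

/-- the loop through the door `k` -/
def wW (k : ℤ) : List (GdL × Bool) :=
  xw M ++ (.y, false) :: (xw (-M) ++ (xw (-(M * k)) ++ (.y, true) :: xw (M * k)))

/-- the commutator `[t, W]` -/
def kW (k : ℤ) : List (GdL × Bool) :=
  (.t, true) :: (wW M k ++ (.t, false) :: iw ginv (wW M k))

theorem wW_length (k : ℤ) : (wW M k).length = 2 * M + 2 + 2 * (M * k.natAbs) := by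
  have h1 : ((M : ℤ) * k).natAbs = M * k.natAbs := by rw [Int.natAbs_mul, Int.natAbs_natCast]
  unfold wW
  simp only [List.length_append, List.length_cons, xw_length, Int.natAbs_neg, h1,
    Int.natAbs_natCast]
  ring

theorem kW_length (k : ℤ) : (kW M k).length = 2 * (wW M k).length + 2 := by
  unfold kW
  simp only [List.length_append, List.length_cons, iw_length]
  ring

variable {M σ}

theorem ev_wW (hM : 0 < M) (h1 : σ (-1) = 1) {k : ℤ} (hk : k ≠ 0) (n : ℤ) (z : Z) :
    ev (gstep M σ) (wW M k) ((0, 0, n), z) = ((0, 0, n), if n < 0 then σ k z else z) := by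
  have hM' : (M : ℤ) ≠ 0 := by omega
  have hd : Door M (M * k) := ⟨dvd_mul_right _ _, mul_ne_zero hM' hk⟩
  have hd' : Door M (-M) := ⟨(dvd_refl _).neg_right, neg_ne_zero.2 hM'⟩
  have e1 : (M : ℤ) * k / M = k := Int.mul_ediv_cancel_left _ hM'
  have e2 : -(M : ℤ) / M = -1 := by
    rw [Int.neg_ediv_of_dvd (dvd_refl _), Int.ediv_self hM']
  unfold wW
  rw [ev_append, ev_cons, ev_append, ev_append, ev_cons, ev_xw M σ (M * k) 0 0 n z]
  have h2 : gstep M σ (.y, true) ((0 + M * k, 0, n), z) =
      ((M * k, 1, n), if n < 0 then σ k z else z) := by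
    rw [zero_add]
    by_cases hn : n < 0
    · simp [gstep, gpos, glab, hd, hn, e1]
    · simp [gstep, gpos, glab, hd, hn]
  rw [h2, ev_xw M σ (-(M * k)) (M * k) 1 n _, ev_xw M σ (-M) (M * k + -(M * k)) 1 n _]
  have h3 : ∀ z', gstep M σ (.y, false) ((M * k + -(M * k) + -(M : ℤ), 1, n), z') =
      ((-(M : ℤ), 0, n), z') := by
    intro z'
    rw [add_neg_cancel, zero_add]
    by_cases hn : n < 0
    · simp [gstep, gpos, glab, hd', hn, e2, h1]
    · simp [gstep, gpos, glab, hd', hn]
  rw [h3, ev_xw M σ M (-M) 0 n _, neg_add_cancel]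

/-- a permutation acting on the fibre over `(0, 0, 0)` -/
def blk (τ : Equiv.Perm Z) : Equiv.Perm (GX Z) where
  toFun q := if q.1 = (0, 0, 0) then (q.1, τ q.2) else q
  invFun q := if q.1 = (0, 0, 0) then (q.1, τ⁻¹ q.2) else q
  left_inv q := by
    obtain ⟨p, z⟩ := q
    by_cases h : p = (0, 0, 0)
    · simp [h]
    · simp [h]
  right_inv q := by
    obtain ⟨p, z⟩ := q
    by_cases h : p = (0, 0, 0)
    · simp [h]
    · simp [h]

theorem blk_apply (τ : Equiv.Perm Z) (q : GX Z) :
    blk τ q = if q.1 = (0, 0, 0) then (q.1, τ q.2) else q := rfl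

theorem blk_zero (τ : Equiv.Perm Z) (z : Z) : blk τ ((0, 0, 0), z) = ((0, 0, 0), τ z) := by
  simp [blk_apply]

/-- the block homomorphism -/
def blkH : Equiv.Perm Z →* Equiv.Perm (GX Z) where
  toFun := blk
  map_one' := by
    apply Equiv.ext
    intro q
    rw [blk_apply]
    split_ifs <;> rfl
  map_mul' a b := by
    apply Equiv.ext
    intro q
    rw [Equiv.Perm.mul_apply, blk_apply, blk_apply, blk_apply]
    split_ifs with h
    · simp
    · rfl

theorem blkH_apply (τ : Equiv.Perm Z) : blkH τ = blk τ := rfl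

/-- **the word of a letter acts exactly on the fibre over `(0, 0, 0)`** -/
theorem ev_kW (hM : 0 < M) (h1 : σ (-1) = 1) {k : ℤ} (hk : k ≠ 0) (q : GX Z) :
    ev (gstep M σ) (kW M k) q = blk (σ k) q := by
  have hI := gstep_inv M σ
  have hinv : ∀ (n : ℤ) (z : Z), ev (gstep M σ) (iw ginv (wW M k)) ((0, 0, n), z) =
      ((0, 0, n), if n < 0 then (σ k)⁻¹ z else z) := by
    intro n z
    have h2 := ev_wW hM h1 hk n (if n < 0 then (σ k)⁻¹ z else z)
    have h3 : (if n < 0 then σ k (if n < 0 then (σ k)⁻¹ z else z) else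
        (if n < 0 then (σ k)⁻¹ z else z)) = z := by
      by_cases hn : n < 0 <;> simp [hn]
    rw [h3] at h2
    rw [← h2, ev_iw_left hI]
  obtain ⟨⟨i, j, n⟩, z⟩ := q
  unfold kW
  rw [ev_cons, ev_append, ev_cons]
  by_cases hf : i = 0 ∧ j = 0
  · obtain ⟨rfl, rfl⟩ := hf
    rw [hinv]
    have h2 : ∀ z', gstep M σ (.t, false) ((0, 0, n), z') = ((0, 0, n - 1), z') := by
      intro z'; simp [gstep, gpos, glab]
    have h3 : ∀ z', gstep M σ (.t, true) ((0, 0, n - 1), z') = ((0, 0, n), z') := by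
      intro z'; simp [gstep, gpos, glab]
    rw [h2, ev_wW hM h1 hk, h3, blk_apply]
    rcases lt_trichotomy n 0 with hn | hn | hn
    · have h4 : ¬ ((0, 0, n) : GP) = (0, 0, 0) := by
        intro h
        have : n = 0 := by simpa using h
        omega
      rw [if_pos (by omega), if_pos hn, if_neg h4]
      simp
    · subst hn
      simp
    · have h4 : ¬ ((0, 0, n) : GP) = (0, 0, 0) := by
        intro h
        have : n = 0 := by simpa using h
        omega
      rw [if_neg (by omega), if_neg (by omega), if_neg h4]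
  · have hout : ∀ (ε : Bool) (p : GX Z), ¬ (p.1.1 = 0 ∧ p.1.2.1 = 0) →
        gstep M σ (.t, ε) p = p := by
      rintro ε ⟨⟨a, b, c⟩, z'⟩ hp
      simp only at hp
      cases ε
      · simp [gstep, gpos, glab, hp]
      · simp [gstep, gpos, glab, hp]
    have h2 : ¬ ((ev (gstep M σ) (iw ginv (wW M k)) ((i, j, n), z)).1.1 = 0 ∧
        (ev (gstep M σ) (iw ginv (wW M k)) ((i, j, n), z)).1.2.1 = 0) := by
      intro h3
      generalize hr : ev (gstep M σ) (iw ginv (wW M k)) ((i, j, n), z) = r at h3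
      have h4 : ev (gstep M σ) (wW M k) r = ((i, j, n), z) := by rw [← hr, ev_iw_right hI]
      obtain ⟨⟨a, b, c⟩, z'⟩ := r
      simp only at h3
      obtain ⟨rfl, rfl⟩ := h3
      rw [ev_wW hM h1 hk] at h4
      apply hf
      have h5 := congrArg Prod.fst h4
      simp only [Prod.mk.injEq] at h5
      exact ⟨h5.1.symm, h5.2.1.symm⟩
    rw [hout _ _ h2, ev_iw_right hI, hout _ _ (by simpa using hf), blk_apply]
    have h4 : ¬ ((i, j, n) : GP) = (0, 0, 0) := by
      intro h
      rw [Prod.mk.injEq, Prod.mk.injEq] at h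
      exact hf ⟨h.1, h.2.1⟩
    rw [if_neg h4]

end words

/-! ### words of letters -/

section kmap

variable {C Z : Type} {M J : ℕ} {lt : ℤ → Option C} {ix : C → ℤ} {q : C → Equiv.Perm Z}

/-- the doors carry the letters -/
structure Lbl (J : ℕ) (lt : ℤ → Option C) (ix : C → ℤ) : Prop where
  rng : ∀ k c, lt k = some c → 1 ≤ k ∧ k ≤ J
  ix : ∀ c, lt (ix c) = some c

theorem Lbl.sig_neg (h : Lbl J lt ix) : sig lt q (-1) = 1 := by
  rcases hk : lt (-1) with _ | c
  · simp [sig, hk]
  · have := h.rng _ _ hk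
    omega

theorem Lbl.sig_ix (h : Lbl J lt ix) (c : C) : sig lt q (ix c) = q c := by
  simp [sig, h.ix c]

variable (M ix)

/-- the guard word of a signed letter -/
def kl (a : C × Bool) : List (GdL × Bool) :=
  if a.2 then kW M (ix a.1) else iw ginv (kW M (ix a.1))

/-- the guard word of a word -/
def kmap (w : List (C × Bool)) : List (GdL × Bool) := w.flatMap (kl M ix)

variable {M ix}

theorem kl_length (h : Lbl J lt ix) (a : C × Bool) :
    (kl M ix a).length ≤ 4 * (M * (J + 1)) + 6 := by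
  have h1 := h.rng _ _ (h.ix a.1)
  have h2 : (ix a.1).natAbs ≤ J := by omega
  have h3 : M * (ix a.1).natAbs ≤ M * J := Nat.mul_le_mul_left _ h2
  have h4 : (kl M ix a).length = (kW M (ix a.1)).length := by
    unfold kl
    split_ifs
    · rfl
    · rw [iw_length]
  rw [h4, kW_length, wW_length, Nat.mul_add M J 1, Nat.mul_one]
  omega

theorem kmap_length (h : Lbl J lt ix) (w : List (C × Bool)) :
    (kmap M ix w).length ≤ w.length * (4 * (M * (J + 1)) + 6) := by
  induction w with
  | nil => simp [kmap]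
  | cons a w ih =>
    have h1 := kl_length (M := M) h a
    have h2 : (kmap M ix (a :: w)).length = (kl M ix a).length + (kmap M ix w).length := by
      simp [kmap]
    rw [h2, List.length_cons, Nat.add_mul, Nat.one_mul]
    omega

theorem ev_kl (h : Lbl J lt ix) (hM : 0 < M) (a : C × Bool) (x : GX Z) :
    ev (gstep M (sig lt q)) (kl M ix a) x =
      if x.1 = (0, 0, 0) then (x.1, sg q a x.2) else x := by
  have hix : ix a.1 ≠ 0 := by
    have := h.rng _ _ (h.ix a.1)
    omega
  rcases a with ⟨c, _ | _⟩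
  · have h2 : ev (gstep M (sig lt q)) (iw ginv (kW M (ix c))) x = (blk (q c))⁻¹ x := by
      have h3 := ev_kW (σ := sig lt q) hM h.sig_neg hix ((blk (q c))⁻¹ x)
      rw [h.sig_ix] at h3
      have h4 : blk (q c) ((blk (q c))⁻¹ x) = x := by simp
      rw [h4] at h3
      conv_lhs => rw [← h3, ev_iw_left (gstep_inv M _)]
    unfold kl
    simp only [Bool.false_eq_true, if_false]
    rw [h2]
    change (if x.1 = (0, 0, 0) then (x.1, (q c)⁻¹ x.2) else x) = _
    rw [sg_false]
  · unfold kl
    simp only [if_true]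
    rw [ev_kW (σ := sig lt q) hM h.sig_neg hix, h.sig_ix, blk_apply, sg_true]

theorem ev_kmap (h : Lbl J lt ix) (hM : 0 < M) (w : List (C × Bool)) (x : GX Z) :
    ev (gstep M (sig lt q)) (kmap M ix w) x =
      if x.1 = (0, 0, 0) then (x.1, ev (sg q) w x.2) else x := by
  induction w with
  | nil => simp [kmap]
  | cons a w ih =>
    have h2 : kmap M ix (a :: w) = kl M ix a ++ kmap M ix w := by simp [kmap]
    rw [h2, ev_append, ih, ev_kl h hM]
    by_cases hx : x.1 = (0, 0, 0)
    · simp [hx]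
    · simp [hx]

/-- reaching the guard points -/
theorem guard_reach (h : Lbl J lt ix) (hM : 0 < M) {z₀ : Z} (v : List (C × Bool)) (i j n : ℤ) :
    ∃ w : List (GdL × Bool),
      w.length ≤ v.length * (4 * (M * (J + 1)) + 6) + n.natAbs + 2 * M + j.natAbs + i.natAbs ∧
      ev (gstep M (sig lt q)) w ((0, 0, 0), z₀) = ((i, j, n), ev (sg q) v z₀) := by
  have hM' : (M : ℤ) ≠ 0 := by omega
  have hd' : Door M (-M) := ⟨(dvd_refl _).neg_right, neg_ne_zero.2 hM'⟩
  have e2 : -(M : ℤ) / M = -1 := by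
    rw [Int.neg_ediv_of_dvd (dvd_refl _), Int.ediv_self hM']
  refine ⟨xw (i + M) ++ (yw j ++ (xw (-M) ++ (tw n ++ kmap M ix v))), ?_, ?_⟩
  · simp only [List.length_append, xw_length, yw_length, tw_length, Int.natAbs_neg,
      Int.natAbs_natCast]
    have := kmap_length (M := M) h v
    omega
  · rw [ev_append, ev_append, ev_append, ev_append, ev_kmap h hM, if_pos rfl,
      ev_tw M (sig lt q) n 0 _, ev_xw M (sig lt q) (-M) 0 0 (0 + n) _,
      ev_yw M (sig lt q) (i := 0 + -(M : ℤ)) (by rw [zero_add]; exact hd')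
        (by rw [zero_add, e2]; exact h.sig_neg) j 0 (0 + n) _,
      ev_xw M (sig lt q) (i + M) (0 + -(M : ℤ)) (0 + j) (0 + n) _]
    simp

/-- the guard homomorphism on free groups -/
def kHom (M : ℕ) (ix : C → ℤ) : FreeGroup C →* FreeGroup GdL :=
  FreeGroup.lift fun c => FreeGroup.mk (kW M (ix c))

theorem lift_kHom (h : Lbl J lt ix) (hM : 0 < M) (w : FreeGroup C) :
    FreeGroup.lift (gperm M (sig lt q)) (kHom M ix w) = blkH (FreeGroup.lift q w) := by
  have : (FreeGroup.lift (gperm M (sig lt q))).comp (kHom M ix) =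
      blkH.comp (FreeGroup.lift q) := by
    ext1 c
    apply Equiv.ext
    intro x
    simp only [MonoidHom.comp_apply, kHom, FreeGroup.lift_apply_of]
    rw [← ev_sg, show sg (gperm M (sig lt q)) = gstep M (sig lt q) from
      funext fun a => sg_gperm M (sig lt q) a]
    have hix : ix c ≠ 0 := by
      have := h.rng _ _ (h.ix c)
      omega
    have h2 := ev_kW (σ := sig lt q) hM h.sig_neg hix x
    rw [h.sig_ix] at h2
    exact h2
  exact DFunLike.congr_fun this w

end kmap

end Crest.Agent.R185.Smp
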