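import Crest.Agent.R185.Wit6

/-!
# R185, block TAB, part 1: walks of `D`-words and short labels (helper424)

A word `u` in the letters of `D = FreeGroup (H/L) ⋊ H` (letters of `H` and `none = k`) is evaluated
from the right.  `St.eta` is the inverse of the `H`-part of the suffix, `St.b` tells on which copy
(`true`: labelled, `false`: silent) the payload is, `St.eta0` is the value of `eta` when the current
`true`-segment began, `St.sh g m` is the short label collected by the closed `true`-segments.
-/

set_option autoImplicit false
set_option linter.unusedSectionVars false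

namespace Crest.Agent.R185.Tab

open Classical Crest.Agent.R185.Wit

variable {R A : Type} [DecidableEq R] [DecidableEq A] (W : WS R A)

/-- accepted elements of `F(A)` -/
def AccG : Set (FreeGroup A) := {g | st W g ∈ Ch W}

/-- the `κ`-gauge: accepted elements are replaced by `1` -/
noncomputable def kap (y : FreeGroup A) : FreeGroup A := if y ∈ AccG W then 1 else y

theorem kap_acc {y : FreeGroup A} (h : y ∈ AccG W) : kap W y = 1 := if_pos h

theorem kap_not {y : FreeGroup A} (h : y ∉ AccG W) : kap W y = y := if_neg h

/-- the label `Q_η(g, m)` -/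
noncomputable def Qk (η : Hg W) (g : FreeGroup A) (m : ℤ) : FreeGroup A :=
  if m < NH W g η then kap W ((wH W η)⁻¹ * g) else 1

/-- the short label of a `true`-segment from `η` to `η'` -/
noncomputable def sv (η η' : Hg W) (g : FreeGroup A) (m : ℤ) : FreeGroup A :=
  if m < NH W g η then
    (if m < NH W g η' then (wH W η')⁻¹ * wH W η else (kap W ((wH W η)⁻¹ * g))⁻¹)
  else (if m < NH W g η' then kap W ((wH W η')⁻¹ * g) else 1)

theorem sv_on_on {η η' : Hg W} {g : FreeGroup A} {m : ℤ} (h : m < NH W g η) (h' : m < NH W g η') :
    sv W η η' g m = (wH W η')⁻¹ * wH W η := by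
  unfold sv; rw [if_pos h, if_pos h']

theorem sv_on_off {η η' : Hg W} {g : FreeGroup A} {m : ℤ} (h : m < NH W g η)
    (h' : ¬ m < NH W g η') : sv W η η' g m = (kap W ((wH W η)⁻¹ * g))⁻¹ := by
  unfold sv; rw [if_pos h, if_neg h']

theorem sv_off_on {η η' : Hg W} {g : FreeGroup A} {m : ℤ} (h : ¬ m < NH W g η)
    (h' : m < NH W g η') : sv W η η' g m = kap W ((wH W η')⁻¹ * g) := by
  unfold sv; rw [if_neg h, if_pos h']

theorem sv_off_off {η η' : Hg W} {g : FreeGroup A} {m : ℤ} (h : ¬ m < NH W g η)
    (h' : ¬ m < NH W g η') : sv W η η' g m = 1 := by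
  unfold sv; rw [if_neg h, if_neg h']

theorem kap_norm_le (y : FreeGroup A) : (kap W y).norm ≤ y.norm := by
  by_cases h : y ∈ AccG W
  · rw [kap_acc W h]; simp
  · rw [kap_not W h]

/-! ### inverse words -/

/-- the inverse word -/
def invL (s : List (HL W × Bool)) : List (HL W × Bool) := FreeGroup.invRev s

theorem hL_inv (s : List (HL W × Bool)) : hL (W := W) (invL W s) = (hL s)⁻¹ := by
  rw [hL, hL, invL, ← FreeGroup.inv_mk, map_inv]

theorem length_invL (s : List (HL W × Bool)) : (invL W s).length = s.length := by
  simp [invL, FreeGroup.invRev]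

/-- the length of the label of a segment -/
theorem norm_sv (hW : Archive W) {η : Hg W} (s : List (HL W × Bool)) (h : η ∈ EL W)
    (h' : η * hL s ∈ EL W) (g : FreeGroup A) (m : ℤ) :
    (sv W η (η * hL s) g m).norm ≤ 3 * s.length := by
  by_cases h1 : m < NH W g η
  · by_cases h2 : m < NH W g (η * hL s)
    · rw [sv_on_on W h1 h2]
      have := norm_wH (W := W) η s
      have h3 : ((wH W (η * hL s))⁻¹ * wH W η) = ((wH W η)⁻¹ * wH W (η * hL s))⁻¹ := by
        simp
      rw [h3, FreeGroup.norm_inv_eq]
      omega
    · rw [sv_on_off W h1 h2, FreeGroup.norm_inv_eq]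
      rcases NH_pair hW g h s (by omega) with h3 | h3
      · rw [kap_acc W h3]; simp
      · exact (kap_norm_le W _).trans h3
  · by_cases h2 : m < NH W g (η * hL s)
    · rw [sv_off_on W h1 h2]
      have h4 := NH_pair hW g h' (invL W s) (by
        rw [hL_inv, mul_inv_cancel_right]; omega)
      rw [length_invL] at h4
      rcases h4 with h3 | h3
      · rw [kap_acc W h3]; simp
      · exact (kap_norm_le W _).trans h3
    · rw [sv_off_off W h1 h2]; simp

/-! ### the walk -/

/-- the state of a walk -/
structure St where
  eta : Hg W
  b : Bool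
  eta0 : Hg W
  sh : FreeGroup A → ℤ → FreeGroup A

/-- the initial state -/
def St0 : St W := ⟨1, true, 1, fun _ _ => 1⟩

/-- the letters of `D`: letters of `H` and `none = k` -/
abbrev DL : Type := Option (HL W)

/-- one step -/
noncomputable def stp (a : DL W × Bool) (σ : St W) : St W :=
  match a.1 with
  | some l => ⟨σ.eta * hL [(l, !a.2)], σ.b, σ.eta0, σ.sh⟩
  | none =>
    if σ.eta ∈ EL W then
      (if σ.b then ⟨σ.eta, false, σ.eta0, fun g m => sv W σ.eta0 σ.eta g m * σ.sh g m⟩
        else ⟨σ.eta, true, σ.eta, σ.sh⟩)
    else σ

/-- the walk of a word -/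
noncomputable def run (u : List (DL W × Bool)) : St W := u.foldr (stp W) (St0 W)

theorem run_cons (a : DL W × Bool) (u : List (DL W × Bool)) :
    run W (a :: u) = stp W a (run W u) := rfl

theorem stp_some (l : HL W) (e : Bool) (σ : St W) :
    stp W (some l, e) σ = ⟨σ.eta * hL [(l, !e)], σ.b, σ.eta0, σ.sh⟩ := rfl

theorem stp_none_true {σ : St W} (e : Bool) (h : σ.eta ∈ EL W) (hb : σ.b = true) :
    stp W (none, e) σ = ⟨σ.eta, false, σ.eta0, fun g m => sv W σ.eta0 σ.eta g m * σ.sh g m⟩ := by
  simp [stp, h, hb]

theorem stp_none_false {σ : St W} (e : Bool) (h : σ.eta ∈ EL W) (hb : σ.b = false) :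
    stp W (none, e) σ = ⟨σ.eta, true, σ.eta, σ.sh⟩ := by
  simp [stp, h, hb]

theorem stp_none_else {σ : St W} (e : Bool) (h : σ.eta ∉ EL W) :
    stp W (none, e) σ = σ := by
  simp [stp, h]

/-- `EL` contains `1` -/
theorem one_mem_EL : (1 : Hg W) ∈ EL W := ⟨1, 1, (Ls W).one_mem, by simp⟩

/-- the final label of a walk -/
noncomputable def vf (σ : St W) (g : FreeGroup A) (m : ℤ) : FreeGroup A :=
  sv W σ.eta0 σ.eta g m * σ.sh g m

/-- `H`-letters of a word, inverted and reversed: the path of `eta` -/
def path (u : List (DL W × Bool)) : List (HL W × Bool) :=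
  (u.reverse).filterMap (fun a => a.1.map (fun l => (l, !a.2)))

theorem path_nil : path W [] = [] := rfl

theorem path_cons_some (l : HL W) (e : Bool) (u : List (DL W × Bool)) :
    path W ((some l, e) :: u) = path W u ++ [(l, !e)] := by
  simp [path]

theorem path_cons_none (e : Bool) (u : List (DL W × Bool)) :
    path W ((none, e) :: u) = path W u := by
  simp [path]

theorem length_path (u : List (DL W × Bool)) : (path W u).length ≤ u.length := by
  refine (List.length_filterMap_le _ _).trans ?_
  rw [List.length_reverse]

theorem eta_run (u : List (DL W × Bool)) : (run W u).eta = hL (path W u) := by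
  induction u with
  | nil => rw [path_nil, hL_nil]; rfl
  | cons a u ih =>
    obtain ⟨o, e⟩ := a
    rw [run_cons]
    cases o with
    | some l =>
      rw [stp_some, path_cons_some, hL_append, ← ih]
    | none =>
      rw [path_cons_none, ← ih]
      by_cases h : (run W u).eta ∈ EL W
      · cases hb : (run W u).b with
        | true => rw [stp_none_true W e h hb]
        | false => rw [stp_none_false W e h hb]
      · rw [stp_none_else W e h]

/-- the invariant of a walk -/
structure Inv (σ : St W) (N : ℕ) : Prop where
  el : σ.eta0 ∈ EL W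
  seg : σ.b = true → ∃ s : List (HL W × Bool), σ.eta = σ.eta0 * hL s ∧
    ∃ n, s.length + n ≤ N ∧ ∀ g m, (σ.sh g m).norm ≤ 3 * n
  sil : σ.b = false → ∀ g m, (σ.sh g m).norm ≤ 3 * N

theorem inv_run (hW : Archive W) (u : List (DL W × Bool)) : Inv W (run W u) u.length := by
  induction u with
  | nil =>
    refine ⟨one_mem_EL W, fun _ => ⟨[], ?_, 0, by simp, fun g m => ?_⟩, fun h => ?_⟩
    · change (1 : Hg W) = 1 * hL []
      rw [hL_nil, one_mul]
    · change ((1 : FreeGroup A)).norm ≤ _
      simp
    · exact absurd h (by simp [run, St0])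
  | cons a u ih =>
    obtain ⟨o, e⟩ := a
    rw [run_cons]
    cases o with
    | some l =>
      rw [stp_some]
      refine ⟨ih.el, fun hb => ?_, fun hb g m => ?_⟩
      · obtain ⟨s, hs, n, hn, hsh⟩ := ih.seg hb
        refine ⟨s ++ [(l, !e)], ?_, n, ?_, hsh⟩
        · change (run W u).eta * _ = (run W u).eta0 * _
          rw [hs, hL_append, mul_assoc]
        · simp only [List.length_append, List.length_cons, List.length_nil]
          omega
      · have := ih.sil hb g m
        simp only [List.length_cons]
        change ((run W u).sh g m).norm ≤ _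
        omega
    | none =>
      by_cases h : (run W u).eta ∈ EL W
      · cases hb : (run W u).b with
        | true =>
          rw [stp_none_true W e h hb]
          refine ⟨ih.el, fun hb' => absurd hb' (by simp), fun _ g m => ?_⟩
          obtain ⟨s, hs, n, hn, hsh⟩ := ih.seg hb
          change (sv W (run W u).eta0 (run W u).eta g m * (run W u).sh g m).norm ≤ _
          have h1 : (sv W (run W u).eta0 (run W u).eta g m).norm ≤ 3 * s.length := by
            rw [hs]
            exact norm_sv W hW s ih.el (by rw [← hs]; exact h) g m
          have h2 := FreeGroup.norm_mul_le (sv W (run W u).eta0 (run W u).eta g m)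
            ((run W u).sh g m)
          have h3 := hsh g m
          simp only [List.length_cons]
          omega
        | false =>
          rw [stp_none_false W e h hb]
          refine ⟨h, fun _ => ⟨[], ?_, u.length, ?_, ?_⟩, fun hb' => absurd hb' (by simp)⟩
          · change (run W u).eta = (run W u).eta * hL []
            rw [hL_nil, mul_one]
          · simp
          · exact ih.sil hb
      · rw [stp_none_else W e h]
        refine ⟨ih.el, fun hb => ?_, fun hb g m => ?_⟩
        · obtain ⟨s, hs, n, hn, hsh⟩ := ih.seg hb
          exact ⟨s, hs, n, by simp only [List.length_cons]; omega, hsh⟩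
        · have := ih.sil hb g m
          simp only [List.length_cons]
          omega

/-- **length of the label** -/
theorem norm_vf (hW : Archive W) (u : List (DL W × Bool)) (h : (run W u).eta ∈ EL W)
    (hb : (run W u).b = true) (g : FreeGroup A) (m : ℤ) :
    (vf W (run W u) g m).norm ≤ 3 * u.length := by
  have ih := inv_run W hW u
  obtain ⟨s, hs, n, hn, hsh⟩ := ih.seg hb
  have h1 : (sv W (run W u).eta0 (run W u).eta g m).norm ≤ 3 * s.length := by
    rw [hs]
    exact norm_sv W hW s ih.el (by rw [← hs]; exact h) g m
  have h2 := FreeGroup.norm_mul_le (sv W (run W u).eta0 (run W u).eta g m)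
    ((run W u).sh g m)
  have h3 := hsh g m
  unfold vf
  omega

/-! ### the final position -/

theorem norm_wH_run (u : List (DL W × Bool)) : (wH W (run W u).eta).norm ≤ u.length := by
  rw [eta_run]
  have := norm_wH (W := W) 1 (path W u)
  have h1 : wH W (1 : Hg W) = 1 := by
    rw [wH, SemidirectProduct.one_right, map_one]
  rw [h1, inv_one, one_mul, one_mul] at this
  exact this.trans (length_path W u)

theorem abs_NH_run (u : List (DL W × Bool)) (g : FreeGroup A) :
    |NH W g (run W u).eta| ≤ u.length := by
  rw [eta_run]
  have := abs_NH (W := W) g 1 (path W u)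
  rw [NH_one, one_mul, sub_zero] at this
  exact this.trans (by exact_mod_cast length_path W u)

theorem NH_run_far (u : List (DL W × Bool)) {g : FreeGroup A} (hg : 3 * u.length < g.norm) :
    NH W g (run W u).eta = 0 := by
  rw [eta_run]
  by_contra h
  have h1 := NH_far g (path W u) h
  have h2 := length_path W u
  omega

theorem NH_run0_far (u : List (DL W × Bool)) : ∃ s : List (HL W × Bool), s.length ≤ u.length ∧
    (run W u).eta0 = hL s := by
  induction u with
  | nil => exact ⟨[], by simp, by rw [hL_nil]; rfl⟩
  | cons a u ih =>
    obtain ⟨o, e⟩ := a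
    obtain ⟨s, hs, h0⟩ := ih
    rw [run_cons]
    have hs' : s.length ≤ ((o, e) :: u).length := by simp only [List.length_cons]; omega
    cases o with
    | some l => exact ⟨s, hs', h0⟩
    | none =>
      by_cases h : (run W u).eta ∈ EL W
      · cases hb : (run W u).b with
        | true => rw [stp_none_true W e h hb]; exact ⟨s, hs', h0⟩
        | false =>
          rw [stp_none_false W e h hb]
          refine ⟨path W u, ?_, eta_run W u⟩
          have := length_path W u
          simp only [List.length_cons]; omega
      · rw [stp_none_else W e h]; exact ⟨s, hs', h0⟩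

theorem NH_hL_far (s : List (HL W × Bool)) {g : FreeGroup A} (hg : 3 * s.length < g.norm) :
    NH W g (hL s) = 0 := by
  by_contra h
  have := NH_far g s h
  omega

theorem abs_NH_hL (s : List (HL W × Bool)) (g : FreeGroup A) : |NH W g (hL s)| ≤ s.length := by
  have := abs_NH (W := W) g 1 s
  rwa [NH_one, one_mul, sub_zero] at this

/-! ### uniformity of the labels -/

/-- the silent part of the state does not depend on `(g, m)`; the labels are uniform where the
levels are -/
theorem sh_congr (u : List (DL W × Bool)) {g g' : FreeGroup A} {m m' : ℤ}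
    (H : ∀ s : List (HL W × Bool), s.length ≤ u.length →
      (m < NH W g (hL s) ∧ m' < NH W g' (hL s)) ∨ (¬ m < NH W g (hL s) ∧ ¬ m' < NH W g' (hL s))) 
    (H' : ∀ s : List (HL W × Bool), s.length ≤ u.length →
      ∀ s' : List (HL W × Bool), s'.length ≤ u.length →
      (m < NH W g (hL s) ↔ m < NH W g (hL s')) ∨ g = g') :
    (run W u).sh g m = (run W u).sh g' m' := by
  induction u with
  | nil => rfl
  | cons a u ih =>
    have hu : u.length ≤ (a :: u).length := by simp
    have ih' := ih (fun s hs => H s (hs.trans hu))
      (fun s hs s' hs' => H' s (hs.trans hu) s' (hs'.trans hu))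
    obtain ⟨o, e⟩ := a
    rw [run_cons]
    cases o with
    | some l => exact ih'
    | none =>
      by_cases h : (run W u).eta ∈ EL W
      · cases hb : (run W u).b with
        | true =>
          rw [stp_none_true W e h hb]
          change sv W (run W u).eta0 (run W u).eta g m * (run W u).sh g m =
            sv W (run W u).eta0 (run W u).eta g' m' * (run W u).sh g' m'
          rw [ih']
          congr 1
          obtain ⟨s0, hs0, h0⟩ := NH_run0_far W u
          have hp := length_path W u
          have A1 := H s0 (hs0.trans hu)
          have A2 := H (path W u) (hp.trans hu)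
          have A3 := H' s0 (hs0.trans hu) (path W u) (hp.trans hu)
          rw [h0, eta_run]
          rcases A1 with ⟨a1, a1'⟩ | ⟨a1, a1'⟩ <;> rcases A2 with ⟨a2, a2'⟩ | ⟨a2, a2'⟩
          · rw [sv_on_on W a1 a2, sv_on_on W a1' a2']
          · rcases A3 with A3 | rfl
            · exact absurd (A3.1 a1) a2
            · rw [sv_on_off W a1 a2, sv_on_off W a1' a2']
          · rcases A3 with A3 | rfl
            · exact absurd (A3.2 a2) a1
            · rw [sv_off_on W a1 a2, sv_off_on W a1' a2']
          · rw [sv_off_off W a1 a2, sv_off_off W a1' a2']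
        | false => rw [stp_none_false W e h hb]; exact ih'
      · rw [stp_none_else W e h]; exact ih'

end Crest.Agent.R185.Tab
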