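import Crest.Agent.R185.Tab2

/-!
# R185, block LIN (TAB), part 3: the short label table (helper424)

`LTab N w τ v`, `GoodAt Acc x r`, and the theorem `lin`: `chiS` of a `D`-word `u` with value in `S`
acts on good points by a short uniform label table.
-/

set_option autoImplicit false
set_option linter.unusedSectionVars false

namespace Crest.Agent.R185.Tab

open Classical Equiv Crest.Agent.R185.Wit Crest.Agent.R185.Md191A Crest.Agent.R185.Md191B
  Crest.Agent.R185.Md191C

section good

variable {A : Type} [DecidableEq A] {X : Type} [MulAction (FreeGroup A) X]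

/-- accepted words fix the points near `x` -/
def GoodAt (Acc : Set (FreeGroup A)) (x : X) (r : ℕ) : Prop :=
  ∀ w ∈ Acc, ∀ v : FreeGroup A, w.norm + 2 * v.norm ≤ r → w • (v • x) = v • x

theorem GoodAt.mono {Acc : Set (FreeGroup A)} {x : X} {r r' : ℕ} (h : GoodAt Acc x r)
    (hr : r' ≤ r) : GoodAt Acc x r' := fun w hw v hv => h w hw v (hv.trans hr)

theorem GoodAt.smul {Acc : Set (FreeGroup A)} {x : X} {r r' : ℕ} (h : GoodAt Acc x r)
    (v : FreeGroup A) (hr : r' + 2 * v.norm ≤ r) : GoodAt Acc (v • x) r' := by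
  intro w hw v' hv'
  rw [← mul_smul v' v x]
  apply h w hw
  have := FreeGroup.norm_mul_le v' v
  omega

end good

/-- a uniform table of radius `N` -/
structure LTab {A : Type} [DecidableEq A] (N : ℕ) (w : FreeGroup A) (τ : FreeGroup A → ℤ)
    (v : FreeGroup A → ℤ → FreeGroup A) : Prop where
  hw : w.norm ≤ N
  hτ : ∀ g, |τ g| ≤ N
  far : ∀ g, N < g.norm → τ g = 0
  hv : ∀ g m, (v g m).norm ≤ N
  unif : ∀ g m m', (m = m' ∨ ((N : ℤ) < m ∧ (N : ℤ) < m') ∨ (m < -N ∧ m' < -N)) → v g m = v g m'
  unif' : ∀ g g' m m', N < g.norm → N < g'.norm → (m < 0 ↔ m' < 0) → v g m = v g' m'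
  off : ∀ g m, (N : ℤ) ≤ m → v g m = 1
  off' : ∀ g m, N < g.norm → 0 ≤ m → v g m = 1

section tab

variable {A : Type} [DecidableEq A] {N : ℕ} {w : FreeGroup A} {τ : FreeGroup A → ℤ}
  {v : FreeGroup A → ℤ → FreeGroup A}

theorem LTab.mono (h : LTab N w τ v) {N' : ℕ} (hN : N ≤ N') : LTab N' w τ v where
  hw := h.hw.trans hN
  hτ g := (h.hτ g).trans (by exact_mod_cast hN)
  far g hg := h.far g (by omega)
  hv g m := (h.hv g m).trans hN
  unif g m m' hm := h.unif g m m' (by
    rcases hm with hm | hm | hm
    · exact Or.inl hm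
    · exact Or.inr (Or.inl (by omega))
    · exact Or.inr (Or.inr (by omega)))
  unif' g g' m m' hg hg' hm := h.unif' g g' m m' (by omega) (by omega) hm
  off g m hm := h.off g m (by omega)
  off' g m hg hm := h.off' g m (by omega) hm

/-- the form of 538 -/
theorem LTab.congr (h : LTab N w τ v) {g g' : FreeGroup A} {m m' : ℤ}
    (hg : g = g' ∨ (N < g.norm ∧ N < g'.norm))
    (hm : m = m' ∨ ((N : ℤ) < m ∧ (N : ℤ) < m') ∨ (m < -N ∧ m' < -N)) : v g m = v g' m' := by
  rcases hg with rfl | ⟨hg, hg'⟩
  · exact h.unif g m m' hm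
  · exact h.unif' g g' m m' hg hg' (by omega)

end tab

variable {R A : Type} [DecidableEq R] [DecidableEq A] (W : WS R A)

theorem wH_one : wH W (1 : Hg W) = 1 := by
  rw [wH, SemidirectProduct.one_right, map_one]

theorem norm_wH_hL (s : List (HL W × Bool)) : (wH W (hL s)).norm ≤ s.length := by
  have := norm_wH (W := W) 1 s
  rwa [wH_one, inv_one, one_mul, one_mul] at this

variable {X : Type} [MulAction (FreeGroup A) X]

/-- literal pair = short pair on good points -/
theorem pair_smul {η0 η : Hg W} {g : FreeGroup A} {m : ℤ} {y : X} {r : ℕ}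
    (hy : GoodAt (AccG W) y r)
    (hr : ((wH W η)⁻¹ * g).norm + 2 * ((wH W η0)⁻¹ * g).norm ≤ r)
    (hr' : ((wH W η0)⁻¹ * g).norm ≤ r) :
    Qk W η g m • (Qk W η0 g m)⁻¹ • y = sv W η0 η g m • y := by
  by_cases h1 : m < NH W g η0
  · by_cases h2 : m < NH W g η
    · rw [sv_on_on W h1 h2, Qk, Qk, if_pos h1, if_pos h2]
      have e : (wH W η)⁻¹ * wH W η0 = ((wH W η)⁻¹ * g) * ((wH W η0)⁻¹ * g)⁻¹ := by group
      rw [e]
      generalize (wH W η)⁻¹ * g = a at hr
      generalize (wH W η0)⁻¹ * g = a0 at hr hr'
      by_cases ha0 : a0 ∈ AccG W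
      · have h3 : a0 • y = y := by
          have := hy a0 ha0 1 (by simpa using hr')
          simpa using this
        have h4 : a0⁻¹ • y = y := by rw [inv_smul_eq_iff, h3]
        rw [kap_acc W ha0, inv_one, one_smul, mul_smul, h4]
        by_cases ha : a ∈ AccG W
        · rw [kap_acc W ha, one_smul]
          have := hy a ha 1 (by
            simp only [FreeGroup.norm_one]; omega)
          simpa using this.symm
        · rw [kap_not W ha]
      · rw [kap_not W ha0, mul_smul]
        by_cases ha : a ∈ AccG W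
        · rw [kap_acc W ha, one_smul]
          exact (hy a ha a0⁻¹ (by rw [FreeGroup.norm_inv_eq]; exact hr)).symm
        · rw [kap_not W ha]
    · rw [sv_on_off W h1 h2, Qk, Qk, if_pos h1, if_neg h2, one_smul]
  · by_cases h2 : m < NH W g η
    · rw [sv_off_on W h1 h2, Qk, Qk, if_neg h1, if_pos h2, inv_one, one_smul]
    · rw [sv_off_off W h1 h2, Qk, Qk, if_neg h1, if_neg h2, inv_one, one_smul]

theorem norm_pos {η : Hg W} {n : ℕ} (hη : (wH W η).norm ≤ n) (g : FreeGroup A) :
    ((wH W η)⁻¹ * g).norm ≤ n + g.norm := by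
  have h1 := FreeGroup.norm_mul_le (wH W η)⁻¹ g
  rw [FreeGroup.norm_inv_eq] at h1
  omega

theorem norm_wH_run0 (u : List (DL W × Bool)) : (wH W (run W u).eta0).norm ≤ u.length := by
  obtain ⟨s, hs, h⟩ := NH_run0_far W u
  rw [h]
  exact (norm_wH_hL W s).trans hs

theorem norm_sh (hW : Archive W) (u : List (DL W × Bool)) (g : FreeGroup A) (m : ℤ) :
    ((run W u).sh g m).norm ≤ 3 * u.length := by
  have ih := inv_run W hW u
  cases hb : (run W u).b with
  | true =>
    obtain ⟨s, -, n, hn, hsh⟩ := ih.seg hb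
    have := hsh g m
    omega
  | false => exact ih.sil hb g m

/-- closing a segment -/
theorem close_smul (hW : Archive W) (u : List (DL W × Bool)) {g : FreeGroup A} {m : ℤ} {ξ : X}
    {r : ℕ} (hξ : GoodAt (AccG W) ξ r) (hr : 9 * u.length + 3 * g.norm ≤ r) :
    Qk W (run W u).eta g m • (Qk W (run W u).eta0 g m)⁻¹ • (run W u).sh g m • ξ =
      sv W (run W u).eta0 (run W u).eta g m • (run W u).sh g m • ξ := by
  have h1 := norm_pos W (norm_wH_run W u) g
  have h2 := norm_pos W (norm_wH_run0 W u) g
  have h3 := norm_sh W hW u g m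
  exact pair_smul W (hξ.smul ((run W u).sh g m) (r' := r - 2 * ((run W u).sh g m).norm)
    (by omega)) (by omega) (by omega)

/-- the literal label and the short label agree on good points -/
theorem lit_smul (hW : Archive W) (u : List (DL W × Bool)) {g : FreeGroup A} {m : ℤ} {ξ : X}
    {r : ℕ} (hξ : GoodAt (AccG W) ξ r) (hr : 9 * u.length + 3 * g.norm ≤ r) :
    lit W u g m • ξ = if (run W u).b then (Qk W (run W u).eta0 g m)⁻¹ • (run W u).sh g m • ξ
      else (run W u).sh g m • ξ := by
  induction u with
  | nil =>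
    change (Qk W 1 g m)⁻¹ • ξ = (Qk W 1 g m)⁻¹ • (1 : FreeGroup A) • ξ
    rw [one_smul]
  | cons a u ih =>
    have ih' := ih (by simp only [List.length_cons] at hr; omega)
    have hc := close_smul W hW u (m := m) hξ (g := g) (by
      simp only [List.length_cons] at hr; omega)
    obtain ⟨o, e⟩ := a
    cases o with
    | some l =>
      rw [run_cons, stp_some]
      exact ih'
    | none =>
      by_cases h : (run W u).eta ∈ EL W
      · cases hb : (run W u).b with
        | true =>
          rw [run_cons, stp_none_true W e h hb]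
          have h5 : lit W ((none, e) :: u) g m = Qk W (run W u).eta g m * lit W u g m := by
            simp [lit, lstp, h, hb]
          rw [hb, if_pos rfl] at ih'
          rw [h5, mul_smul, ih', hc]
          simp [mul_smul]
        | false =>
          rw [run_cons, stp_none_false W e h hb]
          have h5 : lit W ((none, e) :: u) g m = (Qk W (run W u).eta g m)⁻¹ * lit W u g m := by
            simp [lit, lstp, h, hb]
          rw [hb, if_neg (by simp)] at ih'
          rw [h5, mul_smul, ih']
          simp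
      · rw [run_cons, stp_none_else W e h]
        have h5 : lit W ((none, e) :: u) = lit W u := by
          simp [lit, lstp, h]
        rw [h5]
        exact ih'

/-- **`chiS` of a word with value in `S`, short label** -/
theorem chiS_short (hW : Archive W) {u : List (DL W × Bool)}
    (hu : dval W (FreeGroup.mk u) ∈ SG (Ls W) (eps W)) {g : FreeGroup A} {m : ℤ} {ξ : X} {r : ℕ}
    (hξ : GoodAt (AccG W) ξ r) (hr : 9 * u.length + 3 * g.norm ≤ r) :
    chiS X (witOK W) (kap_spec W) ⟨dval W (FreeGroup.mk u), hu⟩ (g, m, ξ) =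
        ((wH W (run W u).eta)⁻¹ * g, m - NH W g (run W u).eta, vf W (run W u) g m • ξ) := by
  rw [chiS_run W X hu, mul_smul, lit_smul W hW u hξ hr, run_b W hu, if_pos rfl,
    close_smul W hW u hξ hr, vf, mul_smul]

/-! ### the table -/

theorem vf_unif (u : List (DL W × Bool)) {g g' : FreeGroup A} {m m' : ℤ}
    (H : ∀ s : List (HL W × Bool), s.length ≤ u.length →
      (m < NH W g (hL s) ∧ m' < NH W g' (hL s)) ∨ (¬ m < NH W g (hL s) ∧ ¬ m' < NH W g' (hL s))) 
    (H' : ∀ s : List (HL W × Bool), s.length ≤ u.length →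
      ∀ s' : List (HL W × Bool), s'.length ≤ u.length →
      (m < NH W g (hL s) ↔ m < NH W g (hL s')) ∨ g = g') :
    vf W (run W u) g m = vf W (run W u) g' m' := by
  unfold vf
  rw [sh_congr W u H H']
  congr 1
  obtain ⟨s0, hs0, h0⟩ := NH_run0_far W u
  have hp := length_path W u
  have A1 := H s0 hs0
  have A2 := H (path W u) hp
  have A3 := H' s0 hs0 (path W u) hp
  rw [h0, eta_run]
  rcases A1 with ⟨a1, a1'⟩ | ⟨a1, a1'⟩ <;> rcases A2 with ⟨a2, a2'⟩ | ⟨a2, a2'⟩
  · rw [sv_on_on W a1 a2, sv_on_on W a1' a2']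
  · rcases A3 with A3 | rfl
    · exact absurd (A3.1 a1) a2
    · rw [sv_on_off W a1 a2, sv_on_off W a1' a2']
  · rcases A3 with A3 | rfl
    · exact absurd (A3.2 a2) a1
    · rw [sv_off_on W a1 a2, sv_off_on W a1' a2']
  · rw [sv_off_off W a1 a2, sv_off_off W a1' a2']

/-- labels are `1` where all levels are off -/
theorem sh_off (u : List (DL W × Bool)) {g : FreeGroup A} {m : ℤ}
    (H : ∀ s : List (HL W × Bool), s.length ≤ u.length → ¬ m < NH W g (hL s)) :
    (run W u).sh g m = 1 := by
  induction u with
  | nil => rfl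
  | cons a u ih =>
    have hu : u.length ≤ (a :: u).length := by simp
    have ih' := ih (fun s hs => H s (hs.trans hu))
    obtain ⟨o, e⟩ := a
    rw [run_cons]
    cases o with
    | some l => exact ih'
    | none =>
      by_cases h : (run W u).eta ∈ EL W
      · cases hb : (run W u).b with
        | true =>
          rw [stp_none_true W e h hb]
          change sv W (run W u).eta0 (run W u).eta g m * (run W u).sh g m = 1
          obtain ⟨s0, hs0, h0⟩ := NH_run0_far W u
          have hp := length_path W u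
          have A1 := H s0 (hs0.trans hu)
          have A2 := H (path W u) (hp.trans hu)
          rw [ih', h0, eta_run, sv_off_off W A1 A2, mul_one]
        | false => rw [stp_none_false W e h hb]; exact ih'
      · rw [stp_none_else W e h]; exact ih'

theorem vf_off (u : List (DL W × Bool)) {g : FreeGroup A} {m : ℤ}
    (H : ∀ s : List (HL W × Bool), s.length ≤ u.length → ¬ m < NH W g (hL s)) :
    vf W (run W u) g m = 1 := by
  unfold vf
  obtain ⟨s0, hs0, h0⟩ := NH_run0_far W u
  have hp := length_path W u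
  rw [sh_off W u H, mul_one, h0, eta_run, sv_off_off W (H s0 hs0) (H (path W u) hp)]

theorem tab_run (hW : Archive W) {u : List (DL W × Bool)}
    (hu : dval W (FreeGroup.mk u) ∈ SG (Ls W) (eps W)) :
    LTab (3 * u.length) (wH W (run W u).eta)⁻¹ (fun g => - NH W g (run W u).eta)
      (vf W (run W u)) where
  hw := by
    rw [FreeGroup.norm_inv_eq]
    have := norm_wH_run W u
    omega
  hτ g := by
    rw [abs_neg]
    have := abs_NH_run W u g
    push_cast
    omega
  far g hg := by
    rw [NH_run_far W u hg, neg_zero]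
  hv g m := norm_vf W hW u (run_eta W hu) (run_b W hu) g m
  unif g m m' hm := by
    refine vf_unif W u (fun s hs => ?_) (fun _ _ _ _ => Or.inr rfl)
    have h1 := abs_le.1 (abs_NH_hL W s g)
    push_cast at hm
    rcases hm with rfl | hm | hm
    · by_cases h : m < NH W g (hL s)
      · exact Or.inl ⟨h, h⟩
      · exact Or.inr ⟨h, h⟩
    · right; constructor <;> omega
    · left; constructor <;> omega
  unif' g g' m m' hg hg' hm := by
    have h1 : ∀ s : List (HL W × Bool), s.length ≤ u.length → NH W g (hL s) = 0 :=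
      fun s hs => NH_hL_far W s (by omega)
    have h2 : ∀ s : List (HL W × Bool), s.length ≤ u.length → NH W g' (hL s) = 0 :=
      fun s hs => NH_hL_far W s (by omega)
    refine vf_unif W u (fun s hs => ?_) (fun s hs s' hs' => Or.inl ?_)
    · rw [h1 s hs, h2 s hs]
      by_cases h : m < 0
      · exact Or.inl ⟨h, hm.1 h⟩
      · exact Or.inr ⟨h, fun h' => h (hm.2 h')⟩
    · rw [h1 s hs, h1 s' hs']
  off g m hm := by
    refine vf_off W u (fun s hs => ?_)
    have h1 := abs_le.1 (abs_NH_hL W s g)
    push_cast at hm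
    omega
  off' g m hg hm := by
    refine vf_off W u (fun s hs => ?_)
    rw [NH_hL_far W s (by omega)]
    omega

/-- **Theorem LIN**: a word `u` in the letters of `D` with value in `S` acts on good points by a
short uniform table -/
theorem lin (hW : Archive W) (u : List (DL W × Bool))
    (hu : dval W (FreeGroup.mk u) ∈ SG (Ls W) (eps W)) :
    ∃ w τ v, LTab (9 * u.length) w τ v ∧
      ∀ (X : Type) [MulAction (FreeGroup A) X] (x : X) (g : FreeGroup A) (m : ℤ),
        GoodAt (AccG W) x (9 * (u.length + g.norm)) →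
        chiS X (witOK W) (kap_spec W) ⟨dval W (FreeGroup.mk u), hu⟩ (g, m, x) =
          (w * g, m + τ g, v g m • x) := by
  refine ⟨_, _, _, (tab_run W hW hu).mono (by omega), fun X _ x g m hx => ?_⟩
  rw [chiS_short W hW hu hx (by omega)]
  rfl

end Crest.Agent.R185.Tab
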