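import Crest.Agent.R185.Tor1

/-!
# R185 / TELESCOPE

`U` acts on `Y`, `z : U →* U` factors through the image of `U` in `Perm Y`, `θ : Y → Y` is injective
and `z`-equivariant, together with "hotel" data (`star`, `hot`).  The group `Γ` generated by `U` and
the telescope letter `t` on `Y∞ = colim (Y → Y → ⋯)` is finitely presented, faithful, highly
transitive, and all pointwise stabilisers of finite tuples are isomorphic to `Γ`.
-/

set_option autoImplicit false

namespace Crest.Agent.R185.Tele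

open Tor

/-- the input of the telescope -/
structure Data (U : Type) [Group U] (Y : Type) [MulAction U Y] where
  z : U →* U
  θ : Y → Y
  θ_inj : Function.Injective θ
  equiv : ∀ u y, θ (u • y) = z u • θ y
  ker : ∀ u : U, (∀ y : Y, u • y = y) → z u = 1
  star : ℕ → Y
  star_inj : Function.Injective star
  star_ne : ∀ i y, θ y ≠ star i
  fix : ∀ u i, z u • star i = star i
  hot : ∀ (n : ℕ) (F : Fin n → Y), Function.Injective F →
    ∃ d : U, (∀ i : Fin n, d • star i = θ (F i)) ∧
      ∀ u : U, (∀ i, u • F i = F i) → Commute d (z u)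

section colim

variable {Y : Type} (θ : Y → Y) (hθ : Function.Injective θ)

/-- `(n, y)` stands for `t⁻ⁿ y` -/
def setoidY : Setoid (ℕ × Y) where
  r p q := (θ^[q.1]) p.2 = (θ^[p.1]) q.2
  iseqv :=
    { refl := fun p => rfl
      symm := fun h => h.symm
      trans := by
        rintro ⟨n, y⟩ ⟨m, w⟩ ⟨k, v⟩ h1 h2
        simp only at h1 h2 ⊢
        apply hθ.iterate m
        rw [← Function.iterate_add_apply, add_comm, Function.iterate_add_apply, h1,
          ← Function.iterate_add_apply, add_comm, Function.iterate_add_apply, h2,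
          ← Function.iterate_add_apply, add_comm, Function.iterate_add_apply] }

/-- the colimit -/
abbrev YInf : Type := Quotient (setoidY θ hθ)

/-- the point `t⁻ⁿ y` -/
def pt (n : ℕ) (y : Y) : YInf θ hθ := Quotient.mk (setoidY θ hθ) (n, y)

variable {θ hθ}

theorem pt_eq {n m : ℕ} {y w : Y} :
    pt θ hθ n y = pt θ hθ m w ↔ (θ^[m]) y = (θ^[n]) w := by
  unfold pt
  rw [Quotient.eq]
  rfl

theorem pt_inj {n : ℕ} {y w : Y} (h : pt θ hθ n y = pt θ hθ n w) : y = w :=
  hθ.iterate n (pt_eq.mp h)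

theorem pt_succ (n : ℕ) (y : Y) : pt θ hθ (n + 1) (θ y) = pt θ hθ n y := by
  rw [pt_eq, ← Function.iterate_succ_apply]

theorem pt_add (n k : ℕ) (y : Y) : pt θ hθ (n + k) ((θ^[k]) y) = pt θ hθ n y := by
  rw [pt_eq, ← Function.iterate_add_apply]

theorem exists_pt (x : YInf θ hθ) : ∃ n y, x = pt θ hθ n y := by
  obtain ⟨⟨n, y⟩, rfl⟩ := Quotient.exists_rep x
  exact ⟨n, y, rfl⟩

/-- the telescope letter -/
def tau (θ : Y → Y) (hθ : Function.Injective θ) : Equiv.Perm (YInf θ hθ) where
  toFun := Quotient.map (fun p : ℕ × Y => (p.1, θ p.2)) (by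
    rintro ⟨n, y⟩ ⟨m, w⟩ h
    change (θ^[m]) (θ y) = (θ^[n]) (θ w)
    rw [← Function.iterate_succ_apply, ← Function.iterate_succ_apply,
      Function.iterate_succ_apply', Function.iterate_succ_apply']
    exact congrArg θ h)
  invFun := Quotient.map (fun p : ℕ × Y => (p.1 + 1, p.2)) (by
    rintro ⟨n, y⟩ ⟨m, w⟩ h
    change (θ^[m + 1]) y = (θ^[n + 1]) w
    rw [Function.iterate_succ_apply', Function.iterate_succ_apply']
    exact congrArg θ h)
  left_inv x := by
    obtain ⟨n, y, rfl⟩ := exists_pt x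
    exact pt_succ n y
  right_inv x := by
    obtain ⟨n, y, rfl⟩ := exists_pt x
    exact pt_succ n y

theorem tau_pt (n : ℕ) (y : Y) : tau θ hθ (pt θ hθ n y) = pt θ hθ n (θ y) := rfl

theorem tau_inv_pt (n : ℕ) (y : Y) : (tau θ hθ)⁻¹ (pt θ hθ n y) = pt θ hθ (n + 1) y := rfl

theorem tau_pow_pt (k n : ℕ) (y : Y) :
    (tau θ hθ ^ k) (pt θ hθ n y) = pt θ hθ n ((θ^[k]) y) := by
  induction k with
  | zero => rfl
  | succ k ih =>
    rw [pow_succ', Equiv.Perm.mul_apply, ih, tau_pt, Function.iterate_succ_apply']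

theorem tau_inv_pow_pt (k n : ℕ) (y : Y) :
    ((tau θ hθ)⁻¹ ^ k) (pt θ hθ n y) = pt θ hθ (n + k) y := by
  induction k with
  | zero => rfl
  | succ k ih =>
    rw [pow_succ', Equiv.Perm.mul_apply, ih, tau_inv_pt]
    rfl

end colim

section

variable {U : Type} [Group U] {Y : Type} [MulAction U Y] (D : Data U Y)

theorem equiv_iter (u : U) (k : ℕ) (y : Y) :
    (D.θ^[k]) (u • y) = ((D.z)^[k]) u • (D.θ^[k]) y := by
  induction k with
  | zero => rfl
  | succ k ih =>
    rw [Function.iterate_succ_apply', ih, D.equiv, Function.iterate_succ_apply',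
      Function.iterate_succ_apply']

theorem iter_one (k : ℕ) : ((D.z)^[k]) 1 = 1 := by
  induction k with
  | zero => rfl
  | succ k ih => rw [Function.iterate_succ_apply', ih, map_one]

theorem iter_mul (k : ℕ) (u v : U) : ((D.z)^[k]) (u * v) = ((D.z)^[k]) u * ((D.z)^[k]) v := by
  induction k with
  | zero => rfl
  | succ k ih =>
    rw [Function.iterate_succ_apply', ih, map_mul, Function.iterate_succ_apply',
      Function.iterate_succ_apply']

/-- the space of the telescope -/
abbrev Yi : Type := YInf D.θ D.θ_inj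

/-- points -/
abbrev P (n : ℕ) (y : Y) : Yi D := pt D.θ D.θ_inj n y

/-- the action of `U` on `Y∞` -/
def pFun (u : U) : Yi D → Yi D :=
  Quotient.map (fun p : ℕ × Y => (p.1, ((D.z)^[p.1]) u • p.2)) (by
    rintro ⟨n, y⟩ ⟨m, w⟩ h
    change (D.θ^[m]) (((D.z)^[n]) u • y) = (D.θ^[n]) (((D.z)^[m]) u • w)
    have h' : (D.θ^[m]) y = (D.θ^[n]) w := h
    rw [equiv_iter, equiv_iter, h', ← Function.iterate_add_apply, ← Function.iterate_add_apply,
      add_comm])

theorem pFun_pt (u : U) (n : ℕ) (y : Y) : pFun D u (P D n y) = P D n (((D.z)^[n]) u • y) := rfl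

/-- the action of `U` on `Y∞` as a homomorphism -/
def pU : U →* Equiv.Perm (Yi D) where
  toFun u :=
    { toFun := pFun D u
      invFun := pFun D u⁻¹
      left_inv := by
        intro x
        obtain ⟨n, y, rfl⟩ := exists_pt x
        rw [pFun_pt, pFun_pt, smul_smul, ← iter_mul, inv_mul_cancel, iter_one, one_smul]
      right_inv := by
        intro x
        obtain ⟨n, y, rfl⟩ := exists_pt x
        rw [pFun_pt, pFun_pt, smul_smul, ← iter_mul, mul_inv_cancel, iter_one, one_smul] }
  map_one' := by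
    ext1 x
    obtain ⟨n, y, rfl⟩ := exists_pt x
    change pFun D 1 (P D n y) = P D n y
    rw [pFun_pt, iter_one, one_smul]
  map_mul' u v := by
    ext1 x
    obtain ⟨n, y, rfl⟩ := exists_pt x
    change pFun D (u * v) (P D n y) = pFun D u (pFun D v (P D n y))
    rw [pFun_pt, pFun_pt, pFun_pt, smul_smul, ← iter_mul]

theorem pU_pt (u : U) (n : ℕ) (y : Y) : pU D u (P D n y) = P D n (((D.z)^[n]) u • y) := rfl

theorem pU_pt0 (u : U) (y : Y) : pU D u (P D 0 y) = P D 0 (u • y) := rfl

/-- the letter `t` -/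
abbrev tu : Equiv.Perm (Yi D) := tau D.θ D.θ_inj

theorem tu_conj (u : U) : tu D * pU D u * (tu D)⁻¹ = pU D (D.z u) := by
  rw [mul_inv_eq_iff_eq_mul]
  ext1 x
  obtain ⟨n, y, rfl⟩ := exists_pt x
  rw [Equiv.Perm.mul_apply, Equiv.Perm.mul_apply, tau_pt]
  change tau D.θ D.θ_inj (pU D u (P D n y)) = pU D (D.z u) (P D n (D.θ y))
  rw [pU_pt, pU_pt]
  unfold P
  rw [tau_pt, D.equiv, ← Function.iterate_succ_apply' (f := ⇑D.z) n u,
    Function.iterate_succ_apply (f := ⇑D.z)]

theorem pU_eq_one_iff (u : U) : pU D u = 1 ↔ ∀ y : Y, u • y = y := by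
  constructor
  · intro h y
    have h1 : pU D u (P D 0 y) = P D 0 y := by rw [h]; rfl
    rw [pU_pt0] at h1
    exact pt_inj h1
  · intro h
    have hz : D.z u = 1 := D.ker u h
    ext1 x
    obtain ⟨n, y, rfl⟩ := exists_pt x
    change pU D u (P D n y) = P D n y
    rw [pU_pt]
    cases n with
    | zero => rw [Function.iterate_zero, id, h]
    | succ n => rw [Function.iterate_succ_apply, hz, iter_one, one_smul]

/-- the ambient group -/
abbrev Amb : Type := Equiv.Perm (Yi D) × Multiplicative ℤ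

/-- generator -/
def gU : U →* Amb D := (pU D).prod 1

/-- generator -/
def gT : Amb D := (tu D, Multiplicative.ofAdd (1 : ℤ))

theorem gU_fst (u : U) : (gU D u).1 = pU D u := rfl
theorem gU_snd (u : U) : (gU D u).2 = 1 := rfl

theorem g_conj (u : U) : gT D * gU D u * (gT D)⁻¹ = gU D (D.z u) := by
  ext1
  · exact tu_conj D u
  · change Multiplicative.ofAdd (1 : ℤ) * 1 * (Multiplicative.ofAdd (1 : ℤ))⁻¹ = 1
    rw [mul_one, mul_inv_cancel]

/-- the group of the telescope -/
def Gam : Subgroup (Amb D) := Subgroup.closure (Set.range (gU D) ∪ {gT D})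

/-- `U → Γ` -/
def iU : U →* Gam D where
  toFun u := ⟨gU D u, Subgroup.subset_closure (Or.inl ⟨u, rfl⟩)⟩
  map_one' := by ext1; exact map_one (gU D)
  map_mul' u v := by ext1; exact map_mul (gU D) u v

/-- the stable letter -/
def iT : Gam D := ⟨gT D, Subgroup.subset_closure (Or.inr rfl)⟩

theorem i_conj (u : U) : iT D * iU D u * (iT D)⁻¹ = iU D (D.z u) :=
  Subtype.ext (g_conj D u)

theorem i_gen : Subgroup.closure (Set.range (iU D) ∪ {iT D}) = ⊤ := by
  rw [eq_top_iff]
  rintro ⟨x, hx⟩ -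
  have key : ∀ x (hx : x ∈ Subgroup.closure (Set.range (gU D) ∪ {gT D})),
      (⟨x, hx⟩ : Gam D) ∈ Subgroup.closure (Set.range (iU D) ∪ {iT D}) := by
    intro x hx
    induction hx using Subgroup.closure_induction with
    | mem x hx =>
      rcases hx with ⟨u, rfl⟩ | hx
      · exact Subgroup.subset_closure (Or.inl ⟨u, rfl⟩)
      · rw [Set.mem_singleton_iff] at hx
        subst hx
        exact Subgroup.subset_closure (Or.inr rfl)
    | one => exact Subgroup.one_mem _
    | mul x y hx hy h1 h2 => exact Subgroup.mul_mem _ h1 h2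
    | inv x hx h1 => exact Subgroup.inv_mem _ h1
  exact key x hx

theorem i_form (γ : Gam D) : ∃ (a b : ℕ) (u : U), γ = (iT D)⁻¹ ^ a * iU D u * iT D ^ b :=
  form_all (i_conj D) (i_gen D) γ

/-- height -/
def hGam : Gam D →* Multiplicative ℤ := (MonoidHom.snd _ _).comp (Gam D).subtype

theorem hGam_T : hGam D (iT D) = Multiplicative.ofAdd (1 : ℤ) := rfl
theorem hGam_U (u : U) : hGam D (iU D u) = 1 := rfl

theorem hGam_form (a b : ℕ) (u : U) :
    hGam D ((iT D)⁻¹ ^ a * iU D u * iT D ^ b) = Multiplicative.ofAdd ((b : ℤ) - a) := by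
  rw [map_mul, map_mul, map_pow, map_pow, map_inv, hGam_T, hGam_U, mul_one, inv_pow,
    ← ofAdd_nsmul, ← ofAdd_nsmul, ← ofAdd_neg, ← ofAdd_add]
  congr 1
  simp
  ring

/-- the action on `Y∞` -/
def actHom : Gam D →* Equiv.Perm (Yi D) := (MonoidHom.fst _ _).comp (Gam D).subtype

theorem actHom_U (u : U) : actHom D (iU D u) = pU D u := rfl
theorem actHom_T : actHom D (iT D) = tu D := rfl

theorem actHom_form (a b : ℕ) (u : U) :
    actHom D ((iT D)⁻¹ ^ a * iU D u * iT D ^ b) = (tu D)⁻¹ ^ a * pU D u * tu D ^ b := by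
  rw [map_mul, map_mul, map_pow, map_pow, map_inv]
  rfl

/-- `t ^ k` with `k ≠ 0` is not in the image of `U` -/
theorem tu_pow_ne (k : ℕ) (hk : k ≠ 0) (u : U) : tu D ^ k ≠ pU D u := by
  intro h
  obtain ⟨k, rfl⟩ := Nat.exists_eq_succ_of_ne_zero hk
  have h1 : (tu D ^ (k + 1)) (P D 0 (u⁻¹ • D.star 0)) = P D 0 (D.star 0) := by
    change tu D ^ (k + 1) = _ at h
    rw [h, pU_pt0, smul_inv_smul]
  rw [tau_pow_pt] at h1
  have h2 := pt_inj h1
  rw [Function.iterate_succ_apply'] at h2
  exact D.star_ne _ _ h2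

theorem pU_of_form {a b : ℕ} {u : U} (h : (tu D)⁻¹ ^ a * pU D u * tu D ^ b = 1) :
    a = b ∧ pU D u = 1 := by
  have h1 : pU D u * tu D ^ b = tu D ^ a := by
    have h2 : (tu D)⁻¹ ^ a * (pU D u * tu D ^ b) = 1 := by rw [← mul_assoc]; exact h
    rw [inv_pow, inv_mul_eq_one] at h2
    exact h2.symm
  rcases lt_trichotomy a b with hab | hab | hab
  · exfalso
    obtain ⟨c, rfl⟩ := Nat.exists_eq_add_of_lt hab
    have h3 : tu D ^ (c + 1) = pU D u⁻¹ := by
      have h4 : pU D u * tu D ^ (c + 1) * tu D ^ a = 1 * tu D ^ a := by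
        rw [one_mul, mul_assoc, ← pow_add, ← h1]
        congr 2
        ring
      have h5 := mul_right_cancel h4
      rw [map_inv]
      exact eq_inv_of_mul_eq_one_right h5
    exact tu_pow_ne D (c + 1) (Nat.succ_ne_zero c) _ h3
  · subst hab
    refine ⟨rfl, ?_⟩
    have h4 : pU D u * tu D ^ a = 1 * tu D ^ a := by rw [one_mul]; exact h1
    exact mul_right_cancel h4
  · exfalso
    obtain ⟨c, rfl⟩ := Nat.exists_eq_add_of_lt hab
    have h3 : tu D ^ (c + 1) = pU D u := by
      have h4 : tu D ^ (c + 1) * tu D ^ b = pU D u * tu D ^ b := by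
        rw [h1, ← pow_add]
        congr 1
        ring
      exact mul_right_cancel h4
    exact tu_pow_ne D (c + 1) (Nat.succ_ne_zero c) _ h3

theorem actHom_inj : Function.Injective (actHom D) := by
  rw [injective_iff_map_eq_one]
  intro γ hγ
  obtain ⟨a, b, u, rfl⟩ := i_form D γ
  rw [actHom_form] at hγ
  obtain ⟨rfl, h2⟩ := pU_of_form D hγ
  have h3 : iU D u = 1 := by
    ext1
    change gU D u = 1
    ext1
    · exact h2
    · rfl
  rw [h3, mul_one, inv_pow, inv_mul_cancel]

instance actGam : MulAction (Gam D) (Yi D) := MulAction.compHom (Yi D) (actHom D)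

theorem smul_def (γ : Gam D) (x : Yi D) : γ • x = actHom D γ x := rfl

instance faithGam : FaithfulSMul (Gam D) (Yi D) where
  eq_of_smul_eq_smul {γ δ} h := by
    apply actHom_inj D
    ext1 x
    exact h x

theorem smul_T (n : ℕ) (y : Y) : iT D • P D n y = P D n (D.θ y) := rfl
theorem smul_U (u : U) (n : ℕ) (y : Y) : iU D u • P D n y = P D n (((D.z)^[n]) u • y) := rfl
theorem smul_U0 (u : U) (y : Y) : iU D u • P D 0 y = P D 0 (u • y) := rfl
theorem smul_T_pow (k n : ℕ) (y : Y) : iT D ^ k • P D n y = P D n ((D.θ^[k]) y) := by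
  rw [smul_def, map_pow, actHom_T]
  exact tau_pow_pt k n y

/-! ### high transitivity -/

/-- every injective tuple can be moved to the standard tuple -/
theorem move_star (n : ℕ) (x : Fin n → Yi D) (hx : Function.Injective x) :
    ∃ γ : Gam D, ∀ i : Fin n, γ • x i = P D 0 (D.star i) := by
  choose m y hy using fun i => exists_pt (x i)
  let N := Finset.univ.sup m
  have hN : ∀ i, m i ≤ N := fun i => Finset.le_sup (f := m) (Finset.mem_univ i)
  let F : Fin n → Y := fun i => (D.θ^[N - m i]) (y i)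
  have hF : ∀ i, iT D ^ N • x i = P D 0 (F i) := by
    intro i
    rw [hy i, smul_T_pow]
    unfold P
    rw [pt_eq]
    change (D.θ^[N]) (y i) = (D.θ^[m i]) ((D.θ^[N - m i]) (y i))
    rw [← Function.iterate_add_apply, Nat.add_sub_cancel' (hN i)]
  have hFi : Function.Injective F := by
    intro i j hij
    apply hx
    have : iT D ^ N • x i = iT D ^ N • x j := by rw [hF, hF, hij]
    exact MulAction.injective _ this
  obtain ⟨d, hd, -⟩ := D.hot n F hFi
  refine ⟨iU D d⁻¹ * (iT D * iT D ^ N), ?_⟩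
  intro i
  rw [mul_smul, mul_smul, hF, smul_T, smul_U0, ← hd i, inv_smul_smul]

/-- **high transitivity** -/
theorem highly_transitive (n : ℕ) (x y : Fin n → Yi D) (hx : Function.Injective x)
    (hy : Function.Injective y) : ∃ γ : Gam D, ∀ i, γ • x i = y i := by
  obtain ⟨γ, hγ⟩ := move_star D n x hx
  obtain ⟨δ, hδ⟩ := move_star D n y hy
  refine ⟨δ⁻¹ * γ, fun i => ?_⟩
  rw [mul_smul, hγ, ← hδ, inv_smul_smul]

instance infYi : Infinite (Yi D) := by
  apply Infinite.of_injective (fun i : ℕ => P D 0 (D.star i))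
  intro i j hij
  exact D.star_inj (pt_inj hij)

end

end Crest.Agent.R185.Tele
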