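import Crest.Agent.R185.Tele1

/-!
# R185 / TELESCOPE (2): stabilisers, finite presentability
-/

set_option autoImplicit false

namespace Crest.Agent.R185.Tele

open Tor

/-! ### general facts on torus groups -/

section shift

variable {E : Type} [Group E]

/-- the torus group of any endomorphism of a finitely presented group is finitely presented -/
theorem fp_TG (hE : Group.IsFinitelyPresented E) (ψ : E →* E) (S : Set E) (hS : S.Finite) :
    Group.IsFinitelyPresented (TG ψ S) := by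
  have : Group.IsFinitelyPresented (Monoid.Coprod E (Multiplicative ℤ)) := inferInstance
  exact Group.IsFinitelyPresented.quotient (Subgroup.normalClosure (rel ψ S))
    ⟨rel ψ S, hS.image _, rfl⟩

theorem gen_TG (ψ : E →* E) (S : Set E) :
    Subgroup.closure (Set.range (ib ψ S) ∪ {tt ψ S}) = ⊤ := by
  rw [eq_top_iff]
  intro γ hγ
  clear hγ
  obtain ⟨x, rfl⟩ := pr_surj ψ S γ
  induction x using Monoid.Coprod.induction_on with
  | inl u => exact Subgroup.subset_closure (Or.inl ⟨u, rfl⟩)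
  | inr n =>
    have h3 : pr ψ S (Monoid.Coprod.inr n) = tt ψ S ^ (Multiplicative.toAdd n) := by
      have h4 : n = (Multiplicative.ofAdd (1 : ℤ)) ^ (Multiplicative.toAdd n) := by
        rw [← ofAdd_zsmul]; simp
      have h5 : (Monoid.Coprod.inr n : Monoid.Coprod E (Multiplicative ℤ)) =
          (Monoid.Coprod.inr (Multiplicative.ofAdd (1 : ℤ))) ^ (Multiplicative.toAdd n) := by
        rw [← map_zpow, ← h4]
      rw [h5, map_zpow]
      rfl
    have h6 : tt ψ S ∈ Subgroup.closure (Set.range (ib ψ S) ∪ {tt ψ S}) :=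
      Subgroup.subset_closure (Or.inr rfl)
    rw [h3]
    exact Subgroup.zpow_mem _ h6 _
  | mul x y hx hy => rw [map_mul]; exact Subgroup.mul_mem _ hx hy

theorem form_TG (ψ : E →* E) (S : Set E) (hS : Subgroup.closure S = ⊤) (γ : TG ψ S) :
    ∃ (a b : ℕ) (u : E), γ = (tt ψ S)⁻¹ ^ a * ib ψ S u * tt ψ S ^ b :=
  form_all (rel_all ψ S hS) (gen_TG ψ S) γ

end shift

section

variable {U : Type} [Group U] {Y : Type} [MulAction U Y] (D : Data U Y)

theorem iU_eq_one_iff (u : U) : iU D u = 1 ↔ ∀ y : Y, u • y = y := by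
  rw [← pU_eq_one_iff, ← actHom_U, map_eq_one_iff _ (actHom_inj D)]

theorem form_eq_one {a b : ℕ} {u : U} (h : (iT D)⁻¹ ^ a * iU D u * iT D ^ b = 1) :
    a = b ∧ iU D u = 1 := by
  have h1 : (tu D)⁻¹ ^ a * pU D u * tu D ^ b = 1 := by rw [← actHom_form, h, map_one]
  obtain ⟨h2, h3⟩ := pU_of_form D h1
  refine ⟨h2, ?_⟩
  rw [iU_eq_one_iff, ← pU_eq_one_iff]
  exact h3

/-- **finite presentability**: `Γ` is finitely presented as soon as `z` factors through a finitely
presented group -/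
theorem fp_Gam {E : Type} [Group E] (hE : Group.IsFinitelyPresented E) (i : U →* E) (q : E →* U)
    (hz : ∀ u, q (i u) = D.z u) : Group.IsFinitelyPresented (Gam D) := by
  obtain ⟨S, hSf, hS⟩ := exists_gen E hE
  obtain ⟨F, hF1, hF2⟩ := exists_lift (i.comp q) S ((iU D).comp q) (iT D) (by
    intro a
    change iT D * iU D (q a) * (iT D)⁻¹ = iU D (q (i (q a)))
    rw [i_conj, hz])
  have hfp := fp_TG hE (i.comp q) S hSf
  have hsurj : Function.Surjective F := by
    rw [← MonoidHom.range_eq_top, eq_top_iff, ← i_gen D, Subgroup.closure_le]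
    rintro x (⟨u, rfl⟩ | hx)
    · have h1 : iU D u = (iT D)⁻¹ * iU D (q (i u)) * iT D := by
        rw [hz, ← i_conj]; group
      rw [h1]
      refine ⟨(tt (i.comp q) S)⁻¹ * ib (i.comp q) S (i u) * tt (i.comp q) S, ?_⟩
      rw [map_mul, map_mul, map_inv, hF1, hF2]
      rfl
    · rw [Set.mem_singleton_iff] at hx
      subst hx
      exact ⟨_, hF2⟩
  have hinj : Function.Injective F := by
    rw [injective_iff_map_eq_one]
    intro x hx
    obtain ⟨a, b, u, rfl⟩ := form_TG (i.comp q) S hS x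
    rw [map_mul, map_mul, map_pow, map_pow, map_inv, hF1, hF2] at hx
    obtain ⟨rfl, h2⟩ := form_eq_one D hx
    have h3 : D.z (q u) = 1 := D.ker _ ((iU_eq_one_iff D _).mp h2)
    have h4 := rel_all (i.comp q) S hS u
    have h5 := rel_all (i.comp q) S hS (i (q u))
    have h6 : ib (i.comp q) S ((i.comp q) (i (q u))) = 1 := by
      change ib (i.comp q) S (i (q (i (q u)))) = 1
      rw [hz, h3, map_one, map_one]
    rw [h6] at h5
    have h7 : ib (i.comp q) S (i (q u)) = 1 := by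
      have := conj_eq_one_iff.mp h5
      exact this
    change _ = ib (i.comp q) S (i (q u)) at h4
    rw [h7] at h4
    have h8 : ib (i.comp q) S u = 1 := conj_eq_one_iff.mp h4
    rw [h8, mul_one, inv_pow, inv_mul_cancel]
  exact Group.IsFinitelyPresented.equiv (MulEquiv.ofBijective F ⟨hinj, hsurj⟩)


/-- universal property of `Γ` -/
theorem exists_hom {K : Type} [Group K] (f : U →* K) (x : K)
    (h : ∀ u, x * f u * x⁻¹ = f (D.z u)) :
    ∃ Ψ : Gam D →* K, (∀ u, Ψ (iU D u) = f u) ∧ Ψ (iT D) = x := by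
  have hS : Subgroup.closure (Set.univ : Set U) = ⊤ := Subgroup.closure_univ
  obtain ⟨F, hF1, hF2⟩ := exists_lift D.z Set.univ (iU D) (iT D) (i_conj D)
  obtain ⟨L, hL1, hL2⟩ := exists_lift D.z Set.univ f x h
  have hsurj : Function.Surjective F := by
    rw [← MonoidHom.range_eq_top, eq_top_iff, ← i_gen D, Subgroup.closure_le]
    rintro y (⟨u, rfl⟩ | hy)
    · exact ⟨_, hF1 u⟩
    · rw [Set.mem_singleton_iff] at hy
      subst hy
      exact ⟨_, hF2⟩
  have hinj : Function.Injective F := by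
    rw [injective_iff_map_eq_one]
    intro y hy
    obtain ⟨a, b, u, rfl⟩ := form_TG D.z Set.univ hS y
    rw [map_mul, map_mul, map_pow, map_pow, map_inv, hF1, hF2] at hy
    obtain ⟨rfl, h2⟩ := form_eq_one D hy
    have h3 : D.z u = 1 := D.ker _ ((iU_eq_one_iff D _).mp h2)
    have h4 := rel_all D.z Set.univ hS u
    rw [h3, map_one] at h4
    have h8 : ib D.z Set.univ u = 1 := conj_eq_one_iff.mp h4
    rw [h8, mul_one, inv_pow, inv_mul_cancel]
  let e := MulEquiv.ofBijective F ⟨hinj, hsurj⟩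
  refine ⟨L.comp e.symm.toMonoidHom, ?_, ?_⟩
  · intro u
    have : e.symm (iU D u) = ib D.z Set.univ u := by
      rw [MulEquiv.symm_apply_eq]
      exact (hF1 u).symm
    change L (e.symm (iU D u)) = f u
    rw [this, hL1]
  · have : e.symm (iT D) = tt D.z Set.univ := by
      rw [MulEquiv.symm_apply_eq]
      exact hF2.symm
    change L (e.symm (iT D)) = x
    rw [this, hL2]

/-- the stabiliser of the standard tuple -/
def St (n : ℕ) : Subgroup (Gam D) where
  carrier := {γ | ∀ i : Fin n, γ • P D 0 (D.star i) = P D 0 (D.star i)}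
  one_mem' i := one_smul _ _
  mul_mem' {a b} ha hb i := by rw [mul_smul, hb, ha]
  inv_mem' {a} ha i := by rw [inv_smul_eq_iff, ha]

theorem mem_St {n : ℕ} {γ : Gam D} :
    γ ∈ St D n ↔ ∀ i : Fin n, γ • P D 0 (D.star i) = P D 0 (D.star i) := Iff.rfl

theorem height_one_form {a b : ℕ} (h : Multiplicative.ofAdd ((b : ℤ) - a) = 1) : a = b := by
  have h1 : (b : ℤ) - a = 0 := by
    have := congrArg Multiplicative.toAdd h
    simpa using this
  omega

/-- **the hotel trick**: the stabiliser of the standard tuple is isomorphic to `Γ` -/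
theorem St_iso (n : ℕ) : Nonempty (Gam D ≃* St D n) := by
  obtain ⟨d, hd1, hd2⟩ := D.hot n (fun i => D.star i)
    (fun i j hij => Fin.ext (D.star_inj hij))
  let s : Gam D := iU D d⁻¹ * iT D
  have hs : ∀ i : Fin n, s • P D 0 (D.star i) = P D 0 (D.star i) := by
    intro i
    change (iU D d⁻¹ * iT D) • P D 0 (D.star i) = _
    rw [mul_smul, smul_T, smul_U0, ← hd1 i, inv_smul_smul]
  have hsc : ∀ v : U, (∀ i : Fin n, v • D.star i = D.star i) →
      s * iU D v * s⁻¹ = iU D (D.z v) := by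
    intro v hv
    have h1 : s * iU D v * s⁻¹ = iU D d⁻¹ * (iT D * iU D v * (iT D)⁻¹) * (iU D d⁻¹)⁻¹ := by
      change iU D d⁻¹ * iT D * iU D v * (iU D d⁻¹ * iT D)⁻¹ = _
      group
    have h2 : d⁻¹ * D.z v * d⁻¹⁻¹ = D.z v := by
      have := (hd2 v hv).eq
      rw [inv_inv, mul_assoc, ← this, inv_mul_cancel_left]
    rw [h1, i_conj, ← map_mul, ← map_inv, ← map_mul, h2]
  obtain ⟨Ψ, hΨ1, hΨ2⟩ := exists_hom D ((iU D).comp D.z) s (by
    intro u
    exact hsc (D.z u) (fun i => D.fix u i))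
  have hhs : hGam D s = Multiplicative.ofAdd (1 : ℤ) := by
    change hGam D (iU D d⁻¹ * iT D) = _
    rw [map_mul, hGam_U, hGam_T, one_mul]
  have hinj : Function.Injective Ψ := by
    rw [injective_iff_map_eq_one]
    intro γ hγ
    obtain ⟨a, b, u, rfl⟩ := i_form D γ
    rw [map_mul, map_mul, map_pow, map_pow, map_inv, hΨ1, hΨ2] at hγ
    have h1 : hGam D (s⁻¹ ^ a * ((iU D).comp D.z) u * s ^ b) =
        Multiplicative.ofAdd ((b : ℤ) - a) := by
      change hGam D (s⁻¹ ^ a * iU D (D.z u) * s ^ b) = _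
      rw [map_mul, map_mul, map_pow, map_pow, map_inv, hhs, hGam_U, mul_one, inv_pow,
        ← ofAdd_nsmul, ← ofAdd_nsmul, ← ofAdd_neg, ← ofAdd_add]
      congr 1
      simp
      ring
    rw [hγ, map_one] at h1
    have h2 := height_one_form h1.symm
    subst h2
    have h3 : iU D (D.z u) = 1 := by
      have h4 : s⁻¹ ^ a * iU D (D.z u) * s ^ a = 1 := hγ
      rw [inv_pow] at h4
      have h5 : (s ^ a)⁻¹ * iU D (D.z u) * (s ^ a)⁻¹⁻¹ = 1 := by rw [inv_inv]; exact h4
      exact conj_eq_one_iff.mp h5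
    rw [← i_conj] at h3
    rw [conj_eq_one_iff.mp h3, mul_one, inv_pow, inv_mul_cancel]
  have hmem : ∀ γ, Ψ γ ∈ St D n := by
    intro γ
    obtain ⟨a, b, u, rfl⟩ := i_form D γ
    have hs' : s ∈ St D n := hs
    rw [map_mul, map_mul, map_pow, map_pow, map_inv, hΨ1, hΨ2]
    refine Subgroup.mul_mem _ (Subgroup.mul_mem _ (Subgroup.pow_mem _ (Subgroup.inv_mem _ hs') _)
      ?_) (Subgroup.pow_mem _ hs' _)
    intro i
    change iU D (D.z u) • P D 0 (D.star i) = _
    rw [smul_U0, D.fix]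
  have hpow : ∀ k : ℕ, ∃ c : U, s ^ k = iU D c * iT D ^ k := by
    intro k
    induction k with
    | zero => exact ⟨1, by simp⟩
    | succ k ih =>
      obtain ⟨c, hc⟩ := ih
      refine ⟨d⁻¹ * D.z c, ?_⟩
      rw [pow_succ', hc, map_mul, ← i_conj]
      change iU D d⁻¹ * iT D * (iU D c * iT D ^ k) = _
      rw [pow_succ']
      group
  have hsurj : ∀ γ ∈ St D n, ∃ δ, Ψ δ = γ := by
    intro γ hγ
    obtain ⟨a, b, u, rfl⟩ := i_form D γ
    obtain ⟨ca, hca⟩ := hpow a
    obtain ⟨cb, hcb⟩ := hpow b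
    let v : U := ca * u * cb⁻¹
    have h1 : (iT D)⁻¹ ^ a * iU D u * iT D ^ b = s⁻¹ ^ a * iU D v * s ^ b := by
      have e1 : iT D ^ b = (iU D cb)⁻¹ * s ^ b := by rw [hcb, inv_mul_cancel_left]
      have e2 : (iT D)⁻¹ ^ a = s⁻¹ ^ a * iU D ca := by
        rw [inv_pow, inv_pow, hca, mul_inv_rev, inv_mul_cancel_right]
      rw [e1, e2]
      change _ = s⁻¹ ^ a * iU D (ca * u * cb⁻¹) * s ^ b
      rw [map_mul, map_mul, map_inv]
      group
    rw [h1] at hγ ⊢
    have hs' : s ∈ St D n := hs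
    have h2 : iU D v ∈ St D n := by
      have h3 : s ^ a * (s⁻¹ ^ a * iU D v * s ^ b) * (s ^ b)⁻¹ ∈ St D n :=
        Subgroup.mul_mem _ (Subgroup.mul_mem _ (Subgroup.pow_mem _ hs' _) hγ)
          (Subgroup.inv_mem _ (Subgroup.pow_mem _ hs' _))
      have h4 : s ^ a * (s⁻¹ ^ a * iU D v * s ^ b) * (s ^ b)⁻¹ = iU D v := by
        rw [inv_pow]; group
      rwa [h4] at h3
    have h5 : ∀ i : Fin n, v • D.star i = D.star i := by
      intro i
      have h6 := h2 i
      rw [smul_U0] at h6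
      exact pt_inj h6
    have h6 := hsc v h5
    refine ⟨(iT D)⁻¹ ^ (a + 1) * iU D v * iT D ^ (b + 1), ?_⟩
    rw [map_mul, map_mul, map_pow, map_pow, map_inv, hΨ1, hΨ2]
    change s⁻¹ ^ (a + 1) * iU D (D.z v) * s ^ (b + 1) = _
    rw [← h6, pow_succ, pow_succ']
    group
  let Ψ' : Gam D →* St D n := Ψ.codRestrict _ hmem
  refine ⟨MulEquiv.ofBijective Ψ' ⟨?_, ?_⟩⟩
  · intro x y hxy
    apply hinj
    exact congrArg Subtype.val hxy
  · rintro ⟨γ, hγ⟩
    obtain ⟨δ, hδ⟩ := hsurj γ hγ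
    exact ⟨δ, Subtype.ext hδ⟩

/-- pointwise stabiliser of a tuple -/
def StT {n : ℕ} (x : Fin n → Yi D) : Subgroup (Gam D) where
  carrier := {γ | ∀ i : Fin n, γ • x i = x i}
  one_mem' i := one_smul _ _
  mul_mem' {a b} ha hb i := by rw [mul_smul, hb, ha]
  inv_mem' {a} ha i := by rw [inv_smul_eq_iff, ha]

/-- the stabiliser of any injective tuple is isomorphic to `Γ` -/
theorem StT_iso {n : ℕ} (x : Fin n → Yi D) (hx : Function.Injective x) :
    Nonempty (Gam D ≃* StT D x) := by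
  obtain ⟨γ, hγ⟩ := move_star D n x hx
  obtain ⟨e⟩ := St_iso D n
  refine ⟨e.trans ?_⟩
  refine
    { toFun := fun δ => ⟨γ⁻¹ * δ.1 * γ, fun i => ?_⟩
      invFun := fun δ => ⟨γ * δ.1 * γ⁻¹, fun i => ?_⟩
      left_inv := fun δ => Subtype.ext ?_
      right_inv := fun δ => Subtype.ext ?_
      map_mul' := fun a b => Subtype.ext ?_ }
  · have h := δ.2 i
    rw [mul_smul, mul_smul, hγ, h, ← hγ i, inv_smul_smul]
  · have h := δ.2 i
    have h2 : γ⁻¹ • P D 0 (D.star i) = x i := by rw [← hγ i, inv_smul_smul]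
    rw [mul_smul, mul_smul, h2, h, hγ]
  · change γ * (γ⁻¹ * δ.1 * γ) * γ⁻¹ = δ.1
    group
  · change γ⁻¹ * (γ * δ.1 * γ⁻¹) * γ = δ.1
    group
  · change γ⁻¹ * (a.1 * b.1) * γ = γ⁻¹ * a.1 * γ * (γ⁻¹ * b.1 * γ)
    group

/-- the pointwise stabiliser of a finite set is isomorphic to `Γ` -/
theorem fixing_iso (F : Set (Yi D)) (hF : F.Finite) :
    Nonempty (Gam D ≃* fixingSubgroup (Gam D) F) := by
  have := hF.to_subtype
  obtain ⟨n, ⟨e⟩⟩ := Finite.exists_equiv_fin F
  let x : Fin n → Yi D := fun i => (e.symm i).1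
  have hx : Function.Injective x := fun i j h => e.symm.injective (Subtype.ext h)
  obtain ⟨f⟩ := StT_iso D x hx
  have h : StT D x = fixingSubgroup (Gam D) F := by
    ext γ
    rw [mem_fixingSubgroup_iff]
    constructor
    · intro h y hy
      have := h (e ⟨y, hy⟩)
      change γ • (e.symm (e ⟨y, hy⟩)).1 = (e.symm (e ⟨y, hy⟩)).1 at this
      rwa [e.symm_apply_apply] at this
    · intro h i
      exact h _ (e.symm i).2
  exact ⟨f.trans (MulEquiv.subgroupCongr h)⟩

/-! ### torus data -/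

/-- the image of `U` in `Γ` -/
abbrev Ub : Type := (iU D).range

/-- `q : U → Ū` -/
def qU : U →* Ub D := (iU D).rangeRestrict

theorem qU_surj : Function.Surjective (qU D) := (iU D).rangeRestrict_surjective

theorem qU_eq_one_iff (u : U) : qU D u = 1 ↔ ∀ y : Y, u • y = y := by
  rw [← iU_eq_one_iff]
  constructor
  · intro h; exact congrArg Subtype.val h
  · intro h; exact Subtype.ext h

/-- `Ū → U`, induced by `z` -/
theorem exists_zb : ∃ zb : Ub D →* U, ∀ u, zb (qU D u) = D.z u := by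
  refine ⟨(qU D).liftOfSurjective (qU_surj D) ⟨D.z, ?_⟩, ?_⟩
  · intro u hu
    rw [MonoidHom.mem_ker] at hu ⊢
    exact D.ker u ((qU_eq_one_iff D u).mp hu)
  · intro u
    exact MonoidHom.liftOfRightInverse_comp_apply _ _ _ _ _

/-- **torus data**: `Γ` is the mapping torus of the injective endomorphism `ψ = q ∘ zb` of the
image `Ū` of `U` -/
theorem torus : ∃ (zb : Ub D →* U), (∀ u, zb (qU D u) = D.z u) ∧
    Function.Injective ((qU D).comp zb) ∧
    IsTorus ((qU D).comp zb) (iU D).range.subtype (iT D) (hGam D) := by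
  obtain ⟨zb, hzb⟩ := exists_zb D
  have hconj : ∀ x : Ub D, iT D * (iU D).range.subtype x * (iT D)⁻¹ =
      (iU D).range.subtype ((qU D).comp zb x) := by
    intro x
    obtain ⟨u, rfl⟩ := qU_surj D x
    change iT D * iU D u * (iT D)⁻¹ = iU D (zb (qU D u))
    rw [i_conj, hzb]
  refine ⟨zb, hzb, ?_, ?_⟩
  · intro x y hxy
    apply Subtype.ext
    have h1 := hconj x
    rw [hxy, ← hconj y] at h1
    exact mul_left_cancel (mul_right_cancel h1)
  · refine ⟨Subtype.val_injective, hconj, rfl, ?_, ?_⟩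
    · intro x
      obtain ⟨u, rfl⟩ := qU_surj D x
      rfl
    · intro γ
      obtain ⟨a, b, u, rfl⟩ := i_form D γ
      exact ⟨a, b, qU D u, rfl⟩

/-- groups acting faithfully through `U` embed in `Γ` -/
theorem embed {G : Type} [Group G] (f : G →* U)
    (hf : ∀ g, (∀ y : Y, f g • y = y) → g = 1) : Function.Injective ((iU D).comp f) := by
  rw [injective_iff_map_eq_one]
  intro g hg
  exact hf g ((iU_eq_one_iff D _).mp hg)

end

end Crest.Agent.R185.Tele
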