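import Mathlib

/-!
# R185 / UNIV (1): Steinberg relations for words

`x i j a` (`i ≠ j` in `Fin 5`, `a : Option X`, `none` = the unit) in a group `G` satisfying the
Steinberg relations on letters.  `W x w i j` is the element for a word `w : List X`; all Steinberg
relations for words follow (Krstić–McCool).
-/

set_option autoImplicit false

namespace Crest.Agent.R185.Univ

open scoped commutatorElement

variable {G : Type*} [Group G]

/-- the three-term identity used everywhere -/
theorem comm_assoc {X Y Z : G} (hXZ : Commute X Z) (hcd : Commute ⁅X, Y⁆ ⁅Y, Z⁆)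
    (hdZ : Commute ⁅Y, Z⁆ Z) : ⁅X, ⁅Y, Z⁆⁆ = ⁅⁅X, Y⁆, Z⁆ := by
  have h1 : X * Y * X⁻¹ = ⁅X, Y⁆ * Y := by simp [commutatorElement_def]
  have h2 : Y * Z * Y⁻¹ = ⁅Y, Z⁆ * Z := by simp [commutatorElement_def]
  set c := ⁅X, Y⁆ with hc
  set d := ⁅Y, Z⁆ with hd
  have h3 : X * d * X⁻¹ = d * (c * Z * c⁻¹ * Z⁻¹) := by
    have : X * d * X⁻¹ = (X * Y * X⁻¹) * (X * Z * X⁻¹) * (X * Y * X⁻¹)⁻¹ * (X * Z * X⁻¹)⁻¹ := by
      rw [hd, commutatorElement_def]; group
    rw [this, h1]
    have hz : X * Z * X⁻¹ = Z := by rw [hXZ.eq]; group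
    rw [hz]
    have : c * Y * Z * (c * Y)⁻¹ * Z⁻¹ = c * (Y * Z * Y⁻¹) * c⁻¹ * Z⁻¹ := by group
    rw [this, h2]
    have : c * (d * Z) * c⁻¹ * Z⁻¹ = (c * d) * Z * c⁻¹ * Z⁻¹ := by group
    rw [this, hcd.eq]; group
  have h4 : Commute d (c * Z * c⁻¹ * Z⁻¹) := by
    have a1 : Commute d c := hcd.symm
    exact ((a1.mul_right hdZ).mul_right a1.inv_right).mul_right hdZ.inv_right
  rw [commutatorElement_def X d, h3, h4.eq, commutatorElement_def c Z]
  group

theorem Commute.commEl {a b c : G} (h1 : Commute a c) (h2 : Commute b c) :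
    Commute ⁅a, b⁆ c := by
  rw [commutatorElement_def]
  exact ((h1.mul_left h2).mul_left h1.inv_left).mul_left h2.inv_left

theorem comm_sq {X Y : G} (h2 : X * X = 1) (hc : Commute ⁅X, Y⁆ X) : ⁅X, Y⁆ * ⁅X, Y⁆ = 1 := by
  have h1 : ⁅X * X, Y⁆ = X * ⁅X, Y⁆ * X⁻¹ * ⁅X, Y⁆ := by
    simp only [commutatorElement_def]; group
  rw [h2, commutatorElement_one_left] at h1
  rw [← hc.eq] at h1
  simpa using h1.symm

variable {X : Type*}

/-- Steinberg relations on letters -/
structure Base (x : Fin 5 → Fin 5 → Option X → G) : Prop where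
  sq : ∀ i j a, i ≠ j → x i j a * x i j a = 1
  comm : ∀ i j k l a b, i ≠ j → k ≠ l → j ≠ k → i ≠ l → Commute (x i j a) (x k l b)
  mulr : ∀ i j k a, i ≠ j → j ≠ k → i ≠ k → ⁅x i j a, x j k none⁆ = x i k a
  mull : ∀ i j k a, i ≠ j → j ≠ k → i ≠ k → ⁅x i j none, x j k a⁆ = x i k a

/-- an index different from `i` and `j` -/
def ax (i j : Fin 5) : Fin 5 :=
  if 0 ≠ i ∧ 0 ≠ j then 0 else if 1 ≠ i ∧ 1 ≠ j then 1 else 2

theorem ax_ne (i j : Fin 5) : i ≠ ax i j ∧ ax i j ≠ j := by
  revert i j; decide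

theorem exists_ne4 (i j k l : Fin 5) : ∃ m, i ≠ m ∧ m ≠ j ∧ m ≠ k ∧ m ≠ l := by
  revert i j k l; decide

/-- the element of a word -/
def W (x : Fin 5 → Fin 5 → Option X → G) : List X → Fin 5 → Fin 5 → G
  | [], i, j => x i j none
  | a :: w, i, j => ⁅x i (ax i j) (some a), W x w (ax i j) j⁆

variable {x : Fin 5 → Fin 5 → Option X → G}

structure Lev (x : Fin 5 → Fin 5 → Option X → G) (n : ℕ) : Prop where
  ind : ∀ w : List X, w.length < n → ∀ a i m j, i ≠ m → m ≠ j → i ≠ j →
    ⁅x i m (some a), W x w m j⁆ = W x (a :: w) i j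
  cl : ∀ w : List X, w.length ≤ n → ∀ b i j k l, i ≠ j → k ≠ l → j ≠ k → i ≠ l →
    Commute (W x w i j) (x k l b)
  cc : ∀ w w' : List X, w.length ≤ n → w'.length ≤ n → ∀ i j k l, i ≠ j → k ≠ l → j ≠ k → i ≠ l →
    Commute (W x w i j) (W x w' k l)
  nl : ∀ w : List X, w.length ≤ n → ∀ i m j, i ≠ m → m ≠ j → i ≠ j →
    ⁅x i m none, W x w m j⁆ = W x w i j

theorem Base.lev (h : Base x) (n : ℕ) : Lev x n := by
  induction n with
  | zero =>
    refine ⟨fun w hw => by simp at hw, ?_, ?_, ?_⟩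
    · intro w hw b i j k l h1 h2 h3 h4
      obtain rfl : w = [] := by simpa using hw
      exact h.comm _ _ _ _ _ _ h1 h2 h3 h4
    · intro w w' hw hw' i j k l h1 h2 h3 h4
      obtain rfl : w = [] := by simpa using hw
      obtain rfl : w' = [] := by simpa using hw'
      exact h.comm _ _ _ _ _ _ h1 h2 h3 h4
    · intro w hw i m j h1 h2 h3
      obtain rfl : w = [] := by simpa using hw
      exact h.mull _ _ _ _ h1 h2 h3
  | succ n ih =>
    -- independence of the middle index
    have ind : ∀ w : List X, w.length < n + 1 → ∀ a i m j, i ≠ m → m ≠ j → i ≠ j →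
        ⁅x i m (some a), W x w m j⁆ = W x (a :: w) i j := by
      intro w hw a i m j h1 h2 h3
      have hw' : w.length ≤ n := by omega
      obtain ⟨g1, g2⟩ := ax_ne i j
      change _ = ⁅x i (ax i j) (some a), W x w (ax i j) j⁆
      set m0 := ax i j with hm0
      rcases eq_or_ne m m0 with rfl | hm
      · rfl
      have e1 : ⁅x i m0 (some a), x m0 m none⁆ = x i m (some a) := h.mulr _ _ _ _ g1 hm.symm h1
      have e2 : ⁅x m0 m none, W x w m j⁆ = W x w m0 j := ih.nl w hw' _ _ _ hm.symm h2 g2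
      have := comm_assoc (X := x i m0 (some a)) (Y := x m0 m none) (Z := W x w m j)
        (ih.cl w hw' _ _ _ _ _ h2 g1 (h3.symm) hm).symm
        (by rw [e1, e2]; exact (ih.cl w hw' _ _ _ _ _ g2 h1 h3.symm hm.symm).symm)
        (by rw [e2]; exact ih.cc w w hw' hw' _ _ _ _ g2 h2 h2.symm g2)
      rw [e1, e2] at this
      exact this.symm
    have cl : ∀ w : List X, w.length ≤ n + 1 → ∀ b i j k l, i ≠ j → k ≠ l → j ≠ k → i ≠ l →
        Commute (W x w i j) (x k l b) := by
      intro w hw b i j k l h1 h2 h3 h4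
      match w, hw with
      | [], _ => exact h.comm _ _ _ _ _ _ h1 h2 h3 h4
      | a :: w, hw =>
        simp only [List.length_cons] at hw
        obtain ⟨m, m1, m2, m3, m4⟩ := exists_ne4 i j k l
        rw [← ind w (by omega) a i m j m1 m2 h1]
        exact Commute.commEl (h.comm _ _ _ _ _ _ m1 h2 m3 h4)
          (ih.cl w (by omega) _ _ _ _ _ m2 h2 h3 m4)
    have cc : ∀ w w' : List X, w.length ≤ n + 1 → w'.length ≤ n + 1 → ∀ i j k l, i ≠ j → k ≠ l →
        j ≠ k → i ≠ l → Commute (W x w i j) (W x w' k l) := by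
      intro w
      induction w with
      | nil =>
        intro w' _ hw' i j k l h1 h2 h3 h4
        exact (cl w' hw' none k l i j h2 h1 h4.symm h3.symm).symm
      | cons a w ihw =>
        intro w' hw hw' i j k l h1 h2 h3 h4
        simp only [List.length_cons] at hw
        obtain ⟨m, m1, m2, m3, m4⟩ := exists_ne4 i j k l
        rw [← ind w (by omega) a i m j m1 m2 h1]
        exact Commute.commEl (cl w' hw' _ k l i m h2 m1 h4.symm m3.symm).symm
          (ihw w' (by omega) hw' m j k l m2 h2 h3 m4)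
    have nl : ∀ w : List X, w.length ≤ n + 1 → ∀ i m j, i ≠ m → m ≠ j → i ≠ j →
        ⁅x i m none, W x w m j⁆ = W x w i j := by
      intro w hw i m j h1 h2 h3
      match w, hw with
      | [], _ => exact h.mull _ _ _ _ h1 h2 h3
      | a :: w, hw =>
        have hw1 : w.length ≤ n := by simpa using hw
        obtain ⟨l, l1, l2, l3, -⟩ := exists_ne4 i m j j
        have e0 : ⁅x m l (some a), W x w l j⁆ = W x (a :: w) m j :=
          ind w (by omega) a m l j l2.symm l3 h2
        have e1 : ⁅x i m none, x m l (some a)⁆ = x i l (some a) := h.mull _ _ _ _ h1 l2.symm l1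
        have := comm_assoc (X := x i m none) (Y := x m l (some a)) (Z := W x w l j)
          (ih.cl w hw1 _ _ _ _ _ l3 h1 h3.symm l2).symm
          (by rw [e1, e0]; exact (cl (a :: w) hw _ _ _ _ _ h2 l1 h3.symm l2.symm).symm)
          (by rw [e0]; exact cc (a :: w) w hw (by omega) _ _ _ _ h2 l3 l3.symm h2)
        rw [e1, e0] at this
        rw [this]
        exact ind w (by omega) a i l j l1 l3 h3
    exact ⟨ind, cl, cc, nl⟩

theorem Base.W_comm (h : Base x) (w w' : List X) {i j k l : Fin 5} (h1 : i ≠ j) (h2 : k ≠ l)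
    (h3 : j ≠ k) (h4 : i ≠ l) : Commute (W x w i j) (W x w' k l) :=
  (h.lev (max w.length w'.length)).cc w w' (le_max_left _ _) (le_max_right _ _) i j k l h1 h2 h3 h4

theorem Base.W_cons (h : Base x) (a : X) (w : List X) {i m j : Fin 5} (h1 : i ≠ m) (h2 : m ≠ j)
    (h3 : i ≠ j) : ⁅x i m (some a), W x w m j⁆ = W x (a :: w) i j :=
  (h.lev (w.length + 1)).ind w (by omega) a i m j h1 h2 h3

theorem Base.W_single (h : Base x) (a : X) {i j : Fin 5} (h1 : i ≠ j) :
    W x [a] i j = x i j (some a) := by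
  obtain ⟨g1, g2⟩ := ax_ne i j
  rw [← h.W_cons a [] g1 g2 h1]
  exact h.mulr _ _ _ _ g1 g2 h1

theorem Base.W_mul (h : Base x) (w w' : List X) {i j k : Fin 5} (h1 : i ≠ j) (h2 : j ≠ k)
    (h3 : i ≠ k) : ⁅W x w i j, W x w' j k⁆ = W x (w ++ w') i k := by
  induction w generalizing i j k with
  | nil => exact (h.lev w'.length).nl w' le_rfl i j k h1 h2 h3
  | cons a w ih =>
    obtain ⟨m, m1, m2, m3, -⟩ := exists_ne4 i j k k
    have e0 : ⁅x i m (some a), W x w m j⁆ = W x (a :: w) i j := h.W_cons a w m1 m2 h1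
    have e1 : ⁅W x w m j, W x w' j k⁆ = W x (w ++ w') m k := ih m2 h2 m3
    have := comm_assoc (X := x i m (some a)) (Y := W x w m j) (Z := W x w' j k)
      (by rw [← h.W_single a m1]; exact h.W_comm _ _ m1 h2 m2 h3)
      (by rw [e0, e1]; exact h.W_comm _ _ h1 m3 m2.symm h3)
      (by rw [e1]; exact h.W_comm _ _ m3 h2 h2.symm m3)
    rw [e0, e1] at this
    rw [← this]
    exact h.W_cons a (w ++ w') m1 m3 h3

theorem Base.W_sq (h : Base x) (w : List X) {i j : Fin 5} (h1 : i ≠ j) :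
    W x w i j * W x w i j = 1 := by
  cases w with
  | nil => exact h.sq i j none h1
  | cons a w =>
    obtain ⟨g1, g2⟩ := ax_ne i j
    rw [← h.W_cons a w g1 g2 h1]
    refine comm_sq (h.sq _ _ _ g1) ?_
    rw [h.W_cons a w g1 g2 h1, ← h.W_single a g1]
    exact h.W_comm _ _ h1 g1 h1.symm g1

/-- `W` is natural in the group -/
theorem map_W {H : Type*} [Group H] (f : G →* H) (w : List X) (i j : Fin 5) :
    f (W x w i j) = W (fun i j a => f (x i j a)) w i j := by
  induction w generalizing i j with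
  | nil => rfl
  | cons a w ih => simp only [W]; rw [map_commutatorElement, ih]

end Crest.Agent.R185.Univ
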