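import Crest.Agent.R185.U1

/-!
# R185 / UNIV (2): the coordinate ring of a Steinberg family

From letters satisfying the Steinberg relations in `G` we get a ring `Crd x` (characteristic 2,
spanned by words) and a Steinberg family indexed by this ring.
-/

set_option autoImplicit false

namespace Crest.Agent.R185.Univ

open scoped commutatorElement

variable {G : Type*} [Group G] {X : Type*} {x : Fin 5 → Fin 5 → Option X → G}

/-- polynomials over `F_2` in non-commuting letters: formal sums of words -/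
abbrev Poly (X : Type*) := List (List X)

/-- product of polynomials -/
def pmul (p q : Poly X) : Poly X := p.flatMap (fun w => q.map (w ++ ·))

theorem pmul_nil_left (q : Poly X) : pmul [] q = [] := rfl

theorem pmul_nil_right (p : Poly X) : pmul p [] = [] := by
  induction p with
  | nil => rfl
  | cons w p ih => simp [pmul]

theorem pmul_cons (w : List X) (p q : Poly X) : pmul (w :: p) q = q.map (w ++ ·) ++ pmul p q := rfl

theorem pmul_append (p p' q : Poly X) : pmul (p ++ p') q = pmul p q ++ pmul p' q := by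
  simp [pmul]

theorem pmul_map (w : List X) (p q : Poly X) :
    pmul (p.map (w ++ ·)) q = (pmul p q).map (w ++ ·) := by
  induction p with
  | nil => rfl
  | cons v p ih => rw [List.map_cons, pmul_cons, pmul_cons, ih, List.map_append]; simp

theorem pmul_assoc (p q r : Poly X) : pmul (pmul p q) r = pmul p (pmul q r) := by
  induction p with
  | nil => rfl
  | cons w p ih => rw [pmul_cons, pmul_append, pmul_map, ih, pmul_cons]

theorem one_pmul (p : Poly X) : pmul [[]] p = p := by simp [pmul]

theorem pmul_one (p : Poly X) : pmul p [[]] = p := by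
  induction p with
  | nil => rfl
  | cons w p ih => rw [pmul_cons, ih]; simp

/-- the element of a polynomial -/
def psi (x : Fin 5 → Fin 5 → Option X → G) (i j : Fin 5) (p : Poly X) : G :=
  (p.map (fun w => W x w i j)).prod

@[simp] theorem psi_nil (i j : Fin 5) : psi x i j [] = 1 := rfl

theorem psi_cons (i j : Fin 5) (w : List X) (p : Poly X) :
    psi x i j (w :: p) = W x w i j * psi x i j p := by simp [psi]

theorem psi_append (i j : Fin 5) (p q : Poly X) :
    psi x i j (p ++ q) = psi x i j p * psi x i j q := by simp [psi]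

theorem Base.W_psi (h : Base x) (w : List X) (q : Poly X) {i j k l : Fin 5} (h1 : i ≠ j)
    (h2 : k ≠ l) (h3 : j ≠ k) (h4 : i ≠ l) : Commute (W x w i j) (psi x k l q) := by
  induction q with
  | nil => exact Commute.one_right _
  | cons v q ih => rw [psi_cons]; exact (h.W_comm _ _ h1 h2 h3 h4).mul_right ih

theorem Base.psi_comm (h : Base x) (p q : Poly X) {i j k l : Fin 5} (h1 : i ≠ j)
    (h2 : k ≠ l) (h3 : j ≠ k) (h4 : i ≠ l) : Commute (psi x i j p) (psi x k l q) := by
  induction p with
  | nil => exact Commute.one_left _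
  | cons v p ih => rw [psi_cons]; exact (h.W_psi _ _ h1 h2 h3 h4).mul_left ih

theorem comm_mul_right' {a b c : G} (h : Commute b ⁅a, c⁆) : ⁅a, b * c⁆ = ⁅a, b⁆ * ⁅a, c⁆ := by
  have : ⁅a, b * c⁆ = ⁅a, b⁆ * (b * ⁅a, c⁆ * b⁻¹) := by
    simp only [commutatorElement_def]; group
  rw [this, h.eq]; group

theorem comm_mul_left' {a b c : G} (h : Commute a ⁅b, c⁆) (h' : Commute ⁅b, c⁆ ⁅a, c⁆) :
    ⁅a * b, c⁆ = ⁅a, c⁆ * ⁅b, c⁆ := by
  have : ⁅a * b, c⁆ = (a * ⁅b, c⁆ * a⁻¹) * ⁅a, c⁆ := by
    simp only [commutatorElement_def]; group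
  rw [this, h.eq, mul_inv_cancel_right, h'.eq]

theorem Base.psi_W_mul (h : Base x) (w : List X) (q : Poly X) {i j k : Fin 5} (h1 : i ≠ j)
    (h2 : j ≠ k) (h3 : i ≠ k) : ⁅W x w i j, psi x j k q⁆ = psi x i k (q.map (w ++ ·)) := by
  induction q with
  | nil => simp
  | cons v q ih =>
    rw [psi_cons, List.map_cons, psi_cons, comm_mul_right', ih, h.W_mul _ _ h1 h2 h3]
    rw [ih]
    exact h.W_psi _ _ h2 h3 h3.symm h2

theorem Base.psi_mul (h : Base x) (p q : Poly X) {i j k : Fin 5} (h1 : i ≠ j)
    (h2 : j ≠ k) (h3 : i ≠ k) : ⁅psi x i j p, psi x j k q⁆ = psi x i k (pmul p q) := by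
  induction p with
  | nil => simp [pmul_nil_left]
  | cons v p ih =>
    rw [psi_cons, pmul_cons, psi_append, ← h.psi_W_mul _ _ h1 h2 h3, ← ih]
    refine comm_mul_left' ?_ ?_
    · rw [ih]; exact h.W_psi _ _ h1 h3 h1.symm h3
    · rw [ih, h.psi_W_mul _ _ h1 h2 h3]; exact h.psi_comm _ _ h3 h3 h3.symm h3

theorem Base.psi_sq (h : Base x) (p : Poly X) {i j : Fin 5} (h1 : i ≠ j) :
    psi x i j p * psi x i j p = 1 := by
  induction p with
  | nil => simp
  | cons v p ih =>
    rw [psi_cons]
    have hc := (h.W_psi v p h1 h1 h1.symm h1).eq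
    calc W x v i j * psi x i j p * (W x v i j * psi x i j p)
        = (W x v i j * psi x i j p) * (psi x i j p * W x v i j) := by rw [hc]
      _ = W x v i j * (psi x i j p * psi x i j p) * W x v i j := by group
      _ = 1 := by rw [ih, mul_one, h.W_sq _ h1]

theorem map_psi {H : Type*} [Group H] (f : G →* H) (i j : Fin 5) (p : Poly X) :
    f (psi x i j p) = psi (fun i j a => f (x i j a)) i j p := by
  induction p with
  | nil => simp
  | cons v p ih => rw [psi_cons, map_mul, ih, map_W, psi_cons]

/-- equality of polynomials as seen by the family -/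
def crdSetoid (x : Fin 5 → Fin 5 → Option X → G) : Setoid (Poly X) where
  r p q := ∀ i j, i ≠ j → psi x i j p = psi x i j q
  iseqv := ⟨fun _ _ _ _ => rfl, fun h i j hij => (h i j hij).symm,
    fun h h' i j hij => (h i j hij).trans (h' i j hij)⟩

/-- The coordinate ring of the family. -/
def Crd (x : Fin 5 → Fin 5 → Option X → G) : Type _ := Quotient (crdSetoid x)

namespace Crd

/-- class of a polynomial -/
def mk (x : Fin 5 → Fin 5 → Option X → G) (p : Poly X) : Crd x := Quotient.mk (crdSetoid x) p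

theorem mk_surj (r : Crd x) : ∃ p, mk x p = r := Quotient.exists_rep r

theorem mk_eq {p q : Poly X} : mk x p = mk x q ↔ ∀ i j, i ≠ j → psi x i j p = psi x i j q :=
  ⟨fun h => Quotient.exact h, fun h => Quotient.sound h⟩

theorem third (i j : Fin 5) : ∃ m, i ≠ m ∧ m ≠ j := ⟨ax i j, ax_ne i j⟩

instance : Zero (Crd x) := ⟨mk x []⟩
instance : One (Crd x) := ⟨mk x [[]]⟩
instance : Neg (Crd x) := ⟨id⟩

/-- addition -/
instance : Add (Crd x) := ⟨Quotient.map₂ (fun p q => p ++ q) (by
    intro p p' hp q q' hq i j hij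
    simp only [psi_append, hp i j hij, hq i j hij])⟩

/-- multiplication -/
def mul (h : Base x) : Crd x → Crd x → Crd x :=
  Quotient.map₂ pmul (by
    intro p p' hp q q' hq i j hij
    obtain ⟨m, h1, h2⟩ := third i j
    rw [← h.psi_mul _ _ h1 h2 hij, ← h.psi_mul _ _ h1 h2 hij, hp i m h1, hq m j h2])

/-- the ring structure -/
@[reducible] def ring (h : Base x) : Ring (Crd x) where
  mul := mul h
  add_assoc a b c := by
    obtain ⟨a, rfl⟩ := mk_surj a; obtain ⟨b, rfl⟩ := mk_surj b; obtain ⟨c, rfl⟩ := mk_surj c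
    exact mk_eq.2 fun i j _ => by simp only [psi_append, mul_assoc]
  zero_add a := by
    obtain ⟨a, rfl⟩ := mk_surj a
    exact mk_eq.2 fun i j _ => by simp
  add_zero a := by
    obtain ⟨a, rfl⟩ := mk_surj a
    exact mk_eq.2 fun i j _ => by simp
  add_comm a b := by
    obtain ⟨a, rfl⟩ := mk_surj a; obtain ⟨b, rfl⟩ := mk_surj b
    exact mk_eq.2 fun i j hij => by
      simp only [psi_append]; exact (h.psi_comm _ _ hij hij hij.symm hij).eq
  nsmul := nsmulRec
  zsmul := zsmulRec
  neg_add_cancel a := by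
    obtain ⟨a, rfl⟩ := mk_surj a
    exact mk_eq.2 fun i j hij => by simp only [psi_append, psi_nil]; exact h.psi_sq _ hij
  left_distrib a b c := by
    obtain ⟨a, rfl⟩ := mk_surj a; obtain ⟨b, rfl⟩ := mk_surj b; obtain ⟨c, rfl⟩ := mk_surj c
    refine mk_eq.2 fun i j hij => ?_
    obtain ⟨m, h1, h2⟩ := third i j
    simp only [psi_append]
    rw [← h.psi_mul _ _ h1 h2 hij, ← h.psi_mul _ _ h1 h2 hij, ← h.psi_mul _ _ h1 h2 hij,
      psi_append]
    refine comm_mul_right' ?_
    rw [h.psi_mul _ _ h1 h2 hij]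
    exact h.psi_comm _ _ h2 hij hij.symm h2
  right_distrib a b c := by
    obtain ⟨a, rfl⟩ := mk_surj a; obtain ⟨b, rfl⟩ := mk_surj b; obtain ⟨c, rfl⟩ := mk_surj c
    exact mk_eq.2 fun i j hij => by simp only [pmul_append, psi_append]
  mul_assoc a b c := by
    obtain ⟨a, rfl⟩ := mk_surj a; obtain ⟨b, rfl⟩ := mk_surj b; obtain ⟨c, rfl⟩ := mk_surj c
    exact mk_eq.2 fun i j hij => by simp only [pmul_assoc]
  one_mul a := by
    obtain ⟨a, rfl⟩ := mk_surj a
    exact mk_eq.2 fun i j hij => by simp only [one_pmul]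
  mul_one a := by
    obtain ⟨a, rfl⟩ := mk_surj a
    exact mk_eq.2 fun i j hij => by simp only [pmul_one]
  zero_mul a := by
    obtain ⟨a, rfl⟩ := mk_surj a
    exact mk_eq.2 fun i j hij => by simp only [pmul_nil_left]
  mul_zero a := by
    obtain ⟨a, rfl⟩ := mk_surj a
    exact mk_eq.2 fun i j hij => by simp only [pmul_nil_right]

end Crd

/-- Steinberg family over a ring of characteristic 2 -/
structure Stein {R : Type*} [Ring R] (x : Fin 5 → Fin 5 → R → G) : Prop where
  two : ∀ r : R, r + r = 0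
  add : ∀ i j r s, i ≠ j → x i j (r + s) = x i j r * x i j s
  comm : ∀ i j k l r s, i ≠ j → k ≠ l → j ≠ k → i ≠ l → Commute (x i j r) (x k l s)
  mul : ∀ i j k r s, i ≠ j → j ≠ k → i ≠ k → ⁅x i j r, x j k s⁆ = x i k (r * s)

/-- the Steinberg family of the coordinate ring -/
noncomputable def Crd.st (x : Fin 5 → Fin 5 → Option X → G) (i j : Fin 5) (r : Crd x) : G :=
  if h : i = j then 1 else
    Quotient.lift (s := crdSetoid x) (psi x i j)
      (fun _ _ (hpq : ∀ i j, i ≠ j → psi x i j _ = psi x i j _) => hpq i j h) r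

theorem Crd.st_mk {i j : Fin 5} (h : i ≠ j) (p : Poly X) :
    Crd.st x i j (Crd.mk x p) = psi x i j p := by
  rw [Crd.st, dif_neg h]; rfl

theorem Crd.stein (h : Base x) :
    letI := Crd.ring h
    Stein (Crd.st x) := by
  let := Crd.ring h
  refine ⟨?_, ?_, ?_, ?_⟩
  · intro a
    exact neg_add_cancel (G := Crd x) a
  · intro i j r s hij
    obtain ⟨r, rfl⟩ := Crd.mk_surj r; obtain ⟨s, rfl⟩ := Crd.mk_surj s
    change Crd.st x i j (Crd.mk x (r ++ s)) = _
    rw [Crd.st_mk hij, Crd.st_mk hij, Crd.st_mk hij, psi_append]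
  · intro i j k l r s h1 h2 h3 h4
    obtain ⟨r, rfl⟩ := Crd.mk_surj r; obtain ⟨s, rfl⟩ := Crd.mk_surj s
    rw [Crd.st_mk h1, Crd.st_mk h2]
    exact h.psi_comm _ _ h1 h2 h3 h4
  · intro i j k r s h1 h2 h3
    obtain ⟨r, rfl⟩ := Crd.mk_surj r; obtain ⟨s, rfl⟩ := Crd.mk_surj s
    rw [Crd.st_mk h1, Crd.st_mk h2]
    change _ = Crd.st x i k (Crd.mk x (pmul r s))
    rw [Crd.st_mk h3]
    exact h.psi_mul _ _ h1 h2 h3

/-- evaluation of a polynomial in a ring -/
def evalP {S : Type*} [Semiring S] (v : X → S) (p : Poly X) : S :=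
  (p.map (fun w => (w.map v).prod)).sum

section eval

variable {S : Type*} [Semiring S] (v : X → S)

@[simp] theorem evalP_nil : evalP v ([] : Poly X) = 0 := rfl

theorem evalP_cons (w : List X) (p : Poly X) :
    evalP v (w :: p) = (w.map v).prod + evalP v p := by simp [evalP]

theorem evalP_append (p q : Poly X) : evalP v (p ++ q) = evalP v p + evalP v q := by
  simp [evalP]

theorem evalP_map (w : List X) (q : Poly X) :
    evalP v (q.map (w ++ ·)) = (w.map v).prod * evalP v q := by
  induction q with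
  | nil => simp
  | cons u q ih => rw [List.map_cons, evalP_cons, evalP_cons, ih, mul_add]; simp

theorem evalP_pmul (p q : Poly X) : evalP v (pmul p q) = evalP v p * evalP v q := by
  induction p with
  | nil => simp [pmul_nil_left]
  | cons w p ih => rw [pmul_cons, evalP_append, ih, evalP_map, evalP_cons, add_mul]

theorem map_evalP {T : Type*} [Semiring T] (f : S →+* T) (p : Poly X) :
    f (evalP v p) = evalP (fun a => f (v a)) p := by
  induction p with
  | nil => simp
  | cons w p ih => rw [evalP_cons, map_add, ih, evalP_cons, map_list_prod, List.map_map]; rfl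

end eval

/-- generators of the coordinate ring -/
def Crd.gen (x : Fin 5 → Fin 5 → Option X → G) (a : X) : Crd x := Crd.mk x [[a]]

theorem Crd.evalP_gen (h : Base x) (p : Poly X) :
    letI := Crd.ring h
    evalP (Crd.gen x) p = Crd.mk x p := by
  let := Crd.ring h
  have hw : ∀ w : List X, (w.map (Crd.gen x)).prod = Crd.mk x [w] := by
    intro w
    induction w with
    | nil => rfl
    | cons a w ih =>
      rw [List.map_cons, List.prod_cons, ih]
      rfl
  induction p with
  | nil => rfl
  | cons w p ih => rw [evalP_cons, ih, hw]; rfl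

/-- a ring relation holds in the coordinate ring if the group relations hold -/
theorem Crd.rel (h : Base x) (p : Poly X) (hp : ∀ i j, i ≠ j → psi x i j p = 1) :
    letI := Crd.ring h
    evalP (Crd.gen x) p = 0 := by
  let := Crd.ring h
  rw [Crd.evalP_gen h]
  exact Crd.mk_eq.2 fun i j hij => by rw [hp i j hij]; rfl

end Crest.Agent.R185.Univ
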