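import Crest.Agent.R185.U2

/-!
# R185 / UNIV (3): from commuting corner units to a homomorphism into the Steinberg group
-/

set_option autoImplicit false

namespace Crest.Agent.R185.Univ

open scoped commutatorElement
open Matrix

variable {G : Type*} [Group G] {R : Type*} [Ring R] {x : Fin 5 → Fin 5 → R → G}

namespace Stein

variable (S : Stein x)
include S

theorem zero {i j : Fin 5} (h : i ≠ j) : x i j 0 = 1 := by
  have := S.add i j 0 0 h
  simpa using this

theorem sq (r : R) {i j : Fin 5} (h : i ≠ j) : x i j r * x i j r = 1 := by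
  rw [← S.add i j r r h, S.two, S.zero h]

theorem inv (r : R) {i j : Fin 5} (h : i ≠ j) : (x i j r)⁻¹ = x i j r :=
  inv_eq_of_mul_eq_one_left (S.sq r h)

theorem neg (r : R) : -r = r := by
  have := S.two r
  exact (eq_neg_of_add_eq_zero_left this).symm

/-- column action -/
theorem colA {i j m : Fin 5} (hij : i ≠ j) (hi : m ≠ i) (hj : m ≠ j) (s a b : R) :
    x i j s * (x i m a * x j m b) * (x i j s)⁻¹ = x i m (a + s * b) * x j m b := by
  have h1 := (S.comm i j i m s a hij hi.symm hij.symm hi.symm).eq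
  have h2 : x i j s * x j m b * (x i j s)⁻¹ = x i m (s * b) * x j m b := by
    rw [← S.mul i j m s b hij hj.symm hi.symm, commutatorElement_def]; group
  calc x i j s * (x i m a * x j m b) * (x i j s)⁻¹
      = (x i j s * x i m a) * (x i j s)⁻¹ * (x i j s * x j m b * (x i j s)⁻¹) := by group
    _ = x i m a * (x i m (s * b) * x j m b) := by rw [h1, h2]; group
    _ = _ := by rw [S.add i m _ _ hi.symm]; group

theorem colB {i j m : Fin 5} (hij : i ≠ j) (hi : m ≠ i) (hj : m ≠ j) (s a b : R) :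
    x j i s * (x i m a * x j m b) * (x j i s)⁻¹ = x i m a * x j m (b + s * a) := by
  rw [(S.comm i m j m a b hi.symm hj.symm hj hi.symm).eq, S.colA hij.symm hj hi,
    (S.comm i m j m a _ hi.symm hj.symm hj hi.symm).eq]

theorem rowA {i j m : Fin 5} (hij : i ≠ j) (hi : m ≠ i) (hj : m ≠ j) (s a b : R) :
    x i j s * (x m i a * x m j b) * (x i j s)⁻¹ = x m i a * x m j (b + a * s) := by
  have h1 := (S.comm i j m j s b hij hj hj.symm hij).eq
  have h2 : x i j s * x m i a * (x i j s)⁻¹ = x m j (a * s) * x m i a := by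
    have h3 := S.mul m i j a s hi hij hj
    have h4 : ⁅x i j s, x m i a⁆ = x m j (a * s) := by
      rw [← commutatorElement_inv, h3, S.inv _ hj]
    rw [← h4, commutatorElement_def]; group
  have h5 := (S.comm m i m j a (a * s) hi hj hi.symm hj).eq
  calc x i j s * (x m i a * x m j b) * (x i j s)⁻¹
      = (x i j s * x m i a * (x i j s)⁻¹) * ((x i j s * x m j b) * (x i j s)⁻¹) := by group
    _ = (x m i a * x m j (a * s)) * x m j b := by rw [h1, h2, h5]; group
    _ = _ := by rw [add_comm b, S.add m j _ _ hj]; group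

theorem rowB {i j m : Fin 5} (hij : i ≠ j) (hi : m ≠ i) (hj : m ≠ j) (s a b : R) :
    x j i s * (x m i a * x m j b) * (x j i s)⁻¹ = x m i (a + b * s) * x m j b := by
  rw [(S.comm m i m j a b hi hj hi.symm hj).eq, S.rowA hij.symm hj hi,
    (S.comm m i m j _ b hi hj hi.symm hj).eq]

end Stein

/-- `GL_2 R` -/
abbrev GL2 (R : Type*) [Ring R] := (Matrix (Fin 2) (Fin 2) R)ˣ

/-- `g` acts by conjugation on the columns `i,j` and rows `i,j` through the matrix `M` -/
structure Act (x : Fin 5 → Fin 5 → R → G) (i j : Fin 5) (g : G) (M : GL2 R) : Prop where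
  col : ∀ m, m ≠ i → m ≠ j → ∀ a b, g * (x i m a * x j m b) * g⁻¹ =
    x i m (M.1 0 0 * a + M.1 0 1 * b) * x j m (M.1 1 0 * a + M.1 1 1 * b)
  row : ∀ m, m ≠ i → m ≠ j → ∀ a b, g * (x m i a * x m j b) * g⁻¹ =
    x m i (a * M.2 0 0 + b * M.2 1 0) * x m j (a * M.2 0 1 + b * M.2 1 1)

namespace Act

variable {i j : Fin 5} {g h : G} {M N : GL2 R}

theorem one : Act x i j (1 : G) (1 : GL2 R) := by
  constructor
  · intro m _ _ a b; simp
  · intro m _ _ a b; simp

theorem mul (A : Act x i j g M) (B : Act x i j h N) : Act x i j (g * h) (M * N) := by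
  constructor
  · intro m hi hj a b
    have : g * h * (x i m a * x j m b) * (g * h)⁻¹ =
      g * (h * (x i m a * x j m b) * h⁻¹) * g⁻¹ := by group
    rw [this, B.col m hi hj, A.col m hi hj]
    congr 2 <;> simp [Matrix.mul_apply, Fin.sum_univ_two] <;> noncomm_ring
  · intro m hi hj a b
    have : g * h * (x m i a * x m j b) * (g * h)⁻¹ =
      g * (h * (x m i a * x m j b) * h⁻¹) * g⁻¹ := by group
    rw [this, B.row m hi hj, A.row m hi hj]
    congr 2 <;> simp [Matrix.mul_apply, Fin.sum_univ_two] <;> noncomm_ring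

theorem inv (A : Act x i j g M) : Act x i j g⁻¹ M⁻¹ := by
  have e1 : ∀ p q, M.1 p 0 * M.2 0 q + M.1 p 1 * M.2 1 q = (1 : Matrix (Fin 2) (Fin 2) R) p q := by
    intro p q
    have := congrFun (congrFun M.3 p) q
    rwa [Matrix.mul_apply, Fin.sum_univ_two] at this
  have e2 : ∀ p q, M.2 p 0 * M.1 0 q + M.2 p 1 * M.1 1 q = (1 : Matrix (Fin 2) (Fin 2) R) p q := by
    intro p q
    have := congrFun (congrFun M.4 p) q
    rwa [Matrix.mul_apply, Fin.sum_univ_two] at this
  constructor
  · intro m hi hj a b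
    have h1 := A.col m hi hj (M.2 0 0 * a + M.2 0 1 * b) (M.2 1 0 * a + M.2 1 1 * b)
    have h2 : M.1 0 0 * (M.2 0 0 * a + M.2 0 1 * b) + M.1 0 1 * (M.2 1 0 * a + M.2 1 1 * b) = a := by
      calc _ = (M.1 0 0 * M.2 0 0 + M.1 0 1 * M.2 1 0) * a +
            (M.1 0 0 * M.2 0 1 + M.1 0 1 * M.2 1 1) * b := by noncomm_ring
        _ = a := by rw [e1, e1]; simp
    have h3 : M.1 1 0 * (M.2 0 0 * a + M.2 0 1 * b) + M.1 1 1 * (M.2 1 0 * a + M.2 1 1 * b) = b := by
      calc _ = (M.1 1 0 * M.2 0 0 + M.1 1 1 * M.2 1 0) * a +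
            (M.1 1 0 * M.2 0 1 + M.1 1 1 * M.2 1 1) * b := by noncomm_ring
        _ = b := by rw [e1, e1]; simp
    rw [h2, h3] at h1
    change _ = x i m (M.2 0 0 * a + M.2 0 1 * b) * x j m (M.2 1 0 * a + M.2 1 1 * b)
    rw [← h1]; group
  · intro m hi hj a b
    have h1 := A.row m hi hj (a * M.1 0 0 + b * M.1 1 0) (a * M.1 0 1 + b * M.1 1 1)
    have h2 : (a * M.1 0 0 + b * M.1 1 0) * M.2 0 0 + (a * M.1 0 1 + b * M.1 1 1) * M.2 1 0 = a := by
      calc _ = a * (M.1 0 0 * M.2 0 0 + M.1 0 1 * M.2 1 0) +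
            b * (M.1 1 0 * M.2 0 0 + M.1 1 1 * M.2 1 0) := by noncomm_ring
        _ = a := by rw [e1, e1]; simp
    have h3 : (a * M.1 0 0 + b * M.1 1 0) * M.2 0 1 + (a * M.1 0 1 + b * M.1 1 1) * M.2 1 1 = b := by
      calc _ = a * (M.1 0 0 * M.2 0 1 + M.1 0 1 * M.2 1 1) +
            b * (M.1 1 0 * M.2 0 1 + M.1 1 1 * M.2 1 1) := by noncomm_ring
        _ = b := by rw [e1, e1]; simp
    rw [h2, h3] at h1
    change _ = x m i (a * M.1 0 0 + b * M.1 1 0) * x m j (a * M.1 0 1 + b * M.1 1 1)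
    rw [← h1]; group

end Act

/-- generation -/
def Gen (x : Fin 5 → Fin 5 → R → G) : Prop :=
  Subgroup.closure {g | ∃ i j r, i ≠ j ∧ g = x i j r} = ⊤

theorem Act.central (S : Stein x) (hg : Gen x) {i j : Fin 5} (hij : i ≠ j) {g : G}
    (A : Act x i j g 1) (h : G) : Commute g h := by
  have e1 : (1 : GL2 R).1 = 1 := rfl
  have e2 : (1 : GL2 R).2 = 1 := rfl
  have c1 : ∀ m, m ≠ i → m ≠ j → ∀ a, Commute g (x i m a) := by
    intro m hi hj a
    have := A.col m hi hj a 0
    simp only [e1, one_apply_eq, one_mul, mul_zero, add_zero, S.zero hj.symm, mul_one,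
      ne_eq, one_ne_zero, not_false_eq_true, one_apply_ne, zero_mul] at this
    exact mul_inv_eq_iff_eq_mul.1 this
  have c2 : ∀ m, m ≠ i → m ≠ j → ∀ a, Commute g (x j m a) := by
    intro m hi hj a
    have := A.col m hi hj 0 a
    simp only [e1, one_apply_eq, one_mul, mul_zero, zero_add, S.zero hi.symm, mul_one,
      ne_eq, zero_ne_one, not_false_eq_true, one_apply_ne, zero_mul] at this
    exact mul_inv_eq_iff_eq_mul.1 this
  have c3 : ∀ m, m ≠ i → m ≠ j → ∀ a, Commute g (x m i a) := by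
    intro m hi hj a
    have := A.row m hi hj a 0
    simp only [e2, one_apply_eq, one_mul, mul_zero, add_zero, S.zero hj, mul_one,
      ne_eq, zero_ne_one, not_false_eq_true, one_apply_ne, zero_mul] at this
    exact mul_inv_eq_iff_eq_mul.1 this
  have c4 : ∀ m, m ≠ i → m ≠ j → ∀ a, Commute g (x m j a) := by
    intro m hi hj a
    have := A.row m hi hj 0 a
    simp only [e2, one_apply_eq, one_mul, mul_zero, zero_add, S.zero hi, mul_one,
      ne_eq, one_ne_zero, not_false_eq_true, one_apply_ne, zero_mul] at this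
    exact mul_inv_eq_iff_eq_mul.1 this
  have key : ∀ k l r, k ≠ l → Commute g (x k l r) := by
    intro k l r hkl
    obtain ⟨m, m1, m2, m3, m4⟩ := exists_ne4 i j k l
    by_cases hk : k = i ∨ k = j
    · by_cases hl : l = i ∨ l = j
      · rw [← mul_one r, ← S.mul k m l r 1 m3.symm m4 hkl]
        refine (Commute.commEl (Commute.symm ?_) (Commute.symm ?_)).symm
        · rcases hk with rfl | rfl
          · exact c1 m m1.symm m2 _
          · exact c2 m m1.symm m2 _
        · rcases hl with rfl | rfl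
          · exact c3 m m1.symm m2 _
          · exact c4 m m1.symm m2 _
      · push Not at hl
        rcases hk with rfl | rfl
        · exact c1 l hl.1 hl.2 _
        · exact c2 l hl.1 hl.2 _
    · push Not at hk
      by_cases hl : l = i ∨ l = j
      · rcases hl with rfl | rfl
        · exact c3 k hk.1 hk.2 _
        · exact c4 k hk.1 hk.2 _
      · push Not at hl
        rw [← mul_one r, ← S.mul k i l r 1 hk.1 hl.1.symm hkl]
        exact (Commute.commEl (c3 k hk.1 hk.2 _).symm (c1 l hl.1 hl.2 _).symm).symm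
  have : h ∈ Subgroup.closure {g | ∃ i j r, i ≠ j ∧ g = x i j r} := by rw [hg]; trivial
  induction this using Subgroup.closure_induction with
  | mem y hy => obtain ⟨k, l, r, hkl, rfl⟩ := hy; exact key k l r hkl
  | one => exact Commute.one_right _
  | mul a b _ _ ha hb => exact ha.mul_right hb
  | inv a _ ha => exact ha.inv_right

section char2

variable (R) in
/-- every element is its own opposite -/
class Ch2 : Prop where
  two : ∀ r : R, r + r = 0

variable [Ch2 R]

theorem two_self (r : R) : r + r = 0 := Ch2.two r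
theorem neg_self (r : R) : -r = r := (eq_neg_of_add_eq_zero_left (Ch2.two r)).symm
theorem z2 (r : R) : (2 : ℤ) • r = 0 := by rw [two_zsmul, Ch2.two]
theorem z3 (r : R) : (3 : ℤ) • r = r := by
  rw [show (3 : ℤ) = 2 + 1 by norm_num, add_zsmul, z2, zero_add, one_zsmul]
theorem z4 (r : R) : (4 : ℤ) • r = 0 := by
  rw [show (4 : ℤ) = 2 + 2 by norm_num, add_zsmul, z2, add_zero]
theorem z5 (r : R) : (5 : ℤ) • r = r := by
  rw [show (5 : ℤ) = 4 + 1 by norm_num, add_zsmul, z4, zero_add, one_zsmul]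
theorem z6 (r : R) : (6 : ℤ) • r = 0 := by
  rw [show (6 : ℤ) = 4 + 2 by norm_num, add_zsmul, z4, z2, add_zero]
theorem zm (r : R) : (-1 : ℤ) • r = r := by rw [neg_zsmul, one_zsmul, neg_self]
theorem zev (n : ℤ) (h : n % 2 = 0) (r : R) : n • r = 0 := by
  obtain ⟨m, rfl⟩ := Int.dvd_of_emod_eq_zero h
  rw [mul_zsmul', z2, smul_zero]
theorem zod (n : ℤ) (h : n % 2 = 1) (r : R) : n • r = r := by
  have : n = (n - 1) + 1 := by ring
  rw [this, add_zsmul, zev (n - 1) (by omega), zero_add, one_zsmul]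

end char2

/-- collect equal terms and cancel them in pairs -/
macro "ch2" : tactic =>
  `(tactic| (abel_nf; try simp only [z2, z3, z4, z5, z6, zm, zev, zod, Int.reduceMod, smul_zero,
      add_zero, zero_add]))

example [Ch2 R] (a b : R) : a + b + a + b + a = a := by ch2

/-- elementary matrices -/
def E12 (s : R) : GL2 R :=
  ⟨!![1, s; 0, 1], !![1, -s; 0, 1], by ext i j; fin_cases i <;> fin_cases j <;> simp,
    by ext i j; fin_cases i <;> fin_cases j <;> simp⟩

/-- elementary matrices -/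
def E21 (s : R) : GL2 R :=
  ⟨!![1, 0; s, 1], !![1, 0; -s, 1], by ext i j; fin_cases i <;> fin_cases j <;> simp,
    by ext i j; fin_cases i <;> fin_cases j <;> simp⟩

theorem Act.e12 (S : Stein x) {i j : Fin 5} (hij : i ≠ j) (s : R) : Act x i j (x i j s) (E12 s) := by
  constructor
  · intro m hi hj a b
    rw [S.colA hij hi hj]; simp [E12]
  · intro m hi hj a b
    rw [S.rowA hij hi hj]; simp [E12, S.neg, add_comm]

theorem Act.e21 (S : Stein x) {i j : Fin 5} (hij : i ≠ j) (s : R) : Act x i j (x j i s) (E21 s) := by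
  constructor
  · intro m hi hj a b
    rw [S.colB hij hi hj]; simp [E21, add_comm]
  · intro m hi hj a b
    rw [S.rowB hij hi hj]; simp [E21, S.neg]

/-- `w`-elements -/
def wel (x : Fin 5 → Fin 5 → R → G) (i j : Fin 5) (s s' : R) : G :=
  x i j s * x j i s' * x i j s

/-- `w`-matrices -/
def wm (s s' : R) : GL2 R := E12 s * E21 s' * E12 s

theorem Act.w (S : Stein x) {i j : Fin 5} (hij : i ≠ j) (s s' : R) :
    Act x i j (wel x i j s s') (wm s s') :=
  ((Act.e12 S hij s).mul (Act.e21 S hij s')).mul (Act.e12 S hij s)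

/-- `s,s'` are quasi-inverse with `s' s = p` and `s s' = q` -/
structure PI (p q s s' : R) : Prop where
  h1 : s * s' = q
  h2 : s' * s = p
  h3 : q * s = s
  h4 : p * s' = s'

theorem PI.h3' {p q s s' : R} (h : PI p q s s') : s * p = s := by
  rw [← h.h2, ← mul_assoc, h.h1, h.h3]

theorem PI.h4' {p q s s' : R} (h : PI p q s s') : s' * q = s' := by
  rw [← h.h1, ← mul_assoc, h.h2, h.h4]

theorem PI.qq {p q s s' : R} (h : PI p q s s') : q * q = q := by
  nth_rw 2 [← h.h1]; rw [← mul_assoc, h.h3, h.h1]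

theorem PI.pp {p q s s' : R} (h : PI p q s s') : p * p = p := by
  nth_rw 2 [← h.h2]; rw [← mul_assoc, h.h4, h.h2]

theorem wm_val [Ch2 R] {p q s s' : R} (h : PI p q s s') :
    (wm s s').1 = !![1 + q, s; s', 1 + p] := by
  have e1 : (wm s s').1 = !![1, s; 0, 1] * !![1, 0; s', 1] * !![1, s; 0, 1] := rfl
  rw [e1]
  ext i j
  fin_cases i <;> fin_cases j <;> simp [Matrix.mul_apply, Fin.sum_univ_two, h.h1, h.h2, add_mul, h.h3]
  · ch2
  · ch2

theorem wm_inv [Ch2 R] {p q s s' : R} (h : PI p q s s') :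
    (wm s s').2 = !![1 + q, s; s', 1 + p] := by
  have e1 : (wm s s').2 = !![1, -s; 0, 1] * (!![1, 0; -s', 1] * !![1, -s; 0, 1]) := rfl
  rw [e1, neg_self, neg_self]
  ext i j
  fin_cases i <;> fin_cases j <;> simp [Matrix.mul_apply, Fin.sum_univ_two, h.h1, h.h2, mul_add,
    h.h3']
  · ch2
  · ch2

theorem wm_mul [Ch2 R] {p q s s' t t' : R} (h : PI p q s s') (h' : PI p q t t') :
    (wm s s' * wm t t').1 = !![1 + q + s * t', 0; 0, 1 + p + s' * t] := by
  have e1 : (wm s s' * wm t t').1 = (wm s s').1 * (wm t t').1 := rfl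
  rw [e1, wm_val h, wm_val h']
  ext i j
  fin_cases i <;> fin_cases j <;> simp [Matrix.mul_apply, Fin.sum_univ_two, mul_add, add_mul,
    h.qq, h.h3', h.h4', h'.h3, h'.h4, h.pp]
  all_goals ch2

end Crest.Agent.R185.Univ
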