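import Crest.Agent.R185.U3

/-!
# R185 / UNIV (4): from commuting corner units to a homomorphism into the Steinberg group (end)
-/

set_option autoImplicit false
set_option linter.unusedSimpArgs false

namespace Crest.Agent.R185.Univ

open scoped commutatorElement
open Matrix

variable {G : Type*} [Group G] {R : Type*} [Ring R] {x : Fin 5 → Fin 5 → R → G}

/-- the data of the swindle -/
structure Data (R : Type*) [Ring R] (ι : Type*) where
  f : R
  k : R
  k' : R
  n : R
  n' : R
  c : ι → Rˣ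
  ff : f * f = f
  kk : k' * k = 1
  nn : n' * n = 1
  fk : Commute f k
  fk' : Commute f k'
  fn : Commute f n
  fn' : Commute f n'
  kn : Commute k n
  kn' : Commute k n'
  k'n : Commute k' n
  k'n' : Commute k' n'
  cf : ∀ i, Commute (c i : R) f
  ck : ∀ i, Commute (c i : R) k
  ck' : ∀ i, Commute (c i : R) k'
  cn : ∀ i, Commute (c i : R) n
  cn' : ∀ i, Commute (c i : R) n'

/-- the basic pairs -/
theorem PI.mk' {a a' e n n' c c' : R} (aa : a' * a = 1) (ee : e * e = e) (nn : n' * n = 1)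
    (en : Commute e n) (en' : Commute e n') (ec : Commute e c) (ec' : Commute e c')
    (cc : c * c' = 1) (cc' : c' * c = 1) (cn : Commute c n) (cn' : Commute c n') :
    PI e (a * (e * (n * n')) * a') (a * (c * (e * n))) (n' * (c' * (e * a'))) := by
  have l1 : ∀ y, e * (e * y) = e * y := fun y => by rw [← mul_assoc, ee]
  have l2 : ∀ y, n' * (n * y) = y := fun y => by rw [← mul_assoc, nn, one_mul]
  have l3 : ∀ y, a' * (a * y) = y := fun y => by rw [← mul_assoc, aa, one_mul]
  have l4 : ∀ y, c' * (c * y) = y := fun y => by rw [← mul_assoc, cc', one_mul]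
  have l5 : ∀ y, c * (c' * y) = y := fun y => by rw [← mul_assoc, cc, one_mul]
  have l6 : ∀ y, n * (e * y) = e * (n * y) := fun y => by rw [← mul_assoc, ← en.eq, mul_assoc]
  have l7 : ∀ y, n' * (e * y) = e * (n' * y) := fun y => by rw [← mul_assoc, ← en'.eq, mul_assoc]
  have l8 : ∀ y, c * (e * y) = e * (c * y) := fun y => by rw [← mul_assoc, ← ec.eq, mul_assoc]
  have l9 : ∀ y, c' * (e * y) = e * (c' * y) := fun y => by rw [← mul_assoc, ← ec'.eq, mul_assoc]
  have l10 : ∀ y, c * (n * y) = n * (c * y) := fun y => by rw [← mul_assoc, cn.eq, mul_assoc]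
  have l11 : ∀ y, c * (n' * y) = n' * (c * y) := fun y => by rw [← mul_assoc, cn'.eq, mul_assoc]
  constructor
  · simp only [mul_assoc, l6, l7, l8, l9, l1, l10, l11, l5]
  · calc n' * (c' * (e * a')) * (a * (c * (e * n))) = n' * (c' * (e * (c * (e * n)))) := by
          simp only [mul_assoc, l3]
      _ = e * (n' * n) := by simp only [l8, l1, l9, l4, l7]
      _ = e := by rw [nn, mul_one]
  · simp only [mul_assoc, l3, l6, l7, l8, l9, l1, l10, l11, l5, l2, cn.eq]
  · simp only [l7, l9, l1]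

/-- four `w`-elements -/
def vv (x : Fin 5 → Fin 5 → R → G) (a a' e n n' c c' : R) : G :=
  wel x 0 1 (a * (c * (e * 1))) (1 * (c' * (e * a'))) *
    wel x 0 1 (a * (1 * (e * 1))) (1 * (1 * (e * a'))) *
    (wel x 0 1 (a * (1 * (e * n))) (n' * (1 * (e * a'))) *
    wel x 0 1 (a * (c * (e * n))) (n' * (c' * (e * a'))))

/-- their matrices -/
def vm (a a' e n n' c c' : R) : GL2 R :=
  wm (a * (c * (e * 1))) (1 * (c' * (e * a'))) *
    wm (a * (1 * (e * 1))) (1 * (1 * (e * a'))) *
    (wm (a * (1 * (e * n))) (n' * (1 * (e * a'))) *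
    wm (a * (c * (e * n))) (n' * (c' * (e * a'))))

theorem Act.vv (S : Stein x) (a a' e n n' c c' : R) :
    Act x 0 1 (vv x a a' e n n' c c') (vm a a' e n n' c c') := by
  have h : (0 : Fin 5) ≠ 1 := by decide
  exact ((Act.w S h _ _).mul (Act.w S h _ _)).mul ((Act.w S h _ _).mul (Act.w S h _ _))

theorem vm_val [Ch2 R] {a a' e n n' c c' : R} (aa : a' * a = 1) (ee : e * e = e) (nn : n' * n = 1)
    (en : Commute e n) (en' : Commute e n') (ec : Commute e c) (ec' : Commute e c')
    (cc : c * c' = 1) (cc' : c' * c = 1) (cn : Commute c n) (cn' : Commute c n') :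
    (vm a a' e n n' c c').1 =
      !![1 + a * (e * (1 + n * n')) * a' + a * (c * (e * (1 + n * n'))) * a', 0; 0, 1] := by
  have o : ∀ y : R, Commute y 1 := fun y => Commute.one_right y
  have o' : ∀ y : R, Commute 1 y := fun y => Commute.one_left y
  have c'n' : Commute c' n' := by
    rw [commute_iff_eq]
    calc c' * n' = c' * (n' * (c * c')) := by rw [cc, mul_one]
      _ = c' * (c * n' * c') := by rw [← mul_assoc n', ← cn'.eq]
      _ = (c' * c) * n' * c' := by simp only [mul_assoc]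
      _ = n' * c' := by rw [cc', one_mul]
  have c'n : Commute c' n := by
    rw [commute_iff_eq]
    calc c' * n = c' * (n * (c * c')) := by rw [cc, mul_one]
      _ = c' * (c * n * c') := by rw [← mul_assoc n, ← cn.eq]
      _ = (c' * c) * n * c' := by simp only [mul_assoc]
      _ = n * c' := by rw [cc', one_mul]
  have p1 := PI.mk' aa ee (mul_one (1 : R)) (o e) (o e) ec ec' cc cc' (o c) (o c)
  have p2 := PI.mk' aa ee (mul_one (1 : R)) (o e) (o e) (o e) (o e) (mul_one (1 : R))
    (mul_one (1 : R)) (o 1) (o 1)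
  have p3 := PI.mk' aa ee nn en en' (o e) (o e) (mul_one (1 : R))
    (mul_one (1 : R)) (o' n) (o' n')
  have p4 := PI.mk' aa ee nn en en' ec ec' cc cc' cn cn'
  have m1 := wm_mul p1 p2
  have m2 := wm_mul p3 p4
  have e0 : (vm a a' e n n' c c').1 =
    (wm (a * (c * (e * 1))) (1 * (c' * (e * a'))) *
    wm (a * (1 * (e * 1))) (1 * (1 * (e * a')))).1 *
    (wm (a * (1 * (e * n))) (n' * (1 * (e * a'))) *
    wm (a * (c * (e * n))) (n' * (c' * (e * a')))).1 := rfl
  rw [e0, m1, m2]
  have l1 : ∀ y, e * (e * y) = e * y := fun y => by rw [← mul_assoc, ee]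
  have l2 : ∀ y, n' * (n * y) = y := fun y => by rw [← mul_assoc, nn, one_mul]
  have l3 : ∀ y, a' * (a * y) = y := fun y => by rw [← mul_assoc, aa, one_mul]
  have l4 : ∀ y, c' * (c * y) = y := fun y => by rw [← mul_assoc, cc', one_mul]
  have l5 : ∀ y, c * (c' * y) = y := fun y => by rw [← mul_assoc, cc, one_mul]
  have l6 : ∀ y, n * (e * y) = e * (n * y) := fun y => by rw [← mul_assoc, ← en.eq, mul_assoc]
  have l7 : ∀ y, n' * (e * y) = e * (n' * y) := fun y => by rw [← mul_assoc, ← en'.eq, mul_assoc]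
  have l8 : ∀ y, c * (e * y) = e * (c * y) := fun y => by rw [← mul_assoc, ← ec.eq, mul_assoc]
  have l9 : ∀ y, c' * (e * y) = e * (c' * y) := fun y => by rw [← mul_assoc, ← ec'.eq, mul_assoc]
  have l10 : ∀ y, n * (c * y) = c * (n * y) := fun y => by rw [← mul_assoc, ← cn.eq, mul_assoc]
  have l11 : ∀ y, n' * (c * y) = c * (n' * y) := fun y => by rw [← mul_assoc, ← cn'.eq, mul_assoc]
  have l12 : ∀ y, n * (c' * y) = c' * (n * y) := fun y => by rw [← mul_assoc, ← c'n.eq, mul_assoc]
  have l13 : ∀ y, n' * (c' * y) = c' * (n' * y) := fun y => by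
    rw [← mul_assoc, ← c'n'.eq, mul_assoc]
  have l8' := ec.eq
  have l9' := ec'.eq
  ext i j
  fin_cases i <;> fin_cases j
  · simp [Matrix.mul_apply, Fin.sum_univ_two, mul_add, add_mul, mul_assoc,
      l1, l2, l3, l4, l5, l6, l7, l8, l9, l10, l11, l12, l13]
    ch2
  · simp [Matrix.mul_apply, Fin.sum_univ_two]
  · simp [Matrix.mul_apply, Fin.sum_univ_two]
  · simp [Matrix.mul_apply, Fin.sum_univ_two, mul_add, add_mul, mul_assoc,
      l1, l2, l3, l4, l5, l6, l7, l8, l9, l10, l11, l12, l13, ← l8', ← l9', nn, ee, cc, cc']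
    ch2

/-- two elements supported on orthogonal idempotents commute -/
theorem Stein.comm01 (S : Stein x) {e s s' : R} (h1 : s * e = s) (h2 : e * s' = 0)
    (h3 : s' * s = 0) : Commute (x 0 1 s) (x 1 0 s') := by
  have e1 : ⁅x 0 2 s, x 2 1 e⁆ = x 0 1 s := by
    rw [S.mul 0 2 1 s e (by decide) (by decide) (by decide), h1]
  rw [← e1]
  refine Commute.commEl ?_ ?_
  · -- x 0 2 s with x 1 0 s'
    have := S.mul 1 0 2 s' s (by decide) (by decide) (by decide)
    rw [h3, S.zero (by decide)] at this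
    exact (commutatorElement_eq_one_iff_commute.1 this).symm
  · have := S.mul 2 1 0 e s' (by decide) (by decide) (by decide)
    rw [h2, S.zero (by decide)] at this
    exact commutatorElement_eq_one_iff_commute.1 this

/-- supported on the idempotent `e` -/
def Sup (e s : R) : Prop := e * s = s ∧ s * e = s

theorem Sup.wel (S : Stein x) {e e' s s' t t' : R} (h0 : e * e' = 0) (h0' : e' * e = 0)
    (hs : Sup e s) (hs' : Sup e s') (ht : Sup e' t) (ht' : Sup e' t') :
    Commute (wel x 0 1 s s') (wel x 0 1 t t') := by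
  have z : ∀ {a b : R}, Sup e a → Sup e' b → a * b = 0 := by
    intro a b ha hb
    rw [← ha.2, ← hb.1, mul_assoc, ← mul_assoc e, h0, zero_mul, mul_zero]
  have z' : ∀ {a b : R}, Sup e' a → Sup e b → a * b = 0 := by
    intro a b ha hb
    rw [← ha.2, ← hb.1, mul_assoc, ← mul_assoc e', h0', zero_mul, mul_zero]
  have z1 : ∀ {b : R}, Sup e' b → e * b = 0 := by
    intro b hb; rw [← hb.1, ← mul_assoc, h0, zero_mul]
  have z1' : ∀ {b : R}, Sup e b → e' * b = 0 := by
    intro b hb; rw [← hb.1, ← mul_assoc, h0', zero_mul]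
  have c1 : ∀ a b : R, Commute (x 0 1 a) (x 0 1 b) := fun a b =>
    S.comm 0 1 0 1 a b (by decide) (by decide) (by decide) (by decide)
  have c2 : ∀ a b : R, Commute (x 1 0 a) (x 1 0 b) := fun a b =>
    S.comm 1 0 1 0 a b (by decide) (by decide) (by decide) (by decide)
  have d1 : Commute (x 0 1 s) (x 1 0 t') := S.comm01 hs.2 (z1 ht') (z' ht' hs)
  have d2 : Commute (x 1 0 s') (x 0 1 t) := (S.comm01 ht.2 (z1' hs') (z hs' ht)).symm
  have k1 : Commute (x 0 1 s) (Univ.wel x 0 1 t t') := ((c1 s t).mul_right d1).mul_right (c1 s t)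
  have k2 : Commute (x 1 0 s') (Univ.wel x 0 1 t t') := (d2.mul_right (c2 s' t')).mul_right d2
  exact (k1.mul_left k2).mul_left k1

theorem Sup.mk' {e n n' c c' : R} (ee : e * e = e)
    (en : Commute e n) (en' : Commute e n') (ec : Commute e c) (ec' : Commute e c') :
    Sup e (1 * (c * (e * n))) ∧ Sup e (n' * (c' * (e * 1))) := by
  have l1 : ∀ y, e * (e * y) = e * y := fun y => by rw [← mul_assoc, ee]
  have l6 : ∀ y, n * (e * y) = e * (n * y) := fun y => by rw [← mul_assoc, ← en.eq, mul_assoc]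
  have l7 : ∀ y, n' * (e * y) = e * (n' * y) := fun y => by rw [← mul_assoc, ← en'.eq, mul_assoc]
  have l8 : ∀ y, c * (e * y) = e * (c * y) := fun y => by rw [← mul_assoc, ← ec.eq, mul_assoc]
  have l9 : ∀ y, c' * (e * y) = e * (c' * y) := fun y => by rw [← mul_assoc, ← ec'.eq, mul_assoc]
  have e1 := en.eq
  have e2 := en'.eq
  have e3 := ec.eq
  have e4 := ec'.eq
  refine ⟨⟨?_, ?_⟩, ?_, ?_⟩
  · simp only [one_mul, mul_one, mul_assoc, l1, l8]
  · simp only [one_mul, mul_one, mul_assoc, l1, l8, l6, ← e1]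
  · simp only [one_mul, mul_one, mul_assoc, l1, l9, l7, ← e4, ee, ← e2]
  · simp only [one_mul, mul_one, mul_assoc, ee]

theorem vv_comm (S : Stein x) {e e1 n n' c c' d d' : R} (ee : e * e = e) (ee1 : e1 * e1 = e1)
    (h0 : e * e1 = 0) (h0' : e1 * e = 0)
    (en : Commute e n) (en' : Commute e n') (ec : Commute e c) (ec' : Commute e c')
    (e1n : Commute e1 n) (e1n' : Commute e1 n') (e1d : Commute e1 d) (e1d' : Commute e1 d') :
    Commute (vv x 1 1 e n n' c c') (vv x 1 1 e1 n n' d d') := by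
  have o : ∀ y : R, Commute y 1 := fun y => Commute.one_right y
  have A : ∀ {n1 n1' n2 n2' c1 c1' c2 c2' : R}, Commute e n1 → Commute e n1' → Commute e c1 →
      Commute e c1' → Commute e1 n2 → Commute e1 n2' → Commute e1 c2 → Commute e1 c2' →
      Commute (wel x 0 1 (1 * (c1 * (e * n1))) (n1' * (c1' * (e * 1))))
        (wel x 0 1 (1 * (c2 * (e1 * n2))) (n2' * (c2' * (e1 * 1)))) := by
    intro n1 n1' n2 n2' c1 c1' c2 c2' g1 g2 g3 g4 g5 g6 g7 g8
    have a1 := Sup.mk' ee g1 g2 g3 g4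
    have a2 := Sup.mk' ee1 g5 g6 g7 g8
    exact Sup.wel S h0 h0' a1.1 a1.2 a2.1 a2.2
  have B : ∀ {n1 n1' c1 c1' : R}, Commute e n1 → Commute e n1' → Commute e c1 →
      Commute e c1' → Commute (wel x 0 1 (1 * (c1 * (e * n1))) (n1' * (c1' * (e * 1))))
        (vv x 1 1 e1 n n' d d') := by
    intro n1 n1' c1 c1' g1 g2 g3 g4
    exact (((A g1 g2 g3 g4 (o _) (o _) e1d e1d').mul_right
      (A g1 g2 g3 g4 (o _) (o _) (o _) (o _))).mul_right
      ((A g1 g2 g3 g4 e1n e1n' (o _) (o _)).mul_right (A g1 g2 g3 g4 e1n e1n' e1d e1d')))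
  exact ((B (o _) (o _) ec ec').mul_left (B (o _) (o _) (o _) (o _))).mul_left
    ((B en en' (o _) (o _)).mul_left (B en en' ec ec'))

end Crest.Agent.R185.Univ
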