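import Crest.Agent.R185.U4

/-!
# R185 / UNIV (5): the swindle
-/

set_option autoImplicit false
set_option linter.unusedSimpArgs false

namespace Crest.Agent.R185.Univ

open scoped commutatorElement
open Matrix

variable {G : Type*} [Group G] {R : Type*} [Ring R] {x : Fin 5 → Fin 5 → R → G} {ι : Type*}

/-- the shift element -/
def sg (x : Fin 5 → Fin 5 → R → G) (f k k' : R) : G :=
  wel x 0 2 (f * k) (k' * f) * wel x 0 2 f f

section shift

variable [Ch2 R] (S : Stein x) {f k k' : R} (ff : f * f = f) (kk : k' * k = 1)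
  (fk : Commute f k) (fk' : Commute f k')
include S ff kk fk fk'

omit [Group G] [Ch2 R] S in
theorem sg_aux : PI f (f * (k * k')) (f * k) (k' * f) ∧ PI f f f f := by
  have l1 : ∀ y, f * (f * y) = f * y := fun y => by rw [← mul_assoc, ff]
  have l2 : ∀ y, k * (f * y) = f * (k * y) := fun y => by rw [← mul_assoc, ← fk.eq, mul_assoc]
  have l3 : ∀ y, k' * (f * y) = f * (k' * y) := fun y => by rw [← mul_assoc, ← fk'.eq, mul_assoc]
  have l4 : ∀ y, k' * (k * y) = y := fun y => by rw [← mul_assoc, kk, one_mul]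
  have e1 := fk.eq
  have e2 := fk'.eq
  refine ⟨⟨?_, ?_, ?_, ?_⟩, ⟨ff, ff, ff, ff⟩⟩
  · simp only [mul_assoc, ← e2, l2, l1]
  · simp only [mul_assoc, l1, l3, kk, mul_one]
  · simp only [mul_assoc, l3, l2, l1, kk, mul_one, ← e1]
  · simp only [← e2, l1]

omit [Ch2 R] ff kk fk fk' in
theorem sg_act : Act x 0 2 (sg x f k k') (wm (f * k) (k' * f) * wm f f) :=
  (Act.w S (by decide) _ _).mul (Act.w S (by decide) _ _)

theorem sg_col {r : R} (h : f * r = r) : sg x f k k' * x 0 1 r * (sg x f k k')⁻¹ = x 0 1 (k * r) := by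
  obtain ⟨p1, p2⟩ := sg_aux ff kk fk fk'
  have A := (sg_act (f := f) (k := k) (k' := k') S).col 1 (by decide) (by decide) r 0
  rw [S.zero (i := 2) (j := 1) (by decide), mul_one] at A
  rw [A]
  have e0 : (wm (f * k) (k' * f) * wm f f).1 = (wm (f * k) (k' * f)).1 * (wm f f).1 := rfl
  have l3 : ∀ y, k' * (f * y) = f * (k' * y) := fun y => by rw [← mul_assoc, ← fk'.eq, mul_assoc]
  have l2 : ∀ y, k * (f * y) = f * (k * y) := fun y => by rw [← mul_assoc, ← fk.eq, mul_assoc]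
  have l1 : ∀ y, f * (f * y) = f * y := fun y => by rw [← mul_assoc, ff]
  have l5 : f * (k * r) = k * r := by rw [← mul_assoc, fk.eq, mul_assoc, h]
  have l7 : f * (k' * r) = k' * r := by rw [← mul_assoc, fk'.eq, mul_assoc, h]
  rw [e0, wm_val p1, wm_val p2]
  have e1 : (!![1 + f * (k * k'), f * k; k' * f, 1 + f] * !![1 + f, f; f, 1 + f]) 0 0 * r +
      (!![1 + f * (k * k'), f * k; k' * f, 1 + f] * !![1 + f, f; f, 1 + f]) 0 1 * 0 = k * r := by
    simp [Matrix.mul_apply, Fin.sum_univ_two, mul_add, add_mul, mul_assoc, l1, l2, l3, h, l5, l7]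
    ch2
  have e2 : (!![1 + f * (k * k'), f * k; k' * f, 1 + f] * !![1 + f, f; f, 1 + f]) 1 0 * r +
      (!![1 + f * (k * k'), f * k; k' * f, 1 + f] * !![1 + f, f; f, 1 + f]) 1 1 * 0 = 0 := by
    simp [Matrix.mul_apply, Fin.sum_univ_two, mul_add, add_mul, mul_assoc, l1, l2, l3, h, l5, l7]
    ch2
  rw [e1, e2, S.zero (by decide), mul_one]

theorem sg_row {r : R} (h : r * f = r) : sg x f k k' * x 1 0 r * (sg x f k k')⁻¹ = x 1 0 (r * k') := by
  obtain ⟨p1, p2⟩ := sg_aux ff kk fk fk'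
  have A := (sg_act (f := f) (k := k) (k' := k') S).row 1 (by decide) (by decide) r 0
  rw [S.zero (i := 1) (j := 2) (by decide), mul_one] at A
  rw [A]
  have e0 : (wm (f * k) (k' * f) * wm f f).2 = (wm f f).2 * (wm (f * k) (k' * f)).2 := rfl
  have l3 : ∀ y, k' * (f * y) = f * (k' * y) := fun y => by rw [← mul_assoc, ← fk'.eq, mul_assoc]
  have l2 : ∀ y, k * (f * y) = f * (k * y) := fun y => by rw [← mul_assoc, ← fk.eq, mul_assoc]
  have l1 : ∀ y, f * (f * y) = f * y := fun y => by rw [← mul_assoc, ff]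
  have l6 : ∀ y, r * (f * y) = r * y := fun y => by rw [← mul_assoc, h]
  have e3 := fk'.eq
  rw [e0, wm_inv p1, wm_inv p2]
  have e1 : r * (!![1 + f, f; f, 1 + f] * !![1 + f * (k * k'), f * k; k' * f, 1 + f]) 0 0 +
      0 * (!![1 + f, f; f, 1 + f] * !![1 + f * (k * k'), f * k; k' * f, 1 + f]) 1 0 = r * k' := by
    simp [Matrix.mul_apply, Fin.sum_univ_two, mul_add, add_mul, mul_assoc, l1, l2, l3, h, l6, ← e3]
    ch2
  have e2 : r * (!![1 + f, f; f, 1 + f] * !![1 + f * (k * k'), f * k; k' * f, 1 + f]) 0 1 +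
      0 * (!![1 + f, f; f, 1 + f] * !![1 + f * (k * k'), f * k; k' * f, 1 + f]) 1 1 = 0 := by
    simp [Matrix.mul_apply, Fin.sum_univ_two, mul_add, add_mul, mul_assoc, l1, l2, l3, h, l6, ← e3]
    ch2
  rw [e1, e2, S.zero (by decide), mul_one]

/-- conjugating a `w`-element -/
theorem sg_wel {s s' : R} (h : f * s = s) (h' : s' * f = s') :
    sg x f k k' * wel x 0 1 s s' * (sg x f k k')⁻¹ = wel x 0 1 (k * s) (s' * k') := by
  have e1 := sg_col S ff kk fk fk' h
  have e2 := sg_row S ff kk fk fk' h'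
  rw [wel, wel, ← e1, ← e2]; group

theorem sg_vv {e n n' c c' : R} (ee : f * e = e) (ee' : e * f = e)
    (cf : Commute f c) :
    sg x f k k' * vv x 1 1 e n n' c c' * (sg x f k k')⁻¹ = vv x k k' e n n' c c' := by
  have key : ∀ {n1 n1' c1 c1' : R}, Commute f c1 →
      sg x f k k' * wel x 0 1 (1 * (c1 * (e * n1))) (n1' * (c1' * (e * 1))) * (sg x f k k')⁻¹ =
      wel x 0 1 (k * (c1 * (e * n1))) (n1' * (c1' * (e * k'))) := by
    intro n1 n1' c1 c1' h1
    rw [one_mul, mul_one, sg_wel S ff kk fk fk']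
    · simp only [mul_assoc]
    · rw [← mul_assoc, h1.eq, mul_assoc, ← mul_assoc f, ee]
    · simp only [mul_assoc, ee']
  have o : Commute f 1 := Commute.one_right f
  rw [vv, vv]
  simp only [← key cf, ← key o]
  group

end shift

/-- two commuting families in a free group -/
theorem lift_mul {u v : ι → G} (h : ∀ i j, Commute (u i) (v j)) (r : FreeGroup ι) :
    FreeGroup.lift (fun i => u i * v i) r = FreeGroup.lift u r * FreeGroup.lift v r := by
  have h1 : ∀ i s, Commute (u i) (FreeGroup.lift v s) := by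
    intro i s
    induction s using FreeGroup.induction_on with
    | C1 => simp
    | of a => simpa using h i a
    | inv_of a _ => simpa using (h i a)
    | mul a b ha hb => rw [map_mul]; exact ha.mul_right hb
  have h2 : ∀ r s, Commute (FreeGroup.lift u r) (FreeGroup.lift v s) := by
    intro r s
    induction r using FreeGroup.induction_on with
    | C1 => simp
    | of a => simpa using h1 a s
    | inv_of a _ => simpa using (h1 a s)
    | mul a b ha hb => rw [map_mul]; exact ha.mul_left hb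
  induction r using FreeGroup.induction_on with
  | C1 => simp
  | of a => simp
  | inv_of a _ => simp [(h a a).eq]
  | mul a b ha hb =>
    rw [map_mul, map_mul, map_mul, ha, hb]
    have := (h2 b a).eq
    calc FreeGroup.lift u a * FreeGroup.lift v a * (FreeGroup.lift u b * FreeGroup.lift v b)
        = FreeGroup.lift u a * (FreeGroup.lift v a * FreeGroup.lift u b) * FreeGroup.lift v b := by
          group
      _ = _ := by rw [← this]; group

theorem lift_conj (g : G) (u : ι → G) (r : FreeGroup ι) :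
    FreeGroup.lift (fun i => g * u i * g⁻¹) r = g * FreeGroup.lift u r * g⁻¹ := by
  have : FreeGroup.lift (fun i => g * u i * g⁻¹) = (MulAut.conj g).toMonoidHom.comp
      (FreeGroup.lift u) := by
    ext i; simp
  rw [this]; simp

/-- `g` acts through the matrix `diag(1+ε+cε,1)` -/
def DG (x : Fin 5 → Fin 5 → R → G) (ε : R) (g : G) (c : R) : Prop :=
  ∃ M : GL2 R, Act x 0 1 g M ∧ M.1 = !![1 + ε + c * ε, 0; 0, 1]

section DG

variable [Ch2 R] {ε : R} (ee : ε * ε = ε)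

theorem DG.one : DG x ε (1 : G) 1 := by
  refine ⟨1, Act.one, ?_⟩
  have : (1 : R) + ε + 1 * ε = 1 := by rw [one_mul]; ch2
  rw [this]
  ext i j; fin_cases i <;> fin_cases j <;> rfl

include ee

theorem DG.mul {g h : G} {c d : R} (hg : DG x ε g c) (hh : DG x ε h d) (hd : Commute d ε) :
    DG x ε (g * h) (c * d) := by
  obtain ⟨M, hM, hM'⟩ := hg
  obtain ⟨N, hN, hN'⟩ := hh
  refine ⟨M * N, hM.mul hN, ?_⟩
  rw [Units.val_mul, hM', hN']
  have l1 : ∀ y, ε * (ε * y) = ε * y := fun y => by rw [← mul_assoc, ee]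
  have l2 : ∀ y, d * (ε * y) = ε * (d * y) := fun y => by rw [← mul_assoc, hd.eq, mul_assoc]
  have l3 := hd.eq
  ext i j
  fin_cases i <;> fin_cases j
  · simp [Matrix.mul_apply, Fin.sum_univ_two, mul_add, add_mul, mul_assoc, l1, l2, ee, l3]
    ch2
  · simp [Matrix.mul_apply, Fin.sum_univ_two]
  · simp [Matrix.mul_apply, Fin.sum_univ_two]
  · simp [Matrix.mul_apply, Fin.sum_univ_two]

theorem DG.inv {g : G} {c : Rˣ} (hg : DG x ε g c) (hc : Commute (c : R) ε) :
    DG x ε g⁻¹ (c⁻¹ : Rˣ) := by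
  obtain ⟨M, hM, hM'⟩ := hg
  refine ⟨M⁻¹, hM.inv, ?_⟩
  have hc' : Commute ((c⁻¹ : Rˣ) : R) ε := hc.units_inv_left
  have l1 : ∀ y, ε * (ε * y) = ε * y := fun y => by rw [← mul_assoc, ee]
  have l2 : ∀ y, ((c⁻¹ : Rˣ) : R) * (ε * y) = ε * ((c⁻¹ : Rˣ) * y) := fun y => by
    rw [← mul_assoc, hc'.eq, mul_assoc]
  have l3 := hc'.eq
  have key : M.1 * !![1 + ε + ((c⁻¹ : Rˣ) : R) * ε, 0; 0, 1] = 1 := by
    rw [hM']
    ext i j
    fin_cases i <;> fin_cases j
    · simp [Matrix.mul_apply, Fin.sum_univ_two, mul_add, add_mul, mul_assoc, l1, l2, ee, l3]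
      rw [← l3, Units.mul_inv_cancel_left]
      ch2
    · simp [Matrix.mul_apply, Fin.sum_univ_two]
    · simp [Matrix.mul_apply, Fin.sum_univ_two]
    · simp [Matrix.mul_apply, Fin.sum_univ_two]
  exact Units.inv_eq_of_mul_eq_one_right key

theorem DG.lift {u : ι → G} {c : ι → Rˣ} (hc : ∀ i, Commute (c i : R) ε)
    (hu : ∀ i, DG x ε (u i) (c i)) (r : FreeGroup ι) :
    Commute (FreeGroup.lift c r : R) ε ∧ DG x ε (FreeGroup.lift u r) (FreeGroup.lift c r : Rˣ) := by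
  induction r using FreeGroup.induction_on with
  | C1 => simpa using DG.one
  | of a => simpa using ⟨hc a, hu a⟩
  | inv_of a _ => simpa using ⟨hc a, DG.inv ee (hu a) (hc a)⟩
  | mul a b ha hb =>
    simp only [map_mul, Units.val_mul]
    exact ⟨ha.1.mul_left hb.1, DG.mul ee ha.2 hb.2 hb.1⟩

end DG

theorem DG.eq_one [Ch2 R] {ε : R} {g : G} {c : R} (h : DG x ε g c) (hc : c * ε = ε) :
    Act x 0 1 g 1 := by
  obtain ⟨M, hM, hM'⟩ := h
  have : M = 1 := by
    apply Units.ext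
    rw [hM', hc]
    have : (1 : R) + ε + ε = 1 := by ch2
    rw [this]
    ext i j; fin_cases i <;> fin_cases j <;> rfl
  rwa [this] at hM

namespace Data

variable (d : Data R ι)

/-- the part of `f` where the counter `K` is zero -/
def e0 : R := d.f * (1 + d.k * d.k')
/-- the part of `f` where the counter `K` is positive -/
def e1 : R := d.f * (d.k * d.k')
/-- first copies -/
def u0 (x : Fin 5 → Fin 5 → R → G) (i : ι) : G :=
  vv x 1 1 d.e0 d.n d.n' (d.c i) ((d.c i)⁻¹ : Rˣ)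
/-- second copies -/
def u1 (x : Fin 5 → Fin 5 → R → G) (i : ι) : G :=
  vv x 1 1 d.e1 d.n d.n' (d.c i) ((d.c i)⁻¹ : Rˣ)
/-- the central correction -/
def a (x : Fin 5 → Fin 5 → R → G) (i : ι) : G :=
  sg x d.f d.k d.k' * (d.u0 x i * d.u1 x i) * (sg x d.f d.k d.k')⁻¹ * (d.u1 x i)⁻¹
/-- the corrected copies -/
def V (x : Fin 5 → Fin 5 → R → G) (i : ι) : G := d.u0 x i * (d.a x i)⁻¹

/-- the final idempotent -/
def eps : R := d.e0 * (1 + d.n * d.n')

variable [Ch2 R]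

omit [Ch2 R] in
theorem e0_comm {y : R} (h : Commute d.f y) (h1 : Commute d.k y) (h2 : Commute d.k' y) :
    Commute d.e0 y :=
  h.mul_left ((Commute.one_left y).add_left (h1.mul_left h2))

omit [Ch2 R] in
theorem e1_comm {y : R} (h : Commute d.f y) (h1 : Commute d.k y) (h2 : Commute d.k' y) :
    Commute d.e1 y := h.mul_left (h1.mul_left h2)

theorem e0_sq : d.e0 * d.e0 = d.e0 := by
  have l1 : ∀ y, d.f * (d.f * y) = d.f * y := fun y => by rw [← mul_assoc, d.ff]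
  have l2 : ∀ y, d.k * (d.f * y) = d.f * (d.k * y) := fun y => by
    rw [← mul_assoc, ← d.fk.eq, mul_assoc]
  have l3 : ∀ y, d.k' * (d.f * y) = d.f * (d.k' * y) := fun y => by
    rw [← mul_assoc, ← d.fk'.eq, mul_assoc]
  have l4 : ∀ y, d.k' * (d.k * y) = y := fun y => by rw [← mul_assoc, d.kk, one_mul]
  have t2 := d.fk'.eq
  have t1 := d.fk.eq
  simp only [e0, mul_add, add_mul, mul_assoc, one_mul, mul_one, l1, l2, l3, l4, ← t1, ← t2, d.ff]
  ch2

omit [Ch2 R] in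
theorem e1_sq : d.e1 * d.e1 = d.e1 := by
  have l1 : ∀ y, d.f * (d.f * y) = d.f * y := fun y => by rw [← mul_assoc, d.ff]
  have l2 : ∀ y, d.k * (d.f * y) = d.f * (d.k * y) := fun y => by
    rw [← mul_assoc, ← d.fk.eq, mul_assoc]
  have l3 : ∀ y, d.k' * (d.f * y) = d.f * (d.k' * y) := fun y => by
    rw [← mul_assoc, ← d.fk'.eq, mul_assoc]
  have l4 : ∀ y, d.k' * (d.k * y) = y := fun y => by rw [← mul_assoc, d.kk, one_mul]
  simp only [e1, mul_assoc, l1, l2, l3, l4]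

theorem e01 : d.e0 * d.e1 = 0 := by
  have l1 : ∀ y, d.f * (d.f * y) = d.f * y := fun y => by rw [← mul_assoc, d.ff]
  have l2 : ∀ y, d.k * (d.f * y) = d.f * (d.k * y) := fun y => by
    rw [← mul_assoc, ← d.fk.eq, mul_assoc]
  have l3 : ∀ y, d.k' * (d.f * y) = d.f * (d.k' * y) := fun y => by
    rw [← mul_assoc, ← d.fk'.eq, mul_assoc]
  have l4 : ∀ y, d.k' * (d.k * y) = y := fun y => by rw [← mul_assoc, d.kk, one_mul]
  simp only [e0, e1, mul_add, add_mul, mul_assoc, one_mul, mul_one, l1, l2, l3, l4]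
  ch2

theorem e10 : d.e1 * d.e0 = 0 := by
  have h := d.e01
  have c1 : Commute d.e0 d.f := d.e0_comm (Commute.refl _) d.fk.symm d.fk'.symm
  have l1 : ∀ y, d.f * (d.f * y) = d.f * y := fun y => by rw [← mul_assoc, d.ff]
  have l2 : ∀ y, d.k * (d.f * y) = d.f * (d.k * y) := fun y => by
    rw [← mul_assoc, ← d.fk.eq, mul_assoc]
  have l3 : ∀ y, d.k' * (d.f * y) = d.f * (d.k' * y) := fun y => by
    rw [← mul_assoc, ← d.fk'.eq, mul_assoc]
  have l4 : ∀ y, d.k' * (d.k * y) = y := fun y => by rw [← mul_assoc, d.kk, one_mul]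
  have t2 := d.fk'.eq
  have t1 := d.fk.eq
  simp only [e0, e1, mul_add, add_mul, mul_assoc, one_mul, mul_one, l1, l2, l3, l4, ← t1, ← t2]
  ch2

omit [Ch2 R] in
theorem comms (i : ι) : Commute d.f (d.c i : R) ∧ Commute d.f ((d.c i)⁻¹ : Rˣ) ∧
    Commute d.k (d.c i : R) ∧ Commute d.k ((d.c i)⁻¹ : Rˣ) ∧ Commute d.k' (d.c i : R) ∧
    Commute d.k' ((d.c i)⁻¹ : Rˣ) :=
  ⟨(d.cf i).symm, ((d.cf i).units_inv_left).symm, (d.ck i).symm, ((d.ck i).units_inv_left).symm,
    (d.ck' i).symm, ((d.ck' i).units_inv_left).symm⟩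

omit [Ch2 R] in
theorem u01_comm (S : Stein x) [Ch2 R] (i j : ι) : Commute (d.u0 x i) (d.u1 x j) := by
  obtain ⟨a1, a2, a3, a4, a5, a6⟩ := d.comms i
  obtain ⟨b1, b2, b3, b4, b5, b6⟩ := d.comms j
  exact vv_comm S d.e0_sq d.e1_sq d.e01 d.e10 (d.e0_comm d.fn d.kn d.k'n)
    (d.e0_comm d.fn' d.kn' d.k'n') (d.e0_comm a1 a3 a5) (d.e0_comm a2 a4 a6)
    (d.e1_comm d.fn d.kn d.k'n) (d.e1_comm d.fn' d.kn' d.k'n') (d.e1_comm b1 b3 b5)
    (d.e1_comm b2 b4 b6)

theorem u0_dg (S : Stein x) (i : ι) : DG x (d.e0 * (1 + d.n * d.n')) (d.u0 x i) (d.c i) := by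
  obtain ⟨a1, a2, a3, a4, a5, a6⟩ := d.comms i
  refine ⟨_, Act.vv S _ _ _ _ _ _ _, ?_⟩
  rw [vm_val (mul_one 1) d.e0_sq d.nn (d.e0_comm d.fn d.kn d.k'n) (d.e0_comm d.fn' d.kn' d.k'n')
    (d.e0_comm a1 a3 a5) (d.e0_comm a2 a4 a6) (Units.mul_inv _) (Units.inv_mul _)
    (d.cn i) (d.cn' i)]
  simp only [one_mul, mul_one, mul_assoc]

theorem u1_dg (S : Stein x) (i : ι) : DG x (d.e1 * (1 + d.n * d.n')) (d.u1 x i) (d.c i) := by
  obtain ⟨a1, a2, a3, a4, a5, a6⟩ := d.comms i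
  refine ⟨_, Act.vv S _ _ _ _ _ _ _, ?_⟩
  rw [vm_val (mul_one 1) d.e1_sq d.nn (d.e1_comm d.fn d.kn d.k'n) (d.e1_comm d.fn' d.kn' d.k'n')
    (d.e1_comm a1 a3 a5) (d.e1_comm a2 a4 a6) (Units.mul_inv _) (Units.inv_mul _)
    (d.cn i) (d.cn' i)]
  simp only [one_mul, mul_one, mul_assoc]

theorem a_act (S : Stein x) (i : ι) : Act x 0 1 (d.a x i) 1 := by
  obtain ⟨a1, a2, a3, a4, a5, a6⟩ := d.comms i
  have l1 : ∀ y, d.f * (d.f * y) = d.f * y := fun y => by rw [← mul_assoc, d.ff]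
  have l2 : ∀ y, d.k * (d.f * y) = d.f * (d.k * y) := fun y => by
    rw [← mul_assoc, ← d.fk.eq, mul_assoc]
  have l3 : ∀ y, d.k' * (d.f * y) = d.f * (d.k' * y) := fun y => by
    rw [← mul_assoc, ← d.fk'.eq, mul_assoc]
  have l4 : ∀ y, d.k' * (d.k * y) = y := fun y => by rw [← mul_assoc, d.kk, one_mul]
  have l5 : ∀ y, d.n * (d.f * y) = d.f * (d.n * y) := fun y => by
    rw [← mul_assoc, ← d.fn.eq, mul_assoc]
  have l6 : ∀ y, d.n' * (d.f * y) = d.f * (d.n' * y) := fun y => by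
    rw [← mul_assoc, ← d.fn'.eq, mul_assoc]
  have l7 : ∀ y, d.n' * (d.n * y) = y := fun y => by rw [← mul_assoc, d.nn, one_mul]
  have l8 : ∀ y, d.n * (d.k * y) = d.k * (d.n * y) := fun y => by
    rw [← mul_assoc, ← d.kn.eq, mul_assoc]
  have l9 : ∀ y, d.n * (d.k' * y) = d.k' * (d.n * y) := fun y => by
    rw [← mul_assoc, ← d.k'n.eq, mul_assoc]
  have l10 : ∀ y, d.n' * (d.k * y) = d.k * (d.n' * y) := fun y => by
    rw [← mul_assoc, ← d.kn'.eq, mul_assoc]
  have l11 : ∀ y, d.n' * (d.k' * y) = d.k' * (d.n' * y) := fun y => by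
    rw [← mul_assoc, ← d.k'n'.eq, mul_assoc]
  have l12 : ∀ y, d.k * ((d.c i : R) * y) = d.c i * (d.k * y) := fun y => by
    rw [← mul_assoc, a3.eq, mul_assoc]
  have l13 : ∀ y, d.k' * ((d.c i : R) * y) = d.c i * (d.k' * y) := fun y => by
    rw [← mul_assoc, a5.eq, mul_assoc]
  have l14 : ∀ y, d.f * ((d.c i : R) * y) = d.c i * (d.f * y) := fun y => by
    rw [← mul_assoc, a1.eq, mul_assoc]
  have l15 : ∀ y, d.n * ((d.c i : R) * y) = d.c i * (d.n * y) := fun y => by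
    rw [← mul_assoc, ← (d.cn i).eq, mul_assoc]
  have l16 : ∀ y, d.n' * ((d.c i : R) * y) = d.c i * (d.n' * y) := fun y => by
    rw [← mul_assoc, ← (d.cn' i).eq, mul_assoc]
  have t1 := d.k'n.eq
  have t2 := d.k'n'.eq
  have f0 : d.f * d.e0 = d.e0 := by rw [e0, l1]
  have f0' : d.e0 * d.f = d.e0 := by
    rw [(d.e0_comm (Commute.refl _) d.fk.symm d.fk'.symm).eq, f0]
  have f1 : d.f * d.e1 = d.e1 := by rw [e1, l1]
  have f1' : d.e1 * d.f = d.e1 := by
    rw [(d.e1_comm (Commute.refl _) d.fk.symm d.fk'.symm).eq, f1]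
  have g0 := sg_vv (e := d.e0) (n := d.n) (n' := d.n') (c' := ((d.c i)⁻¹ : Rˣ)) S d.ff d.kk
    d.fk d.fk' f0 f0' a1
  have g1 := sg_vv (e := d.e1) (n := d.n) (n' := d.n') (c' := ((d.c i)⁻¹ : Rˣ)) S d.ff d.kk
    d.fk d.fk' f1 f1' a1
  have ha : d.a x i = vv x d.k d.k' d.e0 d.n d.n' (d.c i) ((d.c i)⁻¹ : Rˣ) *
      vv x d.k d.k' d.e1 d.n d.n' (d.c i) ((d.c i)⁻¹ : Rˣ) * (d.u1 x i)⁻¹ := by
    rw [← g0, ← g1, a, u0, u1]; group
  have h0 := vm_val (a := d.k) (a' := d.k') d.kk d.e0_sq d.nn (d.e0_comm d.fn d.kn d.k'n)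
    (d.e0_comm d.fn' d.kn' d.k'n') (d.e0_comm a1 a3 a5) (d.e0_comm a2 a4 a6) (Units.mul_inv _)
    (Units.inv_mul _) (d.cn i) (d.cn' i)
  have h1 := vm_val (a := d.k) (a' := d.k') d.kk d.e1_sq d.nn (d.e1_comm d.fn d.kn d.k'n)
    (d.e1_comm d.fn' d.kn' d.k'n') (d.e1_comm a1 a3 a5) (d.e1_comm a2 a4 a6) (Units.mul_inv _)
    (Units.inv_mul _) (d.cn i) (d.cn' i)
  have h2 := vm_val (a := (1 : R)) (a' := (1 : R)) (mul_one 1) d.e1_sq d.nn
    (d.e1_comm d.fn d.kn d.k'n)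
    (d.e1_comm d.fn' d.kn' d.k'n') (d.e1_comm a1 a3 a5) (d.e1_comm a2 a4 a6) (Units.mul_inv _)
    (Units.inv_mul _) (d.cn i) (d.cn' i)
  have key : vm d.k d.k' d.e0 d.n d.n' (d.c i) ((d.c i)⁻¹ : Rˣ) *
      vm d.k d.k' d.e1 d.n d.n' (d.c i) ((d.c i)⁻¹ : Rˣ) =
      vm 1 1 d.e1 d.n d.n' (d.c i) ((d.c i)⁻¹ : Rˣ) := by
    apply Units.ext
    rw [Units.val_mul, h0, h1, h2]
    ext p q
    fin_cases p <;> fin_cases q
    · simp [Matrix.mul_apply, Fin.sum_univ_two, mul_add, add_mul, mul_assoc, e0, e1,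
        l1, l2, l3, l4, l5, l6, l7, l8, l9, l10, l11, l12, l13, l14, l15, l16, ← t1, ← t2]
      ch2
    · simp [Matrix.mul_apply, Fin.sum_univ_two]
    · simp [Matrix.mul_apply, Fin.sum_univ_two]
    · simp [Matrix.mul_apply, Fin.sum_univ_two]
  have A := ((Act.vv S d.k d.k' d.e0 d.n d.n' (d.c i) ((d.c i)⁻¹ : Rˣ)).mul
    (Act.vv S d.k d.k' d.e1 d.n d.n' (d.c i) ((d.c i)⁻¹ : Rˣ))).mul
    (Act.vv S 1 1 d.e1 d.n d.n' (d.c i) ((d.c i)⁻¹ : Rˣ)).inv
  rw [key, mul_inv_cancel] at A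
  rw [ha]
  exact A

theorem a_central (S : Stein x) (hg : Gen x) (i : ι) (h : G) : Commute (d.a x i) h :=
  (d.a_act S i).central S hg (by decide) h

omit [Ch2 R] in
theorem f_e0 : d.f * d.e0 = d.e0 := by rw [e0, ← mul_assoc, d.ff]

omit [Ch2 R] in
theorem f_e1 : d.f * d.e1 = d.e1 := by rw [e1, ← mul_assoc, d.ff]

theorem kill (S : Stein x) (hg : Gen x) (r : FreeGroup ι)
    (hr : (FreeGroup.lift d.c r : R) * d.f = d.f) : FreeGroup.lift (d.V x) r = 1 := by
  have cm : ∀ i, Commute (1 + d.n * d.n') (d.c i : R) := fun i =>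
    (Commute.one_left _).add_left (((d.cn i).symm).mul_left (d.cn' i).symm)
  have m0 : Commute d.e0 (1 + d.n * d.n') :=
    (Commute.one_right _).add_right ((d.e0_comm d.fn d.kn d.k'n).mul_right
      (d.e0_comm d.fn' d.kn' d.k'n'))
  have m1 : Commute d.e1 (1 + d.n * d.n') :=
    (Commute.one_right _).add_right ((d.e1_comm d.fn d.kn d.k'n).mul_right
      (d.e1_comm d.fn' d.kn' d.k'n'))
  have mm : (1 + d.n * d.n') * (1 + d.n * d.n') = 1 + d.n * d.n' := by
    have l7 : ∀ y, d.n' * (d.n * y) = y := fun y => by rw [← mul_assoc, d.nn, one_mul]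
    simp only [mul_add, add_mul, mul_one, one_mul, mul_assoc, l7]
    ch2
  have q0 : (d.e0 * (1 + d.n * d.n')) * (d.e0 * (1 + d.n * d.n')) = d.e0 * (1 + d.n * d.n') := by
    rw [mul_assoc, ← mul_assoc _ d.e0, ← m0.eq, mul_assoc, mm, ← mul_assoc, d.e0_sq]
  have q1 : (d.e1 * (1 + d.n * d.n')) * (d.e1 * (1 + d.n * d.n')) = d.e1 * (1 + d.n * d.n') := by
    rw [mul_assoc, ← mul_assoc _ d.e1, ← m1.eq, mul_assoc, mm, ← mul_assoc, d.e1_sq]
  have c0 : ∀ i, Commute (d.c i : R) (d.e0 * (1 + d.n * d.n')) := fun i => by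
    obtain ⟨a1, a2, a3, a4, a5, a6⟩ := d.comms i
    exact (d.e0_comm a1 a3 a5).symm.mul_right (cm i).symm
  have c1 : ∀ i, Commute (d.c i : R) (d.e1 * (1 + d.n * d.n')) := fun i => by
    obtain ⟨a1, a2, a3, a4, a5, a6⟩ := d.comms i
    exact (d.e1_comm a1 a3 a5).symm.mul_right (cm i).symm
  have r0 : (FreeGroup.lift d.c r : R) * (d.e0 * (1 + d.n * d.n')) =
      d.e0 * (1 + d.n * d.n') := by
    rw [← d.f_e0, mul_assoc d.f, ← mul_assoc, hr]
  have r1 : (FreeGroup.lift d.c r : R) * (d.e1 * (1 + d.n * d.n')) =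
      d.e1 * (1 + d.n * d.n') := by
    rw [← d.f_e1, mul_assoc d.f, ← mul_assoc, hr]
  -- the two copies of the relator are central
  have z0 : ∀ h, Commute (FreeGroup.lift (d.u0 x) r) h :=
    (((DG.lift q0 c0 (d.u0_dg S) r).2).eq_one r0).central S hg (by decide)
  have z1 : ∀ h, Commute (FreeGroup.lift (d.u1 x) r) h :=
    (((DG.lift q1 c1 (d.u1_dg S) r).2).eq_one r1).central S hg (by decide)
  have k1 : FreeGroup.lift (fun i => d.u0 x i * d.u1 x i) r =
      FreeGroup.lift (d.u0 x) r * FreeGroup.lift (d.u1 x) r :=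
    lift_mul (fun i j => d.u01_comm S i j) r
  have k2 : FreeGroup.lift (fun i => d.a x i * d.u1 x i) r =
      FreeGroup.lift (d.a x) r * FreeGroup.lift (d.u1 x) r :=
    lift_mul (fun i j => d.a_central S hg i _) r
  have k3 : FreeGroup.lift (fun i => d.a x i * d.u1 x i) r =
      FreeGroup.lift (fun i => d.u0 x i * d.u1 x i) r := by
    have : (fun i => d.a x i * d.u1 x i) = (fun i => sg x d.f d.k d.k' * (d.u0 x i * d.u1 x i) *
        (sg x d.f d.k d.k')⁻¹) := by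
      funext i; rw [a, inv_mul_cancel_right]
    rw [this, lift_conj, k1]
    have := (z0 (sg x d.f d.k d.k')).mul_left (z1 (sg x d.f d.k d.k'))
    rw [← this.eq, mul_inv_cancel_right]
  have k4 : FreeGroup.lift (d.u0 x) r = FreeGroup.lift (d.a x) r := by
    rw [k1, k2] at k3; exact (mul_right_cancel k3).symm
  have k5 : FreeGroup.lift (fun i => d.V x i * d.a x i) r =
      FreeGroup.lift (d.V x) r * FreeGroup.lift (d.a x) r :=
    lift_mul (fun i j => (d.a_central S hg j _).symm) r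
  have k6 : (fun i => d.V x i * d.a x i) = d.u0 x := by funext i; rw [V, inv_mul_cancel_right]
  rw [k6, k4] at k5
  exact (right_eq_mul.1 k5)

theorem inj (S : Stein x) (hg : Gen x) (r : FreeGroup ι) (hr : FreeGroup.lift (d.V x) r = 1) :
    x 0 2 (d.eps + (FreeGroup.lift d.c r : R) * d.eps) = 1 := by
  have cm : ∀ i, Commute (1 + d.n * d.n') (d.c i : R) := fun i =>
    (Commute.one_left _).add_left (((d.cn i).symm).mul_left (d.cn' i).symm)
  have m0 : Commute d.e0 (1 + d.n * d.n') :=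
    (Commute.one_right _).add_right ((d.e0_comm d.fn d.kn d.k'n).mul_right
      (d.e0_comm d.fn' d.kn' d.k'n'))
  have mm : (1 + d.n * d.n') * (1 + d.n * d.n') = 1 + d.n * d.n' := by
    have l7 : ∀ y, d.n' * (d.n * y) = y := fun y => by rw [← mul_assoc, d.nn, one_mul]
    simp only [mul_add, add_mul, mul_one, one_mul, mul_assoc, l7]
    ch2
  have q0 : (d.e0 * (1 + d.n * d.n')) * (d.e0 * (1 + d.n * d.n')) = d.e0 * (1 + d.n * d.n') := by
    rw [mul_assoc, ← mul_assoc _ d.e0, ← m0.eq, mul_assoc, mm, ← mul_assoc, d.e0_sq]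
  have c0 : ∀ i, Commute (d.c i : R) (d.e0 * (1 + d.n * d.n')) := fun i => by
    obtain ⟨a1, a2, a3, a4, a5, a6⟩ := d.comms i
    exact (d.e0_comm a1 a3 a5).symm.mul_right (cm i).symm
  have k5 : FreeGroup.lift (fun i => d.V x i * d.a x i) r =
      FreeGroup.lift (d.V x) r * FreeGroup.lift (d.a x) r :=
    lift_mul (fun i j => (d.a_central S hg j _).symm) r
  have k6 : (fun i => d.V x i * d.a x i) = d.u0 x := by funext i; rw [V, inv_mul_cancel_right]
  rw [k6, hr, one_mul] at k5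
  have hA : Act x 0 1 (FreeGroup.lift (d.a x) r) 1 := by
    clear k5 hr
    induction r using FreeGroup.induction_on with
    | C1 => simpa using Act.one
    | of i => simpa using d.a_act S i
    | inv_of i _ => simpa using (d.a_act S i).inv
    | mul a b ha hb => simpa using ha.mul hb
  obtain ⟨M, hM, hM'⟩ := (DG.lift q0 c0 (d.u0_dg S) r).2
  have e1 := hM.col 2 (by decide) (by decide) 1 0
  rw [k5, hA.col 2 (by decide) (by decide) 1 0, hM'] at e1
  simp only [Units.val_one, one_apply_eq, one_mul, mul_zero, add_zero, ne_eq, zero_ne_one,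
    not_false_eq_true, one_apply_ne, one_ne_zero, mul_one, zero_mul, S.zero (i := 1) (j := 2)
    (by decide)] at e1
  simp only [cons_val', cons_val_zero, cons_val_fin_one, of_apply, cons_val_one,
    S.zero (i := 1) (j := 2) (by decide), mul_one] at e1
  rw [add_assoc, S.add _ _ _ _ (by decide)] at e1
  exact (left_eq_mul.1 e1)

end Data

end Crest.Agent.R185.Univ
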