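import Crest.Agent.R185.U5

/-!
# R185 / UNIV (6): a finitely presented ring of characteristic 2 (definition of the relations)
-/

set_option autoImplicit false
set_option linter.unusedSimpArgs false

namespace Crest.Agent.R185.Univ

/-- tape letters -/
inductive Ltr
  | one | pos | neg | sep
  deriving DecidableEq

instance : Fintype Ltr := ⟨{.one, .pos, .neg, .sep}, by intro x; cases x <;> decide⟩

/-- ring generators: push, pop (two stacks), counters up and down, `g`, `g'`, `D`, `th` -/
inductive Gn
  | P (b : Bool) (a : Ltr)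
  | Q (b : Bool) (a : Ltr)
  | C (c : Fin 4)
  | C' (c : Fin 4)
  | g | g' | D | th
  deriving DecidableEq, Fintype

/-- names of the ring relations -/
inductive RI
  | qp (b : Bool) (a a' : Ltr)
  | pp (a a' : Ltr)
  | pq (a a' : Ltr)
  | qp' (a a' : Ltr)
  | qq (a a' : Ltr)
  | cc (c : Fin 4)
  | cP (c : Fin 4) (b : Bool) (a : Ltr)
  | cQ (c : Fin 4) (b : Bool) (a : Ltr)
  | c'P (c : Fin 4) (b : Bool) (a : Ltr)
  | c'Q (c : Fin 4) (b : Bool) (a : Ltr)
  | c1 (c c' : Fin 4)
  | c2 (c c' : Fin 4)
  | c3 (c c' : Fin 4)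
  | gg
  | gg'
  | gt (a : Ltr)
  | gt' (a : Ltr)
  | gL (b : Bool)
  | gI (c : Fin 4)
  | guw
  | gk (c : Fin 4)
  | gk' (c : Fin 4)
  | Du
  | Du'
  | Dt
  | DL
  | DR
  | tu
  | tw (a : Ltr)
  | Dp
  | Dn
  deriving Fintype

open Gn Ltr

/-- a single letter as a polynomial -/
def o (x : Gn) : Poly Gn := [[x]]

/-- the polynomial `1 + ∑ P b a Q b a` -/
def omT (b : Bool) : Poly Gn :=
  [[]] ++ [[P b one, Q b one]] ++ [[P b pos, Q b pos]] ++ [[P b neg, Q b neg]] ++
    [[P b sep, Q b sep]]

/-- the polynomial `1 + C c C' c` -/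
def omC (c : Fin 4) : Poly Gn := [[]] ++ [[C c, C' c]]

/-- commutation -/
def com (p q : Poly Gn) : Poly Gn × Poly Gn := (pmul p q, pmul q p)

/-- moving a letter from right to left -/
def tt (a : Ltr) : Poly Gn := pmul (o (P false a)) (o (Q true a))

/-- moving a letter from left to right -/
def tt' (a : Ltr) : Poly Gn := pmul (o (P true a)) (o (Q false a))

/-- the ring relations -/
def relP : RI → Poly Gn × Poly Gn
  | .qp b a a' => (pmul (o (Q b a)) (o (P b a')), if a = a' then [[]] else [])
  | .pp a a' => com (o (P false a)) (o (P true a'))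
  | .pq a a' => com (o (P false a)) (o (Q true a'))
  | .qp' a a' => com (o (Q false a)) (o (P true a'))
  | .qq a a' => com (o (Q false a)) (o (Q true a'))
  | .cc c => (pmul (o (C' c)) (o (C c)), [[]])
  | .cP c b a => com (o (C c)) (o (P b a))
  | .cQ c b a => com (o (C c)) (o (Q b a))
  | .c'P c b a => com (o (C' c)) (o (P b a))
  | .c'Q c b a => com (o (C' c)) (o (Q b a))
  | .c1 c c' => if c = c' then ([], []) else com (o (C c)) (o (C c'))
  | .c2 c c' => if c = c' then ([], []) else com (o (C c)) (o (C' c'))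
  | .c3 c c' => if c = c' then ([], []) else com (o (C' c)) (o (C' c'))
  | .gg => (pmul (o g) (o g'), [[]])
  | .gg' => (pmul (o g') (o g), [[]])
  | .gt a => com (o g) (tt a)
  | .gt' a => com (o g) (tt' a)
  | .gL b => com (o g) (omT b)
  | .gI c => if c = 0 ∨ c = 1 then com (o g) (pmul (o (C c)) (o (C' c))) else ([], [])
  | .guw => com (o g) (pmul (o (C 0)) (o (C' 1)))
  | .gk c => if c = 2 ∨ c = 3 then com (o g) (o (C c)) else ([], [])
  | .gk' c => if c = 2 ∨ c = 3 then com (o g) (o (C' c)) else ([], [])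
  | .Du => com (o D) (o (C 0))
  | .Du' => com (o D) (o (C' 0))
  | .Dt => com (o D) (tt one)
  | .DL => (pmul (o D) (o (P false sep)), o (P false sep))
  | .DR => (pmul (o D) (o (P true sep)), o (P true sep))
  | .tu => com (o th) (pmul (o (C 0)) (tt one))
  | .tw a => if a = one then ([], []) else
      (pmul (o th) (pmul (omC 0) (pmul (omC 1) (o (P false a)))),
        pmul (omC 0) (pmul (omC 1) (o (P false a))))
  | .Dp => (pmul (o D) (pmul (tt pos) (o th)), pmul (tt pos) (pmul (o g) (pmul (o D) (o th))))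
  | .Dn => (pmul (o D) (pmul (tt neg) (o th)), pmul (tt neg) (pmul (o g') (pmul (o D) (o th))))

section ring

variable {S : Type*} [Ring S] (v : Gn → S)

/-- `1 + ∑ P b a Q b a` -/
def wT (b : Bool) : S :=
  1 + v (P b one) * v (Q b one) + v (P b pos) * v (Q b pos) + v (P b neg) * v (Q b neg) +
    v (P b sep) * v (Q b sep)

/-- `1 + C c C' c` -/
def wC (c : Fin 4) : S := 1 + v (C c) * v (C' c)

/-- move right to left -/
def T (a : Ltr) : S := v (P false a) * v (Q true a)

/-- move left to right -/
def T' (a : Ltr) : S := v (P true a) * v (Q false a)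

/-- the relations, in a ring -/
structure RR : Prop where
  qp : ∀ b a a', v (Q b a) * v (P b a') = if a = a' then 1 else 0
  pp : ∀ a a', Commute (v (P false a)) (v (P true a'))
  pq : ∀ a a', Commute (v (P false a)) (v (Q true a'))
  qp' : ∀ a a', Commute (v (Q false a)) (v (P true a'))
  qq : ∀ a a', Commute (v (Q false a)) (v (Q true a'))
  cc : ∀ c, v (C' c) * v (C c) = 1
  cP : ∀ c b a, Commute (v (C c)) (v (P b a))
  cQ : ∀ c b a, Commute (v (C c)) (v (Q b a))
  c'P : ∀ c b a, Commute (v (C' c)) (v (P b a))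
  c'Q : ∀ c b a, Commute (v (C' c)) (v (Q b a))
  c1 : ∀ c c', c ≠ c' → Commute (v (C c)) (v (C c'))
  c2 : ∀ c c', c ≠ c' → Commute (v (C c)) (v (C' c'))
  c3 : ∀ c c', c ≠ c' → Commute (v (C' c)) (v (C' c'))
  gg : v g * v g' = 1
  gg' : v g' * v g = 1
  gt : ∀ a, Commute (v g) (T v a)
  gt' : ∀ a, Commute (v g) (T' v a)
  gL : ∀ b, Commute (v g) (wT v b)
  gI : ∀ c, c = 0 ∨ c = 1 → Commute (v g) (v (C c) * v (C' c))
  guw : Commute (v g) (v (C 0) * v (C' 1))
  gk : ∀ c, c = 2 ∨ c = 3 → Commute (v g) (v (C c))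
  gk' : ∀ c, c = 2 ∨ c = 3 → Commute (v g) (v (C' c))
  Du : Commute (v D) (v (C 0))
  Du' : Commute (v D) (v (C' 0))
  Dt : Commute (v D) (T v one)
  DL : v D * v (P false sep) = v (P false sep)
  DR : v D * v (P true sep) = v (P true sep)
  tu : Commute (v th) (v (C 0) * T v one)
  tw : ∀ a, a ≠ one → v th * (wC v 0 * (wC v 1 * v (P false a))) = wC v 0 * (wC v 1 * v (P false a))
  Dp : v D * (T v pos * v th) = T v pos * (v g * (v D * v th))
  Dn : v D * (T v neg * v th) = T v neg * (v g' * (v D * v th))

@[simp] theorem ev_o (x : Gn) : evalP v (o x) = v x := by simp [evalP, o]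
@[simp] theorem ev_one : evalP v ([[]] : Poly Gn) = 1 := by simp [evalP]
@[simp] theorem ev_omT (b : Bool) : evalP v (omT b) = wT v b := by
  simp [evalP, omT, wT, add_assoc]
@[simp] theorem ev_omC (c : Fin 4) : evalP v (omC c) = wC v c := by
  simp [evalP, omC, wC]
@[simp] theorem ev_tt (a : Ltr) : evalP v (tt a) = T v a := by
  rw [tt, evalP_pmul, ev_o, ev_o, T]
@[simp] theorem ev_tt' (a : Ltr) : evalP v (tt' a) = T' v a := by
  rw [tt', evalP_pmul, ev_o, ev_o, T']

theorem ev_com {p q : Poly Gn} : evalP v (com p q).1 = evalP v (com p q).2 ↔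
    Commute (evalP v p) (evalP v q) := by
  rw [com, evalP_pmul, evalP_pmul]; rfl

theorem RR_iff : (∀ i, evalP v (relP i).1 = evalP v (relP i).2) ↔ RR v := by
  constructor
  · intro h
    refine ⟨?_, ?_, ?_, ?_, ?_, ?_, ?_, ?_, ?_, ?_, ?_, ?_, ?_, ?_, ?_, ?_, ?_, ?_, ?_, ?_, ?_, ?_,
      ?_, ?_, ?_, ?_, ?_, ?_, ?_, ?_, ?_⟩
    · intro b a a'
      have := h (.qp b a a')
      simp only [relP, evalP_pmul, ev_o] at this
      rw [this]; split_ifs <;> simp
    · intro a a'; simpa [relP, ev_com] using h (.pp a a')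
    · intro a a'; simpa [relP, ev_com] using h (.pq a a')
    · intro a a'; simpa [relP, ev_com] using h (.qp' a a')
    · intro a a'; simpa [relP, ev_com] using h (.qq a a')
    · intro c; simpa [relP, evalP_pmul] using h (.cc c)
    · intro c b a; simpa [relP, ev_com] using h (.cP c b a)
    · intro c b a; simpa [relP, ev_com] using h (.cQ c b a)
    · intro c b a; simpa [relP, ev_com] using h (.c'P c b a)
    · intro c b a; simpa [relP, ev_com] using h (.c'Q c b a)
    · intro c c' hc; simpa [relP, ev_com, hc] using h (.c1 c c')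
    · intro c c' hc; simpa [relP, ev_com, hc] using h (.c2 c c')
    · intro c c' hc; simpa [relP, ev_com, hc] using h (.c3 c c')
    · simpa [relP, evalP_pmul] using h .gg
    · simpa [relP, evalP_pmul] using h .gg'
    · intro a; simpa [relP, ev_com] using h (.gt a)
    · intro a; simpa [relP, ev_com] using h (.gt' a)
    · intro b; simpa [relP, ev_com] using h (.gL b)
    · intro c hc; simpa only [relP, if_pos hc, ev_com, evalP_pmul, ev_o] using h (.gI c)
    · simpa [relP, ev_com, evalP_pmul] using h .guw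
    · intro c hc; simpa only [relP, if_pos hc, ev_com, evalP_pmul, ev_o] using h (.gk c)
    · intro c hc; simpa only [relP, if_pos hc, ev_com, evalP_pmul, ev_o] using h (.gk' c)
    · simpa [relP, ev_com, evalP_pmul] using h .Du
    · simpa [relP, ev_com, evalP_pmul] using h .Du'
    · simpa [relP, ev_com, evalP_pmul] using h .Dt
    · simpa [relP, ev_com, evalP_pmul] using h .DL
    · simpa [relP, ev_com, evalP_pmul] using h .DR
    · simpa [relP, ev_com, evalP_pmul] using h .tu
    · intro a ha; simpa [relP, ev_com, evalP_pmul, ha] using h (.tw a)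
    · simpa [relP, ev_com, evalP_pmul] using h .Dp
    · simpa [relP, ev_com, evalP_pmul] using h .Dn
  · intro h i
    cases i with
    | qp b a a' =>
      have := h.qp b a a'
      simp only [relP, evalP_pmul, ev_o]
      rw [this]; split_ifs <;> simp
    | pp a a' => simpa [relP, ev_com] using h.pp a a'
    | pq a a' => simpa [relP, ev_com] using h.pq a a'
    | qp' a a' => simpa [relP, ev_com] using h.qp' a a'
    | qq a a' => simpa [relP, ev_com] using h.qq a a'
    | cc c => simpa [relP, evalP_pmul] using h.cc c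
    | cP c b a => simpa [relP, ev_com] using h.cP c b a
    | cQ c b a => simpa [relP, ev_com] using h.cQ c b a
    | c'P c b a => simpa [relP, ev_com] using h.c'P c b a
    | c'Q c b a => simpa [relP, ev_com] using h.c'Q c b a
    | c1 c c' =>
      by_cases hc : c = c'
      · simp [relP, hc]
      · simpa [relP, ev_com, hc] using h.c1 c c' hc
    | c2 c c' =>
      by_cases hc : c = c'
      · simp [relP, hc]
      · simpa [relP, ev_com, hc] using h.c2 c c' hc
    | c3 c c' =>
      by_cases hc : c = c'
      · simp [relP, hc]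
      · simpa [relP, ev_com, hc] using h.c3 c c' hc
    | gg => simpa [relP, evalP_pmul] using h.gg
    | gg' => simpa [relP, evalP_pmul] using h.gg'
    | gt a => simpa [relP, ev_com] using h.gt a
    | gt' a => simpa [relP, ev_com] using h.gt' a
    | gL b => simpa [relP, ev_com] using h.gL b
    | gI c =>
      by_cases hc : c = 0 ∨ c = 1
      · simpa only [relP, if_pos hc, ev_com, evalP_pmul, ev_o] using h.gI c hc
      · simp only [relP, if_neg hc]
    | guw => simpa [relP, ev_com, evalP_pmul] using h.guw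
    | gk c =>
      by_cases hc : c = 2 ∨ c = 3
      · simpa only [relP, if_pos hc, ev_com, evalP_pmul, ev_o] using h.gk c hc
      · simp only [relP, if_neg hc]
    | gk' c =>
      by_cases hc : c = 2 ∨ c = 3
      · simpa only [relP, if_pos hc, ev_com, evalP_pmul, ev_o] using h.gk' c hc
      · simp only [relP, if_neg hc]
    | Du => simpa [relP, ev_com, evalP_pmul] using h.Du
    | Du' => simpa [relP, ev_com, evalP_pmul] using h.Du'
    | Dt => simpa [relP, ev_com, evalP_pmul] using h.Dt
    | DL => simpa [relP, ev_com, evalP_pmul] using h.DL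
    | DR => simpa [relP, ev_com, evalP_pmul] using h.DR
    | tu => simpa [relP, ev_com, evalP_pmul] using h.tu
    | tw a =>
      by_cases ha : a = one
      · simp [relP, ha]
      · simpa [relP, ev_com, evalP_pmul, ha] using h.tw a ha
    | Dp => simpa [relP, ev_com, evalP_pmul] using h.Dp
    | Dn => simpa [relP, ev_com, evalP_pmul] using h.Dn

end ring

end Crest.Agent.R185.Univ
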