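import Crest.Agent.R185.U6

/-!
# R185 / UNIV (7): consequences of the ring relations
-/

set_option autoImplicit false
set_option linter.unusedSimpArgs false

namespace Crest.Agent.R185.Univ

open Gn Ltr

variable {S : Type*} [Ring S] (v : Gn → S)

/-- pushing a word on the left stack -/
def pl (L : List Ltr) : S := (L.map (fun a => v (P false a))).prod
/-- pushing a word on the right stack -/
def pr (L : List Ltr) : S := (L.map (fun a => v (P true a))).prod
/-- popping a word from the right stack -/
def qr : List Ltr → S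
  | [] => 1
  | a :: L => qr L * v (Q true a)

/-- both stacks and the counters `I`, `J` are empty -/
def Om : S := wT v false * (wT v true * (wC v 0 * wC v 1))

/-- the state with given stacks -/
def St (L R : List Ltr) : S := pl v L * (pr v R * Om v)

/-- `g` or its inverse -/
def hg (b : Bool) : S := if b then v g else v g'

/-- the action of the `i`-th generator -/
def gam (b : Bool) (i : ℕ) : S := v (C' 0) ^ i * (hg v b * v (C 0) ^ i)

/-- the action of a word -/
def zz : List (ℕ × Bool) → S
  | [] => 1
  | (i, b) :: w => gam v b i * zz w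

/-- projection on `R = π` -/
def EE (π : List Ltr) : S := pr v π * (wT v true * qr v π)

/-- projection on `L = [], R = π, I = J = 0` -/
def ff (π : List Ltr) : S := wT v false * EE v π * (wC v 0 * wC v 1)

variable {v}

section basic

variable (h : RR v)
include h

theorem RR.hg_comm {y : S} (hy : Commute (v g) y) (b : Bool) : Commute (hg v b) y := by
  cases b with
  | true => exact hy
  | false =>
    change v g' * y = y * v g'
    calc v g' * y = v g' * (y * (v g * v g')) := by rw [h.gg, mul_one]
      _ = v g' * ((v g * y) * v g') := by rw [hy.eq, mul_assoc]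
      _ = (v g' * v g) * y * v g' := by simp only [mul_assoc]
      _ = y * v g' := by rw [h.gg', one_mul]

theorem RR.hg_mul (b : Bool) : hg v b * hg v (!b) = 1 := by
  cases b with
  | true => exact h.gg
  | false => exact h.gg'

theorem RR.hu (b : Bool) (i : ℕ) :
    hg v b * v (C 0) ^ i = v (C 0) ^ i * (v (C' 1) ^ i * (hg v b * v (C 1) ^ i)) := by
  have e1 : v (C' 1) ^ i * v (C 1) ^ i = 1 := pow_mul_pow_eq_one i (h.cc 1)
  have c : Commute (v (C 0)) (v (C' 1)) := h.c2 0 1 (by decide)
  have e2 : (v (C 0) * v (C' 1)) ^ i = v (C 0) ^ i * v (C' 1) ^ i := c.mul_pow i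
  have e3 := ((h.hg_comm h.guw b).pow_right i).eq
  calc hg v b * v (C 0) ^ i = hg v b * (v (C 0) ^ i * (v (C' 1) ^ i * v (C 1) ^ i)) := by
        rw [e1, mul_one]
    _ = (hg v b * (v (C 0) * v (C' 1)) ^ i) * v (C 1) ^ i := by rw [e2]; simp only [mul_assoc]
    _ = _ := by rw [e3, e2]; simp only [mul_assoc]

theorem RR.gam_mul (b : Bool) (i : ℕ) : gam v b i * gam v (!b) i = 1 := by
  have e1 : v (C' 0) ^ i * v (C 0) ^ i = 1 := pow_mul_pow_eq_one i (h.cc 0)
  have l1 : ∀ y, v (C' 0) ^ i * (v (C 0) ^ i * y) = y := fun y => by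
    rw [← mul_assoc, e1, one_mul]
  calc gam v b i * gam v (!b) i
      = v (C' 0) ^ i * (hg v b * (v (C 0) ^ i * (v (C' 0) ^ i *
          (hg v (!b) * v (C 0) ^ i)))) := by simp only [gam, mul_assoc]
    _ = v (C' 0) ^ i * (hg v b * (hg v (!b) * v (C 0) ^ i)) := by
        rw [h.hu (!b) i, l1]
    _ = 1 := by rw [← mul_assoc (hg v b), h.hg_mul, one_mul, e1]

theorem RR.gam_comm {y : S} (h1 : Commute (v g) y) (h2 : Commute (v (C 0)) y)
    (h3 : Commute (v (C' 0)) y) (b : Bool) (i : ℕ) : Commute (gam v b i) y :=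
  (h3.pow_left i).mul_left ((h.hg_comm h1 b).mul_left (h2.pow_left i))

theorem RR.zz_comm {y : S} (h1 : Commute (v g) y) (h2 : Commute (v (C 0)) y)
    (h3 : Commute (v (C' 0)) y) (w : List (ℕ × Bool)) : Commute (zz v w) y := by
  induction w with
  | nil => exact Commute.one_left y
  | cons p w ih => exact (h.gam_comm h1 h2 h3 p.2 p.1).mul_left ih

variable [Ch2 S]

theorem RR.wC_u (c : Fin 4) : wC v c * v (C c) = 0 := by
  rw [wC, add_mul, mul_assoc, h.cc, one_mul, mul_one]; ch2

theorem RR.wC_u' (c : Fin 4) : v (C' c) * wC v c = 0 := by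
  rw [wC, mul_add, ← mul_assoc, h.cc, one_mul, mul_one]; ch2

theorem RR.wC_sq (c : Fin 4) : wC v c * wC v c = wC v c := by
  nth_rw 2 [wC]
  rw [mul_add, ← mul_assoc, h.wC_u, mul_one, zero_mul, add_zero]

omit [Ch2 S] in
theorem RR.g_wC (c : Fin 4) (hc : c = 0 ∨ c = 1) : Commute (v g) (wC v c) :=
  (Commute.one_right _).add_right (h.gI c hc)

omit [Ch2 S] in
theorem RR.gam_wI (b : Bool) (i : ℕ) : Commute (gam v b i) (wC v 0) := by
  have e1 : v (C' 0) ^ i * v (C 0) ^ i = 1 := pow_mul_pow_eq_one i (h.cc 0)
  have cuw : Commute (v (C 0)) (v (C' 1)) := h.c2 0 1 (by decide)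
  have cuw2 : Commute (v (C' 0)) (v (C' 1)) := h.c3 0 1 (by decide)
  have cw : Commute (v (C 1)) (wC v 0) :=
    (Commute.one_right _).add_right ((h.c1 1 0 (by decide)).mul_right (h.c2 1 0 (by decide)))
  have cw' : Commute (v (C' 1)) (wC v 0) :=
    (Commute.one_right _).add_right ((h.c2 0 1 (by decide)).symm.mul_right (h.c3 1 0 (by decide)))
  have hh : Commute (hg v b) (wC v 0) := h.hg_comm (h.g_wC 0 (Or.inl rfl)) b
  -- `gam = w'^i h w^i`-like form
  have e2 : gam v b i = v (C' 0) ^ i * (v (C 0) ^ i * (v (C' 1) ^ i * (hg v b * v (C 1) ^ i))) := by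
    rw [gam, h.hu]
  rw [e2, ← mul_assoc, e1, one_mul]
  exact (cw'.pow_left i).mul_left (hh.mul_left (cw.pow_left i))

omit [Ch2 S] in
theorem RR.gam_wJ (b : Bool) (i : ℕ) : Commute (gam v b i) (wC v 1) :=
  h.gam_comm (h.g_wC 1 (Or.inr rfl))
    ((Commute.one_right _).add_right ((h.c1 0 1 (by decide)).mul_right (h.c2 0 1 (by decide))))
    ((Commute.one_right _).add_right ((h.c2 1 0 (by decide)).symm.mul_right (h.c3 0 1 (by decide))))
    b i

end basic

section tape

variable (h : RR v)

/-- commutes with all tape operations -/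
def TC (v : Gn → S) (y : S) : Prop := ∀ b a, Commute y (v (P b a)) ∧ Commute y (v (Q b a))

theorem TC.wT {y : S} (hy : TC v y) (b : Bool) : Commute y (wT v b) := by
  have k : ∀ a, Commute y (v (P b a) * v (Q b a)) := fun a =>
    (hy b a).1.mul_right (hy b a).2
  exact ((((Commute.one_right y).add_right (k Ltr.one)).add_right (k pos)).add_right (k neg)).add_right
    (k sep)

theorem TC.pl {y : S} (hy : TC v y) (L : List Ltr) : Commute y (pl v L) := by
  induction L with
  | nil => exact Commute.one_right y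
  | cons a L ih =>
    rw [Univ.pl, List.map_cons, List.prod_cons]; exact (hy false a).1.mul_right ih

theorem TC.pr {y : S} (hy : TC v y) (L : List Ltr) : Commute y (pr v L) := by
  induction L with
  | nil => exact Commute.one_right y
  | cons a L ih =>
    rw [Univ.pr, List.map_cons, List.prod_cons]; exact (hy true a).1.mul_right ih

theorem TC.qr {y : S} (hy : TC v y) (L : List Ltr) : Commute y (qr v L) := by
  induction L with
  | nil => exact Commute.one_right y
  | cons a L ih => exact ih.mul_right (hy true a).2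

theorem TC.T {y : S} (hy : TC v y) (a : Ltr) : Commute y (T v a) :=
  (hy false a).1.mul_right (hy true a).2

theorem TC.T' {y : S} (hy : TC v y) (a : Ltr) : Commute y (T' v a) :=
  (hy true a).1.mul_right (hy false a).2

theorem TC.EE {y : S} (hy : TC v y) (π : List Ltr) : Commute y (EE v π) :=
  (hy.pr π).mul_right ((hy.wT true).mul_right (hy.qr π))

theorem TC.mul {y z : S} (hy : TC v y) (hz : TC v z) : TC v (y * z) := fun b a =>
  ⟨(hy b a).1.mul_left (hz b a).1, (hy b a).2.mul_left (hz b a).2⟩

theorem TC.pow {y : S} (hy : TC v y) (n : ℕ) : TC v (y ^ n) := fun b a =>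
  ⟨(hy b a).1.pow_left n, (hy b a).2.pow_left n⟩

theorem TC.one_add {y : S} (hy : TC v y) : TC v (1 + y) := fun b a =>
  ⟨(Commute.one_left _).add_left (hy b a).1, (Commute.one_left _).add_left (hy b a).2⟩

/-- commutes with all operations on the right stack -/
def RC (v : Gn → S) (y : S) : Prop := ∀ a, Commute y (v (P true a)) ∧ Commute y (v (Q true a))

theorem RC.mul {y z : S} (hy : RC v y) (hz : RC v z) : RC v (y * z) := fun a =>
  ⟨(hy a).1.mul_left (hz a).1, (hy a).2.mul_left (hz a).2⟩

theorem RC.add {y z : S} (hy : RC v y) (hz : RC v z) : RC v (y + z) := fun a =>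
  ⟨(hy a).1.add_left (hz a).1, (hy a).2.add_left (hz a).2⟩

theorem RC.one : RC v (1 : S) := fun _ => ⟨Commute.one_left _, Commute.one_left _⟩

theorem RC.wT {y : S} (hy : RC v y) : Commute y (wT v true) := by
  have k : ∀ a, Commute y (v (P true a) * v (Q true a)) := fun a =>
    (hy a).1.mul_right (hy a).2
  exact ((((Commute.one_right y).add_right (k Ltr.one)).add_right (k pos)).add_right (k neg)).add_right
    (k sep)

theorem RC.pr {y : S} (hy : RC v y) (L : List Ltr) : Commute y (pr v L) := by
  induction L with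
  | nil => exact Commute.one_right y
  | cons a L ih =>
    rw [Univ.pr, List.map_cons, List.prod_cons]; exact (hy a).1.mul_right ih

theorem RC.qr {y : S} (hy : RC v y) (L : List Ltr) : Commute y (qr v L) := by
  induction L with
  | nil => exact Commute.one_right y
  | cons a L ih => exact ih.mul_right (hy a).2

theorem RC.EE {y : S} (hy : RC v y) (π : List Ltr) : Commute y (EE v π) :=
  (hy.pr π).mul_right (hy.wT.mul_right (hy.qr π))

theorem pl_cons (a : Ltr) (L : List Ltr) : pl v (a :: L) = v (P false a) * pl v L := by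
  rw [pl, List.map_cons, List.prod_cons]; rfl

theorem pr_cons (a : Ltr) (L : List Ltr) : pr v (a :: L) = v (P true a) * pr v L := by
  rw [pr, List.map_cons, List.prod_cons]; rfl

include h

theorem RR.tc (c : Fin 4) : TC v (v (C c)) := fun b a => ⟨h.cP c b a, h.cQ c b a⟩
theorem RR.tc' (c : Fin 4) : TC v (v (C' c)) := fun b a => ⟨h.c'P c b a, h.c'Q c b a⟩
theorem RR.tcw (c : Fin 4) : TC v (wC v c) := ((h.tc c).mul (h.tc' c)).one_add
theorem RR.rcP (a : Ltr) : RC v (v (P false a)) := fun a' => ⟨h.pp a a', h.pq a a'⟩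
theorem RR.rcQ (a : Ltr) : RC v (v (Q false a)) := fun a' => ⟨h.qp' a a', h.qq a a'⟩
theorem RR.rc_wT : RC v (wT v false) := by
  have k : ∀ a, RC v (v (P false a) * v (Q false a)) := fun a => (h.rcP a).mul (h.rcQ a)
  exact (((RC.one.add (k Ltr.one)).add (k pos)).add (k neg)).add (k sep)
theorem RR.rc_pl (L : List Ltr) : RC v (pl v L) := by
  induction L with
  | nil => exact RC.one
  | cons a L ih => rw [pl_cons]; exact (h.rcP a).mul ih

theorem RR.qr_pr (π : List Ltr) : qr v π * pr v π = 1 := by
  induction π with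
  | nil => simp [qr, pr]
  | cons a π ih =>
    rw [pr_cons, qr, mul_assoc, ← mul_assoc (v (Q true a)), h.qp, if_pos rfl, one_mul, ih]

theorem RR.EE_cons (a : Ltr) (π : List Ltr) : EE v (a :: π) = T' v a * (EE v π * T v a) := by
  have c1 := ((h.rcQ a).EE π).eq
  have c2 : v (Q false a) * v (P false a) = 1 := by rw [h.qp, if_pos rfl]
  calc EE v (a :: π) = v (P true a) * (EE v π * v (Q true a)) := by
        simp only [EE, pr_cons, qr, mul_assoc]
    _ = v (P true a) * (EE v π * (v (Q false a) * v (P false a) * v (Q true a))) := by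
        rw [c2, one_mul]
    _ = v (P true a) * ((EE v π * v (Q false a)) * (v (P false a) * v (Q true a))) := by
        simp only [mul_assoc]
    _ = _ := by rw [← c1]; simp only [T', T, mul_assoc]

theorem RR.g_EE (π : List Ltr) : Commute (v g) (EE v π) := by
  induction π with
  | nil => simpa [EE, pr, qr] using h.gL true
  | cons a π ih => rw [h.EE_cons]; exact (h.gt' a).mul_right (ih.mul_right (h.gt a))

theorem RR.g_ff (π : List Ltr) : Commute (v g) (wT v false * EE v π) :=
  (h.gL false).mul_right (h.g_EE π)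

theorem RR.gam_ff (b : Bool) (i : ℕ) (π : List Ltr) : Commute (gam v b i) (ff v π) :=
  (h.gam_comm (h.g_ff π) (((h.tc 0).wT false).mul_right ((h.tc 0).EE π))
    (((h.tc' 0).wT false).mul_right ((h.tc' 0).EE π)) b i).mul_right
    ((h.gam_wI b i).mul_right (h.gam_wJ b i))

/-- `ff` commutes with the counters `K` and `N` -/
theorem RR.cn_ff (c : Fin 4) (hc : c = 2 ∨ c = 3) (π : List Ltr) : Commute (v (C c)) (ff v π) := by
  have n0 : c ≠ 0 := by rcases hc with rfl | rfl <;> decide
  have n1 : c ≠ 1 := by rcases hc with rfl | rfl <;> decide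
  refine (((h.tc c).wT false).mul_right ((h.tc c).EE π)).mul_right (Commute.mul_right ?_ ?_)
  · exact (Commute.one_right _).add_right ((h.c1 c 0 n0).mul_right (h.c2 c 0 n0))
  · exact (Commute.one_right _).add_right ((h.c1 c 1 n1).mul_right (h.c2 c 1 n1))

theorem RR.cn'_ff (c : Fin 4) (hc : c = 2 ∨ c = 3) (π : List Ltr) :
    Commute (v (C' c)) (ff v π) := by
  have n0 : c ≠ 0 := by rcases hc with rfl | rfl <;> decide
  have n1 : c ≠ 1 := by rcases hc with rfl | rfl <;> decide
  refine (((h.tc' c).wT false).mul_right ((h.tc' c).EE π)).mul_right (Commute.mul_right ?_ ?_)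
  · exact (Commute.one_right _).add_right ((h.c2 0 c n0.symm).symm.mul_right (h.c3 c 0 n0))
  · exact (Commute.one_right _).add_right ((h.c2 1 c n1.symm).symm.mul_right (h.c3 c 1 n1))

theorem RR.gam_cn (b : Bool) (i : ℕ) (c : Fin 4) (hc : c = 2 ∨ c = 3) :
    Commute (gam v b i) (v (C c)) ∧ Commute (gam v b i) (v (C' c)) := by
  have n0 : (0 : Fin 4) ≠ c := by rcases hc with rfl | rfl <;> decide
  exact ⟨h.gam_comm (h.gk c hc) (h.c1 0 c n0) (h.c2 c 0 n0.symm).symm b i,
    h.gam_comm (h.gk' c hc) (h.c2 0 c n0) (h.c3 0 c n0) b i⟩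

theorem RR.gam_T (b : Bool) (i : ℕ) (a : Ltr) : Commute (gam v b i) (T v a) :=
  h.gam_comm (h.gt a) ((h.tc 0).T a) ((h.tc' 0).T a) b i

theorem RR.zz_T (w : List (ℕ × Bool)) (a : Ltr) : Commute (zz v w) (T v a) :=
  h.zz_comm (h.gt a) ((h.tc 0).T a) ((h.tc' 0).T a) w

theorem RR.zz_T' (w : List (ℕ × Bool)) (a : Ltr) : Commute (zz v w) (T' v a) :=
  h.zz_comm (h.gt' a) ((h.tc 0).T' a) ((h.tc' 0).T' a) w

variable [Ch2 S]

theorem RR.wT_sq (b : Bool) : wT v b * wT v b = wT v b := by
  have k : ∀ a a' y, v (Q b a) * (v (P b a') * y) = if a = a' then y else 0 := by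
    intro a a' y; rw [← mul_assoc, h.qp]; split_ifs <;> simp
  simp only [wT, mul_add, add_mul, mul_one, one_mul, mul_assoc, k]
  simp only [if_true, reduceCtorEq, if_false, mul_zero, add_zero, zero_add]
  ch2

theorem RR.EE_sq (π : List Ltr) : EE v π * EE v π = EE v π := by
  calc EE v π * EE v π = pr v π * (wT v true * ((qr v π * pr v π) * (wT v true * qr v π))) := by
        simp only [EE, mul_assoc]
    _ = pr v π * ((wT v true * wT v true) * qr v π) := by rw [h.qr_pr, one_mul, mul_assoc]
    _ = _ := by rw [h.wT_sq, EE]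

theorem RR.ff_sq (π : List Ltr) : ff v π * ff v π = ff v π := by
  have c1 : Commute (wT v false) (EE v π) := h.rc_wT.EE π
  have c2 : Commute (wC v 0 * wC v 1) (wT v false * EE v π) :=
    (((h.tcw 0).mul (h.tcw 1)).wT false).mul_right (((h.tcw 0).mul (h.tcw 1)).EE π)
  have c3 : Commute (wC v 0) (wC v 1) := by
    have k0 : Commute (v (C 0)) (wC v 1) := (Commute.one_right _).add_right
      ((h.c1 0 1 (by decide)).mul_right (h.c2 0 1 (by decide)))
    have k1 : Commute (v (C' 0)) (wC v 1) := (Commute.one_right _).add_right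
      ((h.c2 1 0 (by decide)).symm.mul_right (h.c3 0 1 (by decide)))
    exact (Commute.one_left _).add_left (k0.mul_left k1)
  have s1 : (wT v false * EE v π) * (wT v false * EE v π) = wT v false * EE v π := by
    calc _ = wT v false * ((EE v π * wT v false) * EE v π) := by simp only [mul_assoc]
      _ = (wT v false * wT v false) * (EE v π * EE v π) := by rw [← c1.eq]; simp only [mul_assoc]
      _ = _ := by rw [h.wT_sq, h.EE_sq]
  have s2 : (wC v 0 * wC v 1) * (wC v 0 * wC v 1) = wC v 0 * wC v 1 := by
    calc _ = wC v 0 * ((wC v 1 * wC v 0) * wC v 1) := by simp only [mul_assoc]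
      _ = (wC v 0 * wC v 0) * (wC v 1 * wC v 1) := by rw [← c3.eq]; simp only [mul_assoc]
      _ = _ := by rw [h.wC_sq, h.wC_sq]
  calc ff v π * ff v π = (wT v false * EE v π) * ((wC v 0 * wC v 1) * (wT v false * EE v π)) *
        (wC v 0 * wC v 1) := by simp only [ff, mul_assoc]
    _ = ((wT v false * EE v π) * (wT v false * EE v π)) * ((wC v 0 * wC v 1) *
        (wC v 0 * wC v 1)) := by rw [c2.eq]; simp only [mul_assoc]
    _ = ff v π := by rw [s1, s2, ff]

end tape

section relator

variable (h : RR v)
include h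

theorem RR.T_St (a : Ltr) (L R : List Ltr) : T v a * St v L (a :: R) = St v (a :: L) R := by
  have c1 := ((h.rc_pl L) a).2.eq
  have c2 : v (Q true a) * v (P true a) = 1 := by rw [h.qp, if_pos rfl]
  calc T v a * St v L (a :: R)
      = v (P false a) * ((v (Q true a) * pl v L) * (v (P true a) * (pr v R * Om v))) := by
        simp only [T, St, pr_cons, mul_assoc]
    _ = v (P false a) * (pl v L * ((v (Q true a) * v (P true a)) * (pr v R * Om v))) := by
        rw [← c1]; simp only [mul_assoc]
    _ = _ := by rw [c2, one_mul, St, pl_cons, mul_assoc]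

theorem RR.T'_St (a : Ltr) (L R : List Ltr) : T' v a * St v (a :: L) R = St v L (a :: R) := by
  have c1 := ((h.rc_pl L) a).1.eq
  have c2 : v (Q false a) * v (P false a) = 1 := by rw [h.qp, if_pos rfl]
  calc T' v a * St v (a :: L) R
      = v (P true a) * ((v (Q false a) * v (P false a)) * (pl v L * (pr v R * Om v))) := by
        simp only [T', St, pl_cons, mul_assoc]
    _ = (v (P true a) * pl v L) * (pr v R * Om v) := by rw [c2, one_mul, mul_assoc]
    _ = _ := by rw [← c1, St, pr_cons]; simp only [mul_assoc]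

theorem RR.T_one_pow (i : ℕ) (L R : List Ltr) :
    T v one ^ i * St v L (List.replicate i one ++ R) = St v (List.replicate i one ++ L) R := by
  induction i generalizing L with
  | zero => simp
  | succ i ih =>
    have : List.replicate (i + 1) one ++ L = List.replicate i one ++ (one :: L) := by
      rw [List.replicate_succ']; simp
    rw [this, ← ih, pow_succ, mul_assoc, List.replicate_succ, List.cons_append, h.T_St]

theorem RR.th_St {a : Ltr} (ha : a ≠ one) (L R : List Ltr) :
    v th * St v (a :: L) R = St v (a :: L) R := by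
  have tcw := (h.tcw 0).mul (h.tcw 1)
  have e : St v (a :: L) R =
      (wC v 0 * (wC v 1 * v (P false a))) * (pl v L * (pr v R * (wT v false * wT v true))) := by
    have c : Commute (wC v 0 * wC v 1)
        (v (P false a) * (pl v L * (pr v R * (wT v false * wT v true)))) :=
      (tcw false a).1.mul_right ((tcw.pl L).mul_right ((tcw.pr R).mul_right
        ((tcw.wT false).mul_right (tcw.wT true))))
    calc St v (a :: L) R = (v (P false a) * (pl v L * (pr v R * (wT v false * wT v true)))) *
          (wC v 0 * wC v 1) := by simp only [St, Om, pl_cons, mul_assoc]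
      _ = _ := by rw [← c.eq]; simp only [mul_assoc]
  rw [e, ← mul_assoc, h.tw a ha]

theorem RR.D_sepL (L R : List Ltr) : v D * St v (sep :: L) R = St v (sep :: L) R := by
  have : St v (sep :: L) R = v (P false sep) * (pl v L * (pr v R * Om v)) := by
    simp only [St, pl_cons, mul_assoc]
  rw [this, ← mul_assoc, h.DL]

theorem RR.D_sepR (L R : List Ltr) : v D * St v L (sep :: R) = St v L (sep :: R) := by
  have c1 := ((h.rc_pl L) sep).1.eq
  have : St v L (sep :: R) = v (P true sep) * (pl v L * (pr v R * Om v)) := by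
    rw [← mul_assoc, ← c1]; simp only [St, pr_cons, mul_assoc]
  rw [this, ← mul_assoc, h.DR]

/-- the sign letter -/
def sgn (b : Bool) : Ltr := if b then pos else neg

omit [Ring S] h in
theorem sgn_ne (b : Bool) : sgn b ≠ one := by cases b <;> decide

theorem RR.Dsgn (b : Bool) :
    v D * (T v (sgn b) * v th) = T v (sgn b) * (hg v b * (v D * v th)) := by
  cases b with
  | true => exact h.Dp
  | false => exact h.Dn

theorem RR.step {a : Ltr} (ha : a ≠ one) (L R : List Ltr) (i : ℕ) (b : Bool) {Z : S}
    (hZ : ∀ a, Commute Z (T v a))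
    (hD : v D * St v (a :: L) (List.replicate i one ++ sgn b :: R) =
      Z * St v (a :: L) (List.replicate i one ++ sgn b :: R)) :
    v D * St v (sgn b :: (List.replicate i one ++ a :: L)) R =
      (gam v b i * Z) * St v (sgn b :: (List.replicate i one ++ a :: L)) R := by
  set X := St v (a :: L) (List.replicate i one ++ sgn b :: R) with hX
  have hth : v th * X = X := h.th_St ha _ _
  have hY : St v (sgn b :: (List.replicate i one ++ a :: L)) R =
      T v (sgn b) * (T v one ^ i * X) := by rw [hX, h.T_one_pow, h.T_St]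
  set te := T v (sgn b)
  set t1 := T v one with ht1
  set u := v (C 0) with hu
  set u' := v (C' 0) with hu'
  have e1 : u' ^ i * u ^ i = 1 := pow_mul_pow_eq_one i (h.cc 0)
  have cut1 : Commute u t1 := (h.tc 0).T one
  have cut1' : Commute u' t1 := (h.tc' 0).T one
  have cute' : Commute u' te := (h.tc' 0).T _
  have cute : Commute u te := (h.tc 0).T _
  have e2 : (u * t1) ^ i = u ^ i * t1 ^ i := cut1.mul_pow i
  have cD : Commute (v D) ((u * t1) ^ i) := ((h.Du).mul_right h.Dt).pow_right i
  have cth : Commute (v th) ((u * t1) ^ i) := h.tu.pow_right i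
  have cte : Commute te (hg v b) := (h.hg_comm (h.gt _) b).symm
  have ct1 : Commute (t1 ^ i) (hg v b) := ((h.hg_comm (h.gt _) b).pow_right i).symm
  have cut : Commute (u ^ i) (t1 ^ i) := cut1.pow_pow i i
  have cD' : Commute (u' ^ i) (v D) := (h.Du'.pow_right i).symm
  rw [hY]
  -- main computation
  have m1 : v D * (te * (t1 ^ i * X)) = u' ^ i * (v D * (te * ((u * t1) ^ i * X))) := by
    calc v D * (te * (t1 ^ i * X)) = v D * (te * ((u' ^ i * u ^ i) * (t1 ^ i * X))) := by
          rw [e1, one_mul]
      _ = v D * ((te * u' ^ i) * ((u ^ i * t1 ^ i) * X)) := by simp only [mul_assoc]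
      _ = (v D * u' ^ i) * (te * ((u * t1) ^ i * X)) := by
          rw [← (cute'.pow_left i).eq, e2]; simp only [mul_assoc]
      _ = _ := by rw [← cD'.eq]; simp only [mul_assoc]
  have m2 : v D * (te * ((u * t1) ^ i * X)) = te * (hg v b * ((u * t1) ^ i * (Z * X))) := by
    calc v D * (te * ((u * t1) ^ i * X)) = v D * (te * ((u * t1) ^ i * (v th * X))) := by rw [hth]
      _ = (v D * (te * v th)) * ((u * t1) ^ i * X) := by
          rw [← mul_assoc ((u * t1) ^ i) (v th), ← cth.eq]; simp only [mul_assoc]
      _ = te * (hg v b * (v D * ((v th * (u * t1) ^ i) * X))) := by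
          rw [h.Dsgn b]; simp only [mul_assoc]; rfl
      _ = te * (hg v b * (v D * ((u * t1) ^ i * X))) := by
          rw [cth.eq, mul_assoc _ (v th), hth]
      _ = te * (hg v b * ((u * t1) ^ i * (v D * X))) := by
          rw [← mul_assoc (v D), cD.eq, mul_assoc]
      _ = _ := by rw [hD]
  rw [m1, m2]
  have cZ1 : Commute Z (t1 ^ i) := (hZ _).pow_right i
  have cZe : Commute Z te := hZ _
  calc u' ^ i * (te * (hg v b * ((u * t1) ^ i * (Z * X))))
      = (u' ^ i * te) * (hg v b * (u ^ i * (t1 ^ i * (Z * X)))) := by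
        rw [e2]; simp only [mul_assoc]
    _ = te * (u' ^ i * (hg v b * (u ^ i * (t1 ^ i * (Z * X))))) := by
        rw [(cute'.pow_left i).eq, mul_assoc]
    _ = (te * gam v b i) * ((t1 ^ i * Z) * X) := by simp only [gam, mul_assoc]; rfl
    _ = gam v b i * (te * (Z * (t1 ^ i * X))) := by
        rw [← (h.gam_T b i _).eq, ← cZ1.eq]; simp only [mul_assoc]; rfl
    _ = gam v b i * Z * (te * (t1 ^ i * X)) := by
        rw [← mul_assoc te, ← cZe.eq]; simp only [mul_assoc]

/-- code of a word -/
def enc : List (ℕ × Bool) → List Ltr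
  | [] => []
  | (i, b) :: w => enc w ++ (List.replicate i one ++ [sgn b])

omit [Ring S] h in
theorem enc_rev_head (w : List (ℕ × Bool)) (a : Ltr) (ha : a ≠ one) (L : List Ltr) :
    ∃ a' L', a' ≠ one ∧ (enc w).reverse ++ a :: L = a' :: L' := by
  cases w with
  | nil => exact ⟨a, L, ha, rfl⟩
  | cons p w =>
    obtain ⟨i, b⟩ := p
    refine ⟨sgn b, List.replicate i one ++ ((enc w).reverse ++ a :: L), sgn_ne b, ?_⟩
    simp [enc]

theorem RR.segment (w : List (ℕ × Bool)) (L R : List Ltr)
    (hD : v D * St v (sep :: L) (enc w ++ R) = St v (sep :: L) (enc w ++ R)) :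
    v D * St v ((enc w).reverse ++ sep :: L) R =
      zz v w * St v ((enc w).reverse ++ sep :: L) R := by
  induction w generalizing R with
  | nil => simpa [enc, zz] using hD
  | cons p w ih =>
    obtain ⟨i, b⟩ := p
    obtain ⟨a', L', ha', hL'⟩ := enc_rev_head w sep (by decide) L
    have e : enc ((i, b) :: w) ++ R = enc w ++ (List.replicate i one ++ sgn b :: R) := by
      simp [enc]
    rw [e] at hD
    have h1 := ih _ hD
    rw [hL'] at h1
    have h2 := h.step ha' L' R i b (h.zz_T w) h1
    have e2 : (enc ((i, b) :: w)).reverse ++ sep :: L =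
        sgn b :: (List.replicate i one ++ a' :: L') := by
      rw [← hL']; simp [enc]
    rw [e2, h2, zz]

theorem RR.seg_rel (w : List (ℕ × Bool)) (L R : List Ltr) :
    zz v w * St v ((enc w).reverse ++ sep :: L) (sep :: R) =
      St v ((enc w).reverse ++ sep :: L) (sep :: R) := by
  rw [← h.segment w L (sep :: R) (h.D_sepL _ _), h.D_sepR]

theorem RR.transport (w : List (ℕ × Bool)) (L R : List Ltr)
    (hw : zz v w * St v L R = St v L R) :
    zz v w * St v [] (L.reverse ++ R) = St v [] (L.reverse ++ R) := by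
  induction L generalizing R with
  | nil => exact hw
  | cons a L ih =>
    have := ih (a :: R) (by
      rw [← h.T'_St, ← mul_assoc, (h.zz_T' w a).eq, mul_assoc, hw])
    simpa using this

theorem RR.ff_eq (π : List Ltr) : ff v π = St v [] π * qr v π := by
  have c1 : Commute (wC v 0 * wC v 1) (qr v π) := ((h.tcw 0).mul (h.tcw 1)).qr π
  have c2 : Commute (wT v false) (pr v π) := h.rc_wT.pr π
  calc ff v π = (wT v false * pr v π) * (wT v true * (qr v π * (wC v 0 * wC v 1))) := by
        simp only [ff, EE, mul_assoc]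
    _ = _ := by
        rw [← c1.eq, c2.eq]
        simp only [St, Om, pl, List.map_nil, List.prod_nil, one_mul, mul_assoc]

/-- the relators hold in the corner -/
theorem RR.relator (w : List (ℕ × Bool)) (L R : List Ltr) :
    zz v w * ff v (L.reverse ++ (sep :: (enc w ++ sep :: R))) =
      ff v (L.reverse ++ (sep :: (enc w ++ sep :: R))) := by
  have h1 := h.transport w _ _ (h.seg_rel w L R)
  have e : ((enc w).reverse ++ sep :: L).reverse ++ sep :: R =
      L.reverse ++ (sep :: (enc w ++ sep :: R)) := by simp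
  rw [e] at h1
  rw [h.ff_eq, ← mul_assoc, h1]

end relator

end Crest.Agent.R185.Univ
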