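import Crest.Agent.R185.U7

/-!
# R185 / UNIV (8): a model of the ring relations
-/

set_option autoImplicit false
set_option linter.unusedSimpArgs false

namespace Crest.Agent.R185.Univ

open Gn Ltr

section op

variable {Y : Type*}

/-- the operator of a partial map -/
noncomputable def op (f : Y → Option Y) : Module.End (ZMod 2) (Y →₀ ZMod 2) :=
  Finsupp.linearCombination (ZMod 2) (fun y => (f y).elim 0 (fun z => Finsupp.single z 1))

theorem op_single (f : Y → Option Y) (y : Y) :
    op f (Finsupp.single y 1) = (f y).elim 0 (fun z => Finsupp.single z 1) := by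
  simp [op]

theorem end_ext {A B : Module.End (ZMod 2) (Y →₀ ZMod 2)}
    (h : ∀ y, A (Finsupp.single y 1) = B (Finsupp.single y 1)) : A = B := by
  apply Finsupp.lhom_ext
  intro y c
  have : (Finsupp.single y c : Y →₀ ZMod 2) = c • Finsupp.single y 1 := by
    rw [Finsupp.smul_single, smul_eq_mul, mul_one]
  rw [this, map_smul, map_smul, h]

theorem op_mul (f g : Y → Option Y) : op f * op g = op (fun y => (g y).bind f) := by
  apply end_ext
  intro y
  rw [Module.End.mul_apply, op_single, op_single]
  cases g y with
  | none => simp
  | some z => simp [op_single]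

theorem op_one : op (fun y : Y => some y) = 1 := by
  apply end_ext
  intro y
  rw [op_single]; rfl

theorem op_zero : op (fun _ : Y => none) = 0 := by
  apply end_ext
  intro y
  rw [op_single]; rfl

theorem op_comm {f g : Y → Option Y} (h : ∀ y, (g y).bind f = (f y).bind g) :
    Commute (op f) (op g) := by
  rw [commute_iff_eq, op_mul, op_mul]
  congr 1; funext y; exact h y

instance : Ch2 (Module.End (ZMod 2) (Y →₀ ZMod 2)) := ⟨fun r => by
  ext y z
  simp [CharTwo.add_self_eq_zero]⟩

end op

/-- configurations -/
@[ext] structure Cf (M : Type*) where
  s : Bool → List Ltr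
  n : Fin 4 → ℕ
  m : M

variable {M : Type*} [Group M]

/-- number of ones on top -/
def run : List Ltr → ℕ
  | one :: L => run L + 1
  | _ => 0

/-- the value of the left tape -/
def val (ρ : ℕ → M) : List Ltr → M
  | [] => 1
  | sep :: _ => 1
  | one :: L => val ρ L
  | pos :: L => ρ (run L) * val ρ L
  | neg :: L => (ρ (run L))⁻¹ * val ρ L

theorem val_one (L : List Ltr) : val (fun _ => (1 : M)) L = 1 := by
  induction L with
  | nil => rfl
  | cons a L ih => cases a <;> simp [val, ih]

/-- good texts -/
def Good (gen : ℕ → M) (π : List Ltr) : Prop := ∀ L R, π = L.reverse ++ sep :: R → val gen L = 1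

open Classical in
/-- the generator attached to a text -/
noncomputable def rho (gen : ℕ → M) (π : List Ltr) : ℕ → M := if Good gen π then gen else fun _ => 1

theorem val_rho (gen : ℕ → M) (L R : List Ltr) :
    val (rho gen (L.reverse ++ sep :: R)) L = 1 := by
  unfold rho
  split_ifs with h
  · exact h L R rfl
  · exact val_one L

/-- the text of a configuration -/
def Cf.text (y : Cf M) : List Ltr := (y.s false).reverse ++ y.s true

open Function (update)

/-- push -/
def push (b : Bool) (a : Ltr) (y : Cf M) : Option (Cf M) :=
  some { y with s := update y.s b (a :: y.s b) }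
/-- pop -/
def pop (b : Bool) (a : Ltr) (y : Cf M) : Option (Cf M) :=
  if (y.s b).head? = some a then some { y with s := update y.s b (y.s b).tail } else none
/-- increment -/
def inc (c : Fin 4) (y : Cf M) : Option (Cf M) :=
  some { y with n := update y.n c (y.n c + 1) }
/-- decrement -/
def dec (c : Fin 4) (y : Cf M) : Option (Cf M) :=
  if y.n c = 0 then none else some { y with n := update y.n c (y.n c - 1) }
/-- `g` -/
noncomputable def gop (gen : ℕ → M) (b : Bool) (y : Cf M) : Option (Cf M) :=
  some { y with m := (if b then rho gen y.text (y.n 0 + y.n 1)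
    else (rho gen y.text (y.n 0 + y.n 1))⁻¹) * y.m }
/-- `D` -/
noncomputable def Dop (gen : ℕ → M) (y : Cf M) : Option (Cf M) :=
  some { y with m := val (rho gen y.text) (y.s false) * y.m }
/-- `th` -/
def thop (y : Cf M) : Option (Cf M) :=
  if y.n 1 = 0 ∧ y.n 0 = run (y.s false) then some y else none

/-- the model -/
noncomputable def vM (gen : ℕ → M) : Gn → Module.End (ZMod 2) (Cf M →₀ ZMod 2)
  | .P b a => op (push b a)
  | .Q b a => op (pop b a)
  | .C c => op (inc c)
  | .C' c => op (dec c)
  | .g => op (gop gen true)
  | .g' => op (gop gen false)
  | .D => op (Dop gen)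
  | .th => op thop

variable (gen : ℕ → M)

theorem vM_wT (b : Bool) :
    wT (vM gen) b = op (fun y => if y.s b = [] then some y else none) := by
  have k : ∀ a (y : Cf M), (pop b a y).bind (push b a) =
      if (y.s b).head? = some a then some y else none := by
    intro a y
    unfold pop
    split_ifs with h
    · simp only [Option.bind_some, push, Function.update_self, Function.update_idem]
      have e : a :: (y.s b).tail = y.s b := List.cons_head?_tail h
      rw [e, Function.update_eq_self]
    · rfl
  apply end_ext
  intro y
  simp only [wT, vM, op_mul, k, LinearMap.add_apply, op_single, Module.End.one_apply]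
  cases hL : y.s b with
  | nil => simp
  | cons a L =>
    cases a <;> simp [← two_smul (ZMod 2), show (2 : ZMod 2) = 0 from rfl]

theorem vM_wC (c : Fin 4) :
    wC (vM gen) c = op (fun y => if y.n c = 0 then some y else none) := by
  have k : ∀ (y : Cf M), (dec c y).bind (inc c) = if y.n c = 0 then none else some y := by
    intro y
    unfold dec
    split_ifs with h
    · rfl
    · simp only [Option.bind_some, inc, Function.update_self, Function.update_idem]
      have e : y.n c - 1 + 1 = y.n c := by omega
      rw [e, Function.update_eq_self]
  apply end_ext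
  intro y
  simp only [wC, vM, op_mul, k, LinearMap.add_apply, op_single, Module.End.one_apply]
  by_cases hL : y.n c = 0
  · simp [hL]
  · simp [hL, ← two_smul (ZMod 2), show (2 : ZMod 2) = 0 from rfl]

omit [Group M] in
theorem m_qp (b : Bool) (a a' : Ltr) (y : Cf M) : (push b a' y).bind (pop b a) =
    if a = a' then some y else none := by
  simp only [push, Option.bind_some, pop, Function.update_self, List.head?_cons, Option.some.injEq,
    List.tail_cons, Function.update_idem, Function.update_eq_self]
  by_cases h : a = a'
  · subst h; simp
  · simp [h, Ne.symm h]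

theorem upd_tf (f : Bool → List Ltr) (x y : List Ltr) :
    update (update f true x) false y = update (update f false y) true x :=
  Function.update_comm (by decide) _ _ _

omit [Group M] in
theorem m_cc (c : Fin 4) (y : Cf M) : (inc c y).bind (dec c) = some y := by
  simp [inc, dec]

omit [Group M] in
theorem m_T (a : Ltr) (y : Cf M) : (pop true a y).bind (push false a) =
    if (y.s true).head? = some a then
      some { y with s := update (update y.s true (y.s true).tail) false (a :: y.s false) }
    else none := by
  unfold pop
  split_ifs with h
  · simp [push]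
  · rfl

omit [Group M] in
theorem m_T' (a : Ltr) (y : Cf M) : (pop false a y).bind (push true a) =
    if (y.s false).head? = some a then
      some { y with s := update (update y.s false (y.s false).tail) true (a :: y.s true) }
    else none := by
  unfold pop
  split_ifs with h
  · simp [push]
  · rfl

theorem vM_T (a : Ltr) : T (vM gen) a = op (fun y => if (y.s true).head? = some a then
      some { y with s := update (update y.s true (y.s true).tail) false (a :: y.s false) }
    else none) := by
  rw [T]; simp only [vM, op_mul, m_T]

theorem vM_T' (a : Ltr) : T' (vM gen) a = op (fun y => if (y.s false).head? = some a then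
      some { y with s := update (update y.s false (y.s false).tail) true (a :: y.s true) }
    else none) := by
  rw [T']; simp only [vM, op_mul, m_T']

/-- `g` commutes with partial maps preserving the text and `I + J` -/
theorem g_comm_of (b : Bool) (f : Cf M → Option (Cf M))
    (hf : ∀ y m, f { y with m := m } = (f y).map (fun z => { z with m := m }))
    (hf' : ∀ y z, f y = some z → z.text = y.text ∧ z.n 0 + z.n 1 = y.n 0 + y.n 1 ∧ z.m = y.m) :
    Commute (op (gop gen b)) (op f) := by
  apply op_comm
  intro y
  have e := hf y ((if b = true then rho gen y.text (y.n 0 + y.n 1)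
    else (rho gen y.text (y.n 0 + y.n 1))⁻¹) * y.m)
  have e' : (gop gen b y).bind f = f (Cf.mk y.s y.n ((if b = true then
      rho gen y.text (y.n 0 + y.n 1) else (rho gen y.text (y.n 0 + y.n 1))⁻¹) * y.m)) := rfl
  rw [e', e]
  cases hz : f y with
  | none => rfl
  | some z =>
    obtain ⟨h1, h2, h3⟩ := hf' y z hz
    simp only [Option.bind_some, Option.map_some, gop, h1, h2, h3]

omit [Group M] in
theorem m_ic (c : Fin 4) (y : Cf M) :
    (dec c y).bind (inc c) = if y.n c = 0 then none else some y := by
  unfold dec
  split_ifs with h
  · rfl
  · simp only [Option.bind_some, inc, Function.update_self, Function.update_idem]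
    have e : y.n c - 1 + 1 = y.n c := by omega
    rw [e, Function.update_eq_self]

/-- `D` commutes with partial maps preserving the text and the value -/
theorem D_comm_of (f : Cf M → Option (Cf M))
    (hf : ∀ y m, f { y with m := m } = (f y).map (fun z => { z with m := m }))
    (hf' : ∀ y z, f y = some z → z.text = y.text ∧
      (∀ ρ : ℕ → M, val ρ (z.s false) = val ρ (y.s false)) ∧ z.m = y.m) :
    Commute (op (Dop gen)) (op f) := by
  apply op_comm
  intro y
  have e := hf y (val (rho gen y.text) (y.s false) * y.m)
  have e' : (Dop gen y).bind f =
    f (Cf.mk y.s y.n (val (rho gen y.text) (y.s false) * y.m)) := rfl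
  rw [e', e]
  cases hz : f y with
  | none => rfl
  | some z =>
    obtain ⟨h1, h2, h3⟩ := hf' y z hz
    simp only [Option.bind_some, Option.map_some, Dop, h1, h2, h3]

theorem run_cons {a : Ltr} (ha : a ≠ one) (L : List Ltr) : run (a :: L) = 0 := by
  cases a <;> first | exact absurd rfl ha | rfl

omit [Group M] in
theorem text_T {y : Cf M} {a : Ltr} (h : (y.s true).head? = some a) :
    Cf.text ({ y with s := update (update y.s true (y.s true).tail) false (a :: y.s false) } : Cf M)
      = y.text := by
  have e : a :: (y.s true).tail = y.s true := List.cons_head?_tail h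
  conv_rhs => rw [Cf.text, ← e]
  simp [Cf.text]

theorem vM_RR : RR (vM gen) := by
  constructor
  case qp =>
    intro b a a'
    simp only [vM, op_mul, m_qp]
    split_ifs with h
    · exact op_one
    · exact op_zero
  case pp =>
    intro a a'
    apply op_comm; intro y
    simp [push, upd_tf]
  case pq =>
    intro a a'
    apply op_comm; intro y
    simp only [push, pop, Option.bind_some]
    by_cases h : (y.s true).head? = some a' <;> simp [h, upd_tf, push]
  case qp' =>
    intro a a'
    apply op_comm; intro y
    simp only [push, pop, Option.bind_some]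
    by_cases h : (y.s false).head? = some a <;> simp [h, upd_tf, push]
  case qq =>
    intro a a'
    apply op_comm; intro y
    simp only [push, pop, Option.bind_some]
    by_cases h : (y.s false).head? = some a <;> by_cases h' : (y.s true).head? = some a' <;>
      simp [h, h', upd_tf, pop]
  case cc =>
    intro c
    simp only [vM, op_mul, m_cc]
    exact op_one
  case cP =>
    intro c b a
    apply op_comm; intro y
    simp [push, inc]
  case cQ =>
    intro c b a
    apply op_comm; intro y
    simp only [pop, inc, Option.bind_some]
    by_cases h : (y.s b).head? = some a <;> simp [h, inc]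
  case c'P =>
    intro c b a
    apply op_comm; intro y
    simp only [push, dec, Option.bind_some]
    by_cases h : y.n c = 0 <;> simp [h, push]
  case c'Q =>
    intro c b a
    apply op_comm; intro y
    simp only [pop, dec]
    by_cases h : (y.s b).head? = some a <;> by_cases h' : y.n c = 0 <;> simp [h, h', pop, dec]
  case c1 =>
    intro c c' hc
    apply op_comm; intro y
    simp only [inc, Option.bind_some, Option.some.injEq, Cf.mk.injEq, true_and, and_true]
    rw [Function.update_of_ne hc, Function.update_of_ne hc.symm, Function.update_comm hc]
  case c2 =>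
    intro c c' hc
    apply op_comm; intro y
    simp only [inc, dec, Option.bind_some, Function.update_of_ne hc.symm]
    by_cases h : y.n c' = 0
    · simp [h]
    · simp only [h, if_false, Option.bind_some, Function.update_of_ne hc, Function.update_comm hc,
        inc]
  case c3 =>
    intro c c' hc
    apply op_comm; intro y
    simp only [dec]
    by_cases h : y.n c = 0 <;> by_cases h' : y.n c' = 0 <;>
      simp [h, h', Function.update_of_ne hc, Function.update_of_ne hc.symm, dec]
    exact (Function.update_comm hc _ _ _).symm
  case gg =>
    have : ∀ y : Cf M, (gop gen false y).bind (gop gen true) = some y := by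
      intro y; simp [gop, Cf.text]
    simp only [vM, op_mul, this]; exact op_one
  case gg' =>
    have : ∀ y : Cf M, (gop gen true y).bind (gop gen false) = some y := by
      intro y; simp [gop, Cf.text]
    simp only [vM, op_mul, this]; exact op_one
  case gt =>
    intro a
    rw [vM_T]
    apply g_comm_of
    · intro y m
      split_ifs with h <;> rfl
    · intro y z
      split_ifs with h
      · intro hz
        obtain rfl := Option.some.inj hz
        refine ⟨?_, rfl, rfl⟩
        have e : a :: (y.s true).tail = y.s true := List.cons_head?_tail h
        conv_rhs => rw [Cf.text, ← e]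
        simp [Cf.text]
      · intro hz; cases hz
  case gt' =>
    intro a
    rw [vM_T']
    apply g_comm_of
    · intro y m
      split_ifs with h <;> rfl
    · intro y z
      split_ifs with h
      · intro hz
        obtain rfl := Option.some.inj hz
        refine ⟨?_, rfl, rfl⟩
        have e : a :: (y.s false).tail = y.s false := List.cons_head?_tail h
        conv_rhs => rw [Cf.text, ← e]
        simp [Cf.text]
      · intro hz; cases hz
  case gL =>
    intro b
    rw [vM_wT]
    apply g_comm_of
    · intro y m
      split_ifs with h <;> rfl
    · intro y z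
      split_ifs with h
      · intro hz
        obtain rfl := Option.some.inj hz
        exact ⟨rfl, rfl, rfl⟩
      · intro hz; cases hz
  case gI =>
    intro c hc
    simp only [vM, op_mul, m_ic]
    apply g_comm_of
    · intro y m
      split_ifs with h <;> rfl
    · intro y z
      split_ifs with h
      · intro hz; cases hz
      · intro hz
        obtain rfl := Option.some.inj hz
        exact ⟨rfl, rfl, rfl⟩
  case guw =>
    simp only [vM, op_mul]
    apply g_comm_of
    · intro y m
      simp only [dec, inc]
      split_ifs with h <;> rfl
    · intro y z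
      simp only [dec]
      split_ifs with h
      · intro hz; cases hz
      · intro hz
        obtain rfl := Option.some.inj hz
        refine ⟨rfl, ?_, rfl⟩
        simp
        omega
  case gk =>
    intro c hc
    have n0 : (0 : Fin 4) ≠ c := by rcases hc with rfl | rfl <;> decide
    have n1 : (1 : Fin 4) ≠ c := by rcases hc with rfl | rfl <;> decide
    apply g_comm_of
    · intro y m; rfl
    · intro y z hz
      obtain rfl := Option.some.inj hz
      exact ⟨rfl, by simp [n0, n1], rfl⟩
  case gk' =>
    intro c hc
    have n0 : (0 : Fin 4) ≠ c := by rcases hc with rfl | rfl <;> decide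
    have n1 : (1 : Fin 4) ≠ c := by rcases hc with rfl | rfl <;> decide
    apply g_comm_of
    · intro y m
      simp only [dec]
      split_ifs with h <;> rfl
    · intro y z
      simp only [dec]
      split_ifs with h
      · intro hz; cases hz
      · intro hz
        obtain rfl := Option.some.inj hz
        exact ⟨rfl, by simp [n0, n1], rfl⟩
  case Du =>
    apply D_comm_of
    · intro y m; rfl
    · intro y z hz
      obtain rfl := Option.some.inj hz
      exact ⟨rfl, fun _ => rfl, rfl⟩
  case Du' =>
    apply D_comm_of
    · intro y m
      simp only [dec]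
      split_ifs with h <;> rfl
    · intro y z
      simp only [dec]
      split_ifs with h
      · intro hz; cases hz
      · intro hz
        obtain rfl := Option.some.inj hz
        exact ⟨rfl, fun _ => rfl, rfl⟩
  case Dt =>
    rw [vM_T]
    apply D_comm_of
    · intro y m
      split_ifs with h <;> rfl
    · intro y z
      split_ifs with h
      · intro hz
        obtain rfl := Option.some.inj hz
        refine ⟨?_, ?_, rfl⟩
        · have e : one :: (y.s true).tail = y.s true := List.cons_head?_tail h
          conv_rhs => rw [Cf.text, ← e]
          simp [Cf.text]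
        · intro ρ; simp [val]
      · intro hz; cases hz
  case DL =>
    simp only [vM, op_mul]
    congr 1; funext y
    simp [push, Dop, val]
  case DR =>
    simp only [vM, op_mul]
    congr 1; funext y
    simp [push, Dop, val, Cf.text, val_rho]
  case tu =>
    rw [vM_T]
    simp only [vM, op_mul]
    apply op_comm
    intro y
    by_cases h : (y.s true).head? = some one
    · by_cases h1 : y.n 1 = 0 ∧ y.n 0 = run (y.s false)
      · simp [h, h1, thop, inc, run]
      · have h2 : ¬ (y.n 1 = 0 ∧ y.n 0 + 1 = run (y.s false) + 1) := by
          rintro ⟨a1, a2⟩; exact h1 ⟨a1, by omega⟩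
        simp only [h, if_true, Option.bind_some, inc, thop, if_neg h1, Option.bind_none]
        simp only [Function.update_self, run]
        rw [if_neg]
        simpa using h2
    · by_cases h1 : y.n 1 = 0 ∧ y.n 0 = run (y.s false)
      · simp [h, h1, thop, inc, run]
      · simp [h, h1, thop, inc, run]
  case tw =>
    intro a ha
    rw [vM_wC, vM_wC]
    simp only [vM, op_mul]
    congr 1; funext y
    simp only [push, Option.bind_some]
    by_cases h1 : y.n 1 = 0
    · by_cases h0 : y.n 0 = 0
      · simp [h1, h0, thop, run_cons ha]
      · simp [h1, h0]
    · simp [h1]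
  case Dp =>
    rw [vM_T]
    simp only [vM, op_mul]
    congr 1; funext y
    by_cases h1 : y.n 1 = 0 ∧ y.n 0 = run (y.s false)
    · by_cases h : (y.s true).head? = some pos
      · have ht := text_T h
        have e1 : thop y = some y := if_pos h1
        simp only [e1, Option.bind_some, h, if_true, Dop, gop]
        rw [ht]
        simp [Cf.text, h1, h, val, mul_assoc]
      · have e1 : thop y = some y := if_pos h1
        simp [e1, h, Dop, gop]
    · have e1 : thop y = none := if_neg h1
      simp [e1]
  case Dn =>
    rw [vM_T]
    simp only [vM, op_mul]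
    congr 1; funext y
    by_cases h1 : y.n 1 = 0 ∧ y.n 0 = run (y.s false)
    · by_cases h : (y.s true).head? = some neg
      · have ht := text_T h
        have e1 : thop y = some y := if_pos h1
        simp only [e1, Option.bind_some, h, if_true, Dop, gop]
        rw [ht]
        simp [Cf.text, h1, h, val, mul_assoc]
      · have e1 : thop y = some y := if_pos h1
        simp [e1, h, Dop, gop]
    · have e1 : thop y = none := if_neg h1
      simp [e1]

/-- value of a word -/
def wv : List (ℕ × Bool) → M
  | [] => 1
  | (i, b) :: w => (if b then gen i else (gen i)⁻¹) * wv w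

omit [Group M] in
theorem inc_pow (c : Fin 4) (i : ℕ) (y : Cf M) :
    (op (inc c) ^ i) (Finsupp.single y 1) =
      Finsupp.single { y with n := update y.n c (y.n c + i) } 1 := by
  induction i with
  | zero => simp
  | succ i ih =>
    rw [pow_succ', Module.End.mul_apply, ih, op_single]
    simp [inc, add_assoc]

theorem gam_single (b : Bool) (i : ℕ) (y : Cf M) :
    gam (vM gen) b i (Finsupp.single y 1) =
      Finsupp.single { y with m := (if b then rho gen y.text (y.n 0 + i + y.n 1)
        else (rho gen y.text (y.n 0 + i + y.n 1))⁻¹) * y.m } 1 := by
  have e1 : (vM gen (C' 0)) ^ i * (vM gen (C 0)) ^ i = 1 :=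
    pow_mul_pow_eq_one i ((vM_RR gen).cc 0)
  have e2 : hg (vM gen) b ((vM gen (C 0) ^ i) (Finsupp.single y 1)) =
      (vM gen (C 0) ^ i) (Finsupp.single { y with
        m := (if b then rho gen y.text (y.n 0 + i + y.n 1)
        else (rho gen y.text (y.n 0 + i + y.n 1))⁻¹) * y.m } 1) := by
    change hg (vM gen) b ((op (inc 0) ^ i) (Finsupp.single y 1)) = (op (inc 0) ^ i) _
    rw [inc_pow, inc_pow]
    have e3 : hg (vM gen) b = op (gop gen b) := by cases b <;> rfl
    rw [e3, op_single]
    simp [gop, Cf.text]
  have e4 : gam (vM gen) b i (Finsupp.single y 1) = (vM gen (C' 0) ^ i)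
      (hg (vM gen) b ((vM gen (C 0) ^ i) (Finsupp.single y 1))) := rfl
  rw [e4, e2, ← Module.End.mul_apply, e1, Module.End.one_apply]

theorem zz_single (w : List (ℕ × Bool)) (y : Cf M) (hy : Good gen y.text) (h0 : y.n 0 = 0)
    (h1 : y.n 1 = 0) :
    zz (vM gen) w (Finsupp.single y 1) = Finsupp.single { y with m := wv gen w * y.m } 1 := by
  induction w with
  | nil => simp [zz, wv]
  | cons p w ih =>
    obtain ⟨i, b⟩ := p
    rw [zz, Module.End.mul_apply, ih, gam_single]
    have : rho gen y.text = gen := by rw [rho, if_pos hy]
    simp only [h0, h1, zero_add, add_zero, wv]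
    have e : Cf.text ({ y with m := wv gen w * y.m } : Cf M) = y.text := rfl
    rw [e, this, mul_assoc]

theorem pr_single (π : List Ltr) (y : Cf M) :
    pr (vM gen) π (Finsupp.single y 1) =
      Finsupp.single { y with s := update y.s true (π ++ y.s true) } 1 := by
  induction π with
  | nil => simp [pr]
  | cons a π ih =>
    rw [pr_cons, Module.End.mul_apply, ih]
    change op (push true a) _ = _
    rw [op_single]
    simp [push]

theorem qr_single (π : List Ltr) (l : List Ltr) (s : Bool → List Ltr) (n : Fin 4 → ℕ) (m : M)
    (hs : s true = π ++ l) :
    qr (vM gen) π (Finsupp.single ⟨s, n, m⟩ 1) =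
      Finsupp.single ⟨update s true l, n, m⟩ 1 := by
  induction π generalizing s with
  | nil =>
    have : update s true l = s := by rw [← (show s true = l from hs), Function.update_eq_self]
    simp [qr, this]
  | cons a π ih =>
    rw [qr, Module.End.mul_apply]
    have e : vM gen (Q true a) (Finsupp.single (⟨s, n, m⟩ : Cf M) 1) =
        Finsupp.single ⟨update s true (π ++ l), n, m⟩ 1 := by
      change op (pop true a) _ = _
      rw [op_single]
      simp [pop, hs]
    rw [e, ih (update s true (π ++ l)) (by simp)]
    simp

theorem wC_single (c : Fin 4) (y : Cf M) (hy : y.n c = 0) :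
    wC (vM gen) c (Finsupp.single y 1) = Finsupp.single y 1 := by
  rw [vM_wC, op_single, if_pos hy]; rfl

theorem wT_single (b : Bool) (y : Cf M) (hy : y.s b = []) :
    wT (vM gen) b (Finsupp.single y 1) = Finsupp.single y 1 := by
  rw [vM_wT, op_single, if_pos hy]; rfl

/-- the base configuration -/
def y0 (π : List Ltr) (m : M) : Cf M := ⟨fun b => if b then π else [], fun _ => 0, m⟩

theorem ff_single (π : List Ltr) (m : M) :
    ff (vM gen) π (Finsupp.single (y0 π m) 1) = Finsupp.single (y0 π m) 1 := by
  have e : ff (vM gen) π (Finsupp.single (y0 π m) 1) =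
    wT (vM gen) false (pr (vM gen) π (wT (vM gen) true (qr (vM gen) π (wC (vM gen) 0
      (wC (vM gen) 1 (Finsupp.single (y0 π m) 1)))))) := rfl
  rw [e, wC_single gen 1 _ rfl, wC_single gen 0 _ rfl]
  have e1 := qr_single gen π [] (y0 π m).s (y0 π m).n (y0 π m).m (by simp [y0])
  have e2 : (⟨(y0 π m).s, (y0 π m).n, (y0 π m).m⟩ : Cf M) = y0 π m := rfl
  rw [e2] at e1
  rw [e1, wT_single gen true _ (by simp), pr_single]
  have e3 : update (update (y0 π m).s true []) true
      (π ++ update (y0 π m).s true [] true) = (y0 π m).s := by
    simp only [Function.update_self, List.append_nil, Function.update_idem]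
    exact Function.update_eq_self true (y0 π m).s
  have e4 : (Cf.mk (update (update (y0 π m).s true []) true
      (π ++ update (y0 π m).s true [] true)) (y0 π m).n (y0 π m).m) = y0 π m := by rw [e3]
  change wT (vM gen) false (Finsupp.single (Cf.mk (update (update (y0 π m).s true []) true
      (π ++ update (y0 π m).s true [] true)) (y0 π m).n (y0 π m).m) 1) = _
  rw [e4, wT_single gen false _ rfl]

/-- a text containing all relators -/
def textOf : List (List (ℕ × Bool)) → List Ltr
  | [] => [sep]
  | w :: ws => sep :: (enc w ++ textOf ws)

theorem textOf_mem {w : List (ℕ × Bool)} {ws : List (List (ℕ × Bool))} (hw : w ∈ ws) :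
    ∃ L R : List Ltr, textOf ws = L.reverse ++ (sep :: (enc w ++ sep :: R)) := by
  induction ws with
  | nil => simp at hw
  | cons w' ws ih =>
    rcases List.mem_cons.1 hw with rfl | hw
    · refine ⟨[], (textOf ws).tail, ?_⟩
      have : ∀ ws, textOf ws = sep :: (textOf ws).tail := by
        intro ws; cases ws <;> rfl
      rw [textOf, ← this]; rfl
    · obtain ⟨L, R, h⟩ := ih hw
      refine ⟨L ++ ((enc w').reverse ++ [sep]), R, ?_⟩
      rw [textOf, h]; simp

theorem val_rep (i : ℕ) (X : List Ltr) : val gen (List.replicate i one ++ X) = val gen X := by
  induction i with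
  | zero => rfl
  | succ i ih => rw [List.replicate_succ, List.cons_append, val, ih]

theorem run_rep (i : ℕ) (X : List Ltr) : run (List.replicate i one ++ X) = i + run X := by
  induction i with
  | zero => simp
  | succ i ih => rw [List.replicate_succ, List.cons_append, run, ih]; omega

theorem val_enc (w : List (ℕ × Bool)) (L : List Ltr) :
    val gen ((enc w).reverse ++ sep :: L) = wv gen w := by
  induction w with
  | nil => rfl
  | cons p w ih =>
    obtain ⟨i, b⟩ := p
    have e : (enc ((i, b) :: w)).reverse ++ sep :: L =
        sgn b :: (List.replicate i one ++ ((enc w).reverse ++ sep :: L)) := by simp [enc]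
    obtain ⟨a', L', ha', hL'⟩ := enc_rev_head w sep (by decide) L
    have hr : run ((enc w).reverse ++ sep :: L) = 0 := by rw [hL', run_cons ha']
    rw [e, wv]
    cases b with
    | true =>
      change gen (run _) * val gen _ = _
      rw [run_rep, hr, val_rep, ih]; rfl
    | false =>
      change (gen (run _))⁻¹ * val gen _ = _
      rw [run_rep, hr, val_rep, ih]; rfl

theorem sep_enc (w : List (ℕ × Bool)) : sep ∉ enc w := by
  induction w with
  | nil => simp [enc]
  | cons p w ih =>
    obtain ⟨i, b⟩ := p
    have : sep ≠ sgn b := by cases b <;> decide
    simp [enc, ih, this]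

theorem textOf_split (ws : List (List (ℕ × Bool))) (A R : List Ltr)
    (h : textOf ws = A ++ sep :: R) :
    A = [] ∨ ∃ w ∈ ws, ∃ A', A = A' ++ sep :: enc w := by
  induction ws generalizing A with
  | nil =>
    left
    have := congrArg List.length h
    simp [textOf] at this
    exact List.length_eq_zero_iff.1 (by omega)
  | cons w ws ih =>
    cases A with
    | nil => exact Or.inl rfl
    | cons a A =>
      right
      rw [textOf, List.cons_append] at h
      obtain ⟨rfl, h2⟩ := List.cons.inj h
      have key : ∀ B, A = enc w ++ B → textOf ws = B ++ sep :: R →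
          ∃ w' ∈ w :: ws, ∃ A', sep :: A = A' ++ sep :: enc w' := by
        intro B hB hB'
        rcases ih B hB' with rfl | ⟨w', hw', A', rfl⟩
        · exact ⟨w, List.mem_cons_self, [], by simp [hB]⟩
        · exact ⟨w', List.mem_cons_of_mem _ hw', sep :: (enc w ++ A'), by simp [hB]⟩
      rcases List.append_eq_append_iff.1 h2 with ⟨B, hB, hB'⟩ | ⟨B, hB, hB'⟩
      · exact key B hB hB'
      · cases B with
        | nil =>
          refine key [] ?_ ?_
          · simpa using hB.symm
          · simpa using hB'.symm
        | cons c B =>
          obtain ⟨rfl, _⟩ := List.cons.inj hB'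
          exact absurd (by rw [hB]; simp) (sep_enc w)

theorem good_textOf (ws : List (List (ℕ × Bool))) (h : ∀ w ∈ ws, wv gen w = 1) :
    Good gen (textOf ws) := by
  intro L R hLR
  rcases textOf_split ws _ R hLR with h0 | ⟨w, hw, A', hA⟩
  · have : L = [] := by simpa using h0
    rw [this]; rfl
  · have : L = (enc w).reverse ++ sep :: A'.reverse := by
      rw [← List.reverse_reverse L, hA]; simp
    rw [this, val_enc, h w hw]

end Crest.Agent.R185.Univ
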