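import Crest.Agent.R185.U8

/-!
# R185 / UNIV (9): the universal group
-/

set_option autoImplicit false
set_option linter.unusedSimpArgs false

namespace Crest.Agent.R185.Univ

open scoped commutatorElement
open Matrix

section elem

variable {S : Type*} [Ring S] [Ch2 S]

instance : Ch2 (Matrix (Fin 5) (Fin 5) S) := ⟨fun A => by
  ext i j; exact two_self _⟩

theorem el_aux {i j : Fin 5} (h : i ≠ j) (r : S) :
    (1 + single i j r) * (1 + single i j r) = (1 : Matrix (Fin 5) (Fin 5) S) := by
  rw [mul_add, add_mul, add_mul, single_mul_single_of_ne _ _ _ _ h.symm]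
  simp only [one_mul, mul_one, add_zero]
  rw [add_assoc, two_self, add_zero]

/-- elementary matrix -/
def el (i j : Fin 5) (r : S) : (Matrix (Fin 5) (Fin 5) S)ˣ :=
  if h : i ≠ j then ⟨1 + single i j r, 1 + single i j r, el_aux h r, el_aux h r⟩ else 1

theorem el_val {i j : Fin 5} (h : i ≠ j) (r : S) : (el i j r).1 = 1 + single i j r := by
  rw [el, dif_pos h]

theorem el_inj {i j : Fin 5} (h : i ≠ j) {r s : S} (e : el i j r = el i j s) : r = s := by
  have h1 := congrArg Units.val e
  rw [el_val h, el_val h] at h1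
  have h2 := congrFun (congrFun h1 i) j
  simpa [Matrix.add_apply, h] using h2

theorem comm_of_eq {G : Type*} [Group G] {a b c : G} (h : a * b = c * (b * a)) : ⁅a, b⁆ = c := by
  rw [commutatorElement_def, h]; group

theorem el_stein : Stein (el (S := S)) where
  two := two_self
  add i j r s h := by
    apply Units.ext
    rw [Units.val_mul, el_val h, el_val h, el_val h, single_add, mul_add, add_mul, add_mul,
      single_mul_single_of_ne _ _ _ _ h.symm]
    simp only [one_mul, mul_one, add_zero]
    rw [add_assoc]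
  comm i j k l r s h1 h2 h3 h4 := by
    apply Units.ext
    rw [Units.val_mul, Units.val_mul, el_val h1, el_val h2, mul_add, add_mul, add_mul, mul_add,
      add_mul, add_mul, single_mul_single_of_ne _ _ _ _ h3, single_mul_single_of_ne _ _ _ _ h4.symm]
    simp only [one_mul, mul_one, add_zero]
    abel
  mul i j k r s h1 h2 h3 := by
    apply comm_of_eq
    apply Units.ext
    rw [Units.val_mul, Units.val_mul, Units.val_mul, el_val h1, el_val h2, el_val h3]
    have e1 : (single j k s * single i j r : Matrix (Fin 5) (Fin 5) S) = 0 :=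
      single_mul_single_of_ne _ _ _ _ h3.symm _
    have e2 : (single i k (r * s) * single i j r : Matrix (Fin 5) (Fin 5) S) = 0 :=
      single_mul_single_of_ne _ _ _ _ h3.symm _
    have e3 : (single i k (r * s) * single j k s : Matrix (Fin 5) (Fin 5) S) = 0 :=
      single_mul_single_of_ne _ _ _ _ h2.symm _
    have e4 : (single i j r * single j k s : Matrix (Fin 5) (Fin 5) S) = single i k (r * s) :=
      single_mul_single_same _ _ _ _ _
    simp only [mul_add, add_mul, one_mul, mul_one, e1, e2, e3, e4, add_zero]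
    abel

end elem

section family

variable {G : Type*} [Group G] {R : Type*} [Ring R] {x : Fin 5 → Fin 5 → R → G} {X : Type*}

theorem Stein.base (S : Stein x) (v : X → R) : Base (fun i j (a : Option X) => x i j (a.elim 1 v)) where
  sq i j a h := S.sq _ h
  comm i j k l a b h1 h2 h3 h4 := S.comm _ _ _ _ _ _ h1 h2 h3 h4
  mulr i j k a h1 h2 h3 := by
    have := S.mul i j k (a.elim 1 v) 1 h1 h2 h3
    rwa [mul_one] at this
  mull i j k a h1 h2 h3 := by
    have := S.mul i j k 1 (a.elim 1 v) h1 h2 h3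
    rwa [one_mul] at this

theorem Stein.W (S : Stein x) (v : X → R) (w : List X) {i j : Fin 5} (h : i ≠ j) :
    Univ.W (fun i j (a : Option X) => x i j (a.elim 1 v)) w i j = x i j (w.map v).prod := by
  induction w generalizing i j with
  | nil => rfl
  | cons a w ih =>
    obtain ⟨h1, h2⟩ := ax_ne i j
    rw [Univ.W, ih h2, List.map_cons, List.prod_cons]
    exact S.mul _ _ _ _ _ h1 h2 h

theorem Stein.psi (S : Stein x) (v : X → R) (p : Poly X) {i j : Fin 5} (h : i ≠ j) :
    Univ.psi (fun i j (a : Option X) => x i j (a.elim 1 v)) i j p = x i j (evalP v p) := by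
  induction p with
  | nil => simp [S.zero h]
  | cons w p ih => rw [psi_cons, S.W v w h, ih, evalP_cons, S.add _ _ _ _ h]

end family

/-- group generators -/
abbrev Lt := Fin 5 × Fin 5 × Option Gn

/-- group generators, in the free group -/
def fx (i j : Fin 5) (a : Option Gn) : FreeGroup Lt := FreeGroup.of (i, j, a)

/-- relators -/
def rsq (p : Lt) : FreeGroup Lt :=
  if p.1 = p.2.1 then fx p.1 p.2.1 p.2.2 else fx p.1 p.2.1 p.2.2 * fx p.1 p.2.1 p.2.2
/-- relators -/
def rcm (p : Lt × Lt) : FreeGroup Lt :=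
  if p.1.1 ≠ p.1.2.1 ∧ p.2.1 ≠ p.2.2.1 ∧ p.1.2.1 ≠ p.2.1 ∧ p.1.1 ≠ p.2.2.1 then
    ⁅fx p.1.1 p.1.2.1 p.1.2.2, fx p.2.1 p.2.2.1 p.2.2.2⁆ else 1
/-- relators -/
def rmr (p : Fin 5 × Fin 5 × Fin 5 × Option Gn) : FreeGroup Lt :=
  if p.1 ≠ p.2.1 ∧ p.2.1 ≠ p.2.2.1 ∧ p.1 ≠ p.2.2.1 then
    ⁅fx p.1 p.2.1 p.2.2.2, fx p.2.1 p.2.2.1 none⁆ * (fx p.1 p.2.2.1 p.2.2.2)⁻¹ else 1
/-- relators -/
def rml (p : Fin 5 × Fin 5 × Fin 5 × Option Gn) : FreeGroup Lt :=
  if p.1 ≠ p.2.1 ∧ p.2.1 ≠ p.2.2.1 ∧ p.1 ≠ p.2.2.1 then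
    ⁅fx p.1 p.2.1 none, fx p.2.1 p.2.2.1 p.2.2.2⁆ * (fx p.1 p.2.2.1 p.2.2.2)⁻¹ else 1
/-- relators -/
def rrg (p : Fin 5 × Fin 5 × RI) : FreeGroup Lt :=
  if p.1 ≠ p.2.1 then
    psi fx p.1 p.2.1 (relP p.2.2).1 * (psi fx p.1 p.2.1 (relP p.2.2).2)⁻¹ else 1

/-- all relators -/
def grels : Set (FreeGroup Lt) :=
  Set.range rsq ∪ Set.range rcm ∪ Set.range rmr ∪ Set.range rml ∪ Set.range rrg

theorem grels_finite : grels.Finite :=
  ((((Set.finite_range _).union (Set.finite_range _)).union (Set.finite_range _)).union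
    (Set.finite_range _)).union (Set.finite_range _)

theorem grels_iff {H : Type*} [Group H] (φ : FreeGroup Lt →* H) : (∀ r ∈ grels, φ r = 1) ↔
    (Base (fun i j a => φ (fx i j a)) ∧ (∀ i a, φ (fx i i a) = 1) ∧
      ∀ r i j, i ≠ j → psi (fun i j a => φ (fx i j a)) i j (relP r).1 =
        psi (fun i j a => φ (fx i j a)) i j (relP r).2) := by
  constructor
  · intro h
    refine ⟨⟨?_, ?_, ?_, ?_⟩, ?_, ?_⟩
    · intro i j a hij
      have := h (rsq (i, j, a)) (by simp [grels])
      simpa [rsq, hij] using this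
    · intro i j k l a b h1 h2 h3 h4
      have := h (rcm ((i, j, a), (k, l, b))) (by simp [grels])
      rw [rcm, if_pos ⟨h1, h2, h3, h4⟩, map_commutatorElement] at this
      exact commutatorElement_eq_one_iff_commute.1 this
    · intro i j k a h1 h2 h3
      have := h (rmr (i, j, k, a)) (by simp [grels])
      rw [rmr, if_pos ⟨h1, h2, h3⟩, map_mul, map_commutatorElement, map_inv,
        mul_inv_eq_one] at this
      exact this
    · intro i j k a h1 h2 h3
      have := h (rml (i, j, k, a)) (by simp [grels])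
      rw [rml, if_pos ⟨h1, h2, h3⟩, map_mul, map_commutatorElement, map_inv,
        mul_inv_eq_one] at this
      exact this
    · intro i a
      have := h (rsq (i, i, a)) (by simp [grels])
      simpa [rsq] using this
    · intro r i j hij
      have := h (rrg (i, j, r)) (by simp [grels])
      rw [rrg, if_pos hij, map_mul, map_inv, mul_inv_eq_one, map_psi, map_psi] at this
      exact this
  · rintro ⟨hB, hD, hR⟩ r hr
    rcases hr with (((⟨p, rfl⟩ | ⟨p, rfl⟩) | ⟨p, rfl⟩) | ⟨p, rfl⟩) | ⟨p, rfl⟩
    · obtain ⟨i, j, a⟩ := p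
      by_cases h : i = j
      · subst h; simpa [rsq] using hD i a
      · simpa [rsq, h] using hB.sq i j a h
    · obtain ⟨⟨i, j, a⟩, k, l, b⟩ := p
      rw [rcm]
      split_ifs with h
      · rw [map_commutatorElement]
        exact commutatorElement_eq_one_iff_commute.2 (hB.comm _ _ _ _ _ _ h.1 h.2.1 h.2.2.1 h.2.2.2)
      · exact map_one φ
    · obtain ⟨i, j, k, a⟩ := p
      rw [rmr]
      split_ifs with h
      · rw [map_mul, map_commutatorElement, map_inv, mul_inv_eq_one]
        exact hB.mulr _ _ _ _ h.1 h.2.1 h.2.2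
      · exact map_one φ
    · obtain ⟨i, j, k, a⟩ := p
      rw [rml]
      split_ifs with h
      · rw [map_mul, map_commutatorElement, map_inv, mul_inv_eq_one]
        exact hB.mull _ _ _ _ h.1 h.2.1 h.2.2
      · exact map_one φ
    · obtain ⟨i, j, r⟩ := p
      rw [rrg]
      split_ifs with h
      · rw [map_mul, map_inv, mul_inv_eq_one, map_psi, map_psi]
        exact hR r i j h
      · exact map_one φ

/-- the universal group -/
abbrev UG : Type := PresentedGroup grels

theorem UG_fp : Group.IsFinitelyPresented UG := by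
  have : Finite grels := grels_finite
  infer_instance

/-- generators of the universal group -/
def ux (i j : Fin 5) (a : Option Gn) : UG := PresentedGroup.mk grels (fx i j a)

theorem UG_facts : Base ux ∧ (∀ i a, ux i i a = 1) ∧
    ∀ r i j, i ≠ j → psi ux i j (relP r).1 = psi ux i j (relP r).2 := by
  refine (grels_iff (PresentedGroup.mk grels)).1 ?_
  intro r hr
  exact PresentedGroup.mk_eq_one_iff.2 (Subgroup.subset_normalClosure hr)

end Crest.Agent.R185.Univ
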