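import Mathlib.GroupTheory.FreeGroup.Reduce
import Mathlib.GroupTheory.SemidirectProduct
import Mathlib.Algebra.Group.Subgroup.Basic
import Mathlib.Data.Fintype.Pi
import Mathlib.Tactic.Ring
import Mathlib.Tactic.Linarith

/-!
# R185, block WIT, part 1: affine rule systems and their free completion

A letter `l` of an affine rule system is the partial injection
`(src l, a l + B l * c) ↦ (tgt l, c)` of `Q × ℤ^k`.
`Om S` is the free completion of these partial injections: `ℤ^k × SS`, where `SS` is a set of reduced
terms; every letter is a permutation of `Om S`.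
-/

set_option autoImplicit false

namespace Crest.Agent.R185.Wit

/-- affine rule system -/
structure Sys where
  Q : Type
  Lam : Type
  [decQ : DecidableEq Q]
  [decLam : DecidableEq Lam]
  k : ℕ
  B : Lam → Fin k → ℤ
  Bpos : ∀ l j, 0 < B l j
  a : Lam → Fin k → ℤ
  a_nonneg : ∀ l j, 0 ≤ a l j
  a_lt : ∀ l j, a l j < B l j
  src : Lam → Q
  tgt : Lam → Q

attribute [instance] Sys.decQ Sys.decLam

variable (S : Sys)

/-- coordinates -/
abbrev Sys.V : Type := Fin S.k → ℤ

/-- state terms -/
inductive Tm
  | base (q : Option S.Q)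
  | fwd (l : S.Lam) (e : Fin S.k → ℤ) (s : Tm)
  | bwd (l : S.Lam) (s : Tm)
deriving DecidableEq

variable {S}

/-- quotient / residue / product of a coordinate vector with respect to a letter -/
def quo (l : S.Lam) (c : S.V) : S.V := fun j => c j / S.B l j
def res (l : S.Lam) (c : S.V) : S.V := fun j => c j % S.B l j
def mulB (l : S.Lam) (c : S.V) : S.V := fun j => S.B l j * c j

/-- digit vectors for `l` -/
def IsDig (l : S.Lam) (e : S.V) : Prop := ∀ j, 0 ≤ e j ∧ e j < S.B l j

theorem isDig_res (l : S.Lam) (c : S.V) : IsDig l (res l c) := fun j =>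
  ⟨Int.emod_nonneg _ (S.Bpos l j).ne', Int.emod_lt_of_pos _ (S.Bpos l j)⟩

theorem isDig_a (l : S.Lam) : IsDig l (S.a l) := fun j => ⟨S.a_nonneg l j, S.a_lt l j⟩

theorem isDig_zero (l : S.Lam) : IsDig l (0 : S.V) := fun j => ⟨le_rfl, S.Bpos l j⟩

theorem mulB_quo_add_res (l : S.Lam) (c : S.V) : mulB l (quo l c) + res l c = c := by
  funext j
  simp only [mulB, quo, res, Pi.add_apply]
  exact Int.mul_ediv_add_emod (c j) (S.B l j)

theorem quo_mulB_add {l : S.Lam} {e : S.V} (he : IsDig l e) (c : S.V) :
    quo l (mulB l c + e) = c := by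
  funext j
  simp only [mulB, quo, Pi.add_apply]
  rw [Int.add_comm, Int.add_mul_ediv_left _ _ (S.Bpos l j).ne',
    Int.ediv_eq_zero_of_lt (he j).1 (he j).2, zero_add]

theorem res_mulB_add {l : S.Lam} {e : S.V} (he : IsDig l e) (c : S.V) :
    res l (mulB l c + e) = e := by
  funext j
  simp only [mulB, res, Pi.add_apply]
  rw [Int.add_comm, Int.add_mul_emod_self_left, Int.emod_eq_of_lt (he j).1 (he j).2]

theorem quo_add_mulB (l : S.Lam) (c d : S.V) : quo l (mulB l d + c) = d + quo l c := by
  funext j
  simp only [mulB, quo, Pi.add_apply]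
  rw [Int.add_comm, Int.add_mul_ediv_left _ _ (S.Bpos l j).ne', Int.add_comm]

theorem res_add_mulB (l : S.Lam) (c d : S.V) : res l (mulB l d + c) = res l c := by
  funext j
  simp only [mulB, res, Pi.add_apply]
  rw [Int.add_comm, Int.add_mul_emod_self_left]

theorem mulB_add (l : S.Lam) (c d : S.V) : mulB l (c + d) = mulB l c + mulB l d := by
  funext j; simp only [mulB, Pi.add_apply]; ring

theorem mulB_zero (l : S.Lam) : mulB l (0 : S.V) = 0 := by
  funext j; simp [mulB]

/-- reduced terms -/
def Valid : Tm S → Prop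
  | .base _ => True
  | .fwd l e s => Valid s ∧ IsDig l e ∧ ¬ (s = .base (some (S.src l)) ∧ e = S.a l) ∧
      ∀ s', s = .bwd l s' → e ≠ 0
  | .bwd l s => Valid s ∧ s ≠ .base (some (S.tgt l)) ∧ ∀ e s', s ≠ .fwd l e s'

/-- forward step on a state term with residue `e` -/
def fs (l : S.Lam) (e : S.V) (s : Tm S) : Tm S :=
  match s with
  | .base q => if q = some (S.src l) ∧ e = S.a l then .base (some (S.tgt l)) else .fwd l e (.base q)
  | .fwd l' e' s' => .fwd l e (.fwd l' e' s')
  | .bwd l' s' => if l' = l ∧ e = 0 then s' else .fwd l e (.bwd l' s')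

/-- backward step on a state term: produced digit vector and new term -/
def bs (l : S.Lam) (s : Tm S) : S.V × Tm S :=
  match s with
  | .base q => if q = some (S.tgt l) then (S.a l, .base (some (S.src l))) else (0, .bwd l (.base q))
  | .fwd l' e' s' => if l' = l then (e', s') else (0, .bwd l (.fwd l' e' s'))
  | .bwd l' s' => (0, .bwd l (.bwd l' s'))

theorem valid_fs {l : S.Lam} {e : S.V} (he : IsDig l e) {s : Tm S} (hs : Valid s) :
    Valid (fs l e s) := by
  unfold fs
  cases s with
  | base q =>
    simp only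
    split_ifs with h
    · trivial
    · refine ⟨trivial, he, ?_, ?_⟩
      · rintro ⟨h1, h2⟩
        exact h ⟨by simpa using h1, h2⟩
      · intro s' h'; exact absurd h' (by simp)
  | fwd l' e' s' =>
    simp only
    exact ⟨hs, he, by simp, by simp⟩
  | bwd l' s' =>
    simp only
    split_ifs with h
    · exact hs.1
    · refine ⟨hs, he, by simp, ?_⟩
      intro s'' h' h0
      simp only [Tm.bwd.injEq] at h'
      exact h ⟨h'.1, h0⟩

theorem isDig_bs {l : S.Lam} {s : Tm S} (hs : Valid s) : IsDig l (bs l s).1 := by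
  unfold bs
  cases s with
  | base q =>
    simp only
    split_ifs with h
    · exact isDig_a l
    · exact isDig_zero l
  | fwd l' e' s' =>
    simp only
    split_ifs with h
    · subst h; exact hs.2.1
    · exact isDig_zero l
  | bwd l' s' => exact isDig_zero l

theorem valid_bs {l : S.Lam} {s : Tm S} (hs : Valid s) : Valid (bs l s).2 := by
  unfold bs
  cases s with
  | base q =>
    simp only
    split_ifs with h
    · trivial
    · exact ⟨trivial, by simpa using h, by simp⟩
  | fwd l' e' s' =>
    simp only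
    split_ifs with h
    · exact hs.1
    · refine ⟨hs, by simp, ?_⟩
      intro e s'' h'
      simp only [Tm.fwd.injEq] at h'
      exact h h'.1
  | bwd l' s' => exact ⟨hs, by simp, by simp⟩

theorem bs_fs {l : S.Lam} {e : S.V} {s : Tm S} (hs : Valid s) :
    bs l (fs l e s) = (e, s) := by
  cases s with
  | base q =>
    by_cases h : q = some (S.src l) ∧ e = S.a l
    · simp [fs, bs, h]
    · simp only [fs, if_neg h, bs, if_true]
  | fwd l' e' s' => simp [fs, bs]
  | bwd l' s' =>
    by_cases h : l' = l ∧ e = 0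
    · obtain ⟨rfl, rfl⟩ := h
      simp only [fs, and_self, if_true]
      obtain ⟨hv, h1, h2⟩ := hs
      unfold bs
      cases s' with
      | base q => 
        simp only
        rw [if_neg (by simpa using h1)]
      | fwd l'' e'' s'' =>
        simp only
        rw [if_neg]
        rintro rfl
        exact h2 e'' s'' rfl
      | bwd l'' s'' => rfl
    · simp only [fs, if_neg h, bs, if_true]

theorem fs_bs {l : S.Lam} {s : Tm S} (hs : Valid s) : fs l (bs l s).1 (bs l s).2 = s := by
  cases s with
  | base q =>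
    by_cases h : q = some (S.tgt l)
    · simp [fs, bs, h]
    · simp [bs, if_neg h, fs]
  | fwd l' e' s' =>
    by_cases h : l' = l
    · subst h
      simp only [bs, if_true]
      obtain ⟨hv, hd, h1, h2⟩ := hs
      unfold fs
      cases s' with
      | base q => 
        simp only
        rw [if_neg]
        rintro ⟨rfl, rfl⟩
        exact h1 ⟨rfl, rfl⟩
      | fwd l'' e'' s'' => rfl
      | bwd l'' s'' =>
        simp only
        rw [if_neg]
        rintro ⟨rfl, rfl⟩
        exact h2 _ rfl rfl
    · simp [bs, if_neg h, fs]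
  | bwd l' s' => simp [bs, fs]

variable (S) in
/-- the free completion -/
abbrev Om : Type := S.V × {s : Tm S // Valid s}

/-- the permutation of a letter -/
def lperm (l : S.Lam) : Equiv.Perm (Om S) where
  toFun p := (quo l p.1, ⟨fs l (res l p.1) p.2.1, valid_fs (isDig_res l _) p.2.2⟩)
  invFun p := (mulB l p.1 + (bs l p.2.1).1, ⟨(bs l p.2.1).2, valid_bs p.2.2⟩)
  left_inv := by
    rintro ⟨c, s, hs⟩
    simp only [bs_fs hs, mulB_quo_add_res]
  right_inv := by
    rintro ⟨c, s, hs⟩
    simp only [quo_mulB_add (isDig_bs hs), res_mulB_add (isDig_bs hs), fs_bs hs]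

/-- translations -/
def tperm (v : S.V) : Equiv.Perm (Om S) where
  toFun p := (v + p.1, p.2)
  invFun p := (-v + p.1, p.2)
  left_inv := by rintro ⟨c, s⟩; simp
  right_inv := by rintro ⟨c, s⟩; simp

theorem lperm_apply (l : S.Lam) (p : Om S) :
    lperm l p = (quo l p.1, ⟨fs l (res l p.1) p.2.1, valid_fs (isDig_res l _) p.2.2⟩) := rfl

theorem lperm_symm_apply (l : S.Lam) (p : Om S) :
    (lperm l)⁻¹ p = (mulB l p.1 + (bs l p.2.1).1, ⟨(bs l p.2.1).2, valid_bs p.2.2⟩) := rfl

theorem tperm_apply (v : S.V) (p : Om S) : tperm v p = (v + p.1, p.2) := rfl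

theorem tperm_add (v w : S.V) : tperm (S := S) (v + w) = tperm v * tperm w := by
  ext1 p; simp [tperm_apply, add_assoc]

theorem tperm_zero : tperm (S := S) 0 = 1 := by
  ext1 p; simp [tperm_apply]

theorem lperm_tperm (l : S.Lam) (v : S.V) :
    lperm l * tperm (mulB l v) = tperm v * lperm (S := S) l := by
  ext1 p
  simp only [Equiv.Perm.mul_apply, lperm_apply, tperm_apply, quo_add_mulB, res_add_mulB]

/-- real configurations -/
def cfg (q : S.Q) (c : S.V) : Om S := (c, ⟨.base (some q), trivial⟩)

theorem lperm_cfg (l : S.Lam) (c : S.V) :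
    lperm l (cfg (S.src l) (mulB l c + S.a l)) = cfg (S.tgt l) c := by
  simp only [lperm_apply, cfg, quo_mulB_add (isDig_a l), res_mulB_add (isDig_a l)]
  simp [fs]

end Crest.Agent.R185.Wit
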