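import Mathlib.GroupTheory.FreeGroup.Reduce
import Mathlib.GroupTheory.SemidirectProduct
import Mathlib.Algebra.Group.Subgroup.Basic
import Mathlib.Tactic.Ring
import Mathlib.Data.List.TakeWhile
import Mathlib.Tactic.Linarith
import Mathlib.Algebra.Order.Ring.Abs
import Mathlib.Algebra.Order.Group.Unbundled.Int

/-!
# R185, block WIT: free-group bookkeeping

`fgAut`: permutations act on the free group; `FC T₀`: words with letters in `T₀`; the longest prefix
of a reduced word with letters in `T₀` (`mp`) and exponent sums (`ex`).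
-/

set_option autoImplicit false
set_option linter.unusedSectionVars false

namespace Crest.Agent.R185.Wit

open FreeGroup

variable {T : Type*}

/-- permutations of the letters act on the free group -/
def fgAut : Equiv.Perm T →* MulAut (FreeGroup T) where
  toFun := freeGroupCongr
  map_one' := freeGroupCongr_refl
  map_mul' _ _ := (freeGroupCongr_trans _ _).symm

@[simp] theorem fgAut_of (s : Equiv.Perm T) (t : T) :
    (fgAut s : MulAut (FreeGroup T)) (FreeGroup.of t) = FreeGroup.of (s t) := by
  simp [fgAut, freeGroupCongr]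

variable [DecidableEq T]

theorem toWord_fgAut (s : Equiv.Perm T) (f : FreeGroup T) :
    ((fgAut s : MulAut (FreeGroup T)) f).toWord = f.toWord.map fun x => (s x.1, x.2) := by
  have h1 : (fgAut s : MulAut (FreeGroup T)) f = FreeGroup.mk (f.toWord.map fun x => (s x.1, x.2)) := by
    conv_lhs => rw [← FreeGroup.mk_toWord (x := f)]
    rfl
  rw [h1, toWord_mk]
  apply IsReduced.reduce_eq
  have h2 : FreeGroup.IsReduced f.toWord := isReduced_toWord
  unfold FreeGroup.IsReduced at h2 ⊢
  rw [List.isChain_map]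
  exact h2.imp fun a b h hab => h (s.injective hab)

/-- elements with letters in `T₀` -/
def FC (T₀ : Set T) : Subgroup (FreeGroup T) where
  carrier := {f | ∀ x ∈ f.toWord, x.1 ∈ T₀}
  one_mem' := by simp
  mul_mem' := by
    intro a b ha hb x hx
    have := (toWord_mul_sublist a b).subset hx
    rw [List.mem_append] at this
    exact this.elim (ha x) (hb x)
  inv_mem' := by
    intro a ha x hx
    rw [toWord_inv, invRev, List.mem_reverse, List.mem_map] at hx
    obtain ⟨y, hy, rfl⟩ := hx
    exact ha y hy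

theorem mem_FC {T₀ : Set T} {f : FreeGroup T} : f ∈ FC T₀ ↔ ∀ x ∈ f.toWord, x.1 ∈ T₀ := Iff.rfl

theorem of_mem_FC {T₀ : Set T} {t : T} : FreeGroup.of t ∈ FC T₀ ↔ t ∈ T₀ := by
  simp [mem_FC, toWord_of]

theorem mk_mem_FC {T₀ : Set T} {L : List (T × Bool)} (h : ∀ x ∈ L, x.1 ∈ T₀) :
    FreeGroup.mk L ∈ FC T₀ := by
  intro x hx
  rw [toWord_mk] at hx
  exact h x ((Red.sublist reduce.red).subset hx)

theorem FC_mono {T₀ T₁ : Set T} (h : T₀ ⊆ T₁) : FC T₀ ≤ FC T₁ := fun _ hf x hx => h (hf x hx)

theorem fgAut_mem_FC {T₀ T₁ : Set T} (s : Equiv.Perm T) (h : ∀ t ∈ T₀, s t ∈ T₁) {f : FreeGroup T}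
    (hf : f ∈ FC T₀) : (fgAut s : MulAut (FreeGroup T)) f ∈ FC T₁ := by
  intro x hx
  rw [toWord_fgAut, List.mem_map] at hx
  obtain ⟨y, hy, rfl⟩ := hx
  exact h _ (hf y hy)

/-- induction for `FC` -/
theorem FC_induction {T₀ : Set T} {P : FreeGroup T → Prop} (one : P 1)
    (cons : ∀ t ∈ T₀, ∀ f, P f → P (FreeGroup.of t * f))
    (cons' : ∀ t ∈ T₀, ∀ f, P f → P ((FreeGroup.of t)⁻¹ * f)) {f : FreeGroup T} (hf : f ∈ FC T₀) :
    P f := by
  have key : ∀ L : List (T × Bool), (∀ x ∈ L, x.1 ∈ T₀) → P (FreeGroup.mk L) := by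
    intro L
    induction L with
    | nil => intro _; exact one
    | cons x L ih =>
      intro h
      obtain ⟨t, e⟩ := x
      have h1 := ih fun y hy => h y (List.mem_cons_of_mem _ hy)
      have h2 : t ∈ T₀ := h (t, e) (List.mem_cons_self ..)
      have h3 : (FreeGroup.mk ((t, e) :: L) : FreeGroup T) =
          FreeGroup.mk [(t, e)] * FreeGroup.mk L := by rw [FreeGroup.mul_mk]; rfl
      rw [h3]
      cases e with
      | true => exact cons t h2 _ h1
      | false => exact cons' t h2 _ h1
  have := key f.toWord hf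
  rwa [FreeGroup.mk_toWord] at this

/-- right induction for `FC` -/
theorem FC_induction_right {T₀ : Set T} {P : FreeGroup T → Prop} (one : P 1)
    (cons : ∀ x : T × Bool, x.1 ∈ T₀ → ∀ f ∈ FC T₀, P f → P (f * FreeGroup.mk [x]))
    {f : FreeGroup T} (hf : f ∈ FC T₀) : P f := by
  have key : ∀ L : List (T × Bool), (∀ x ∈ L, x.1 ∈ T₀) → P (FreeGroup.mk L) := by
    intro L
    induction L using List.reverseRecOn with
    | nil => intro _; exact one
    | append_singleton L x ih =>
      intro h
      have h0 : ∀ y ∈ L, y.1 ∈ T₀ := fun y hy => h y (List.mem_append_left _ hy)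
      have h1 := ih h0
      have h3 : (FreeGroup.mk (L ++ [x]) : FreeGroup T) =
          FreeGroup.mk L * FreeGroup.mk [x] := by rw [FreeGroup.mul_mk]
      rw [h3]
      exact cons x (h x (by simp)) _ (mk_mem_FC h0) h1
  have := key f.toWord hf
  rwa [FreeGroup.mk_toWord] at this

theorem FC_eq_closure (T₀ : Set T) : FC T₀ = Subgroup.closure (FreeGroup.of '' T₀) := by
  apply le_antisymm
  · intro f hf
    refine FC_induction (one_mem _) ?_ ?_ hf
    · intro t ht f hf
      exact mul_mem (Subgroup.subset_closure ⟨t, ht, rfl⟩) hf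
    · intro t ht f hf
      exact mul_mem (inv_mem (Subgroup.subset_closure ⟨t, ht, rfl⟩)) hf
  · rw [Subgroup.closure_le]
    rintro _ ⟨t, ht, rfl⟩
    exact of_mem_FC.2 ht

/-- multiplication by one letter on the right: append or delete -/
theorem toWord_mul_letter (f : FreeGroup T) (x : T × Bool) :
    (f * FreeGroup.mk [x]).toWord = f.toWord ++ [x] ∨
      f.toWord = (f * FreeGroup.mk [x]).toWord ++ [(x.1, !x.2)] := by
  rcases List.eq_nil_or_concat f.toWord with h | ⟨L, y, h'⟩
  · left
    have h1 : f = 1 := toWord_eq_nil_iff.1 h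
    subst h1
    rw [one_mul, toWord_mk, toWord_one, List.nil_append, reduce_singleton]
  · have h : f.toWord = L ++ [y] := by rw [h', List.concat_eq_append]
    have hf : f = FreeGroup.mk (L ++ [y]) := by rw [← h, FreeGroup.mk_toWord]
    have hr : FreeGroup.IsReduced (L ++ [y]) := by rw [← h]; exact isReduced_toWord
    by_cases hxy : y = (x.1, !x.2)
    · right
      rw [h, hf, hxy, FreeGroup.mul_mk, toWord_mk]
      have hrL : FreeGroup.IsReduced L := hr.infix ⟨[], [y], by simp⟩
      have : reduce (L ++ [(x.1, !x.2)] ++ [x]) = L := by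
        have h2 : Red.Step (L ++ (x.1, !x.2) :: [(x.1, x.2)] ++ []) (L ++ []) := by
          have := @Red.Step.not T L [] x.1 (!x.2)
          simpa using this
        have h3 : reduce (L ++ (x.1, !x.2) :: [(x.1, x.2)] ++ []) = reduce (L ++ []) :=
          reduce.Step.eq h2
        simp only [List.append_nil] at h3
        rw [hrL.reduce_eq] at h3
        simpa using h3
      rw [this]
    · left
      rw [hf, FreeGroup.mul_mk, toWord_mk]
      have hr2 : FreeGroup.IsReduced (L ++ [y] ++ [x]) := by
        have h3 : FreeGroup.IsReduced ([y] ++ [x]) := by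
          rw [List.singleton_append, isReduced_cons_cons]
          refine ⟨fun h4 => ?_, IsReduced.singleton⟩
          by_contra h5
          apply hxy
          refine Prod.ext h4 ?_
          cases hy : y.2 <;> cases hx : x.2 <;> simp_all
        exact FreeGroup.IsReduced.append_overlap hr h3 (by simp)
      rw [hr2.reduce_eq, toWord_mk, hr.reduce_eq]

open Classical in
/-- longest prefix with letters in `T₀` -/
noncomputable def mpW (T₀ : Set T) (f : FreeGroup T) : List (T × Bool) :=
  f.toWord.takeWhile fun x => decide (x.1 ∈ T₀)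

/-- exponent sum of `t` -/
def ex (t : T) : FreeGroup T →* Multiplicative ℤ :=
  FreeGroup.lift fun t' => if t' = t then Multiplicative.ofAdd 1 else 1

/-- exponent sum of `t` in the longest `T₀`-prefix -/
noncomputable def exmp (T₀ : Set T) (t : T) (f : FreeGroup T) : ℤ :=
  Multiplicative.toAdd (ex t (FreeGroup.mk (mpW T₀ f)))

theorem ex_mk_append (t : T) (L : List (T × Bool)) (x : T × Bool) :
    Multiplicative.toAdd (ex t (FreeGroup.mk (L ++ [x]))) =
      Multiplicative.toAdd (ex t (FreeGroup.mk L)) +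
        (if x.1 = t then (if x.2 then 1 else -1) else 0) := by
  have h : (FreeGroup.mk (L ++ [x]) : FreeGroup T) = FreeGroup.mk L * FreeGroup.mk [x] := by
    rw [FreeGroup.mul_mk]
  rw [h, (ex t).map_mul, toAdd_mul]
  congr 1
  obtain ⟨x, e⟩ := x
  cases e with
  | true =>
    have : (FreeGroup.mk [(x, true)] : FreeGroup T) = FreeGroup.of x := rfl
    rw [this, ex, FreeGroup.lift_apply_of]
    by_cases hx : x = t <;> simp [hx]
  | false =>
    have : (FreeGroup.mk [(x, false)] : FreeGroup T) = (FreeGroup.of x)⁻¹ := rfl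
    rw [this, (ex t).map_inv, ex, FreeGroup.lift_apply_of]
    by_cases hx : x = t <;> simp [hx]

open Classical in
theorem mpW_append {T₀ : Set T} {L : List (T × Bool)} {x : T × Bool} :
    (L ++ [x]).takeWhile (fun x => decide (x.1 ∈ T₀)) = L.takeWhile (fun x => decide (x.1 ∈ T₀)) ∨
    (L ++ [x]).takeWhile (fun x => decide (x.1 ∈ T₀)) =
      L.takeWhile (fun x => decide (x.1 ∈ T₀)) ++ [x] := by
  by_cases h : L.takeWhile (fun x => decide (x.1 ∈ T₀)) = L
  · rw [List.takeWhile_append, h]
    simp only [if_true]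
    by_cases hx : x.1 ∈ T₀
    · right; simp [hx]
    · left; simp [hx]
  · left
    rw [List.takeWhile_append, if_neg]
    intro h2
    exact h ((List.takeWhile_sublist _).eq_of_length h2)

/-- `exmp` changes only when the letter `t` is touched, and then by at most one -/
theorem exmp_mul_letter (T₀ : Set T) (t : T) (f : FreeGroup T) (x : T × Bool) :
    |exmp T₀ t (f * FreeGroup.mk [x]) - exmp T₀ t f| ≤ 1 ∧
      (x.1 ≠ t → exmp T₀ t (f * FreeGroup.mk [x]) = exmp T₀ t f) := by
  have key : ∀ (L : List (T × Bool)) (y : T × Bool) (f f' : FreeGroup T), y.1 = x.1 →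
      f.toWord = L → f'.toWord = L ++ [y] →
      |exmp T₀ t f' - exmp T₀ t f| ≤ 1 ∧ (x.1 ≠ t → exmp T₀ t f' = exmp T₀ t f) := by
    intro L y f f' hy h1 h2
    unfold exmp mpW
    rw [h1, h2]
    rcases mpW_append (T₀ := T₀) (L := L) (x := y) with h3 | h3
    · rw [h3]; simp
    · rw [h3, ex_mk_append, hy]
      constructor
      · split_ifs <;> simp
      · intro h4; simp [h4]
  rcases toWord_mul_letter f x with h | h
  · exact key _ x _ _ rfl rfl h
  · obtain ⟨h1, h2⟩ := key _ (x.1, !x.2) _ _ rfl rfl h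
    refine ⟨?_, fun h3 => (h2 h3).symm⟩
    rw [abs_sub_comm]; exact h1

theorem exmp_one (T₀ : Set T) (t : T) : exmp T₀ t 1 = 0 := by
  unfold exmp mpW
  rw [toWord_one]
  simp only [List.takeWhile_nil]
  have : (FreeGroup.mk [] : FreeGroup T) = 1 := rfl
  rw [this]; simp

open Classical in
theorem exmp_of_mem_FC {T₀ : Set T} (t : T) {f : FreeGroup T} (hf : f ∈ FC T₀) :
    exmp T₀ t f = Multiplicative.toAdd (ex t f) := by
  unfold exmp mpW
  have : f.toWord.takeWhile (fun x => decide (x.1 ∈ T₀)) = f.toWord := by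
    rw [List.takeWhile_eq_self_iff]
    intro x hx
    simpa using hf x hx
  rw [this, FreeGroup.mk_toWord]

open Classical in
/-- the part after the longest prefix -/
noncomputable def dpW (T₀ : Set T) (f : FreeGroup T) : List (T × Bool) :=
  f.toWord.dropWhile fun x => decide (x.1 ∈ T₀)

theorem mpW_append_dpW (T₀ : Set T) (f : FreeGroup T) : mpW T₀ f ++ dpW T₀ f = f.toWord :=
  List.takeWhile_append_dropWhile

theorem mk_mpW_mul_mk_dpW (T₀ : Set T) (f : FreeGroup T) :
    FreeGroup.mk (mpW T₀ f) * FreeGroup.mk (dpW T₀ f) = f := by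
  rw [FreeGroup.mul_mk, mpW_append_dpW, FreeGroup.mk_toWord]

theorem mk_mpW_mem (T₀ : Set T) (f : FreeGroup T) : FreeGroup.mk (mpW T₀ f) ∈ FC T₀ := by
  apply mk_mem_FC
  intro x hx
  have := List.mem_takeWhile_imp hx
  simpa using this

open Classical in
theorem dropWhile_append_subset {T₀ : Set T} {L : List (T × Bool)} {x y : T × Bool}
    (h : y ∈ (L ++ [x]).dropWhile (fun x => decide (x.1 ∈ T₀))) :
    y ∈ L.dropWhile (fun x => decide (x.1 ∈ T₀)) ∨ y = x := by
  rw [List.dropWhile_append] at h
  split_ifs at h with h1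
  · right
    have := (List.dropWhile_sublist _).subset h
    simpa using this
  · rw [List.mem_append] at h
    simpa using h

open Classical in
theorem subset_dropWhile_append {T₀ : Set T} {L : List (T × Bool)} {x y : T × Bool}
    (h : y ∈ L.dropWhile (fun x => decide (x.1 ∈ T₀))) :
    y ∈ (L ++ [x]).dropWhile (fun x => decide (x.1 ∈ T₀)) := by
  rw [List.dropWhile_append]
  split_ifs with h1
  · rw [List.isEmpty_iff] at h1
    rw [h1] at h
    exact absurd h (by simp)
  · rw [List.mem_append]; exact Or.inl h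

theorem dpW_mul {T₀ T₁ : Set T} {f r : FreeGroup T} (hf : f ∈ FC T₀) (hr : r ∈ FC T₁) :
    ∀ y ∈ dpW T₀ (f * r), y.1 ∈ T₁ := by
  refine FC_induction_right (P := fun r => ∀ y ∈ dpW T₀ (f * r), y.1 ∈ T₁) ?_ ?_ hr
  · rw [mul_one]
    intro y hy
    unfold dpW at hy
    rw [List.dropWhile_eq_nil_iff.2] at hy
    · exact absurd hy (by simp)
    · intro x hx; simpa using hf x hx
  · intro x hx r hr ih y hy
    rw [← mul_assoc] at hy
    unfold dpW at hy ih
    rcases toWord_mul_letter (f * r) x with h | h
    · rw [h] at hy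
      rcases dropWhile_append_subset hy with h1 | rfl
      · exact ih y h1
      · exact hx
    · apply ih y
      rw [h]
      exact subset_dropWhile_append hy

end Crest.Agent.R185.Wit
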