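import Crest.Agent.R185.Wit4
import Crest.Agent.R185.WitF
import Mathlib.Tactic.Group

/-!
# R185, block WIT, part 5: the group `Hg = F(Ω) ⋊ M`, the subgroups `Ls`, `range eps`, and the set
`EL`
-/

set_option autoImplicit false
set_option linter.unusedSectionVars false

namespace Crest.Agent.R185.Wit

variable {R A : Type} [DecidableEq R] [DecidableEq A] (W : WS R A)

/-- `M` acts on the free group on `Ω` -/
def phi : M W.toSys →* MulAut (FreeGroup (Om W.toSys)) := fgAut.comp (act W.toSys)

/-- the group `H` -/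
abbrev Hg : Type := FreeGroup (Om W.toSys) ⋊[phi W] M W.toSys

@[simp] theorem phi_of (m : M W.toSys) (ω : Om W.toSys) :
    phi W m (FreeGroup.of ω) = FreeGroup.of (act W.toSys m ω) := by
  simp [phi]

theorem phi_apply (m : M W.toSys) (f : FreeGroup (Om W.toSys)) :
    phi W m f = (fgAut (act W.toSys m) : MulAut (FreeGroup (Om W.toSys))) f := rfl

/-- start points -/
def Start : Set (Om W.toSys) := Set.range (st W)

theorem act_ip_st (g h : FreeGroup A) : act W.toSys (ip W g) (st W h) = st W (g * h) :=
  (st_mul W g h).symm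

theorem act_iR_Ch (p : FreeGroup R) {ω : Om W.toSys} (h : ω ∈ Ch W) :
    act W.toSys (iR W p) ω ∈ Ch W := by
  obtain ⟨q, rfl⟩ := h
  exact ⟨p * q, by simp⟩

/-- the subgroup `L` -/
def Ls : Subgroup (Hg W) where
  carrier := {h | (∃ p, h.right = iR W p) ∧ h.left ∈ FC (Ch W)}
  one_mem' := ⟨⟨1, by simp⟩, by simpa using one_mem _⟩
  mul_mem' := by
    rintro a b ⟨⟨p, hp⟩, ha⟩ ⟨⟨q, hq⟩, hb⟩
    refine ⟨⟨p * q, by rw [SemidirectProduct.mul_right, hp, hq, map_mul]⟩, ?_⟩
    rw [SemidirectProduct.mul_left, hp]
    exact mul_mem ha (fgAut_mem_FC _ (fun t ht => act_iR_Ch W p ht) hb)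
  inv_mem' := by
    rintro a ⟨⟨p, hp⟩, ha⟩
    refine ⟨⟨p⁻¹, by rw [SemidirectProduct.inv_right, hp, map_inv]⟩, ?_⟩
    rw [SemidirectProduct.inv_left, hp, ← map_inv (iR W)]
    exact fgAut_mem_FC _ (fun t ht => act_iR_Ch W p⁻¹ ht) (inv_mem ha)

theorem mem_Ls {h : Hg W} : h ∈ Ls W ↔ (∃ p, h.right = iR W p) ∧ h.left ∈ FC (Ch W) := Iff.rfl

/-- the letter `t` at the state `q` -/
def ht (q : W.Q) : Hg W := SemidirectProduct.inl (FreeGroup.of (cfg (S := W.toSys) q 0))

/-- the start letter -/
def te : Hg W := SemidirectProduct.inl (FreeGroup.of (cfg (S := W.toSys) W.qin W.tx))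

theorem te_eq : te W = SemidirectProduct.inr (mx (S := W.toSys) W.tx) * ht W W.qin *
    (SemidirectProduct.inr (mx (S := W.toSys) W.tx))⁻¹ := by
  rw [ht, ← map_inv, ← SemidirectProduct.inl_aut, phi_of, act_mx, te]
  congr 2
  simp [tperm_apply, cfg]

/-- the free subgroup `E` -/
def eps : FreeGroup (Option A) →* Hg W :=
  FreeGroup.lift fun o => o.elim (te W) fun x => SemidirectProduct.inr (ip W (FreeGroup.of x))

@[simp] theorem eps_none : eps W (FreeGroup.of none) = te W := by simp [eps]

@[simp] theorem eps_some (x : A) :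
    eps W (FreeGroup.of (some x)) = SemidirectProduct.inr (ip W (FreeGroup.of x)) := by simp [eps]

/-- projection to the input letters -/
def prA : FreeGroup (Option A) →* FreeGroup A :=
  FreeGroup.lift fun o => o.elim 1 FreeGroup.of

/-- the input letters inside `E` -/
def emb : FreeGroup A →* FreeGroup (Option A) := FreeGroup.lift fun x => FreeGroup.of (some x)

@[simp] theorem emb_of (x : A) : emb (FreeGroup.of x) = FreeGroup.of (some x) := by simp [emb]

@[simp] theorem prA_emb (g : FreeGroup A) : prA (emb g) = g := by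
  have : (prA (A := A)).comp emb = MonoidHom.id _ := by ext x; simp [prA]
  exact DFunLike.congr_fun this g

theorem eps_emb (g : FreeGroup A) : eps W (emb g) = SemidirectProduct.inr (ip W g) := by
  have : (eps W).comp emb = (SemidirectProduct.inr).comp (ip W) := by ext1 x; simp
  exact DFunLike.congr_fun this g

theorem eps_right (x : FreeGroup (Option A)) : (eps W x).right = ip W (prA x) := by
  have : (SemidirectProduct.rightHom).comp (eps W) = (ip W).comp prA := by
    ext1 o
    cases o with
    | none => 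
      simp only [MonoidHom.comp_apply, eps_none, te]
      simp [prA]
    | some x => 
      simp only [MonoidHom.comp_apply, eps_some]
      simp [prA]
  exact DFunLike.congr_fun this x

theorem st_one : st W 1 = cfg (S := W.toSys) W.qin W.tx := by simp [st]

/-- right induction for free groups -/
theorem fg_induction_right {α : Type*} {P : FreeGroup α → Prop} (one : P 1)
    (cons : ∀ f a, P f → P (f * FreeGroup.of a)) (cons' : ∀ f a, P f → P (f * (FreeGroup.of a)⁻¹))
    (f : FreeGroup α) : P f := by
  have key : ∀ L : List (α × Bool), P (FreeGroup.mk L) := by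
    intro L
    induction L using List.reverseRecOn with
    | nil => exact one
    | append_singleton L x ih =>
      have h3 : (FreeGroup.mk (L ++ [x]) : FreeGroup α) =
          FreeGroup.mk L * FreeGroup.mk [x] := by rw [FreeGroup.mul_mk]
      rw [h3]
      obtain ⟨x, e⟩ := x
      cases e with
      | true => exact cons _ _ ih
      | false => exact cons' _ _ ih
  induction f using Quot.inductionOn with
  | h L => exact key L

theorem eps_left_mem (x : FreeGroup (Option A)) : (eps W x).left ∈ FC (Start W) := by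
  refine fg_induction_right (P := fun x => (eps W x).left ∈ FC (Start W)) ?_ ?_ ?_ x
  · simpa using one_mem _
  · intro f o ih
    rw [map_mul, SemidirectProduct.mul_left, eps_right]
    refine mul_mem ih ?_
    cases o with
    | none =>
      rw [eps_none, te, SemidirectProduct.left_inl, phi_of, of_mem_FC, ← st_one, act_ip_st]
      exact ⟨_, rfl⟩
    | some x =>
      rw [eps_some, SemidirectProduct.left_inr, map_one]
      exact one_mem _
  · intro f o ih
    rw [map_mul, SemidirectProduct.mul_left, eps_right, map_inv, SemidirectProduct.inv_left]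
    refine mul_mem ih ?_
    cases o with
    | none =>
      rw [eps_none, te, SemidirectProduct.left_inl, SemidirectProduct.right_inl, inv_one, map_one,
        MulAut.one_apply, map_inv, phi_of]
      refine inv_mem ?_
      rw [of_mem_FC, ← st_one, act_ip_st]
      exact ⟨_, rfl⟩
    | some x =>
      rw [eps_some, SemidirectProduct.left_inr, inv_one, map_one, map_one]
      exact one_mem _

open Classical in
/-- the inverse of `eps` on the free part -/
noncomputable def psi : FreeGroup (Om W.toSys) →* FreeGroup (Option A) :=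
  FreeGroup.lift fun ω => if h : ∃ g, st W g = ω then
    emb h.choose * FreeGroup.of none * (emb h.choose)⁻¹ else 1

theorem psi_st (g : FreeGroup A) :
    psi W (FreeGroup.of (st W g)) = emb g * FreeGroup.of none * (emb g)⁻¹ := by
  have h : ∃ g', st W g' = st W g := ⟨g, rfl⟩
  rw [psi, FreeGroup.lift_apply_of, dif_pos h]
  have : h.choose = g := st_injective W h.choose_spec
  rw [this]

/-- the inverse of `eps` -/
noncomputable def Psi (h : Hg W) : FreeGroup (Option A) := psi W h.left * emb (rA W h.right)

theorem Psi_eps (x : FreeGroup (Option A)) : Psi W (eps W x) = x := by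
  refine fg_induction_right (P := fun x => Psi W (eps W x) = x) ?_ ?_ ?_ x
  · simp [Psi]
  · intro f o ih
    unfold Psi at ih ⊢
    rw [eps_right, rA_ip] at ih
    rw [map_mul, SemidirectProduct.mul_left, SemidirectProduct.mul_right, eps_right, map_mul,
      map_mul, map_mul, rA_ip]
    cases o with
    | none =>
      rw [eps_none, te, SemidirectProduct.left_inl, phi_of, ← st_one, act_ip_st, mul_one, psi_st,
        SemidirectProduct.right_inl, map_one, map_one, mul_one]
      conv_rhs => rw [← ih]
      simp only [mul_assoc, inv_mul_cancel, mul_one]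
    | some x =>
      rw [eps_some, SemidirectProduct.left_inr, map_one, map_one, mul_one,
        SemidirectProduct.right_inr, rA_ip, emb_of, ← mul_assoc, ih]
  · intro f o ih
    unfold Psi at ih ⊢
    rw [eps_right, rA_ip] at ih
    rw [map_mul, SemidirectProduct.mul_left, SemidirectProduct.mul_right, eps_right, map_mul,
      map_mul, map_mul, rA_ip, map_inv, SemidirectProduct.inv_left, SemidirectProduct.inv_right]
    cases o with
    | none =>
      rw [eps_none, te, SemidirectProduct.left_inl, SemidirectProduct.right_inl, inv_one, map_one,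
        MulAut.one_apply, map_inv, phi_of, ← st_one, act_ip_st, mul_one, map_inv, psi_st,
        map_one, map_one, mul_one]
      conv_rhs => rw [← ih]
      simp only [mul_assoc, mul_inv_rev, inv_inv, inv_mul_cancel, mul_one]
    | some x =>
      rw [eps_some, SemidirectProduct.left_inr, inv_one, map_one, map_one, map_one, mul_one,
        SemidirectProduct.right_inr, map_inv, rA_ip, map_inv, emb_of, ← mul_assoc, ih]

theorem eps_injective : Function.Injective (eps W) := fun x y h => by
  rw [← Psi_eps W x, ← Psi_eps W y, h]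

/-- conjugates `t_g` -/
def tg (g : FreeGroup A) : FreeGroup (Option A) := emb g * FreeGroup.of none * (emb g)⁻¹

theorem eps_tg (g : FreeGroup A) : eps W (tg g) = SemidirectProduct.inl (FreeGroup.of (st W g)) := by
  rw [tg, map_mul, map_mul, map_inv, eps_emb, eps_none, te, ← map_inv,
    ← SemidirectProduct.inl_aut, phi_of, ← st_one, act_ip_st, mul_one]

theorem exists_eps {f : FreeGroup (Om W.toSys)} (hf : f ∈ FC (Start W)) (g : FreeGroup A) :
    ∃ x, eps W x = ⟨f, ip W g⟩ := by
  have h1 : ∃ x, eps W x = SemidirectProduct.inl f := by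
    refine FC_induction (P := fun f => ∃ x, eps W x = SemidirectProduct.inl f)
      ⟨1, by simp⟩ ?_ ?_ hf
    · rintro _ ⟨g, rfl⟩ f ⟨x, hx⟩
      exact ⟨tg g * x, by rw [map_mul, eps_tg, hx, map_mul]⟩
    · rintro _ ⟨g, rfl⟩ f ⟨x, hx⟩
      exact ⟨(tg g)⁻¹ * x, by rw [map_mul, map_inv, eps_tg, hx, map_mul, map_inv]⟩
  obtain ⟨x, hx⟩ := h1
  refine ⟨x * emb g, ?_⟩
  rw [map_mul, hx, eps_emb]
  exact (SemidirectProduct.mk_eq_inl_mul_inr _ _).symm

/-- exactness of the intersection `E ∩ L` -/
theorem eps_mem_Ls {x : FreeGroup (Option A)} :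
    eps W x ∈ Ls W ↔ x ∈ Subgroup.closure {y | ∃ g, st W g ∈ Ch W ∧ y = tg g} := by
  constructor
  · rintro ⟨⟨p, hp⟩, hl⟩
    rw [eps_right] at hp
    have h1 : p = 1 := by
      have := congrArg (rR W) hp
      simpa using this.symm
    have h2 : prA x = 1 := by
      have := congrArg (rA W) hp
      simpa using this
    rw [← Psi_eps W x, Psi, eps_right, h2, map_one, map_one, map_one, mul_one]
    have h3 : (eps W x).left ∈ FC (Ch W ∩ Start W) := fun y hy =>
      ⟨hl y hy, eps_left_mem W x y hy⟩
    refine FC_induction (P := fun f => psi W f ∈ _) (by simpa using one_mem _) ?_ ?_ h3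
    · rintro _ ⟨h4, g, rfl⟩ f hf
      rw [map_mul, psi_st]
      exact mul_mem (Subgroup.subset_closure ⟨g, h4, rfl⟩) hf
    · rintro _ ⟨h4, g, rfl⟩ f hf
      rw [map_mul, map_inv, psi_st]
      exact mul_mem (inv_mem (Subgroup.subset_closure ⟨g, h4, rfl⟩)) hf
  · intro h
    induction h using Subgroup.closure_induction with
    | mem y hy =>
      obtain ⟨g, hg, rfl⟩ := hy
      rw [eps_tg]
      exact ⟨⟨1, by simp⟩, by simpa using of_mem_FC.2 hg⟩
    | one => simpa using one_mem _
    | mul a b _ _ ha hb => rw [map_mul]; exact mul_mem ha hb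
    | inv a _ ha => rw [map_inv]; exact inv_mem ha

/-- the set `E L` -/
def EL : Set (Hg W) := {h | ∃ x, ∃ l ∈ Ls W, h = eps W x * l}

/-- the `F(A)`-part -/
def wH (h : Hg W) : FreeGroup A := rA W h.right

/-- the level of `h` at `g` -/
noncomputable def NH (g : FreeGroup A) (h : Hg W) : ℤ := exmp (Start W) (st W g) h.left

/-- translates of `Ch` -/
def Chw (w : FreeGroup A) : Set (Om W.toSys) := act W.toSys (ip W w) '' Ch W

theorem mem_EL_iff {h : Hg W} :
    h ∈ EL W ↔ (∃ p, h.right = ip W (wH W h) * iR W p) ∧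
      ∀ y ∈ dpW (Start W) h.left, y.1 ∈ Chw W (wH W h) := by
  constructor
  · rintro ⟨x, l, ⟨⟨p, hp⟩, hl⟩, rfl⟩
    have h1 : wH W (eps W x * l) = prA x := by
      rw [wH, SemidirectProduct.mul_right, eps_right, hp, map_mul, rA_ip, rA_iR, mul_one]
    rw [h1]
    refine ⟨⟨p, by rw [SemidirectProduct.mul_right, eps_right, hp]⟩, ?_⟩
    rw [SemidirectProduct.mul_left, eps_right]
    exact dpW_mul (eps_left_mem W x) (fgAut_mem_FC (T₁ := Chw W (prA x)) _
      (fun t ht => ⟨t, ht, rfl⟩) hl)
  · rintro ⟨⟨p, hp⟩, hd⟩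
    obtain ⟨x, hx⟩ := exists_eps W (mk_mpW_mem (Start W) h.left) (wH W h)
    refine ⟨x, (SemidirectProduct.mk (phi W (ip W (wH W h))⁻¹
      (FreeGroup.mk (dpW (Start W) h.left))) (iR W p) : Hg W), ⟨⟨p, rfl⟩, ?_⟩, ?_⟩
    · have h2 : FreeGroup.mk (dpW (Start W) h.left) ∈ FC (Chw W (wH W h)) := mk_mem_FC hd
      refine fgAut_mem_FC _ ?_ h2
      rintro _ ⟨t, ht, rfl⟩
      rw [map_inv]
      rw [show (act W.toSys (ip W (wH W h)))⁻¹ (act W.toSys (ip W (wH W h)) t) = t from
        Equiv.symm_apply_apply _ _]
      exact ht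
    · rw [hx]
      apply SemidirectProduct.ext
      · rw [SemidirectProduct.mul_left]
        simp only
        rw [map_inv, MulAut.apply_inv_self, mk_mpW_mul_mk_dpW]
      · rw [SemidirectProduct.mul_right]
        exact hp

/-- a representative in `E` of `h L`, with the same levels -/
theorem EL_rep {h : Hg W} (hh : h ∈ EL W) :
    ∃ x, ∃ l ∈ Ls W, h = eps W x * l ∧ prA x = wH W h ∧
      ∀ g, NH W g (eps W x) = NH W g h := by
  obtain ⟨⟨p, hp⟩, hd⟩ := mem_EL_iff W |>.1 hh
  obtain ⟨x, hx⟩ := exists_eps W (mk_mpW_mem (Start W) h.left) (wH W h)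
  refine ⟨x, (SemidirectProduct.mk (phi W (ip W (wH W h))⁻¹
      (FreeGroup.mk (dpW (Start W) h.left))) (iR W p) : Hg W), ⟨⟨p, rfl⟩, ?_⟩, ?_, ?_, ?_⟩
  · have h2 : FreeGroup.mk (dpW (Start W) h.left) ∈ FC (Chw W (wH W h)) := mk_mem_FC hd
    refine fgAut_mem_FC _ ?_ h2
    rintro _ ⟨t, ht, rfl⟩
    rw [map_inv]
    rw [show (act W.toSys (ip W (wH W h)))⁻¹ (act W.toSys (ip W (wH W h)) t) = t from
      Equiv.symm_apply_apply _ _]
    exact ht
  · rw [hx]
    apply SemidirectProduct.ext
    · rw [SemidirectProduct.mul_left]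
      simp only
      rw [map_inv, MulAut.apply_inv_self, mk_mpW_mul_mk_dpW]
    · rw [SemidirectProduct.mul_right]
      exact hp
  · have h3 := eps_right W x
    rw [hx] at h3
    have := congrArg (rA W) h3
    rw [rA_ip, rA_ip] at this
    exact this.symm
  · intro g
    rw [NH, exmp_of_mem_FC _ (eps_left_mem W x), hx]
    rfl

theorem NH_eps (g : FreeGroup A) (x : FreeGroup (Option A)) :
    NH W g (eps W x) = Multiplicative.toAdd (ex (st W g) (eps W x).left) := by
  rw [NH, exmp_of_mem_FC _ (eps_left_mem W x)]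

end Crest.Agent.R185.Wit
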