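import Mathlib

/-!
# R185 / W(U) (1): the natural rook gadget (helper681)

Matrices `I → J → Option Y`; `rowM i w` (row `i` is `w`, the other rows are the near-unanimous value
of `w`) and `colM j z`.  `act i j x` applies `x : Y → Y` at the place `(i, j)` of the row-`i` and the
column-`j` matrices and is the identity elsewhere.  Actions at places in the same row or column
commute, and the product over a row (column) preserves the constant matrices.
-/

set_option autoImplicit false

namespace Crest.Agent.R185.Wu

variable {Y I J : Type}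

/-- `w` is constant equal to `y` except perhaps at one place -/
def NU (w : J → Y) (y : Y) : Prop := ∃ j, ∀ l, l ≠ j → w l = y

open Classical in
/-- the near-unanimous value -/
noncomputable def cen (w : J → Y) : Option Y := if h : ∃ y, NU w y then some h.choose else none

/-- at least three elements -/
def Three (J : Type) : Prop := ∀ a b : J, ∃ c, c ≠ a ∧ c ≠ b

theorem cen_eq (hJ : Three J) {w : J → Y} {y : Y} (h : NU w y) : cen w = some y := by
  have h' : ∃ y, NU w y := ⟨y, h⟩
  unfold cen
  rw [dif_pos h']
  obtain ⟨j, hj⟩ := h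
  obtain ⟨j', hj'⟩ := h'.choose_spec
  obtain ⟨c, h1, h2⟩ := hJ j j'
  rw [← hj c h1, hj' c h2]

open Classical in
/-- row matrices -/
noncomputable def rowM (i : I) (w : J → Y) : I → J → Option Y :=
  fun k l => if k = i then some (w l) else cen w

open Classical in
/-- column matrices -/
noncomputable def colM (j : J) (z : I → Y) : I → J → Option Y :=
  fun k l => if l = j then some (z k) else cen z

/-- constant matrices -/
def con (I J : Type) {Y : Type} (y : Y) : I → J → Option Y := fun _ _ => some y

theorem rowM_self (i : I) (w : J → Y) (l : J) : rowM i w i l = some (w l) := by simp [rowM]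

theorem rowM_ne {i k : I} (h : k ≠ i) (w : J → Y) (l : J) : rowM i w k l = cen w := by
  simp [rowM, h]

theorem colM_self (j : J) (z : I → Y) (k : I) : colM j z k j = some (z k) := by simp [colM]

theorem colM_ne {j l : J} (h : l ≠ j) (z : I → Y) (k : I) : colM j z k l = cen z := by
  simp [colM, h]

theorem rowM_inj {i : I} {w w' : J → Y} (h : rowM i w = rowM i w') : w = w' := by
  funext l
  have := congrFun (congrFun h i) l
  rw [rowM_self, rowM_self] at this
  exact Option.some.inj this

theorem colM_inj {j : J} {z z' : I → Y} (h : colM j z = colM j z') : z = z' := by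
  funext k
  have := congrFun (congrFun h k) j
  rw [colM_self, colM_self] at this
  exact Option.some.inj this

/-- transposition -/
def tr (M : I → J → Option Y) : J → I → Option Y := fun l k => M k l

theorem tr_tr (M : I → J → Option Y) : tr (tr M) = M := rfl

theorem tr_rowM (i : I) (w : J → Y) : tr (rowM i w) = colM i w := rfl

theorem tr_colM (j : J) (z : I → Y) : tr (colM j z) = rowM j z := rfl

theorem row_col (hI : Three I) (hJ : Three J) {i : I} {j : J} {w : J → Y} {z : I → Y}
    (h : rowM i w = colM j z) :
    ∃ y, (∀ l, l ≠ j → w l = y) ∧ (∀ k, k ≠ i → z k = y) ∧ w j = z i := by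
  obtain ⟨k0, hk0, -⟩ := hI i i
  obtain ⟨l0, hl0, -⟩ := hJ j j
  have h1 : ∀ k, k ≠ i → cen w = some (z k) := by
    intro k hk
    have := congrFun (congrFun h k) j
    rwa [rowM_ne hk, colM_self] at this
  have h2 : ∀ l, l ≠ j → some (w l) = cen z := by
    intro l hl
    have := congrFun (congrFun h i) l
    rwa [rowM_self, colM_ne hl] at this
  have h3 : cen w = cen z := by
    have := congrFun (congrFun h k0) l0
    rwa [rowM_ne hk0, colM_ne hl0] at this
  refine ⟨z k0, ?_, ?_, ?_⟩
  · intro l hl
    have := h2 l hl
    rw [← h3, h1 k0 hk0] at this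
    exact Option.some.inj this
  · intro k hk
    have := h1 k hk
    rw [h1 k0 hk0] at this
    exact (Option.some.inj this).symm
  · have := congrFun (congrFun h i) j
    rw [rowM_self, colM_self] at this
    exact Option.some.inj this

theorem row_col_of (hI : Three I) (hJ : Three J) {i : I} {j : J} {w : J → Y} {z : I → Y} {y : Y}
    (h1 : ∀ l, l ≠ j → w l = y) (h2 : ∀ k, k ≠ i → z k = y) (h3 : w j = z i) :
    rowM i w = colM j z := by
  have e1 : cen w = some y := cen_eq hJ ⟨j, h1⟩
  have e2 : cen z = some y := cen_eq hI ⟨i, h2⟩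
  funext k l
  by_cases hk : k = i <;> by_cases hl : l = j
  · subst hk hl; rw [rowM_self, colM_self, h3]
  · subst hk; rw [rowM_self, colM_ne hl, h1 l hl, e2]
  · subst hl; rw [rowM_ne hk, colM_self, h2 k hk, e1]
  · rw [rowM_ne hk, colM_ne hl, e1, e2]

theorem row_row (hJ : Three J) (l0 : J) {i k : I} (hik : i ≠ k) {w w' : J → Y}
    (h : rowM i w = rowM k w') : ∃ y, w = (fun _ => y) ∧ w' = fun _ => y := by
  have h1 : ∀ l, some (w l) = cen w' := by
    intro l
    have := congrFun (congrFun h i) l
    rwa [rowM_self, rowM_ne hik] at this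
  have h2 : ∀ l, cen w = some (w' l) := by
    intro l
    have := congrFun (congrFun h k) l
    rwa [rowM_self, rowM_ne hik.symm] at this
  have h3 : ∀ l, w l = w l0 := by
    intro l
    have := h1 l
    rw [← h1 l0] at this
    exact Option.some.inj this
  have h4 : cen w = some (w l0) := cen_eq hJ ⟨l0, fun l _ => h3 l⟩
  refine ⟨w l0, funext h3, ?_⟩
  funext l
  have := h2 l
  rw [h4] at this
  exact (Option.some.inj this).symm

theorem rowM_const (hJ : Three J) (l0 : J) (i : I) (y : Y) : rowM i (fun _ : J => y) = con I J y := by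
  have h4 : cen (fun _ : J => y) = some y := cen_eq hJ ⟨l0, fun l _ => rfl⟩
  funext k l
  by_cases hk : k = i
  · subst hk; rw [rowM_self]; rfl
  · rw [rowM_ne hk, h4]; rfl

theorem colM_const (hI : Three I) (k0 : I) (j : J) (y : Y) : colM j (fun _ : I => y) = con I J y := by
  have := rowM_const hI k0 j y
  have h2 := congrArg tr this
  exact h2

open Classical in
/-- the partial action at the place `(i, j)` -/
noncomputable def act (i : I) (j : J) (x : Y → Y) (M : I → J → Option Y) : I → J → Option Y :=
  if h : ∃ w, rowM i w = M then rowM i (Function.update h.choose j (x (h.choose j)))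
  else if h : ∃ z, colM j z = M then colM j (Function.update h.choose i (x (h.choose i)))
  else M

theorem act_row (i : I) (j : J) (x : Y → Y) [DecidableEq J] (w : J → Y) :
    act i j x (rowM i w) = rowM i (Function.update w j (x (w j))) := by
  have h : ∃ w', rowM i w' = rowM i w := ⟨w, rfl⟩
  unfold act
  rw [dif_pos h]
  have := rowM_inj h.choose_spec
  rw [this]
  congr!

theorem update_compat (hI : Three I) (hJ : Three J) {i : I} {j : J} [DecidableEq I] [DecidableEq J]
    {w : J → Y} {z : I → Y} (h : rowM i w = colM j z) (x : Y) :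
    rowM i (Function.update w j x) = colM j (Function.update z i x) := by
  obtain ⟨y, h1, h2, h3⟩ := row_col hI hJ h
  refine row_col_of hI hJ (y := y) ?_ ?_ ?_
  · intro l hl; rw [Function.update_of_ne hl]; exact h1 l hl
  · intro k hk; rw [Function.update_of_ne hk]; exact h2 k hk
  · rw [Function.update_self, Function.update_self]

theorem act_col (hI : Three I) (hJ : Three J) (i : I) (j : J) (x : Y → Y) [DecidableEq I]
    (z : I → Y) : act i j x (colM j z) = colM j (Function.update z i (x (z i))) := by
  classical
  by_cases h : ∃ w', rowM i w' = colM j z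
  · obtain ⟨w, hw⟩ := h
    rw [← hw, act_row, update_compat hI hJ hw]
    obtain ⟨y, -, -, h3⟩ := row_col hI hJ hw
    rw [h3]
  · unfold act
    rw [dif_neg h]
    have h' : ∃ z', colM j z' = colM j z := ⟨z, rfl⟩
    rw [dif_pos h']
    have := colM_inj h'.choose_spec
    rw [this]
    congr!

theorem act_else {i : I} {j : J} (x : Y → Y) {M : I → J → Option Y}
    (h1 : ∀ w, rowM i w ≠ M) (h2 : ∀ z, colM j z ≠ M) : act i j x M = M := by
  unfold act
  rw [dif_neg (by rintro ⟨w, hw⟩; exact h1 w hw), dif_neg (by rintro ⟨w, hw⟩; exact h2 w hw)]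

theorem cases3 (i : I) (j : J) (M : I → J → Option Y) :
    (∃ w, rowM i w = M) ∨ (∃ z, colM j z = M) ∨
      ((∀ w, rowM i w ≠ M) ∧ ∀ z, colM j z ≠ M) := by
  by_cases h1 : ∃ w, rowM i w = M
  · exact Or.inl h1
  by_cases h2 : ∃ z, colM j z = M
  · exact Or.inr (Or.inl h2)
  push Not at h1 h2
  exact Or.inr (Or.inr ⟨h1, h2⟩)

theorem act_comp (hI : Three I) (hJ : Three J) (i : I) (j : J) (x x' : Y → Y)
    (M : I → J → Option Y) : act i j x (act i j x' M) = act i j (x ∘ x') M := by
  classical
  rcases cases3 i j M with ⟨w, rfl⟩ | ⟨z, rfl⟩ | ⟨h1, h2⟩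
  · rw [act_row, act_row, act_row, Function.update_self, Function.update_idem]; rfl
  · rw [act_col hI hJ, act_col hI hJ, act_col hI hJ, Function.update_self, Function.update_idem]
    rfl
  · rw [act_else x' h1 h2, act_else x h1 h2, act_else _ h1 h2]

theorem act_id (hI : Three I) (hJ : Three J) (i : I) (j : J) (M : I → J → Option Y) :
    act i j id M = M := by
  classical
  rcases cases3 i j M with ⟨w, rfl⟩ | ⟨z, rfl⟩ | ⟨h1, h2⟩
  · rw [act_row]; simp
  · rw [act_col hI hJ]; simp
  · rw [act_else _ h1 h2]

theorem act_tr (hI : Three I) (hJ : Three J) (i : I) (j : J) (x : Y → Y)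
    (M : I → J → Option Y) : act j i x (tr M) = tr (act i j x M) := by
  classical
  rcases cases3 i j M with ⟨w, rfl⟩ | ⟨z, rfl⟩ | ⟨h1, h2⟩
  · rw [tr_rowM, act_col hJ hI, act_row, tr_rowM]
  · rw [tr_colM, act_row, act_col hI hJ, tr_colM]
  · rw [act_else x h1 h2, act_else x (i := j) (j := i) (M := tr M)]
    · intro w hw
      exact h2 w (congrArg tr hw)
    · intro z hz
      exact h1 z (congrArg tr hz)

/-- actions at two places of one row commute -/
theorem act_comm_row (hI : Three I) (hJ : Three J) (i : I) {j l : J} (hjl : j ≠ l)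
    (x x' : Y → Y) (M : I → J → Option Y) :
    act i j x (act i l x' M) = act i l x' (act i j x M) := by
  classical
  have hout : ∀ (j l : J), j ≠ l → ∀ (x x' : Y → Y) (z : I → Y), (∀ w, rowM i w ≠ colM j z) →
      act i l x' (colM j z) = colM j z := by
    intro j l hjl x x' z hz
    refine act_else x' hz ?_
    intro z' hz'
    obtain ⟨y, h1, h2⟩ := row_row hI i (i := l) (k := j) (Ne.symm hjl)
      (w := z') (w' := z) (congrArg tr hz')
    rw [h2, colM_const hI i j y] at hz
    exact hz _ (rowM_const hJ j i y)
  have main : ∀ (j l : J), j ≠ l → ∀ (x x' : Y → Y) (z : I → Y), (∀ w, rowM i w ≠ colM j z) →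
      act i j x (act i l x' (colM j z)) = act i l x' (act i j x (colM j z)) := by
    intro j l hjl x x' z hz
    rw [hout j l hjl x x' z hz, act_col hI hJ, hout j l hjl x x']
    intro w hw
    have h5 := update_compat hI hJ hw (z i)
    rw [Function.update_idem, Function.update_eq_self] at h5
    exact hz _ h5
  by_cases h : ∃ w, rowM i w = M
  · obtain ⟨w, rfl⟩ := h
    rw [act_row, act_row, act_row, act_row, Function.update_of_ne hjl,
      Function.update_of_ne (Ne.symm hjl), Function.update_comm hjl]
  · push Not at h
    by_cases hj : ∃ z, colM j z = M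
    · obtain ⟨z, rfl⟩ := hj
      exact main j l hjl x x' z h
    by_cases hl : ∃ z, colM l z = M
    · obtain ⟨z, rfl⟩ := hl
      exact (main l j (Ne.symm hjl) x' x z h).symm
    push Not at hj hl
    rw [act_else x' h hl, act_else x h hj, act_else x' h hl]

/-- actions at two places of one column commute -/
theorem act_comm_col (hI : Three I) (hJ : Three J) {i k : I} (j : J) (hik : i ≠ k)
    (x x' : Y → Y) (M : I → J → Option Y) :
    act i j x (act k j x' M) = act k j x' (act i j x M) := by
  have := act_comm_row hJ hI j hik x x' (tr M)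
  rw [act_tr hI hJ, act_tr hI hJ, act_tr hI hJ, act_tr hI hJ] at this
  exact congrArg tr this

end Crest.Agent.R185.Wu
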