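import Crest.Agent.R185.Wu1
import Crest.Agent.R185.Tor1

/-!
# R185 / W(U) (2): the rook certificate and its faithful permutation model
-/

set_option autoImplicit false

namespace Crest.Agent.R185.Wu

/-- product of two commuting homomorphisms -/
def mulHom {U K : Type} [Group U] [Group K] (f g : U →* K) (h : ∀ a b, Commute (f a) (g b)) :
    U →* K where
  toFun a := f a * g a
  map_one' := by simp
  map_mul' a b := by
    rw [map_mul, map_mul, mul_assoc, mul_assoc, ← mul_assoc (f b), ← mul_assoc (g a),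
      (h b a).eq]

@[simp] theorem mulHom_apply {U K : Type} [Group U] [Group K] (f g : U →* K)
    (h : ∀ a b, Commute (f a) (g b)) (a : U) : mulHom f g h a = f a * g a := rfl

/-- the rook certificate for `β`: `v i j` commute along rows and columns, the row products and the
column products commute with `β`, and `s` conjugates every row and column product `ρ` to `ρ β` -/
structure Rook (U K : Type) [Group U] [Group K] where
  v : Fin 3 → Fin 4 → U →* K
  β : U →* K
  s : K
  row : ∀ i j l, j ≠ l → ∀ a b, Commute (v i j a) (v i l b)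
  col : ∀ i k j, i ≠ k → ∀ a b, Commute (v i j a) (v k j b)
  rβ : ∀ i a b, Commute (v i 0 a * v i 1 a * v i 2 a * v i 3 a) (β b)
  cβ : ∀ j a b, Commute (v 0 j a * v 1 j a * v 2 j a) (β b)
  sr : ∀ i a, s * (v i 0 a * v i 1 a * v i 2 a * v i 3 a) * s⁻¹ =
    v i 0 a * v i 1 a * v i 2 a * v i 3 a * β a
  sc : ∀ j a, s * (v 0 j a * v 1 j a * v 2 j a) * s⁻¹ = v 0 j a * v 1 j a * v 2 j a * β a

/-! ### the permutation model -/

/-- matrices -/
abbrev Mat (U : Type) : Type := Fin 3 → Fin 4 → Option U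

theorem three3 : Three (Fin 3) := by unfold Three; decide

theorem three4 : Three (Fin 4) := by unfold Three; decide

section model

variable {U : Type} [Group U]

/-- the action at `(i, j)` on matrices -/
noncomputable def vP (i : Fin 3) (j : Fin 4) : U →* Equiv.Perm (Mat U) where
  toFun u :=
    { toFun := act i j (fun y => u * y)
      invFun := act i j (fun y => u⁻¹ * y)
      left_inv := by
        intro M
        rw [act_comp three3 three4]
        have : ((fun y => u⁻¹ * y) ∘ fun y => u * y) = id := by funext y; simp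
        rw [this, act_id three3 three4]
      right_inv := by
        intro M
        rw [act_comp three3 three4]
        have : ((fun y => u * y) ∘ fun y => u⁻¹ * y) = id := by funext y; simp
        rw [this, act_id three3 three4] }
  map_one' := by
    ext1 M
    have : (fun y : U => 1 * y) = id := by funext y; simp
    change act i j (fun y : U => 1 * y) M = M
    rw [this, act_id three3 three4]
  map_mul' a b := by
    ext1 M
    change act i j (fun y : U => a * b * y) M =
      act i j (fun y : U => a * y) (act i j (fun y : U => b * y) M)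
    rw [act_comp three3 three4]
    congr 1
    funext y
    simp [mul_assoc]

theorem vP_apply (i : Fin 3) (j : Fin 4) (u : U) (M : Mat U) :
    vP i j u M = act i j (fun y => u * y) M := rfl

theorem vP_row (i : Fin 3) (j : Fin 4) (u : U) (w : Fin 4 → U) :
    vP i j u (rowM i w) = rowM i (Function.update w j (u * w j)) := by
  rw [vP_apply, act_row]

theorem vP_col (i : Fin 3) (j : Fin 4) (u : U) (z : Fin 3 → U) :
    vP i j u (colM j z) = colM j (Function.update z i (u * z i)) := by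
  rw [vP_apply, act_col three3 three4]

theorem vP_comm_row (i : Fin 3) (j l : Fin 4) (h : j ≠ l) (a b : U) :
    Commute (vP i j a) (vP i l b) := by
  ext1 M
  exact act_comm_row three3 three4 i h _ _ M

theorem vP_comm_col (i k : Fin 3) (j : Fin 4) (h : i ≠ k) (a b : U) :
    Commute (vP i j a) (vP k j b) := by
  ext1 M
  exact act_comm_col three3 three4 j h _ _ M

/-- constant matrices -/
abbrev cM (y : U) : Mat U := con (Fin 3) (Fin 4) y

theorem rP_cM (i : Fin 3) (u y : U) :
    (vP i 0 u * vP i 1 u * vP i 2 u * vP i 3 u) (cM y) = cM (u * y) := by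
  unfold cM
  rw [← rowM_const three4 0 i y, ← rowM_const three4 0 i (u * y)]
  simp only [Equiv.Perm.mul_apply, vP_row]
  congr 1
  funext l
  fin_cases l <;> simp [Function.update]

theorem cP_cM (j : Fin 4) (u y : U) :
    (vP 0 j u * vP 1 j u * vP 2 j u) (cM y) = cM (u * y) := by
  unfold cM
  rw [← colM_const three3 0 j y, ← colM_const three3 0 j (u * y)]
  simp only [Equiv.Perm.mul_apply, vP_col]
  congr 1
  funext l
  fin_cases l <;> simp [Function.update]

/-- the model space -/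
abbrev MX (U : Type) : Type := (ℕ × Mat U) ⊕ (ℕ × U)

/-- extend a permutation of matrices -/
def up : Equiv.Perm (Mat U) →* Equiv.Perm (MX U) where
  toFun e := Equiv.sumCongr (Equiv.prodCongr (Equiv.refl ℕ) e) (Equiv.refl _)
  map_one' := by ext1 x; rcases x with ⟨n, M⟩ | ⟨n, y⟩ <;> rfl
  map_mul' a b := by ext1 x; rcases x with ⟨n, M⟩ | ⟨n, y⟩ <;> rfl

@[simp] theorem up_inl (e : Equiv.Perm (Mat U)) (n : ℕ) (M : Mat U) :
    up e (Sum.inl (n, M)) = Sum.inl (n, e M) := rfl

@[simp] theorem up_inr (e : Equiv.Perm (Mat U)) (n : ℕ) (y : U) :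
    up e (Sum.inr (n, y)) = Sum.inr (n, y) := rfl

/-- `β` on points -/
def bf (u : U) : MX U → MX U
  | Sum.inl x => Sum.inl x
  | Sum.inr (0, y) => Sum.inr (0, u * y)
  | Sum.inr (n + 1, y) => Sum.inr (n + 1, y)

/-- `β` -/
def bP : U →* Equiv.Perm (MX U) where
  toFun u :=
    { toFun := bf u
      invFun := bf u⁻¹
      left_inv := by rintro (⟨n, M⟩ | ⟨n | n, y⟩) <;> simp [bf]
      right_inv := by rintro (⟨n, M⟩ | ⟨n | n, y⟩) <;> simp [bf] }
  map_one' := by ext1 x; rcases x with ⟨n, M⟩ | ⟨n | n, y⟩ <;> simp [bf]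
  map_mul' a b := by ext1 x; rcases x with ⟨n, M⟩ | ⟨n | n, y⟩ <;> simp [bf, mul_assoc]

@[simp] theorem bP_inl (u : U) (x : ℕ × Mat U) : bP u (Sum.inl x) = Sum.inl x := rfl

@[simp] theorem bP_zero (u y : U) : bP u (Sum.inr (0, y)) = Sum.inr (0, u * y) := rfl

@[simp] theorem bP_succ (u y : U) (n : ℕ) :
    bP u (Sum.inr (n + 1, y)) = Sum.inr (n + 1, y) := rfl

theorem bP_inj : Function.Injective (bP : U →* Equiv.Perm (MX U)) := by
  intro a b h
  have := congrArg (fun e : Equiv.Perm (MX U) => e (Sum.inr (0, 1))) h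
  simpa using this

theorem up_comm_bP (e : Equiv.Perm (Mat U)) (u : U) : Commute (up e) (bP u) := by
  ext1 x
  rcases x with ⟨n, M⟩ | ⟨n | n, y⟩ <;> rfl

theorem cM_inj {y y' : U} (h : cM y = cM y') : y = y' :=
  Option.some.inj (congrFun (congrFun h 0) 0)

open Classical in
/-- the shift -/
noncomputable def sf : MX U → MX U
  | Sum.inl (0, M) => if h : ∃ y, cM y = M then Sum.inr (0, h.choose) else Sum.inl (0, M)
  | Sum.inl (n + 1, M) => if ∃ y, cM y = M then Sum.inl (n, M) else Sum.inl (n + 1, M)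
  | Sum.inr (n, y) => Sum.inr (n + 1, y)

open Classical in
/-- the inverse shift -/
noncomputable def sg : MX U → MX U
  | Sum.inl (n, M) => if ∃ y, cM y = M then Sum.inl (n + 1, M) else Sum.inl (n, M)
  | Sum.inr (0, y) => Sum.inl (0, cM y)
  | Sum.inr (n + 1, y) => Sum.inr (n, y)

theorem sf_zero (y : U) : sf (Sum.inl (0, cM y)) = Sum.inr (0, y) := by
  have h : ∃ y', cM y' = cM y := ⟨y, rfl⟩
  unfold sf
  simp only
  rw [dif_pos h, cM_inj h.choose_spec]

theorem sf_succ (n : ℕ) (y : U) : sf (Sum.inl (n + 1, cM y)) = Sum.inl (n, cM y) := by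
  have h : ∃ y', cM y' = cM y := ⟨y, rfl⟩
  unfold sf
  simp only
  rw [if_pos h]

theorem sf_else (n : ℕ) (M : Mat U) (h : ∀ y, cM y ≠ M) : sf (Sum.inl (n, M)) = Sum.inl (n, M) := by
  have h' : ¬ ∃ y, cM y = M := by rintro ⟨y, hy⟩; exact h y hy
  rcases n with _ | n
  · unfold sf; simp only; rw [dif_neg h']
  · unfold sf; simp only; rw [if_neg h']

theorem sf_inr (n : ℕ) (y : U) : sf (Sum.inr (n, y)) = Sum.inr (n + 1, y) := rfl

theorem sg_con (n : ℕ) (y : U) : sg (Sum.inl (n, cM y)) = Sum.inl (n + 1, cM y) := by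
  have h : ∃ y', cM y' = cM y := ⟨y, rfl⟩
  unfold sg
  simp only
  rw [if_pos h]

theorem sg_else (n : ℕ) (M : Mat U) (h : ∀ y, cM y ≠ M) : sg (Sum.inl (n, M)) = Sum.inl (n, M) := by
  have h' : ¬ ∃ y, cM y = M := by rintro ⟨y, hy⟩; exact h y hy
  unfold sg; simp only; rw [if_neg h']

theorem sg_zero (y : U) : sg (Sum.inr (0, y)) = Sum.inl (0, cM y) := rfl

theorem sg_succ (n : ℕ) (y : U) : sg (Sum.inr (n + 1, y)) = Sum.inr (n, y) := rfl

theorem MX_cases (x : MX U) :
    (∃ y, x = Sum.inl (0, cM y)) ∨ (∃ n y, x = Sum.inl (n + 1, cM y)) ∨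
    (∃ n M, (∀ y, cM y ≠ M) ∧ x = Sum.inl (n, M)) ∨ (∃ y, x = Sum.inr (0, y)) ∨
    (∃ n y, x = Sum.inr (n + 1, y)) := by
  rcases x with ⟨n, M⟩ | ⟨n | n, y⟩
  · by_cases h : ∃ y, cM y = M
    · obtain ⟨y, rfl⟩ := h
      rcases n with _ | n
      · exact Or.inl ⟨y, rfl⟩
      · exact Or.inr (Or.inl ⟨n, y, rfl⟩)
    · push Not at h
      exact Or.inr (Or.inr (Or.inl ⟨n, M, h, rfl⟩))
  · exact Or.inr (Or.inr (Or.inr (Or.inl ⟨y, rfl⟩)))
  · exact Or.inr (Or.inr (Or.inr (Or.inr ⟨n, y, rfl⟩)))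

/-- the shift permutation -/
noncomputable def sP : Equiv.Perm (MX U) where
  toFun := sf
  invFun := sg
  left_inv := by
    intro x
    rcases MX_cases x with ⟨y, rfl⟩ | ⟨n, y, rfl⟩ | ⟨n, M, h, rfl⟩ | ⟨y, rfl⟩ | ⟨n, y, rfl⟩
    · rw [sf_zero, sg_zero]
    · rw [sf_succ, sg_con]
    · rw [sf_else n M h, sg_else n M h]
    · rw [sf_inr, sg_succ]
    · rw [sf_inr, sg_succ]
  right_inv := by
    intro x
    rcases MX_cases x with ⟨y, rfl⟩ | ⟨n, y, rfl⟩ | ⟨n, M, h, rfl⟩ | ⟨y, rfl⟩ | ⟨n, y, rfl⟩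
    · rw [sg_con, sf_succ]
    · rw [sg_con, sf_succ]
    · rw [sg_else n M h, sf_else n M h]
    · rw [sg_zero, sf_zero]
    · rw [sg_succ, sf_inr]

theorem sP_apply (x : MX U) : sP x = sf x := rfl

/-- the key relation -/
theorem sP_conj (e : Equiv.Perm (Mat U)) (u : U) (he : ∀ y, e (cM y) = cM (u * y)) :
    sP * up e * sP⁻¹ = up e * bP u := by
  rw [mul_inv_eq_iff_eq_mul]
  ext1 x
  simp only [Equiv.Perm.mul_apply, sP_apply]
  rcases MX_cases x with ⟨y, rfl⟩ | ⟨n, y, rfl⟩ | ⟨n, M, h, rfl⟩ | ⟨y, rfl⟩ | ⟨n, y, rfl⟩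
  · rw [up_inl, he, sf_zero, sf_zero, bP_zero, up_inr]
  · rw [up_inl, he, sf_succ, sf_succ, bP_inl, up_inl, he]
  · have h2 : ∀ y, cM y ≠ e M := by
      intro y hy
      apply h (u⁻¹ * y)
      apply e.injective
      rw [he, mul_inv_cancel_left, hy]
    rw [up_inl, sf_else n _ h2, sf_else n M h, bP_inl, up_inl]
  · rw [up_inr, sf_inr, bP_succ, up_inr]
  · rw [up_inr, sf_inr, bP_succ, up_inr]

/-- the model -/
noncomputable def model (U : Type) [Group U] : Rook U (Equiv.Perm (MX U)) where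
  v i j := up.comp (vP i j)
  β := bP
  s := sP
  row i j l h a b := (vP_comm_row i j l h a b).map up
  col i k j h a b := (vP_comm_col i k j h a b).map up
  rβ i a b := by
    have : up (vP i 0 a) * up (vP i 1 a) * up (vP i 2 a) * up (vP i 3 a) =
        up (vP i 0 a * vP i 1 a * vP i 2 a * vP i 3 a) := by simp only [map_mul]
    change Commute (up (vP i 0 a) * up (vP i 1 a) * up (vP i 2 a) * up (vP i 3 a)) _
    rw [this]
    exact up_comm_bP _ _
  cβ j a b := by
    have : up (vP 0 j a) * up (vP 1 j a) * up (vP 2 j a) =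
        up (vP 0 j a * vP 1 j a * vP 2 j a) := by simp only [map_mul]
    change Commute (up (vP 0 j a) * up (vP 1 j a) * up (vP 2 j a)) _
    rw [this]
    exact up_comm_bP _ _
  sr i a := by
    have : up (vP i 0 a) * up (vP i 1 a) * up (vP i 2 a) * up (vP i 3 a) =
        up (vP i 0 a * vP i 1 a * vP i 2 a * vP i 3 a) := by simp only [map_mul]
    change sP * (up (vP i 0 a) * up (vP i 1 a) * up (vP i 2 a) * up (vP i 3 a)) * sP⁻¹ =
      up (vP i 0 a) * up (vP i 1 a) * up (vP i 2 a) * up (vP i 3 a) * bP a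
    rw [this]
    exact sP_conj _ a (rP_cM i a)
  sc j a := by
    have : up (vP 0 j a) * up (vP 1 j a) * up (vP 2 j a) =
        up (vP 0 j a * vP 1 j a * vP 2 j a) := by simp only [map_mul]
    change sP * (up (vP 0 j a) * up (vP 1 j a) * up (vP 2 j a)) * sP⁻¹ =
      up (vP 0 j a) * up (vP 1 j a) * up (vP 2 j a) * bP a
    rw [this]
    exact sP_conj _ a (cP_cM j a)

end model

end Crest.Agent.R185.Wu
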