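import Crest.Agent.R185.Wu3
import Crest.Agent.R185.Null11
import Crest.Agent.R185.Hot4

/-!
# R185 / W(U) (4): the rook certificate kills, and the torus is null in all degrees
-/

set_option autoImplicit false

namespace Crest.Agent.R185.Wu

open Crest.Agent.R185.Null

/-- **A rook certificate kills `β` after a partially contracted map.** -/
theorem Rook.null {G H K : Type} [Group G] [Group H] [Group K] (R : Rook H K) {φ : G →* H} {n : ℕ}
    (hφ : PC φ n) (hn : n ≠ 0) : IsNull (R.β.comp φ) n := by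
  refine rook_null hφ hn (m := 3) R.v R.row R.col (rowHom R.v R.row) ?_ (colHom R.v R.col) ?_
    R.β R.rβ R.cβ R.s ?_ ?_
  · intro i x
    rw [rowHom_apply]
    simp [List.ofFn_succ, mul_assoc, Fin.succ]
  · intro j x
    rw [colHom_apply]
    simp [List.ofFn_succ, mul_assoc, Fin.succ]
  · intro i x
    rw [rowHom_apply]
    exact R.sr i x
  · intro j x
    rw [colHom_apply]
    exact R.sc j x

/-- telescope with the weaker degree-zero hypothesis -/
theorem exists_pow_null' {U : Type} [Group U] (ψ : U →* U) (h0 : IsNull ψ 0)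
    (h : ∀ n, n ≠ 0 → ∀ φ : U →* U, PC φ n → IsNull (ψ.comp φ) n) :
    ∀ n, ∃ N : ℕ, IsNull (ipow ψ N) n := by
  have key : ∀ n, (∃ N : ℕ, PC (ipow ψ N) n) := by
    intro n
    induction n with
    | zero => exact ⟨0, PC.zero _⟩
    | succ n ih =>
      obtain ⟨N, hN⟩ := ih
      rcases eq_or_ne n 0 with rfl | hn
      · exact ⟨N + 1, PC.succ hN h0⟩
      · refine ⟨(N + 1) + N, ?_⟩
        rw [ipow_add]
        exact PC.succ hN (h n hn _ hN)
  intro n
  rcases eq_or_ne n 0 with rfl | hn
  · refine ⟨1, ?_⟩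
    rw [ipow_one]
    exact h0
  · obtain ⟨N, hN⟩ := key n
    exact ⟨N + 1, h n hn _ hN⟩

end Crest.Agent.R185.Wu
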